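import Vale.Agent.Lib.P259.Cube
namespace Vale.Agent.P259
open Set Topology
variable {X Y Z B : Type*} [TopologicalSpace X] [TopologicalSpace Y] [TopologicalSpace Z]

/-! ## T1a : homotopy extension and prisms (file Hep.lean) -/

section aux

variable {V : Type*} [NormedAddCommGroup V] [NormedSpace ℝ V]

/-- The scaling factor of the explicit retraction. -/
noncomputable def hepM (c : V) (z : V × ℝ) : ℝ := max (2 * ‖z.1 - c‖) (1 - z.2 / 2)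

/-- The explicit retraction of the cylinder over a ball of radius `1 / 2` onto bottom and sides. -/
noncomputable def hepR (c : V) (z : V × ℝ) : V × ℝ :=
  (c + (hepM c z)⁻¹ • (z.1 - c), 2 - (2 - z.2) * (hepM c z)⁻¹)

omit [NormedSpace ℝ V] in
lemma hepM_pos (c : V) {z : V × ℝ} (hz : z.2 ∈ uI) : 0 < hepM c z := by
  have h1 : z.2 ≤ 1 := hz.2
  refine lt_of_lt_of_le ?_ (le_max_right _ _)
  linarith

lemma hepR_continuousOn (c : V) :
    ContinuousOn (hepR c) (Metric.closedBall c (1 / 2) ×ˢ uI) := by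
  have hM : Continuous (hepM c) := by
    unfold hepM
    fun_prop
  have hMi : ContinuousOn (fun z => (hepM c z)⁻¹) (Metric.closedBall c (1 / 2) ×ˢ uI) :=
    hM.continuousOn.inv₀ fun z hz => (hepM_pos c hz.2).ne'
  unfold hepR
  refine ContinuousOn.prodMk ?_ ?_
  · exact continuousOn_const.add (hMi.smul (by fun_prop))
  · exact continuousOn_const.sub (ContinuousOn.mul (by fun_prop) hMi)

lemma hepR_mapsTo (c : V) : MapsTo (hepR c) (Metric.closedBall c (1 / 2) ×ˢ uI)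
    (Metric.closedBall c (1 / 2) ×ˢ {0} ∪ Metric.sphere c (1 / 2) ×ˢ uI) := by
  intro z hz
  have hMp := hepM_pos c hz.2
  have h1 : ‖z.1 - c‖ ≤ 1 / 2 := by
    have := hz.1
    rwa [Metric.mem_closedBall, dist_eq_norm] at this
  have h0 : 0 ≤ z.2 := hz.2.1
  have h2 : z.2 ≤ 1 := hz.2.2
  have hn : ‖(hepM c z)⁻¹ • (z.1 - c)‖ = (hepM c z)⁻¹ * ‖z.1 - c‖ := by
    rw [norm_smul, Real.norm_of_nonneg (inv_pos.2 hMp).le]
  rcases le_total (2 * ‖z.1 - c‖) (1 - z.2 / 2) with hle | hle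
  · left
    have hM : hepM c z = 1 - z.2 / 2 := max_eq_right hle
    refine ⟨?_, ?_⟩
    · rw [Metric.mem_closedBall, dist_eq_norm]
      simp only [hepR, add_sub_cancel_left]
      rw [hn, inv_mul_le_iff₀ hMp, hM]
      linarith
    · simp only [hepR, mem_singleton_iff]
      rw [hM] at hMp ⊢
      have h3 : 2 - z.2 = 2 * (1 - z.2 / 2) := by ring
      rw [h3, mul_assoc, mul_inv_cancel₀ hMp.ne']
      ring
  · right
    have hM : hepM c z = 2 * ‖z.1 - c‖ := max_eq_left hle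
    refine ⟨?_, ?_, ?_⟩
    · rw [Metric.mem_sphere, dist_eq_norm]
      simp only [hepR, add_sub_cancel_left]
      rw [hn]
      rw [hM] at hMp ⊢
      have : ‖z.1 - c‖ ≠ 0 := by
        intro h
        rw [h] at hMp
        simp at hMp
      field_simp
    · simp only [hepR]
      rw [sub_nonneg, ← div_eq_mul_inv, div_le_iff₀ hMp, hM]
      linarith
    · simp only [hepR]
      rw [sub_le_iff_le_add, ← sub_le_iff_le_add', ← div_eq_mul_inv, le_div_iff₀ hMp, hM]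
      linarith

lemma hepR_eq (c : V) : EqOn (hepR c) id
    (Metric.closedBall c (1 / 2) ×ˢ {0} ∪ Metric.sphere c (1 / 2) ×ˢ uI) := by
  intro z hz
  have hM : hepM c z = 1 := by
    rcases hz with hz | hz
    · have h1 : ‖z.1 - c‖ ≤ 1 / 2 := by
        have := hz.1
        rwa [Metric.mem_closedBall, dist_eq_norm] at this
      have h2 : z.2 = 0 := hz.2
      unfold hepM
      rw [h2, max_eq_right] <;> linarith
    · have h1 : ‖z.1 - c‖ = 1 / 2 := by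
        have := hz.1
        rwa [Metric.mem_sphere, dist_eq_norm] at this
      have h2 : 0 ≤ z.2 := hz.2.1
      unfold hepM
      rw [h1, max_eq_left] <;> linarith
  refine Prod.ext ?_ ?_
  · simp only [hepR, hM, id, inv_one, one_smul, add_sub_cancel]
  · simp only [hepR, hM, id, inv_one, mul_one]
    ring

/-- Homotopy extension for balls. -/
lemma hep_gen (c : V) (F : V × ℝ → X)
    (hF : ContinuousOn F (Metric.closedBall c (1 / 2) ×ˢ {0} ∪ Metric.sphere c (1 / 2) ×ˢ uI)) :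
    ∃ G : V × ℝ → X, ContinuousOn G (Metric.closedBall c (1 / 2) ×ˢ uI) ∧
      EqOn G F (Metric.closedBall c (1 / 2) ×ˢ {0} ∪ Metric.sphere c (1 / 2) ×ˢ uI) ∧
      (∀ z ∈ Metric.closedBall c (1 / 2) ×ˢ uI, ∃ z' ∈ (Metric.closedBall c (1 / 2) ×ˢ ({0} : Set ℝ) ∪
        Metric.sphere c (1 / 2) ×ˢ uI), G z = F z') := by
  refine ⟨F ∘ hepR c, hF.comp (hepR_continuousOn c) (hepR_mapsTo c), ?_, ?_⟩
  · intro z hz
    simp only [Function.comp]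
    rw [hepR_eq c hz]
    rfl
  · intro z hz
    exact ⟨hepR c z, hepR_mapsTo c hz, rfl⟩

/-- The centre of the cube. -/
noncomputable def cen (n : ℕ) : Fin n → ℝ := fun _ => 1 / 2

lemma cube_eq (n : ℕ) : cube n = Metric.closedBall (cen n) (1 / 2) := by
  ext x
  rw [Metric.mem_closedBall, dist_pi_le_iff (by norm_num)]
  unfold cube cen
  rw [mem_Icc, Pi.le_def, Pi.le_def]
  constructor
  · intro h i
    have h1 := h.1 i
    have h2 := h.2 i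
    simp only [Pi.zero_apply, Pi.one_apply] at h1 h2
    rw [Real.dist_eq, abs_le]
    constructor <;> linarith
  · intro h
    constructor
    · intro i
      have := h i
      rw [Real.dist_eq, abs_le] at this
      simp only [Pi.zero_apply]
      linarith [this.1]
    · intro i
      have := h i
      rw [Real.dist_eq, abs_le] at this
      simp only [Pi.one_apply]
      linarith [this.2]

lemma mem_cube {n : ℕ} {x : Fin n → ℝ} : x ∈ cube n ↔ ∀ i, x i ∈ uI := by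
  unfold cube uI
  rw [mem_Icc, Pi.le_def, Pi.le_def]
  constructor
  · intro h i
    exact ⟨h.1 i, h.2 i⟩
  · intro h
    exact ⟨fun i => (h i).1, fun i => (h i).2⟩

lemma uI_eq : uI = Metric.closedBall (1 / 2 : ℝ) (1 / 2) := by
  unfold uI
  rw [Real.Icc_eq_closedBall]
  norm_num

lemma sphere_half : Metric.sphere (1 / 2 : ℝ) (1 / 2) = {0, 1} := by
  ext s
  rw [Metric.mem_sphere, Real.dist_eq, abs_eq (by norm_num)]
  simp only [mem_insert_iff, mem_singleton_iff]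
  constructor
  · rintro (h | h)
    · right; linarith
    · left; linarith
  · rintro (h | h)
    · right; linarith
    · left; linarith

lemma bdry_eq (n : ℕ) : bdry n = Metric.sphere (cen n) (1 / 2) := by
  ext x
  constructor
  · rintro ⟨hx, i, hi⟩
    have h1 : dist x (cen n) ≤ 1 / 2 := by
      rw [cube_eq] at hx
      exact hx
    refine le_antisymm h1 ?_
    have h2 := dist_le_pi_dist x (cen n) i
    have h3 : dist (x i) (cen n i) = 1 / 2 := by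
      unfold cen
      have : x i ∈ Metric.sphere (1 / 2 : ℝ) (1 / 2) := by
        rw [sphere_half]
        exact hi
      exact this
    rwa [h3] at h2
  · intro hx
    have hx' : dist x (cen n) = 1 / 2 := hx
    have hc : x ∈ cube n := by
      rw [cube_eq]
      exact hx'.le
    refine ⟨hc, ?_⟩
    by_contra hcon
    push Not at hcon
    have h1 : dist x (cen n) < 1 / 2 := by
      rw [dist_pi_lt_iff (by norm_num)]
      intro i
      have h2 := mem_cube.1 hc i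
      unfold cen
      rw [Real.dist_eq, abs_lt]
      have h3 : 0 < x i := lt_of_le_of_ne h2.1 (Ne.symm (hcon i).1)
      have h4 : x i < 1 := lt_of_le_of_ne h2.2 (hcon i).2
      constructor <;> linarith
    linarith

end aux

theorem hep (n : ℕ) (F : (Fin n → ℝ) × ℝ → X)
    (hF : ContinuousOn F (cube n ×ˢ {0} ∪ bdry n ×ˢ uI)) :
    ∃ G : (Fin n → ℝ) × ℝ → X, ContinuousOn G (cube n ×ˢ uI) ∧
      EqOn G F (cube n ×ˢ {0} ∪ bdry n ×ˢ uI) ∧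
      (∀ z ∈ cube n ×ˢ uI, ∃ z' ∈ (cube n ×ˢ ({0} : Set ℝ) ∪ bdry n ×ˢ uI), G z = F z') := by
  rw [cube_eq, bdry_eq] at *
  exact hep_gen (cen n) F hF

/-- homotopy extension for the pair (prism, boundary of the prism) -/
theorem hep_prism (n : ℕ) (F : (Fin n → ℝ) × ℝ × ℝ → X)
    (hF : ContinuousOn F (cube n ×ˢ uI ×ˢ {0} ∪ cube n ×ˢ {0, 1} ×ˢ uI ∪ bdry n ×ˢ uI ×ˢ uI)) :
    ∃ G : (Fin n → ℝ) × ℝ × ℝ → X, ContinuousOn G (cube n ×ˢ uI ×ˢ uI) ∧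
      EqOn G F (cube n ×ˢ uI ×ˢ {0} ∪ cube n ×ˢ {0, 1} ×ˢ uI ∪ bdry n ×ˢ uI ×ˢ uI) ∧
      (∀ z ∈ cube n ×ˢ uI ×ˢ uI, ∃ z' ∈ (cube n ×ˢ uI ×ˢ ({0} : Set ℝ) ∪ cube n ×ˢ {0, 1} ×ˢ uI ∪
        bdry n ×ˢ uI ×ˢ uI), G z = F z') := by
  have hcb : Metric.closedBall (cen n, (1 / 2 : ℝ)) (1 / 2) = cube n ×ˢ uI := by
    rw [cube_eq, uI_eq, closedBall_prod_same]
  have hsp : Metric.sphere (cen n, (1 / 2 : ℝ)) (1 / 2) = bdry n ×ˢ uI ∪ cube n ×ˢ {0, 1} := by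
    rw [sphere_prod, sphere_half, ← uI_eq, ← cube_eq, ← bdry_eq]
  obtain ⟨G, hG1, hG2, hG3⟩ := hep_gen (cen n, (1 / 2 : ℝ))
    (fun z : ((Fin n → ℝ) × ℝ) × ℝ => F (z.1.1, z.1.2, z.2)) (by
      rw [hcb, hsp]
      refine hF.comp (by fun_prop) ?_
      rintro ⟨⟨x, s⟩, t⟩ (⟨⟨h1, h2⟩, h3⟩ | ⟨(⟨h1, h2⟩ | ⟨h1, h2⟩), h3⟩)
      · exact Or.inl (Or.inl ⟨h1, h2, h3⟩)
      · exact Or.inr ⟨h1, h2, h3⟩
      · exact Or.inl (Or.inr ⟨h1, h2, h3⟩))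
  rw [hcb] at hG1 hG2 hG3
  rw [hsp] at hG2 hG3
  refine ⟨fun z => G ((z.1, z.2.1), z.2.2), ?_, ?_, ?_⟩
  · refine hG1.comp (by fun_prop) ?_
    rintro ⟨x, s, t⟩ ⟨h1, h2, h3⟩
    exact ⟨⟨h1, h2⟩, h3⟩
  · rintro ⟨x, s, t⟩ h
    have : ((x, s), t) ∈ (cube n ×ˢ uI) ×ˢ ({0} : Set ℝ) ∪
        (bdry n ×ˢ uI ∪ cube n ×ˢ {0, 1}) ×ˢ uI := by
      rcases h with (⟨h1, h2, h3⟩ | ⟨h1, h2, h3⟩) | ⟨h1, h2, h3⟩
      · exact Or.inl ⟨⟨h1, h2⟩, h3⟩
      · exact Or.inr ⟨Or.inr ⟨h1, h2⟩, h3⟩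
      · exact Or.inr ⟨Or.inl ⟨h1, h2⟩, h3⟩
    exact hG2 this
  · rintro ⟨x, s, t⟩ ⟨h1, h2, h3⟩
    obtain ⟨⟨⟨x', s'⟩, t'⟩, hz', he⟩ := hG3 ((x, s), t) ⟨⟨h1, h2⟩, h3⟩
    refine ⟨(x', s', t'), ?_, he⟩
    rcases hz' with ⟨⟨h1, h2⟩, h3⟩ | ⟨(⟨h1, h2⟩ | ⟨h1, h2⟩), h3⟩
    · exact Or.inl (Or.inl ⟨h1, h2, h3⟩)
    · exact Or.inr ⟨h1, h2, h3⟩
    · exact Or.inl (Or.inr ⟨h1, h2, h3⟩)

lemma snoc_mem_cube {n : ℕ} {x : Fin n → ℝ} {s : ℝ} :
    (Fin.snoc x s : Fin (n + 1) → ℝ) ∈ cube (n + 1) ↔ x ∈ cube n ∧ s ∈ uI := by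
  rw [mem_cube, mem_cube, Fin.forall_fin_succ']
  simp only [Fin.snoc_castSucc, Fin.snoc_last]

lemma snoc_mem_bdry {n : ℕ} {x : Fin n → ℝ} {s : ℝ} :
    (Fin.snoc x s : Fin (n + 1) → ℝ) ∈ bdry (n + 1) ↔
      (x, s) ∈ cube n ×ˢ ({0, 1} : Set ℝ) ∪ bdry n ×ˢ uI := by
  unfold bdry
  rw [mem_ofPred_eq, snoc_mem_cube, Fin.exists_fin_succ']
  simp only [Fin.snoc_castSucc, Fin.snoc_last, mem_union, mem_prod, mem_insert_iff,
    mem_singleton_iff, mem_ofPred_eq]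
  constructor
  · rintro ⟨⟨h1, h2⟩, h3 | h3⟩
    · exact Or.inr ⟨⟨h1, h3⟩, h2⟩
    · exact Or.inl ⟨h1, h3⟩
  · rintro (⟨h1, h3⟩ | ⟨⟨h1, h3⟩, h2⟩)
    · refine ⟨⟨h1, ?_⟩, Or.inr h3⟩
      rcases h3 with rfl | rfl
      · exact ⟨le_rfl, zero_le_one⟩
      · exact ⟨zero_le_one, le_rfl⟩
    · exact ⟨⟨h1, h2⟩, Or.inl h3⟩

lemma continuous_snoc (n : ℕ) :
    Continuous fun z : (Fin n → ℝ) × ℝ => (Fin.snoc z.1 z.2 : Fin (n + 1) → ℝ) :=
  Continuous.finSnoc (A := fun _ => ℝ) continuous_fst continuous_snd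

theorem Ext.prism {n : ℕ} {A : Set X} (h : Ext (n + 1) A) (F : (Fin n → ℝ) × ℝ → X)
    (hF : ContinuousOn F (cube n ×ˢ {0, 1} ∪ bdry n ×ˢ uI))
    (hA : MapsTo F (cube n ×ˢ {0, 1} ∪ bdry n ×ˢ uI) A) :
    ∃ G : (Fin n → ℝ) × ℝ → X, ContinuousOn G (cube n ×ˢ uI) ∧ MapsTo G (cube n ×ˢ uI) A ∧
      EqOn G F (cube n ×ˢ {0, 1} ∪ bdry n ×ˢ uI) := by
  have hm : MapsTo (fun y : Fin (n + 1) → ℝ => ((fun i : Fin n => y i.castSucc, y (Fin.last n)) :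
      (Fin n → ℝ) × ℝ)) (bdry (n + 1)) (cube n ×ˢ {0, 1} ∪ bdry n ×ˢ uI) := by
    intro y hy
    rw [← snoc_mem_bdry]
    convert! hy using 1
    exact Fin.snoc_init_self y
  obtain ⟨g, hg1, hg2, hg3⟩ := h (fun y => F (fun i : Fin n => y i.castSucc, y (Fin.last n)))
    (hF.comp (by fun_prop) hm) (hA.comp hm)
  refine ⟨fun z => g (Fin.snoc z.1 z.2), ?_, ?_, ?_⟩
  · refine hg1.comp (continuous_snoc n).continuousOn ?_
    rintro ⟨x, s⟩ ⟨h1, h2⟩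
    exact snoc_mem_cube.2 ⟨h1, h2⟩
  · rintro ⟨x, s⟩ ⟨h1, h2⟩
    exact hg2 (snoc_mem_cube.2 ⟨h1, h2⟩)
  · rintro ⟨x, s⟩ h1
    have := hg3 (snoc_mem_bdry.2 h1)
    simp only [Fin.snoc_castSucc, Fin.snoc_last] at this
    exact this

theorem Ext.prism2 {n : ℕ} {A : Set X} (h : Ext (n + 2) A) (F : (Fin n → ℝ) × ℝ × ℝ → X)
    (hF : ContinuousOn F (cube n ×ˢ uI ×ˢ {0, 1} ∪ cube n ×ˢ {0, 1} ×ˢ uI ∪ bdry n ×ˢ uI ×ˢ uI))
    (hA : MapsTo F (cube n ×ˢ uI ×ˢ {0, 1} ∪ cube n ×ˢ {0, 1} ×ˢ uI ∪ bdry n ×ˢ uI ×ˢ uI) A) :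
    ∃ G : (Fin n → ℝ) × ℝ × ℝ → X, ContinuousOn G (cube n ×ˢ uI ×ˢ uI) ∧
      MapsTo G (cube n ×ˢ uI ×ˢ uI) A ∧
      EqOn G F (cube n ×ˢ uI ×ˢ {0, 1} ∪ cube n ×ˢ {0, 1} ×ˢ uI ∪ bdry n ×ˢ uI ×ˢ uI) := by
  have hm : MapsTo (fun w : (Fin (n + 1) → ℝ) × ℝ =>
      ((fun i : Fin n => w.1 i.castSucc, w.1 (Fin.last n), w.2) : (Fin n → ℝ) × ℝ × ℝ))
      (cube (n + 1) ×ˢ {0, 1} ∪ bdry (n + 1) ×ˢ uI)
      (cube n ×ˢ uI ×ˢ {0, 1} ∪ cube n ×ˢ {0, 1} ×ˢ uI ∪ bdry n ×ˢ uI ×ˢ uI) := by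
    rintro ⟨y, t⟩ hw
    have hy : (Fin.snoc (fun i : Fin n => y i.castSucc) (y (Fin.last n)) : Fin (n + 1) → ℝ) = y :=
      Fin.snoc_init_self y
    rcases hw with ⟨h1, h2⟩ | ⟨h1, h2⟩
    · simp only at h1
      rw [← hy, snoc_mem_cube] at h1
      exact Or.inl (Or.inl ⟨h1.1, h1.2, h2⟩)
    · simp only at h1
      rw [← hy, snoc_mem_bdry] at h1
      rcases h1 with ⟨h1, h3⟩ | ⟨h1, h3⟩
      · exact Or.inl (Or.inr ⟨h1, h3, h2⟩)
      · exact Or.inr ⟨h1, h3, h2⟩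
  obtain ⟨G, hG1, hG2, hG3⟩ := Ext.prism (n := n + 1) h
    (fun w => F (fun i : Fin n => w.1 i.castSucc, w.1 (Fin.last n), w.2))
    (hF.comp (by fun_prop) hm) (hA.comp hm)
  refine ⟨fun z => G (Fin.snoc z.1 z.2.1, z.2.2), ?_, ?_, ?_⟩
  · refine hG1.comp (Continuous.continuousOn ?_) ?_
    · exact ((continuous_snoc n).comp (by fun_prop :
        Continuous fun z : (Fin n → ℝ) × ℝ × ℝ => (z.1, z.2.1))).prodMk (by fun_prop)
    · rintro ⟨x, s, t⟩ ⟨h1, h2, h3⟩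
      exact ⟨snoc_mem_cube.2 ⟨h1, h2⟩, h3⟩
  · rintro ⟨x, s, t⟩ ⟨h1, h2, h3⟩
    exact hG2 ⟨snoc_mem_cube.2 ⟨h1, h2⟩, h3⟩
  · rintro ⟨x, s, t⟩ h
    have hmem : ((Fin.snoc x s : Fin (n + 1) → ℝ), t) ∈
        cube (n + 1) ×ˢ ({0, 1} : Set ℝ) ∪ bdry (n + 1) ×ˢ uI := by
      rcases h with (⟨h1, h2, h3⟩ | ⟨h1, h2, h3⟩) | ⟨h1, h2, h3⟩
      · exact Or.inl ⟨snoc_mem_cube.2 ⟨h1, h2⟩, h3⟩
      · exact Or.inr ⟨snoc_mem_bdry.2 (Or.inl ⟨h1, h2⟩), h3⟩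
      · exact Or.inr ⟨snoc_mem_bdry.2 (Or.inr ⟨h1, h2⟩), h3⟩
    have := hG3 hmem
    simp only [Fin.snoc_castSucc, Fin.snoc_last] at this
    exact this

lemma isClosed_cube (n : ℕ) : IsClosed (cube n) := isClosed_Icc

lemma isClosed_bdry (n : ℕ) : IsClosed (bdry n) := by
  rw [bdry_eq]
  exact Metric.isClosed_sphere

lemma isClosed_uI : IsClosed uI := isClosed_Icc

lemma bdry_subset (n : ℕ) : bdry n ⊆ cube n := fun _ h => h.1

/-- a set that deforms inside itself to a point is weakly contractible -/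
theorem WContr.of_contraction {A : Set X} (a₀ : X) (ha₀ : a₀ ∈ A) (H : X × ℝ → X)
    (hH : ContinuousOn H (A ×ˢ uI)) (hA : MapsTo H (A ×ˢ uI) A) (h0 : ∀ x ∈ A, H (x, 0) = x)
    (h1 : ∀ x ∈ A, H (x, 1) = a₀) : WContr A := by
  classical
  refine ⟨⟨a₀, ha₀⟩, ?_⟩
  intro n f hf hfA
  set F : (Fin n → ℝ) × ℝ → X := fun z => if z.1 ∈ bdry n then H (f z.1, 1 - z.2) else a₀ with hFdef
  have hFb : ∀ z ∈ bdry n ×ˢ uI, F z = H (f z.1, 1 - z.2) := by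
    intro z hz
    simp only [hFdef, if_pos hz.1]
  have hF0 : ∀ z ∈ cube n ×ˢ ({0} : Set ℝ), F z = a₀ := by
    intro z hz
    have hz2 : z.2 = 0 := hz.2
    simp only [hFdef]
    split_ifs with h
    · rw [hz2, sub_zero]
      exact h1 _ (hfA h)
    · rfl
  have hmI : ∀ t ∈ uI, 1 - t ∈ uI := fun t ht => ⟨by linarith [ht.2], by linarith [ht.1]⟩
  have hFc : ContinuousOn F (cube n ×ˢ {0} ∪ bdry n ×ˢ uI) := by
    refine ContinuousOn.union_of_isClosed ?_ ?_ ((isClosed_cube n).prod isClosed_singleton)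
      ((isClosed_bdry n).prod isClosed_uI)
    · exact continuousOn_const.congr hF0
    · refine ContinuousOn.congr ?_ hFb
      refine hH.comp (ContinuousOn.prodMk (hf.comp continuousOn_fst fun z hz => hz.1)
        (by fun_prop)) ?_
      intro z hz
      exact ⟨hfA hz.1, hmI _ hz.2⟩
  obtain ⟨G, hG1, hG2, hG3⟩ := hep n F hFc
  have h1I : (1 : ℝ) ∈ uI := ⟨zero_le_one, le_rfl⟩
  refine ⟨fun x => G (x, 1), ?_, ?_, ?_⟩
  · exact hG1.comp (by fun_prop) fun x hx => ⟨hx, h1I⟩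
  · intro x hx
    obtain ⟨z', hz', he⟩ := hG3 (x, 1) ⟨hx, h1I⟩
    simp only
    rw [he]
    rcases hz' with hz' | hz'
    · rw [hF0 _ hz']
      exact ha₀
    · rw [hFb _ hz']
      exact hA ⟨hfA hz'.1, hmI _ hz'.2⟩
  · intro x hx
    have : (x, (1:ℝ)) ∈ bdry n ×ˢ uI := ⟨hx, h1I⟩
    simp only
    rw [hG2 (Or.inr this), hFb _ this, sub_self]
    exact h0 _ (hfA hx)

/-- homotopy variant of `WE`: the square is only required to commute up to a given homotopy -/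
theorem WE.relaxed {n : ℕ} {f : X → Y} (hf : Continuous f) (h : WE n f)
    (a : (Fin n → ℝ) → X) (b : (Fin n → ℝ) → Y) (k : (Fin n → ℝ) × ℝ → Y)
    (ha : ContinuousOn a (bdry n)) (hb : ContinuousOn b (cube n))
    (hk : ContinuousOn k (bdry n ×ˢ uI)) (hk0 : ∀ x ∈ bdry n, k (x, 0) = f (a x))
    (hk1 : ∀ x ∈ bdry n, k (x, 1) = b x) :
    ∃ (a' : (Fin n → ℝ) → X) (H : (Fin n → ℝ) × ℝ → Y),
      ContinuousOn a' (cube n) ∧ EqOn a' a (bdry n) ∧ ContinuousOn H (cube n ×ˢ uI) ∧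
      (∀ x ∈ cube n, H (x, 0) = f (a' x)) ∧ (∀ x ∈ cube n, H (x, 1) = b x) ∧
      EqOn H k (bdry n ×ˢ uI) := by
  classical
  have hmI : ∀ t ∈ uI, 1 - t ∈ uI := fun t ht => ⟨by linarith [ht.2], by linarith [ht.1]⟩
  have h1I : (1 : ℝ) ∈ uI := ⟨zero_le_one, le_rfl⟩
  have h0I : (0 : ℝ) ∈ uI := ⟨le_rfl, zero_le_one⟩
  -- first homotopy
  set F : (Fin n → ℝ) × ℝ → Y := fun z => if z.1 ∈ bdry n then k (z.1, 1 - z.2) else b z.1
    with hFdef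
  have hFb : ∀ z ∈ bdry n ×ˢ uI, F z = k (z.1, 1 - z.2) := by
    intro z hz
    simp only [hFdef, if_pos hz.1]
  have hF0 : ∀ z ∈ cube n ×ˢ ({0} : Set ℝ), F z = b z.1 := by
    intro z hz
    have hz2 : z.2 = 0 := hz.2
    simp only [hFdef]
    split_ifs with h
    · rw [hz2, sub_zero]
      exact hk1 _ h
    · rfl
  have hFc : ContinuousOn F (cube n ×ˢ {0} ∪ bdry n ×ˢ uI) := by
    refine ContinuousOn.union_of_isClosed ?_ ?_ ((isClosed_cube n).prod isClosed_singleton)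
      ((isClosed_bdry n).prod isClosed_uI)
    · exact (hb.comp continuousOn_fst fun z hz => hz.1).congr hF0
    · refine ContinuousOn.congr ?_ hFb
      refine hk.comp (by fun_prop) ?_
      intro z hz
      exact ⟨hz.1, hmI _ hz.2⟩
  obtain ⟨G1, hG1c, hG1e, -⟩ := hep n F hFc
  have hG1b : ∀ x ∈ bdry n, ∀ t ∈ uI, G1 (x, t) = k (x, 1 - t) := by
    intro x hx t ht
    rw [hG1e (Or.inr ⟨hx, ht⟩), hFb _ ⟨hx, ht⟩]
  have hG10 : ∀ x ∈ cube n, G1 (x, 0) = b x := by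
    intro x hx
    have hmem : (x, (0:ℝ)) ∈ cube n ×ˢ ({0} : Set ℝ) := ⟨hx, rfl⟩
    rw [hG1e (Or.inl hmem), hF0 _ hmem]
  -- apply WE
  obtain ⟨a', H1, ha'c, ha'e, hH1c, hH10, hH11, hH1b⟩ := h a (fun x => G1 (x, 1)) ha
    (hG1c.comp (by fun_prop) fun x hx => ⟨hx, h1I⟩) (by
      intro x hx
      rw [hG1b x hx 1 h1I, sub_self, hk0 x hx])
  -- second homotopy
  set P : (Fin n → ℝ) × ℝ × ℝ → Y := fun z =>
    if z.1 ∈ bdry n then k (z.1, z.2.1) else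
      if z.2.2 = 0 then G1 (z.1, 1 - z.2.1) else
        if z.2.1 = 0 then H1 (z.1, 1 - z.2.2) else b z.1 with hPdef
  have hP4 : ∀ z ∈ bdry n ×ˢ uI ×ˢ uI, P z = k (z.1, z.2.1) := by
    intro z hz
    simp only [hPdef, if_pos hz.1]
  have hP1 : ∀ z ∈ cube n ×ˢ uI ×ˢ ({0} : Set ℝ), P z = G1 (z.1, 1 - z.2.1) := by
    rintro ⟨x, s, t⟩ ⟨h1, h2, h3⟩
    simp only [mem_singleton_iff] at h1 h2 h3
    subst h3
    simp only [hPdef]
    split_ifs with hx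
    · rw [hG1b x hx _ (hmI _ h2), sub_sub_cancel]
    · rfl
  have hP2 : ∀ z ∈ cube n ×ˢ ({0} : Set ℝ) ×ˢ uI, P z = H1 (z.1, 1 - z.2.2) := by
    rintro ⟨x, s, t⟩ ⟨h1, h2, h3⟩
    simp only [mem_singleton_iff] at h1 h2 h3
    subst h2
    simp only [hPdef]
    split_ifs with hx ht
    · rw [hH1b x hx _ (hmI _ h3), hG1b x hx 1 h1I, sub_self]
    · rw [ht, sub_zero, hH11 x h1]
    · rfl
  have hP3 : ∀ z ∈ cube n ×ˢ ({1} : Set ℝ) ×ˢ uI, P z = b z.1 := by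
    rintro ⟨x, s, t⟩ ⟨h1, h2, h3⟩
    simp only [mem_singleton_iff] at h1 h2 h3
    subst h2
    simp only [hPdef]
    split_ifs with hx ht h10
    · exact hk1 x hx
    · rw [sub_self, hG10 x h1]
    · norm_num at h10
    · rfl
  have hPc : ContinuousOn P (cube n ×ˢ uI ×ˢ {0} ∪ cube n ×ˢ {0, 1} ×ˢ uI ∪
      bdry n ×ˢ uI ×ˢ uI) := by
    have c1 : IsClosed (cube n ×ˢ uI ×ˢ ({0} : Set ℝ)) :=
      (isClosed_cube n).prod (isClosed_uI.prod isClosed_singleton)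
    have c2 : IsClosed (cube n ×ˢ ({0} : Set ℝ) ×ˢ uI) :=
      (isClosed_cube n).prod (isClosed_singleton.prod isClosed_uI)
    have c3 : IsClosed (cube n ×ˢ ({1} : Set ℝ) ×ˢ uI) :=
      (isClosed_cube n).prod (isClosed_singleton.prod isClosed_uI)
    have c4 : IsClosed (bdry n ×ˢ uI ×ˢ uI) :=
      (isClosed_bdry n).prod (isClosed_uI.prod isClosed_uI)
    have e : cube n ×ˢ ({0, 1} : Set ℝ) ×ˢ uI =
        cube n ×ˢ ({0} : Set ℝ) ×ˢ uI ∪ cube n ×ˢ ({1} : Set ℝ) ×ˢ uI := by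
      rw [← prod_union, ← union_prod, singleton_union]
    rw [e]
    refine ContinuousOn.union_of_isClosed (ContinuousOn.union_of_isClosed ?_
      (ContinuousOn.union_of_isClosed ?_ ?_ c2 c3) c1 (c2.union c3)) ?_
      (c1.union (c2.union c3)) c4
    · refine ContinuousOn.congr ?_ hP1
      refine hG1c.comp (by fun_prop) ?_
      rintro ⟨x, s, t⟩ ⟨h1, h2, h3⟩
      exact ⟨h1, hmI _ h2⟩
    · refine ContinuousOn.congr ?_ hP2
      refine hH1c.comp (by fun_prop) ?_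
      rintro ⟨x, s, t⟩ ⟨h1, h2, h3⟩
      exact ⟨h1, hmI _ h3⟩
    · refine ContinuousOn.congr ?_ hP3
      refine hb.comp (by fun_prop) ?_
      rintro ⟨x, s, t⟩ ⟨h1, h2, h3⟩
      exact h1
    · refine ContinuousOn.congr ?_ hP4
      refine hk.comp (by fun_prop) ?_
      rintro ⟨x, s, t⟩ ⟨h1, h2, h3⟩
      exact ⟨h1, h2⟩
  obtain ⟨Q, hQc, hQe, -⟩ := hep_prism n P hPc
  refine ⟨a', fun z => Q (z.1, z.2, 1), ha'c, ha'e, ?_, ?_, ?_, ?_⟩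
  · refine hQc.comp (by fun_prop) ?_
    rintro ⟨x, s⟩ ⟨h1, h2⟩
    exact ⟨h1, h2, h1I⟩
  · intro x hx
    have hmem : (x, (0:ℝ), (1:ℝ)) ∈ cube n ×ˢ ({0} : Set ℝ) ×ˢ uI := ⟨hx, rfl, h1I⟩
    simp only
    rw [hQe (Or.inl (Or.inr ⟨hx, Or.inl rfl, h1I⟩)), hP2 _ hmem, sub_self, hH10 x hx]
  · intro x hx
    have hmem : (x, (1:ℝ), (1:ℝ)) ∈ cube n ×ˢ ({1} : Set ℝ) ×ˢ uI := ⟨hx, rfl, h1I⟩
    have hmem2 : (x, (1:ℝ), (1:ℝ)) ∈ cube n ×ˢ ({0, 1} : Set ℝ) ×ˢ uI := ⟨hx, Or.inr rfl, h1I⟩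
    simp only
    rw [hQe (Or.inl (Or.inr hmem2)), hP3 _ hmem]
  · rintro ⟨x, s⟩ ⟨hx, hs⟩
    simp only
    rw [hQe (Or.inr ⟨hx, hs, h1I⟩), hP4 _ ⟨hx, hs, h1I⟩]


end Vale.Agent.P259
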