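import Vale.Agent.Lib.P259.Grid
import Vale.Agent.Lib.P259.Hep
namespace Vale.Agent.P259
open Set Topology
variable {X Y Z B : Type*} [TopologicalSpace X] [TopologicalSpace Y] [TopologicalSpace Z]

/-! ## TA : approximation of maps to lower-set spaces (file Approx.lean) -/
section
variable [Preorder B] [TopologicalSpace B] [Topology.IsLowerSet B]

theorem continuousWithinAt_lower {M : Type*} [TopologicalSpace M] {f : M → B} {s : Set M} {x : M} :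
    ContinuousWithinAt f s x ↔ ∀ᶠ y in 𝓝[s] x, f y ≤ f x := by
  unfold ContinuousWithinAt
  rw [Topology.IsLowerSet.nhds_eq_principal_Iic, Filter.tendsto_principal]
  rfl

/-- The set version of the approximation: a monotone assignment of upper bounds to all small
sets meeting the compact set. -/
theorem approx_sets {M : Type*} [PseudoMetricSpace M] {K₀ : Set M} (hK₀ : IsCompact K₀)
    (Γ : M → B) (hΓ : ContinuousOn Γ K₀) (b₀ : B) :
    ∃ (δ : ℝ) (σ : Set M → B), 0 < δ ∧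
      (∀ A : Set M, ∀ x ∈ A ∩ K₀, A ⊆ Metric.ball x δ → ∀ y ∈ A ∩ K₀, Γ y ≤ σ A) ∧
      (∀ A A' : Set M, A' ⊆ A → ∀ x ∈ A' ∩ K₀, A ⊆ Metric.ball x δ → σ A' ≤ σ A) := by
  classical
  have h1 : ∀ x : M, ∃ r : ℝ, 0 < r ∧ (x ∈ K₀ → ∀ y ∈ K₀, dist y x < 2 * r → Γ y ≤ Γ x) := by
    intro x
    by_cases hx : x ∈ K₀
    · have h2 := continuousWithinAt_lower.1 (hΓ x hx)
      rw [eventually_nhdsWithin_iff, Metric.eventually_nhds_iff] at h2
      obtain ⟨ε, hε, h3⟩ := h2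
      exact ⟨ε / 2, by positivity, fun _ y hy hd => h3 (by linarith) hy⟩
    · exact ⟨1, one_pos, fun h => absurd h hx⟩
  choose r hr0 hr using h1
  obtain ⟨t, htK, htc⟩ := hK₀.elim_nhds_subcover (fun x => Metric.ball x (r x))
    (fun x _ => Metric.ball_mem_nhds x (hr0 x))
  have hcov : K₀ ⊆ ⋃ i : t, Metric.ball (i : M) (r i) := by
    intro x hx
    have := htc hx
    simp only [mem_iUnion] at this ⊢
    obtain ⟨i, hi, hx⟩ := this
    exact ⟨⟨i, hi⟩, hx⟩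
  obtain ⟨δ, hδ, hL⟩ := lebesgue_number_lemma_of_metric hK₀ (c := fun i : t =>
    Metric.ball (i : M) (r i)) (fun i => Metric.isOpen_ball) hcov
  -- admissible centres of a set
  let good : Set M → Finset M := fun A => t.filter fun y => A ⊆ Metric.ball y (r y)
  have hgood : ∀ A : Set M, ∀ x ∈ A ∩ K₀, A ⊆ Metric.ball x δ → (good A).Nonempty := by
    intro A x hx hA
    obtain ⟨i, hi⟩ := hL x hx.2
    exact ⟨i, Finset.mem_filter.2 ⟨i.2, hA.trans hi⟩⟩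
  have hex : ∀ A : Set M, ∃ b : B, (good A).Nonempty → ∃ y ∈ good A,
      (∀ z ∈ good A, r y ≤ r z) ∧ b = Γ y := by
    intro A
    by_cases hn : (good A).Nonempty
    · obtain ⟨y, hy, hmin⟩ := Finset.exists_min_image (good A) r hn
      exact ⟨Γ y, fun _ => ⟨y, hy, hmin, rfl⟩⟩
    · exact ⟨b₀, fun h => absurd h hn⟩
  choose σ hσ using hex
  refine ⟨δ, σ, hδ, ?_, ?_⟩
  · intro A x hx hA y hy
    obtain ⟨z, hz, _, hzσ⟩ := hσ A (hgood A x hx hA)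
    obtain ⟨hzt, hzA⟩ := Finset.mem_filter.1 hz
    rw [hzσ]
    have h2 := hzA hy.1
    rw [Metric.mem_ball] at h2
    exact hr z (htK z hzt) y hy.2 (by linarith [hr0 z])
  · intro A A' hAA x hx hA
    obtain ⟨z, hz, _, hzσ⟩ := hσ A (hgood A x ⟨hAA hx.1, hx.2⟩ hA)
    obtain ⟨z', hz', hmin', hzσ'⟩ := hσ A' (hgood A' x hx (hAA.trans hA))
    obtain ⟨hzt, hzA⟩ := Finset.mem_filter.1 hz
    obtain ⟨hzt', hzA'⟩ := Finset.mem_filter.1 hz'
    have h3 : r z' ≤ r z := hmin' z (Finset.mem_filter.2 ⟨hzt, hAA.trans hzA⟩)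
    rw [hzσ, hzσ']
    have h4 := hzA (hAA hx.1)
    have h5 := hzA' hx.1
    rw [Metric.mem_ball] at h4 h5
    refine hr z (htK z hzt) z' (htK z' hzt') ?_
    have := dist_triangle_left z' z x
    linarith

theorem Cell.dist_le {n : ℕ} (e : Cell n) (x y : Fin n → ℝ) (hx : x ∈ e.cl) (hy : y ∈ e.cl) :
    dist x y ≤ 1 := by
  rw [dist_pi_le_iff zero_le_one]
  intro i
  rw [Real.dist_eq, abs_le]
  by_cases hi : i ∈ e.F
  · have h1 := (hx i).1 hi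
    have h2 := (hy i).1 hi
    constructor <;> linarith
  · have h1 := (hx i).2 hi
    have h2 := (hy i).2 hi
    constructor <;> linarith

theorem Cell.corner_mem {n : ℕ} (e : Cell n) : (fun i => (e.k i : ℝ)) ∈ e.cl := by
  intro i
  refine ⟨fun _ => ⟨le_rfl, by linarith⟩, fun _ => rfl⟩

theorem dist_scale_le {n : ℕ} {N : ℕ} (hN : 0 < N) {x y : Fin n → ℝ} {d : ℝ} (h : dist x y ≤ d) :
    dist (fun i => x i / (N : ℝ)) (fun i => y i / (N : ℝ)) ≤ d / N := by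
  have hN' : (0 : ℝ) < N := by exact_mod_cast hN
  have hd : 0 ≤ d := dist_nonneg.trans h
  rw [dist_pi_le_iff (by positivity)]
  intro i
  have h1 := (dist_pi_le_iff hd).1 h i
  rw [Real.dist_eq] at h1 ⊢
  rw [← sub_div, abs_div, abs_of_pos hN']
  gcongr

/-- Let `Γ` be continuous on a compact subset `K₀` of the `n`-cube with values in a lower-set space.
There is a mesh `1/N` and a monotone assignment `σ` of points of `B` to cells with `Γ ≤ σ e` on `e`. -/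
theorem approx {n : ℕ} (K₀ : Set (Fin n → ℝ)) (hK₀ : IsCompact K₀) (hK : K₀ ⊆ cube n)
    (Γ : (Fin n → ℝ) → B) (hΓ : ContinuousOn Γ K₀) :
    ∃ (N : ℕ) (σ : Cell n → B), 0 < N ∧
      (∀ e ∈ Cell.K n N, ∀ x ∈ e.cl, (fun i => x i / N) ∈ K₀ → Γ (fun i => x i / N) ≤ σ e) ∧
      (∀ e ∈ Cell.K n N, ∀ e' : Cell n, e'.cl ⊆ e.cl → (∃ x ∈ e'.cl, (fun i => x i / N) ∈ K₀) →
        σ e' ≤ σ e) := by
  obtain ⟨δ, σ, hδ, h1, h2⟩ := approx_sets hK₀ Γ hΓ (Γ 0)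
  obtain ⟨N, hN⟩ := exists_nat_gt (1 / δ)
  have hN0 : (0 : ℝ) < N := (by positivity : (0 : ℝ) < 1 / δ).trans hN
  have hN1 : 0 < N := by exact_mod_cast hN0
  have hNδ : 1 / (N : ℝ) < δ := by
    rw [div_lt_iff₀ hN0]
    rw [div_lt_iff₀ hδ] at hN
    linarith
  have hball : ∀ e : Cell n, ∀ x ∈ e.cl, (fun (x : Fin n → ℝ) i => x i / (N : ℝ)) '' e.cl
      ⊆ Metric.ball (fun i => x i / (N : ℝ)) δ := by
    rintro e x hx _ ⟨y, hy, rfl⟩
    rw [Metric.mem_ball]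
    exact (dist_scale_le hN1 (e.dist_le y x hy hx)).trans_lt hNδ
  refine ⟨N, fun e => σ ((fun (x : Fin n → ℝ) i => x i / (N : ℝ)) '' e.cl), hN1, ?_, ?_⟩
  · intro e _ x hx hxK
    exact h1 _ _ ⟨mem_image_of_mem _ hx, hxK⟩ (hball e x hx) _ ⟨mem_image_of_mem _ hx, hxK⟩
  · rintro e _ e' hee ⟨x, hx, hxK⟩
    exact h2 _ _ (image_mono hee) _ ⟨mem_image_of_mem _ hx, hxK⟩ (hball e x (hee hx))

/-- The same for maps on `cube n ×ˢ uI`, with slabs `[k/N, (k+1)/N]` in the last variable. -/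
theorem approx_prism {n : ℕ} (Γ : (Fin n → ℝ) × ℝ → B) (hΓ : ContinuousOn Γ (cube n ×ˢ uI)) :
    ∃ (N : ℕ) (σ : Cell n → ℕ → B) (τ : Cell n → ℕ → B), 0 < N ∧
      (∀ e ∈ Cell.K n N, ∀ k < N, ∀ x ∈ e.cl, ∀ t ∈ Set.Icc (k : ℝ) (k + 1),
        Γ (fun i => x i / N, t / N) ≤ σ e k) ∧
      (∀ e ∈ Cell.K n N, ∀ k ≤ N, ∀ x ∈ e.cl, Γ (fun i => x i / N, k / N) ≤ τ e k) ∧
      (∀ e ∈ Cell.K n N, ∀ e' : Cell n, e'.cl ⊆ e.cl → ∀ k,
        (k < N → σ e' k ≤ σ e k) ∧ (k ≤ N → τ e' k ≤ τ e k)) ∧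
      (∀ e ∈ Cell.K n N, ∀ k < N, τ e k ≤ σ e k ∧ τ e (k + 1) ≤ σ e k) := by
  have hcomp : IsCompact (cube n ×ˢ uI) := isCompact_Icc.prod isCompact_Icc
  obtain ⟨δ, σ, hδ, h1, h2⟩ := approx_sets hcomp Γ hΓ (Γ 0)
  obtain ⟨N, hN⟩ := exists_nat_gt (1 / δ)
  have hN0 : (0 : ℝ) < N := (by positivity : (0 : ℝ) < 1 / δ).trans hN
  have hN1 : 0 < N := by exact_mod_cast hN0
  have hNδ : 1 / (N : ℝ) < δ := by
    rw [div_lt_iff₀ hN0]
    rw [div_lt_iff₀ hδ] at hN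
    linarith
  let sc : (Fin n → ℝ) × ℝ → (Fin n → ℝ) × ℝ := fun z => (fun i => z.1 i / (N : ℝ), z.2 / (N : ℝ))
  have hball : ∀ e : Cell n, ∀ k : ℕ, ∀ z ∈ e.cl ×ˢ Set.Icc (k : ℝ) (k + 1),
      sc '' (e.cl ×ˢ Set.Icc (k : ℝ) (k + 1)) ⊆ Metric.ball (sc z) δ := by
    rintro e k ⟨x, t⟩ ⟨hx, ht⟩ _ ⟨⟨y, s⟩, ⟨hy, hs⟩, rfl⟩
    rw [Metric.mem_ball, Prod.dist_eq, max_lt_iff]
    refine ⟨(dist_scale_le hN1 (e.dist_le y x hy hx)).trans_lt hNδ, ?_⟩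
    refine lt_of_le_of_lt ?_ hNδ
    simp only [sc, Real.dist_eq]
    rw [← sub_div, abs_div, abs_of_pos hN0]
    have h3 : |s - t| ≤ 1 := by
      simp only [mem_Icc] at hs ht
      rw [abs_le]
      constructor <;> linarith [hs.1, hs.2, ht.1, ht.2]
    gcongr
  have hmem : ∀ e ∈ Cell.K n N, ∀ x ∈ e.cl, (fun i => x i / (N : ℝ)) ∈ cube n := by
    intro e he x hx
    have h3 := he hx
    rw [mem_Icc] at h3
    refine ⟨fun i => ?_, fun i => ?_⟩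
    · have := h3.1 i
      simp only [Pi.zero_apply] at this ⊢
      positivity
    · have := h3.2 i
      simp only [Pi.one_apply]
      rw [div_le_one hN0]
      exact this
  have hmemt : ∀ t : ℝ, 0 ≤ t → t ≤ N → t / (N : ℝ) ∈ uI := by
    intro t h0 ht
    exact ⟨by positivity, by rw [div_le_one hN0]; exact ht⟩
  have hmemz : ∀ e ∈ Cell.K n N, ∀ k : ℕ, k < N → ∀ z ∈ e.cl ×ˢ Set.Icc (k : ℝ) (k + 1),
      sc z ∈ cube n ×ˢ uI := by
    rintro e he k hk ⟨x, t⟩ ⟨hx, ht⟩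
    have hk' : (k : ℝ) + 1 ≤ N := by exact_mod_cast hk
    simp only [mem_Icc] at ht
    exact ⟨hmem e he x hx, hmemt t ((Nat.cast_nonneg k).trans ht.1) (ht.2.trans hk')⟩
  have hsub0 : ∀ (e : Cell n) (k : ℕ), e.cl ×ˢ {(k : ℝ)} ⊆ e.cl ×ˢ Set.Icc (k : ℝ) (k + 1) := by
    rintro e k ⟨x, t⟩ ⟨hx, ht⟩
    rw [mem_singleton_iff] at ht
    exact ⟨hx, by simp only at ht ⊢; rw [ht]; exact ⟨le_rfl, by linarith⟩⟩
  have hsub1 : ∀ (e : Cell n) (k : ℕ),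
      e.cl ×ˢ {((k + 1 : ℕ) : ℝ)} ⊆ e.cl ×ˢ Set.Icc (k : ℝ) (k + 1) := by
    rintro e k ⟨x, t⟩ ⟨hx, ht⟩
    rw [mem_singleton_iff] at ht
    exact ⟨hx, by
      simp only at ht ⊢
      rw [ht]
      push_cast
      exact ⟨by linarith, le_rfl⟩⟩
  -- every level is contained in a slab
  have hlev : ∀ k ≤ N, ∃ l < N, ∀ e : Cell n,
      e.cl ×ˢ {(k : ℝ)} ⊆ e.cl ×ˢ Set.Icc (l : ℝ) (l + 1) := by
    intro k hk
    rcases hk.lt_or_eq with h | h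
    · exact ⟨k, h, fun e => hsub0 e k⟩
    · refine ⟨k - 1, by omega, fun e => ?_⟩
      have := hsub1 e (k - 1)
      rwa [Nat.sub_add_cancel (by omega)] at this
  refine ⟨N, fun e k => σ (sc '' (e.cl ×ˢ Set.Icc (k : ℝ) (k + 1))),
    fun e k => σ (sc '' (e.cl ×ˢ {(k : ℝ)})), hN1, ?_, ?_, ?_, ?_⟩
  · intro e he k hk x hx t ht
    have hz : ((x, t) : (Fin n → ℝ) × ℝ) ∈ e.cl ×ˢ Set.Icc (k : ℝ) (k + 1) := ⟨hx, ht⟩
    exact h1 _ (sc (x, t)) ⟨mem_image_of_mem _ hz, hmemz e he k hk _ hz⟩ (hball e k _ hz)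
      (sc (x, t)) ⟨mem_image_of_mem _ hz, hmemz e he k hk _ hz⟩
  · intro e he k hk x hx
    obtain ⟨l, hl, hsub⟩ := hlev k hk
    have hz : ((x, (k : ℝ)) : (Fin n → ℝ) × ℝ) ∈ e.cl ×ˢ {(k : ℝ)} := ⟨hx, rfl⟩
    exact h1 _ (sc (x, k)) ⟨mem_image_of_mem _ hz, hmemz e he l hl _ (hsub e hz)⟩
      ((image_mono (hsub e)).trans (hball e l _ (hsub e hz)))
      (sc (x, k)) ⟨mem_image_of_mem _ hz, hmemz e he l hl _ (hsub e hz)⟩
  · intro e he e' hee k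
    have hc := e'.corner_mem
    refine ⟨fun hk => ?_, fun hk => ?_⟩
    · have hz : ((fun i => (e'.k i : ℝ), (k : ℝ)) : (Fin n → ℝ) × ℝ)
          ∈ e'.cl ×ˢ Set.Icc (k : ℝ) (k + 1) := ⟨hc, ⟨le_rfl, by linarith⟩⟩
      have hz' := prod_mono hee (Subset.refl (Set.Icc (k : ℝ) (k + 1))) hz
      exact h2 _ _ (image_mono (prod_mono hee (Subset.refl _))) (sc (fun i => (e'.k i : ℝ), (k : ℝ)))
        ⟨mem_image_of_mem _ hz, hmemz e he k hk _ hz'⟩ (hball e k _ hz')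
    · obtain ⟨l, hl, hsub⟩ := hlev k hk
      have hz : ((fun i => (e'.k i : ℝ), (k : ℝ)) : (Fin n → ℝ) × ℝ)
          ∈ e'.cl ×ˢ {(k : ℝ)} := ⟨hc, rfl⟩
      have hz' := hsub e (prod_mono hee (Subset.refl ({(k : ℝ)} : Set ℝ)) hz)
      exact h2 _ _ (image_mono (prod_mono hee (Subset.refl _))) (sc (fun i => (e'.k i : ℝ), (k : ℝ)))
        ⟨mem_image_of_mem _ hz, hmemz e he l hl _ hz'⟩
        ((image_mono (hsub e)).trans (hball e l _ hz'))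
  · intro e he k hk
    have hc := e.corner_mem
    refine ⟨?_, ?_⟩
    · have hz : ((fun i => (e.k i : ℝ), (k : ℝ)) : (Fin n → ℝ) × ℝ)
          ∈ e.cl ×ˢ {(k : ℝ)} := ⟨hc, rfl⟩
      exact h2 _ _ (image_mono (hsub0 e k)) (sc (fun i => (e.k i : ℝ), (k : ℝ)))
        ⟨mem_image_of_mem _ hz, hmemz e he k hk _ (hsub0 e k hz)⟩ (hball e k _ (hsub0 e k hz))
    · have hz : ((fun i => (e.k i : ℝ), ((k + 1 : ℕ) : ℝ)) : (Fin n → ℝ) × ℝ)
          ∈ e.cl ×ˢ {((k + 1 : ℕ) : ℝ)} := ⟨hc, rfl⟩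
      exact h2 _ _ (image_mono (hsub1 e k)) (sc (fun i => (e.k i : ℝ), ((k + 1 : ℕ) : ℝ)))
        ⟨mem_image_of_mem _ hz, hmemz e he k hk _ (hsub1 e k hz)⟩ (hball e k _ (hsub1 e k hz))

theorem wcontr_Iic (b : B) : WContr (Iic b) := by
  classical
  refine WContr.of_contraction b (mem_Iic.2 le_rfl) (fun z => if z.2 < 1 then z.1 else b) ?_ ?_ ?_ ?_
  · rintro ⟨x, t⟩ ⟨hx, ht⟩
    rw [continuousWithinAt_lower]
    rw [eventually_nhdsWithin_iff]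
    by_cases h : t < 1
    · have hopen : IsOpen ((Iic x : Set B) ×ˢ (Iio (1 : ℝ))) :=
        (Topology.IsLowerSet.isOpen_iff_isLowerSet.2 (isLowerSet_Iic x)).prod isOpen_Iio
      filter_upwards [hopen.mem_nhds (show (x, t) ∈ (Iic x : Set B) ×ˢ (Iio (1 : ℝ)) from
        ⟨mem_Iic.2 le_rfl, h⟩)] with z hz _
      have hz2 : z.2 < 1 := hz.2
      rw [if_pos h, if_pos hz2]
      exact hz.1
    · refine Filter.Eventually.of_forall fun z hz => ?_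
      rw [if_neg h]
      split_ifs
      · exact hz.1
      · exact le_rfl
  · rintro ⟨x, t⟩ ⟨hx, ht⟩
    simp only
    split_ifs
    · exact hx
    · exact mem_Iic.2 le_rfl
  · intro x _
    simp
  · intro x _
    simp
end


end Vale.Agent.P259
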