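import Vale.Agent.Lib.P259.DiscContr

/-!
# P259, module A5b: existence of disc functors
-/

namespace Vale.Agent.P259

open CategoryTheory Limits Topology Set CompactlyGenerated

universe u

/-! ### functors from the globe category -/

section
variable {D : Type u} [Category.{0} D] (X : ℕ → D) (s : ∀ n, Bool → (X n ⟶ X (n + 1)))

/-- iterated boundary maps -/
noncomputable def itBd {m n : ℕ} (h : m < n) (ε : Bool) : X m ⟶ X n :=
  Nat.leRecOn (C := fun k => X m ⟶ X k) (Nat.succ_le_of_lt h) (fun {k} f => f ≫ s k false) (s m ε)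

theorem itBd_self (m : ℕ) (h : m < m + 1) (ε : Bool) : itBd X s h ε = s m ε :=
  Nat.leRecOn_self _

theorem itBd_succ {m n : ℕ} (h : m < n) (h' : m < n + 1) (ε : Bool) :
    itBd X s h' ε = itBd X s h ε ≫ s n false :=
  Nat.leRecOn_succ (C := fun k => X m ⟶ X k) (Nat.succ_le_of_lt h) _

variable (hs : ∀ n ε ε', s n ε ≫ s (n + 1) ε' = s n ε ≫ s (n + 1) false)

include hs in
theorem itBd_step {m n : ℕ} (h : m < n) (ε ε' : Bool) :
    itBd X s h ε ≫ s n ε' = itBd X s h ε ≫ s n false := by
  induction n, (Nat.succ_le_of_lt h) using Nat.le_induction with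
  | base => rw [itBd_self, hs]
  | succ n hn ih =>
    rw [itBd_succ X s (Nat.lt_of_succ_le hn), Category.assoc, Category.assoc, hs]

include hs in
theorem itBd_comp {l m n : ℕ} (h : l < m) (h' : m < n) (ε ε' : Bool) :
    itBd X s h ε ≫ itBd X s h' ε' = itBd X s (h.trans h') ε := by
  induction n, (Nat.succ_le_of_lt h') using Nat.le_induction with
  | base => rw [itBd_self, itBd_step X s hs, itBd_succ X s h]
  | succ n hn ih =>
    rw [itBd_succ X s (Nat.lt_of_succ_le hn), ← Category.assoc, ih (Nat.lt_of_succ_le hn),
      itBd_succ X s (h.trans (Nat.lt_of_succ_le hn))]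

/-- action on morphisms of the globe category -/
noncomputable def globeMap : {m n : ℕ} → GlobeHom m n → (X m ⟶ X n)
  | _, _, .id _ => 𝟙 _
  | _, _, .bd h ε => itBd X s h ε

/-- the functor from the globe category given by its values on generators -/
noncomputable def globeFunctor : Globe ⥤ D where
  obj n := X n.dim
  map f := globeMap X s f
  map_id _ := rfl
  map_comp {l m n} f g := by
    obtain ⟨l⟩ := l
    obtain ⟨m⟩ := m
    obtain ⟨n⟩ := n
    change GlobeHom l m at f
    change GlobeHom m n at g
    change globeMap X s (f.comp g) = globeMap X s f ≫ globeMap X s g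
    cases f with
    | id => exact (Category.id_comp _).symm
    | bd h ε =>
      cases g with
      | id => exact (Category.comp_id _).symm
      | bd h' ε' => exact (itBd_comp X s hs h h' ε ε').symm

theorem globeFunctor_gbd (n : ℕ) (ε : Bool) :
    (globeFunctor X s hs).map (gbd (Nat.lt_succ_self n) ε) = s n ε :=
  itBd_self X s n (Nat.lt_succ_self n) ε

end

/-! ### pushouts of compactly generated spaces -/

instance hasPushout_top' {A B C : Top'} (f : A ⟶ B) (g : A ⟶ C) : HasPushout f g := by
  let F := compactlyGeneratedToTop.{0, 0}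
  have sq := IsPushout.of_hasPushout (F.map f) (F.map g)
  have hB : UCompactlyGeneratedSpace.{0} (F.obj B) := B.is_compactly_generated
  have hC : UCompactlyGeneratedSpace.{0} (F.obj C) := C.is_compactly_generated
  have : UCompactlyGeneratedSpace.{0} (pushout (F.map f) (F.map g) : TopCat.{0}) :=
    isCG_of_isPushout sq
  let P : Top' := CompactlyGenerated.of (pushout (F.map f) (F.map g) : TopCat.{0})
  let h : B ⟶ P := F.preimage (Y := P) (pushout.inl (F.map f) (F.map g))
  let k : C ⟶ P := F.preimage (Y := P) (pushout.inr (F.map f) (F.map g))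
  have eh : F.map h = pushout.inl (F.map f) (F.map g) := F.map_preimage _
  have ek : F.map k = pushout.inr (F.map f) (F.map g) := F.map_preimage _
  have w : f ≫ h = g ≫ k := F.map_injective (by
    rw [F.map_comp, F.map_comp, eh, ek]
    exact sq.w)
  have : IsPushout f g h k := by
    apply IsPushout.of_map F w
    rw [eh, ek]
    exact sq
  exact this.hasPushout

/-! ### the discs -/

/-- the inclusion of a hemisphere -/
noncomputable def hemiIncl (n : ℕ) (ε : Bool) : C(closedDisc n, closedDisc (n + 1)) :=
  ⟨fun x => ⟨hemi ε x.1, sph_subset _ (hemi_mem ε x.2)⟩,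
    Continuous.subtype_mk ((continuous_hemi n ε).comp continuous_subtype_val) _⟩

instance (n : ℕ) : UCompactlyGeneratedSpace.{0} (closedDisc n) :=
  (disc n).is_compactly_generated

/-- a continuous map as a morphism of `Top` -/
def mkTop {X Y : Top'} (f : C(X.toTop, Y.toTop)) : X ⟶ Y := ConcreteCategory.ofHom f

theorem mkTop_apply {X Y : Top'} (f : C(X.toTop, Y.toTop)) (x : X.toTop) :
    ConcreteCategory.hom (mkTop f) x = f x := rfl

theorem top_hom_ext {X Y : Top'} {f g : X ⟶ Y}
    (h : ∀ x : X.toTop, ConcreteCategory.hom f x = ConcreteCategory.hom g x) : f = g :=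
  ConcreteCategory.hom_ext _ _ h

/-- the inclusion of a hemisphere, in `Top` -/
noncomputable def hemiT (n : ℕ) (ε : Bool) : disc n ⟶ disc (n + 1) :=
  mkTop (X := disc n) (Y := disc (n + 1)) (hemiIncl n ε)

theorem hemiT_apply (n : ℕ) (ε : Bool) (x : closedDisc n) :
    ((ConcreteCategory.hom (hemiT n ε) x : closedDisc (n + 1)) : Fin (n + 1) → ℝ) =
      hemi ε (x : Fin n → ℝ) := rfl

theorem hemiT_comp (n : ℕ) (ε ε' : Bool) :
    hemiT n ε ≫ hemiT (n + 1) ε' = hemiT n ε ≫ hemiT (n + 1) false := by
  apply top_hom_ext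
  intro x
  apply Subtype.ext
  change hemi ε' (hemi ε (x : closedDisc n).1) = hemi false (hemi ε (x : closedDisc n).1)
  cases ε' with
  | false => rfl
  | true =>
    have h := hemi_mem ε (x : closedDisc n).2
    exact (hemi_eq_iff (sph_subset _ h) (sph_subset _ h)).2 ⟨rfl, h⟩

/-- the discs as a coglobular space -/
noncomputable def discGlobe : Globe ⥤ Top' := globeFunctor disc hemiT hemiT_comp

/-- the realization of a table by an iterated pushout of discs -/
noncomputable def Tab.realTop : {i : ℕ} → Tab i → (X : Top') × (discGlobe.obj ⟨i⟩ ⟶ X)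
  | i, .disc _ => ⟨discGlobe.obj ⟨i⟩, 𝟙 _⟩
  | _, .glue hi hk t =>
    ⟨pushout (discGlobe.map (gbd hi true)) (discGlobe.map (gbd hk false) ≫ t.realTop.2),
      pushout.inl _ _⟩

/-- the realization of globular sums by iterated pushouts of discs -/
noncomputable def discRealization : Realization discGlobe where
  obj S := S.tab.realTop.1
  first t := t.realTop.2
  first_disc i := by
    change IsIso (𝟙 (discGlobe.obj ⟨i⟩))
    infer_instance
  rest {i j k} hi hk t := pushout.inr (discGlobe.map (gbd hi true))
    (discGlobe.map (gbd hk false) ≫ t.realTop.2)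
  isPushout hi hk t := IsPushout.of_hasPushout _ _

theorem discRealization_J_bd (n : ℕ) (ε : Bool) :
    discRealization.J (bd₀ (Nat.lt_succ_self n) ε) = hemiT n ε := by
  have h := discRealization.first_J_bd (Nat.lt_succ_self n) ε
  have h2 : discGlobe.map (gbd (Nat.lt_succ_self n) ε) = hemiT n ε :=
    globeFunctor_gbd disc hemiT hemiT_comp n ε
  rw [h2] at h
  change 𝟙 (disc n) ≫ discRealization.J (bd₀ (Nat.lt_succ_self n) ε) =
    hemiT n ε ≫ 𝟙 (disc (n + 1)) at h
  exact (Category.id_comp _).symm.trans (h.trans (Category.comp_id _))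

/-- the tautological disc functor on the globular extension of discs -/
noncomputable def discTaut : DiscFunctor discRealization.globExt where
  F :=
    { obj := fun S => discRealization.obj S.obj
      map := fun f => f
      map_id := fun _ => rfl
      map_comp := fun _ _ => rfl }
  glue hi hk t := discRealization.J_isPushout hi hk t
  homeo n := Homeomorph.refl _
  hemi n ε x := by
    have h := ConcreteCategory.congr_hom (discRealization_J_bd n ε) x
    have h2 := congrArg (fun z : closedDisc (n + 1) => (z : Fin (n + 1) → ℝ)) h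
    exact h2.trans (hemiT_apply n ε x)

/-- transport of disc functors along morphisms of globular extensions -/
noncomputable def DiscFunctor.comap {E E' : GlobExt} (D : DiscFunctor E') (a : E.Mor E') :
    DiscFunctor E where
  F :=
    { obj := fun S => D.F.obj ⟨S.obj⟩
      map := fun {S T} f => D.F.map (X := ⟨S.obj⟩) (Y := ⟨T.obj⟩) (a.map f)
      map_id := fun S => (congrArg (fun z => D.F.map (X := ⟨S.obj⟩) (Y := ⟨S.obj⟩) z)
        (a.map_id S.obj)).trans (D.F.map_id _)
      map_comp := fun {S T U} f g => (congrArg (fun z => D.F.map (X := ⟨S.obj⟩) (Y := ⟨U.obj⟩) z)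
        (a.map_comp f g)).trans (D.F.map_comp (X := ⟨S.obj⟩) (Y := ⟨T.obj⟩) (Z := ⟨U.obj⟩) _ _) }
  glue hi hk t := by
    have h := D.glue hi hk t
    simp only [← a.map_J, ← a.map_comp] at h
    exact h
  homeo n := D.homeo n
  hemi n ε x := by
    have h := D.hemi n ε x
    simp only [← a.map_J] at h
    exact h

/-! ### lifts -/

/-- total extension of a map defined on the closed disc -/
noncomputable def totExt {X : Type} {n : ℕ} (x₀ : X) (f : closedDisc n → X) (x : Fin n → ℝ) : X :=
  open Classical in if h : x ∈ closedDisc n then f ⟨x, h⟩ else x₀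

theorem totExt_apply {X : Type} {n : ℕ} (x₀ : X) (f : closedDisc n → X) {x : Fin n → ℝ}
    (h : x ∈ closedDisc n) : totExt x₀ f x = f ⟨x, h⟩ := dif_pos h

theorem totExt_coe {X : Type} {n : ℕ} (x₀ : X) (f : closedDisc n → X) (x : closedDisc n) :
    totExt x₀ f x = f x := dif_pos x.2

theorem continuousOn_totExt {X : Type} [TopologicalSpace X] {n : ℕ} (x₀ : X)
    {f : closedDisc n → X} (hf : Continuous f) : ContinuousOn (totExt x₀ f) (closedDisc n) := by
  rw [continuousOn_iff_continuous_domRestrict]
  have : (closedDisc n).domRestrict (totExt x₀ f) = f := by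
    funext x
    exact totExt_coe x₀ f x
  rw [this]
  exact hf

namespace DiscFunctor

variable {E : GlobExt} (D : DiscFunctor E)

/-- Extension of maps from the boundary of the disc `D(D_{n+1})` to a weakly contractible space. -/
theorem exists_extension {X : Type} [TopologicalSpace X] (hX : WContr (univ : Set X)) (n : ℕ)
    (f g : C(D.sp (.D n), X))
    (h : ∀ (m : ℕ) (hm : m + 1 = n) (ε : Bool) (y : D.sp (.D m)),
      f (hm ▸ D.mp (E.J (bd₀ (Nat.lt_succ_self m) ε)) y) =
        g (hm ▸ D.mp (E.J (bd₀ (Nat.lt_succ_self m) ε)) y)) :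
    ∃ l : C(D.sp (.D (n + 1)), X),
      (∀ x, l (D.mp (E.J (bd₀ (Nat.lt_succ_self n) false)) x) = f x) ∧
      (∀ x, l (D.mp (E.J (bd₀ (Nat.lt_succ_self n) true)) x) = g x) := by
  obtain ⟨x₀, -⟩ := hX.1
  let fg : Bool → closedDisc n → X := fun ε x =>
    if ε then g ((D.homeo n).symm x) else f ((D.homeo n).symm x)
  have hfg : ∀ ε, Continuous (fg ε) := by
    intro ε
    cases ε with
    | false => exact f.continuous.comp (D.homeo n).symm.continuous
    | true => exact g.continuous.comp (D.homeo n).symm.continuous
  obtain ⟨b, hb1, hb2⟩ := glue_hemi' (n := n) (fun ε => totExt x₀ (fg ε))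
    (fun ε => continuousOn_totExt x₀ (hfg ε)) (by
      intro x hx
      have hx' := sph_subset _ hx
      simp only [totExt_apply x₀ _ hx']
      cases n with
      | zero =>
        exfalso
        have : ∑ i : Fin 0, x i ^ 2 = 1 := hx
        simp at this
      | succ m =>
        obtain ⟨ε, y, hy, hxy⟩ := exists_hemi hx
        have := h m rfl ε ((D.homeo m).symm ⟨y, hy⟩)
        have e : D.mp (E.J (bd₀ (Nat.lt_succ_self m) ε)) ((D.homeo m).symm ⟨y, hy⟩) =
            (D.homeo (m + 1)).symm ⟨x, hx'⟩ := by
          rw [Homeomorph.eq_symm_apply]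
          apply Subtype.ext
          rw [D.hemi_mp]
          simp only [Homeomorph.apply_symm_apply]
          exact hxy
        simp only [e] at this
        exact this)
  obtain ⟨c, hc1, -, hc3⟩ := (hX.2 (n + 1)).disc b hb1 (fun _ _ => mem_univ _)
  have hcc : Continuous (fun z : closedDisc (n + 1) => c z) := by
    rw [continuousOn_iff_continuous_domRestrict] at hc1
    exact hc1
  refine ⟨⟨fun z => c (D.homeo (n + 1) z : Fin (n + 1) → ℝ),
    hcc.comp (D.homeo (n + 1)).continuous⟩, ?_, ?_⟩
  · intro x
    change c (D.homeo (n + 1) (D.mp (E.J (bd₀ (Nat.lt_succ_self n) false)) x) :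
      Fin (n + 1) → ℝ) = f x
    rw [D.hemi_mp, hc3 (hemi_mem _ (D.homeo n x).2), hb2 _ _ (D.homeo n x).2, totExt_coe]
    change f ((D.homeo n).symm (D.homeo n x)) = f x
    rw [Homeomorph.symm_apply_apply]
  · intro x
    change c (D.homeo (n + 1) (D.mp (E.J (bd₀ (Nat.lt_succ_self n) true)) x) :
      Fin (n + 1) → ℝ) = g x
    rw [D.hemi_mp, hc3 (hemi_mem _ (D.homeo n x).2), hb2 _ _ (D.homeo n x).2, totExt_coe]
    change g ((D.homeo n).symm (D.homeo n x)) = g x
    rw [Homeomorph.symm_apply_apply]

end DiscFunctor

theorem disc_exists_lift (n : ℕ) (S : Obj) (f g : discRealization.globExt.Hom (.D n) S)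
    (h : discRealization.globExt.Parallel f g) :
    ∃ l, discRealization.globExt.IsLift f g l := by
  let D := discTaut
  obtain ⟨l, hl1, hl2⟩ := D.exists_extension (D.wcontr S) n (D.mp f) (D.mp g) (by
    rintro m rfl ε y
    have := h ε
    have h2 := congrArg (fun z => D.mp z y) this
    simp only [D.mp_comp] at h2
    exact h2)
  let l' : discRealization.obj (.D (n + 1)) ⟶ discRealization.obj S :=
    mkTop (X := discRealization.obj (.D (n + 1))) (Y := discRealization.obj S) l
  refine ⟨l', ?_, ?_⟩
  · apply top_hom_ext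
    intro x
    exact hl1 x
  · apply top_hom_ext
    intro x
    exact hl2 x

/-- Every coherator has a disc functor. -/
theorem Coherator.exists_discFunctor (C : Coherator) : Nonempty (DiscFunctor C.C) := by
  obtain ⟨s⟩ := C.exists_mor discRealization.globExt disc_exists_lift
  exact ⟨discTaut.comap s⟩

end Vale.Agent.P259
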