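import Mathlib
/-!
# P259, module F9a: a criterion for equivalences of localizations
-/
namespace Vale.Agent.P259
open CategoryTheory

universe v₁ u₁ v₂ u₂

/-- `P : 𝒯 ⥤ 𝒢` and `T : 𝒢 ⥤ 𝒯` preserve weak equivalences, `ev : P ⋙ T ⟶ 𝟭` is a weak equivalence
and `𝟭 ⟵ R ⟶ T ⋙ P` are weak equivalences; then `P` induces an equivalence of localizations. -/
theorem isEquivalence_of_zigzag {𝒯 : Type u₁} [Category.{v₁} 𝒯] {𝒢 : Type u₂} [Category.{v₂} 𝒢]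
    (W₁ : MorphismProperty 𝒯) (W₂ : MorphismProperty 𝒢) (P : 𝒯 ⥤ 𝒢) (T : 𝒢 ⥤ 𝒯)
    (hP : ∀ (X Y : 𝒯) (f : X ⟶ Y), W₁ f → W₂ (P.map f))
    (hT : ∀ (X Y : 𝒢) (f : X ⟶ Y), W₂ f → W₁ (T.map f))
    (ev : P ⋙ T ⟶ 𝟭 𝒯) (hev : ∀ Y, W₁ (ev.app Y))
    (R : 𝒢 ⥤ 𝒢) (p : R ⟶ 𝟭 𝒢) (q : R ⟶ T ⋙ P)
    (hp : ∀ X, W₂ (p.app X)) (hq : ∀ X, W₂ (q.app X))
    (h : W₁.IsInvertedBy (P ⋙ W₂.Q)) :
    (Localization.Construction.lift (P ⋙ W₂.Q) h).IsEquivalence := by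
  have hT' : W₂.IsInvertedBy (T ⋙ W₁.Q) := fun X Y f hf =>
    Localization.inverts W₁.Q W₁ (T.map f) (hT X Y f hf)
  let P' := Localization.Construction.lift (P ⋙ W₂.Q) h
  let T' := Localization.Construction.lift (T ⋙ W₁.Q) hT'
  have facP : W₁.Q ⋙ P' = P ⋙ W₂.Q := Localization.Construction.fac _ _
  have facT : W₂.Q ⋙ T' = T ⋙ W₁.Q := Localization.Construction.fac _ _
  let _ : Localization.Lifting W₁.Q W₁ (P ⋙ W₂.Q) P' := ⟨eqToIso facP⟩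
  let _ : Localization.Lifting W₂.Q W₂ (T ⋙ W₁.Q) T' := ⟨eqToIso facT⟩
  -- natural isomorphisms obtained from weak equivalences
  have i1 : ∀ Y, IsIso ((Functor.whiskerRight ev W₁.Q).app Y) := fun Y =>
    Localization.inverts W₁.Q W₁ (ev.app Y) (hev Y)
  have i2 : ∀ X, IsIso ((Functor.whiskerRight p W₂.Q).app X) := fun X =>
    Localization.inverts W₂.Q W₂ (p.app X) (hp X)
  have i3 : ∀ X, IsIso ((Functor.whiskerRight q W₂.Q).app X) := fun X =>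
    Localization.inverts W₂.Q W₂ (q.app X) (hq X)
  have : IsIso (Functor.whiskerRight ev W₁.Q) := NatIso.isIso_of_isIso_app _
  have : IsIso (Functor.whiskerRight p W₂.Q) := NatIso.isIso_of_isIso_app _
  have : IsIso (Functor.whiskerRight q W₂.Q) := NatIso.isIso_of_isIso_app _
  let e1 : (P ⋙ T) ⋙ W₁.Q ≅ 𝟭 𝒯 ⋙ W₁.Q := asIso (Functor.whiskerRight ev W₁.Q)
  let e2 : R ⋙ W₂.Q ≅ 𝟭 𝒢 ⋙ W₂.Q := asIso (Functor.whiskerRight p W₂.Q)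
  let e3 : R ⋙ W₂.Q ≅ (T ⋙ P) ⋙ W₂.Q := asIso (Functor.whiskerRight q W₂.Q)
  let α : (P ⋙ W₂.Q) ⋙ T' ≅ W₁.Q :=
    Functor.associator _ _ _ ≪≫ Functor.isoWhiskerLeft P (eqToIso facT) ≪≫
      (Functor.associator _ _ _).symm ≪≫ e1 ≪≫ Functor.leftUnitor _
  let β : (T ⋙ W₁.Q) ⋙ P' ≅ W₂.Q :=
    Functor.associator _ _ _ ≪≫ Functor.isoWhiskerLeft T (eqToIso facP) ≪≫
      (Functor.associator _ _ _).symm ≪≫ e3.symm ≪≫ e2 ≪≫ Functor.leftUnitor _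
  exact Localization.isEquivalence W₁.Q W₁ W₂.Q W₂ (P ⋙ W₂.Q) P' (T ⋙ W₁.Q) T' α β

end Vale.Agent.P259
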