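import Vale.Agent.Lib.P259.EvWhe
import Vale.Agent.Lib.P259.LocEquiv
import Vale.Agent.Lib.P259.DiscExists

/-!
# P259, module G9: the homotopy hypothesis, from the data `QData`
-/

namespace Vale.Agent.P259

open CategoryTheory Limits Topology Set Opposite

variable {C : Coherator} {D : DiscFunctor C.C}

theorem DiscFunctor.weq_Pi (D : DiscFunctor C.C) {X Y : Top'} (f : X ⟶ Y) (hf : whe f) :
    C.weq (D.Pi.map f) :=
  (weq_Pi_iff D f).2 hf

theorem DiscFunctor.inverts (D : DiscFunctor C.C) : whe.IsInvertedBy (D.Pi ⋙ C.weq.Q) :=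
  fun _ _ f hf => Localization.inverts C.weq.Q C.weq (D.Pi.map f) (D.weq_Pi f hf)

theorem QData.isEquivalence (𝒬 : QData C D) (h : whe.IsInvertedBy (D.Pi ⋙ C.weq.Q)) :
    (D.Ho h).IsEquivalence := by
  obtain ⟨M⟩ := 𝒬.exists_cylFun
  exact isEquivalence_of_zigzag whe C.weq D.Pi 𝒬.Q (fun X Y f hf => D.weq_Pi f hf)
    (fun X Y f hf => QData.whe_Q M f hf) 𝒬.ev (QData.whe_ev M) (QData.PP M) (QData.pOne M)
    (QData.pTwo M) (QData.weq_pOne M) (QData.weq_pTwo M) h

/-- The homotopy hypothesis, given the realization data for all disc functors. -/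
theorem homotopyHypothesis_of_qData (C : Coherator)
    (hQ : ∀ D : DiscFunctor C.C, Nonempty (QData C D)) : HomotopyHypothesis C := by
  refine ⟨C.exists_discFunctor, fun D => ?_⟩
  obtain ⟨𝒬⟩ := hQ D
  exact ⟨fun X Y f hf => D.weq_Pi f hf, D.inverts, 𝒬.isEquivalence D.inverts⟩

end Vale.Agent.P259
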