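import Vale.Agent.Lib.P259.Chain
namespace Vale.Agent.P259
open CategoryTheory
namespace Ch

variable {C D : Type} [Category.{0} C] [Category.{0} D]

/-! ### adding the first or the last object of a bigger chain -/

/-- `σ ∪ {min τ}` for `σ ≤ τ` -/
noncomputable def addBot {σ τ : Ch C} (h : σ ≤ τ) : Ch C where
  G := {x | x ∈ τ.G ∧ (x.i = τ.ib ∨ ∃ y ∈ σ.G, y.i = x.i) ∧ (x.j = τ.ib ∨ ∃ y ∈ σ.G, y.i = x.j)}
  fin := τ.fin.subset fun _ hx => hx.1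
  ib := τ.ib
  it := σ.it
  bot := τ.bot
  top := σ.top
  mem_bot := ⟨τ.mem_bot, Or.inl rfl, Or.inl rfl⟩
  mem_top := ⟨h σ.mem_top, Or.inr ⟨_, σ.mem_top, rfl⟩, Or.inr ⟨_, σ.mem_top, rfl⟩⟩
  bounds := fun x hx => by
    obtain ⟨h1, h2, h3⟩ := τ.bounds x hx.1
    refine ⟨h1, h2, ?_⟩
    rcases hx.2.2 with h4 | ⟨y, hy, h4⟩
    · rw [h4]; exact (ib_le h).trans (ib_le_it σ)
    · rw [← h4]
      obtain ⟨_, h5, h6⟩ := σ.bounds y hy
      exact h5.trans h6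
  mem_src := fun x hx => ⟨τ.mem_src x hx.1, hx.2.1, hx.2.1⟩
  mem_tgt := fun x hx => ⟨τ.mem_tgt x hx.1, hx.2.2, hx.2.2⟩
  uniq := fun x hx y hy => τ.uniq x hx.1 y hy.1
  total := fun x hx y hy hxy => by
    obtain ⟨f, hf⟩ := τ.total x hx.1 y hy.1 hxy
    exact ⟨f, hf, hx.2.1, hy.2.1⟩
  comp := fun f g hf hg => ⟨τ.comp f g hf.1 hg.1, hf.2.1, hg.2.2⟩

/-- `σ ∪ {max τ}` for `σ ≤ τ` -/
noncomputable def addTop {σ τ : Ch C} (h : σ ≤ τ) : Ch C where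
  G := {x | x ∈ τ.G ∧ (x.i = τ.it ∨ ∃ y ∈ σ.G, y.i = x.i) ∧ (x.j = τ.it ∨ ∃ y ∈ σ.G, y.i = x.j)}
  fin := τ.fin.subset fun _ hx => hx.1
  ib := σ.ib
  it := τ.it
  bot := σ.bot
  top := τ.top
  mem_bot := ⟨h σ.mem_bot, Or.inr ⟨_, σ.mem_bot, rfl⟩, Or.inr ⟨_, σ.mem_bot, rfl⟩⟩
  mem_top := ⟨τ.mem_top, Or.inl rfl, Or.inl rfl⟩
  bounds := fun x hx => by
    obtain ⟨h1, h2, h3⟩ := τ.bounds x hx.1
    refine ⟨?_, h2, h3⟩
    rcases hx.2.1 with h4 | ⟨y, hy, h4⟩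
    · rw [h4]; exact (ib_le_it σ).trans (it_le h)
    · rw [← h4]
      exact (σ.bounds y hy).1
  mem_src := fun x hx => ⟨τ.mem_src x hx.1, hx.2.1, hx.2.1⟩
  mem_tgt := fun x hx => ⟨τ.mem_tgt x hx.1, hx.2.2, hx.2.2⟩
  uniq := fun x hx y hy => τ.uniq x hx.1 y hy.1
  total := fun x hx y hy hxy => by
    obtain ⟨f, hf⟩ := τ.total x hx.1 y hy.1 hxy
    exact ⟨f, hf, hx.2.1, hy.2.1⟩
  comp := fun f g hf hg => ⟨τ.comp f g hf.1 hg.1, hf.2.1, hg.2.2⟩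

section add
variable {σ τ : Ch C} (h : σ ≤ τ)
theorem le_addBot : σ ≤ addBot h := fun x hx =>
  ⟨h hx, Or.inr ⟨x, hx, rfl⟩, Or.inr ⟨_, σ.mem_tgt x hx, rfl⟩⟩
theorem addBot_le : addBot h ≤ τ := fun _ hx => hx.1
theorem botVtx_le_addBot : vtx τ.ib τ.bot ≤ addBot h := by
  intro x hx
  have hx' : x = ⟨τ.ib, τ.ib, τ.bot, τ.bot, 𝟙 τ.bot⟩ := hx
  rw [hx']
  exact (addBot h).mem_bot
theorem topHom_le_addBot : topHom (le_addBot h) = 𝟙 σ.top :=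
  hom_unique (addBot h) (topHom_mem (le_addBot h)) (addBot h).mem_top
theorem botHom_le_addBot : botHom (le_addBot h) = botHom h :=
  hom_unique τ (addBot_le h (botHom_mem (le_addBot h))) (botHom_mem h)
theorem topHom_addBot_le : topHom (addBot_le h) = topHom h :=
  hom_unique τ (topHom_mem (addBot_le h)) (topHom_mem h)
theorem topHom_botVtx_le_addBot : topHom (botVtx_le_addBot h) = botHom h ≫ σ.mm :=
  hom_unique τ (addBot_le h (topHom_mem (botVtx_le_addBot h)))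
    (τ.comp _ _ (botHom_mem h) (h (mm_mem σ)))
theorem le_addTop : σ ≤ addTop h := fun x hx =>
  ⟨h hx, Or.inr ⟨x, hx, rfl⟩, Or.inr ⟨_, σ.mem_tgt x hx, rfl⟩⟩
theorem addTop_le : addTop h ≤ τ := fun _ hx => hx.1
theorem topVtx_le_addTop : vtx τ.it τ.top ≤ addTop h := by
  intro x hx
  have hx' : x = ⟨τ.it, τ.it, τ.top, τ.top, 𝟙 τ.top⟩ := hx
  rw [hx']
  exact (addTop h).mem_top
theorem botHom_le_addTop : botHom (le_addTop h) = 𝟙 σ.bot :=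
  hom_unique (addTop h) (botHom_mem (le_addTop h)) (addTop h).mem_bot
theorem topHom_le_addTop : topHom (le_addTop h) = topHom h :=
  hom_unique τ (addTop_le h (topHom_mem (le_addTop h))) (topHom_mem h)
theorem botHom_addTop_le : botHom (addTop_le h) = botHom h :=
  hom_unique τ (botHom_mem (addTop_le h)) (botHom_mem h)
theorem topHom_addTop_le : topHom (addTop_le h) = 𝟙 τ.top :=
  hom_unique τ (topHom_mem (addTop_le h)) τ.mem_top
theorem botHom_topVtx_le_addTop : botHom (topVtx_le_addTop h) = σ.mm ≫ topHom h :=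
  hom_unique τ (addTop_le h (botHom_mem (topVtx_le_addTop h)))
    (τ.comp _ _ (h (mm_mem σ)) (topHom_mem h))
theorem addBot_mono {σ' : Ch C} (h' : σ' ≤ σ) : addBot (h'.trans h) ≤ addBot h := by
  rintro x ⟨hx, h1, h2⟩
  refine ⟨hx, ?_, ?_⟩
  · rcases h1 with h1 | ⟨y, hy, h1⟩
    · exact Or.inl h1
    · exact Or.inr ⟨y, h' hy, h1⟩
  · rcases h2 with h2 | ⟨y, hy, h2⟩
    · exact Or.inl h2
    · exact Or.inr ⟨y, h' hy, h2⟩
theorem topHom_addBot_mono {σ' : Ch C} (h' : σ' ≤ σ) : topHom (addBot_mono h h') = topHom h' :=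
  hom_unique (addBot h) (topHom_mem (addBot_mono h h')) (le_addBot h (topHom_mem h'))
theorem addTop_mono {σ' : Ch C} (h' : σ' ≤ σ) : addTop (h'.trans h) ≤ addTop h := by
  rintro x ⟨hx, h1, h2⟩
  refine ⟨hx, ?_, ?_⟩
  · rcases h1 with h1 | ⟨y, hy, h1⟩
    · exact Or.inl h1
    · exact Or.inr ⟨y, h' hy, h1⟩
  · rcases h2 with h2 | ⟨y, hy, h2⟩
    · exact Or.inl h2
    · exact Or.inr ⟨y, h' hy, h2⟩
theorem botHom_addTop_mono {σ' : Ch C} (h' : σ' ≤ σ) : botHom (addTop_mono h h') = botHom h' :=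
  hom_unique (addTop h) (botHom_mem (addTop_mono h h')) (le_addTop h (botHom_mem h'))
theorem topHom_addTop_mono {σ' : Ch C} (h' : σ' ≤ σ) :
    topHom (addTop_mono h h') = 𝟙 τ.top :=
  hom_unique (addTop h) (topHom_mem (addTop_mono h h')) (addTop h).mem_top
end add

end Ch

end Vale.Agent.P259
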