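import Vale.Agent.Lib.P259.Chain
namespace Vale.Agent.P259
open CategoryTheory
namespace Ch

variable {C D : Type} [Category.{0} C] [Category.{0} D]

/-! ### adding a first or a last object -/

/-- the labelled arrows of `cons` -/
def consG (σ : Ch C) (q : ℚ) (a : C) (f : a ⟶ σ.bot) : Set (LArr C) :=
  {x | x ∈ σ.G ∨ x = ⟨q, q, a, a, 𝟙 a⟩ ∨ ∃ (j : ℚ) (b : C) (g : σ.bot ⟶ b),
    (⟨σ.ib, j, σ.bot, b, g⟩ : LArr C) ∈ σ.G ∧ x = ⟨q, j, a, b, f ≫ g⟩}

section consG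
variable (σ : Ch C) (q : ℚ) (a : C) (f : a ⟶ σ.bot)

theorem consG_finite : (consG σ q a f).Finite := by
  classical
  have h1 : consG σ q a f ⊆ σ.G ∪ ({⟨q, q, a, a, 𝟙 a⟩} ∪
      (fun x : LArr C => if h : σ.bot = x.a then
        (⟨q, x.j, a, x.b, f ≫ eqToHom h ≫ x.f⟩ : LArr C) else x) '' σ.G) := by
    rintro x (hx | hx | ⟨j, b, g, hg, hx⟩)
    · exact Or.inl hx
    · exact Or.inr (Or.inl hx)
    · refine Or.inr (Or.inr ⟨_, hg, ?_⟩)
      simp [hx]
  exact (σ.fin.union ((Set.finite_singleton _).union (σ.fin.image _))).subset h1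

theorem mem_consG_id : (⟨q, q, a, a, 𝟙 a⟩ : LArr C) ∈ consG σ q a f := Or.inr (Or.inl rfl)

theorem mem_consG_comp {j : ℚ} {b : C} {g : σ.bot ⟶ b} {k : a ⟶ b}
    (h : (⟨σ.ib, j, σ.bot, b, g⟩ : LArr C) ∈ σ.G) (hk : f ≫ g = k) :
    (⟨q, j, a, b, k⟩ : LArr C) ∈ consG σ q a f :=
  Or.inr (Or.inr ⟨j, b, g, h, by rw [hk]⟩)

variable (hq : q < σ.ib)
include hq

theorem consG_bounds (x : LArr C) (hx : x ∈ consG σ q a f) :
    q ≤ x.i ∧ x.i ≤ x.j ∧ x.j ≤ σ.it := by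
  rcases hx with hx | rfl | ⟨j, b, g, hg, rfl⟩
  · obtain ⟨h1, h2, h3⟩ := σ.bounds x hx
    exact ⟨by linarith, h2, h3⟩
  · have := (σ.bounds _ σ.mem_bot).2.2
    exact ⟨le_rfl, le_rfl, hq.le.trans this⟩
  · obtain ⟨h1, h2, h3⟩ := σ.bounds _ hg
    exact ⟨le_rfl, hq.le.trans h2, h3⟩

omit hq in
theorem consG_src (x : LArr C) (hx : x ∈ consG σ q a f) :
    (⟨x.i, x.i, x.a, x.a, 𝟙 x.a⟩ : LArr C) ∈ consG σ q a f := by
  rcases hx with hx | rfl | ⟨j, b, g, hg, rfl⟩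
  · exact Or.inl (σ.mem_src x hx)
  · exact mem_consG_id σ q a f
  · exact mem_consG_id σ q a f

omit hq in
theorem consG_tgt (x : LArr C) (hx : x ∈ consG σ q a f) :
    (⟨x.j, x.j, x.b, x.b, 𝟙 x.b⟩ : LArr C) ∈ consG σ q a f := by
  rcases hx with hx | rfl | ⟨j, b, g, hg, rfl⟩
  · exact Or.inl (σ.mem_tgt x hx)
  · exact mem_consG_id σ q a f
  · exact Or.inl (σ.mem_tgt ⟨σ.ib, j, σ.bot, b, g⟩ hg)

theorem consG_uniq (x : LArr C) (hx : x ∈ consG σ q a f) (y : LArr C) (hy : y ∈ consG σ q a f)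
    (hi : x.i = y.i) (hj : x.j = y.j) : x = y := by
  rcases hx with hx | rfl | ⟨j, b, g, hg, rfl⟩
  · have h1 := (σ.bounds x hx).1
    rcases hy with hy | rfl | ⟨j', b', g', hg', rfl⟩
    · exact σ.uniq x hx y hy hi hj
    · simp only at hi
      linarith
    · simp only at hi
      linarith
  · rcases hy with hy | rfl | ⟨j', b', g', hg', rfl⟩
    · have h1 := (σ.bounds y hy).1
      simp only at hi
      linarith
    · rfl
    · have h1 := (σ.bounds _ hg').2.1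
      simp only at hj h1
      linarith
  · rcases hy with hy | rfl | ⟨j', b', g', hg', rfl⟩
    · have h1 := (σ.bounds y hy).1
      simp only at hi
      linarith
    · have h1 := (σ.bounds _ hg).2.1
      simp only at hj h1
      linarith
    · have h1 := σ.uniq _ hg _ hg' rfl hj
      cases h1
      rfl

theorem consG_total (x : LArr C) (hx : x ∈ consG σ q a f) (y : LArr C) (hy : y ∈ consG σ q a f)
    (hi : x.i ≤ y.i) : ∃ k : x.a ⟶ y.a, (⟨x.i, y.i, x.a, y.a, k⟩ : LArr C) ∈ consG σ q a f := by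
  have key : ∃ k : a ⟶ y.a, (⟨q, y.i, a, y.a, k⟩ : LArr C) ∈ consG σ q a f := by
    rcases hy with hy | rfl | ⟨j', b', g', hg', rfl⟩
    · obtain ⟨g, hg⟩ := σ.total _ σ.mem_bot y hy (σ.bounds y hy).1
      exact ⟨f ≫ g, mem_consG_comp σ q a f hg rfl⟩
    · exact ⟨𝟙 a, mem_consG_id σ q a f⟩
    · exact ⟨𝟙 a, mem_consG_id σ q a f⟩
  rcases hx with hx | rfl | ⟨j, b, g, hg, rfl⟩
  · have h1 := (σ.bounds x hx).1
    rcases hy with hy | rfl | ⟨j', b', g', hg', rfl⟩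
    · obtain ⟨g, hg⟩ := σ.total x hx y hy hi
      exact ⟨g, Or.inl hg⟩
    · simp only at hi
      linarith
    · simp only at hi
      linarith
  · exact key
  · exact key

theorem consG_comp {i j k : ℚ} {x y z : C} (u : x ⟶ y) (v : y ⟶ z)
    (hu : (⟨i, j, x, y, u⟩ : LArr C) ∈ consG σ q a f)
    (hv : (⟨j, k, y, z, v⟩ : LArr C) ∈ consG σ q a f) :
    (⟨i, k, x, z, u ≫ v⟩ : LArr C) ∈ consG σ q a f := by
  rcases hu with hu | hu | ⟨j', b', g', hg', hu⟩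
  · have h1 := σ.bounds _ hu
    simp only at h1
    rcases hv with hv | hv | ⟨j'', b'', g'', hg'', hv⟩
    · exact Or.inl (σ.comp u v hu hv)
    · have := congrArg LArr.i hv
      simp only at this
      linarith
    · have := congrArg LArr.i hv
      simp only at this
      linarith
  · cases hu
    rw [Category.id_comp]
    exact hv
  · cases hu
    have h1 := σ.bounds _ hg'
    simp only at h1
    rcases hv with hv | hv | ⟨j'', b'', g'', hg'', hv⟩
    · exact mem_consG_comp σ q a f (σ.comp g' v hg' hv) (Category.assoc _ _ _).symm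
    · have := congrArg LArr.i hv
      simp only at this
      linarith
    · have := congrArg LArr.i hv
      simp only at this
      linarith

end consG

/-- the chain `a ⟶ σ` with `a` at label `q` -/
noncomputable def cons (σ : Ch C) (q : ℚ) (hq : q < σ.ib) (a : C) (f : a ⟶ σ.bot) : Ch C where
  G := {x | x ∈ σ.G ∨ x = ⟨q, q, a, a, 𝟙 a⟩ ∨ ∃ (j : ℚ) (b : C) (g : σ.bot ⟶ b),
    (⟨σ.ib, j, σ.bot, b, g⟩ : LArr C) ∈ σ.G ∧ x = ⟨q, j, a, b, f ≫ g⟩}
  fin := consG_finite σ q a f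
  ib := q
  it := σ.it
  bot := a
  top := σ.top
  mem_bot := mem_consG_id σ q a f
  mem_top := Or.inl σ.mem_top
  bounds := consG_bounds σ q a f hq
  mem_src := consG_src σ q a f
  mem_tgt := consG_tgt σ q a f
  uniq := consG_uniq σ q a f hq
  total := consG_total σ q a f hq
  comp := consG_comp σ q a f hq

section cons
variable (σ : Ch C) (q : ℚ) (hq : q < σ.ib) (a : C) (f : a ⟶ σ.bot)
theorem le_cons : σ ≤ σ.cons q hq a f := fun _ hx => Or.inl hx
theorem vtx_le_cons : vtx q a ≤ σ.cons q hq a f := by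
  intro x hx
  have hx' : x = ⟨q, q, a, a, 𝟙 a⟩ := hx
  exact Or.inr (Or.inl hx')
theorem botHom_le_cons : botHom (σ.le_cons q hq a f) = f :=
  hom_unique (σ.cons q hq a f) (botHom_mem (σ.le_cons q hq a f))
    (mem_consG_comp σ q a f σ.mem_bot (Category.comp_id f))
theorem topHom_le_cons : topHom (σ.le_cons q hq a f) = 𝟙 σ.top :=
  hom_unique (σ.cons q hq a f) (topHom_mem (σ.le_cons q hq a f)) (Or.inl σ.mem_top)
theorem botHom_vtx_le_cons : botHom (σ.vtx_le_cons q hq a f) = 𝟙 a :=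
  hom_unique (σ.cons q hq a f) (botHom_mem (σ.vtx_le_cons q hq a f)) (mem_consG_id σ q a f)
theorem topHom_vtx_le_cons : topHom (σ.vtx_le_cons q hq a f) = f ≫ σ.mm :=
  hom_unique (σ.cons q hq a f) (topHom_mem (σ.vtx_le_cons q hq a f))
    (mem_consG_comp σ q a f σ.mm_mem rfl)
theorem cons_mm : (σ.cons q hq a f).mm = f ≫ σ.mm :=
  hom_unique (σ.cons q hq a f) (mm_mem (σ.cons q hq a f))
    (mem_consG_comp σ q a f σ.mm_mem rfl)
end cons
theorem cons_le_cons {σ τ : Ch C} (h : σ ≤ τ) (q : ℚ) (hq : q < τ.ib) (a : C) (f : a ⟶ τ.bot) :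
    σ.cons q (hq.trans_le (ib_le h)) a (f ≫ botHom h) ≤ τ.cons q hq a f := by
  rintro x (hx | hx | ⟨j, b, g, hg, hx⟩)
  · exact Or.inl (h hx)
  · exact Or.inr (Or.inl hx)
  · subst hx
    exact mem_consG_comp τ q a f (τ.comp (botHom h) g (botHom_mem h) (h hg))
      (Category.assoc _ _ _).symm
theorem topHom_cons_le_cons {σ τ : Ch C} (h : σ ≤ τ) (q : ℚ) (hq : q < τ.ib) (a : C)
    (f : a ⟶ τ.bot) : topHom (cons_le_cons h q hq a f) = topHom h :=
  hom_unique (τ.cons q hq a f) (topHom_mem (cons_le_cons h q hq a f)) (Or.inl (topHom_mem h))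
theorem botHom_cons_le_cons {σ τ : Ch C} (h : σ ≤ τ) (q : ℚ) (hq : q < τ.ib) (a : C)
    (f : a ⟶ τ.bot) : botHom (cons_le_cons h q hq a f) = 𝟙 a :=
  hom_unique (τ.cons q hq a f) (botHom_mem (cons_le_cons h q hq a f)) (mem_consG_id τ q a f)

/-- the labelled arrows of `snoc` -/
def snocG (σ : Ch C) (q : ℚ) (a : C) (f : σ.top ⟶ a) : Set (LArr C) :=
  {x | x ∈ σ.G ∨ x = ⟨q, q, a, a, 𝟙 a⟩ ∨ ∃ (i : ℚ) (b : C) (g : b ⟶ σ.top),
    (⟨i, σ.it, b, σ.top, g⟩ : LArr C) ∈ σ.G ∧ x = ⟨i, q, b, a, g ≫ f⟩}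

section snocG
variable (σ : Ch C) (q : ℚ) (a : C) (f : σ.top ⟶ a)

theorem snocG_finite : (snocG σ q a f).Finite := by
  classical
  have h1 : snocG σ q a f ⊆ σ.G ∪ ({⟨q, q, a, a, 𝟙 a⟩} ∪
      (fun x : LArr C => if h : x.b = σ.top then
        (⟨x.i, q, x.a, a, x.f ≫ eqToHom h ≫ f⟩ : LArr C) else x) '' σ.G) := by
    rintro x (hx | hx | ⟨i, b, g, hg, hx⟩)
    · exact Or.inl hx
    · exact Or.inr (Or.inl hx)
    · refine Or.inr (Or.inr ⟨_, hg, ?_⟩)
      simp [hx]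
  exact (σ.fin.union ((Set.finite_singleton _).union (σ.fin.image _))).subset h1

theorem mem_snocG_id : (⟨q, q, a, a, 𝟙 a⟩ : LArr C) ∈ snocG σ q a f := Or.inr (Or.inl rfl)

theorem mem_snocG_comp {i : ℚ} {b : C} {g : b ⟶ σ.top} {k : b ⟶ a}
    (h : (⟨i, σ.it, b, σ.top, g⟩ : LArr C) ∈ σ.G) (hk : g ≫ f = k) :
    (⟨i, q, b, a, k⟩ : LArr C) ∈ snocG σ q a f :=
  Or.inr (Or.inr ⟨i, b, g, h, by rw [hk]⟩)

variable (hq : σ.it < q)
include hq

theorem snocG_bounds (x : LArr C) (hx : x ∈ snocG σ q a f) :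
    σ.ib ≤ x.i ∧ x.i ≤ x.j ∧ x.j ≤ q := by
  rcases hx with hx | rfl | ⟨i, b, g, hg, rfl⟩
  · obtain ⟨h1, h2, h3⟩ := σ.bounds x hx
    exact ⟨h1, h2, by linarith⟩
  · have := (σ.bounds _ σ.mem_top).1
    exact ⟨this.trans hq.le, le_rfl, le_rfl⟩
  · obtain ⟨h1, h2, h3⟩ := σ.bounds _ hg
    exact ⟨h1, h2.trans hq.le, le_rfl⟩

omit hq in
theorem snocG_src (x : LArr C) (hx : x ∈ snocG σ q a f) :
    (⟨x.i, x.i, x.a, x.a, 𝟙 x.a⟩ : LArr C) ∈ snocG σ q a f := by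
  rcases hx with hx | rfl | ⟨i, b, g, hg, rfl⟩
  · exact Or.inl (σ.mem_src x hx)
  · exact mem_snocG_id σ q a f
  · exact Or.inl (σ.mem_src ⟨i, σ.it, b, σ.top, g⟩ hg)

omit hq in
theorem snocG_tgt (x : LArr C) (hx : x ∈ snocG σ q a f) :
    (⟨x.j, x.j, x.b, x.b, 𝟙 x.b⟩ : LArr C) ∈ snocG σ q a f := by
  rcases hx with hx | rfl | ⟨i, b, g, hg, rfl⟩
  · exact Or.inl (σ.mem_tgt x hx)
  · exact mem_snocG_id σ q a f
  · exact mem_snocG_id σ q a f

theorem snocG_uniq (x : LArr C) (hx : x ∈ snocG σ q a f) (y : LArr C) (hy : y ∈ snocG σ q a f)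
    (hi : x.i = y.i) (hj : x.j = y.j) : x = y := by
  rcases hx with hx | rfl | ⟨i, b, g, hg, rfl⟩
  · have h1 := (σ.bounds x hx).2.2
    rcases hy with hy | rfl | ⟨i', b', g', hg', rfl⟩
    · exact σ.uniq x hx y hy hi hj
    · simp only at hj
      linarith
    · simp only at hj
      linarith
  · rcases hy with hy | rfl | ⟨i', b', g', hg', rfl⟩
    · have h1 := (σ.bounds y hy).2.2
      simp only at hj
      linarith
    · rfl
    · have h1 := (σ.bounds _ hg').2.1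
      simp only at hi h1
      linarith
  · rcases hy with hy | rfl | ⟨i', b', g', hg', rfl⟩
    · have h1 := (σ.bounds y hy).2.2
      simp only at hj
      linarith
    · have h1 := (σ.bounds _ hg).2.1
      simp only at hi h1
      linarith
    · have h1 := σ.uniq _ hg _ hg' hi rfl
      cases h1
      rfl

theorem snocG_total (x : LArr C) (hx : x ∈ snocG σ q a f) (y : LArr C) (hy : y ∈ snocG σ q a f)
    (hi : x.i ≤ y.i) : ∃ k : x.a ⟶ y.a, (⟨x.i, y.i, x.a, y.a, k⟩ : LArr C) ∈ snocG σ q a f := by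
  have key : ∀ x ∈ σ.G, ∃ k : x.a ⟶ a, (⟨x.i, q, x.a, a, k⟩ : LArr C) ∈ snocG σ q a f := by
    intro x hx
    obtain ⟨g, hg⟩ := σ.total x hx _ σ.mem_top ((σ.bounds x hx).2.1.trans (σ.bounds x hx).2.2)
    exact ⟨g ≫ f, mem_snocG_comp σ q a f hg rfl⟩
  rcases hx with hx | rfl | ⟨i, b, g, hg, rfl⟩
  · rcases hy with hy | rfl | ⟨i', b', g', hg', rfl⟩
    · obtain ⟨g, hg⟩ := σ.total x hx y hy hi
      exact ⟨g, Or.inl hg⟩
    · exact key x hx
    · obtain ⟨g, hg⟩ := σ.total x hx _ hg' hi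
      exact ⟨g, Or.inl hg⟩
  · rcases hy with hy | rfl | ⟨i', b', g', hg', rfl⟩
    · have h1 := (σ.bounds y hy).2
      simp only at hi
      linarith
    · exact ⟨𝟙 a, mem_snocG_id σ q a f⟩
    · have h1 := (σ.bounds _ hg').2.1
      simp only at hi h1
      linarith
  · rcases hy with hy | rfl | ⟨i', b', g', hg', rfl⟩
    · obtain ⟨g, hg⟩ := σ.total _ hg y hy hi
      exact ⟨g, Or.inl hg⟩
    · exact key ⟨i, σ.it, b, σ.top, g⟩ hg
    · obtain ⟨g, hg⟩ := σ.total _ hg _ hg' hi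
      exact ⟨g, Or.inl hg⟩

theorem snocG_comp {i j k : ℚ} {x y z : C} (u : x ⟶ y) (v : y ⟶ z)
    (hu : (⟨i, j, x, y, u⟩ : LArr C) ∈ snocG σ q a f)
    (hv : (⟨j, k, y, z, v⟩ : LArr C) ∈ snocG σ q a f) :
    (⟨i, k, x, z, u ≫ v⟩ : LArr C) ∈ snocG σ q a f := by
  rcases hv with hv | hv | ⟨i', b', g', hg', hv⟩
  · have h1 := σ.bounds _ hv
    simp only at h1
    rcases hu with hu | hu | ⟨i'', b'', g'', hg'', hu⟩
    · exact Or.inl (σ.comp u v hu hv)
    · have := congrArg LArr.j hu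
      simp only at this
      linarith
    · have := congrArg LArr.j hu
      simp only at this
      linarith
  · cases hv
    rw [Category.comp_id]
    exact hu
  · cases hv
    have h1 := σ.bounds _ hg'
    simp only at h1
    rcases hu with hu | hu | ⟨i'', b'', g'', hg'', hu⟩
    · exact mem_snocG_comp σ q a f (σ.comp u g' hu hg') (Category.assoc _ _ _)
    · have := congrArg LArr.j hu
      simp only at this
      linarith
    · have := congrArg LArr.j hu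
      simp only at this
      linarith

end snocG

/-- the chain `σ ⟶ a` with `a` at label `q` -/
noncomputable def snoc (σ : Ch C) (q : ℚ) (hq : σ.it < q) (a : C) (f : σ.top ⟶ a) : Ch C where
  G := {x | x ∈ σ.G ∨ x = ⟨q, q, a, a, 𝟙 a⟩ ∨ ∃ (i : ℚ) (b : C) (g : b ⟶ σ.top),
    (⟨i, σ.it, b, σ.top, g⟩ : LArr C) ∈ σ.G ∧ x = ⟨i, q, b, a, g ≫ f⟩}
  fin := snocG_finite σ q a f
  ib := σ.ib
  it := q
  bot := σ.bot
  top := a
  mem_bot := Or.inl σ.mem_bot
  mem_top := mem_snocG_id σ q a f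
  bounds := snocG_bounds σ q a f hq
  mem_src := snocG_src σ q a f
  mem_tgt := snocG_tgt σ q a f
  uniq := snocG_uniq σ q a f hq
  total := snocG_total σ q a f hq
  comp := snocG_comp σ q a f hq

section snoc
variable (σ : Ch C) (q : ℚ) (hq : σ.it < q) (a : C) (f : σ.top ⟶ a)
theorem le_snoc : σ ≤ σ.snoc q hq a f := fun _ hx => Or.inl hx
theorem vtx_le_snoc : vtx q a ≤ σ.snoc q hq a f := by
  intro x hx
  have hx' : x = ⟨q, q, a, a, 𝟙 a⟩ := hx
  exact Or.inr (Or.inl hx')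
theorem topHom_le_snoc : topHom (σ.le_snoc q hq a f) = f :=
  hom_unique (σ.snoc q hq a f) (topHom_mem (σ.le_snoc q hq a f))
    (mem_snocG_comp σ q a f σ.mem_top (Category.id_comp f))
theorem botHom_le_snoc : botHom (σ.le_snoc q hq a f) = 𝟙 σ.bot :=
  hom_unique (σ.snoc q hq a f) (botHom_mem (σ.le_snoc q hq a f)) (Or.inl σ.mem_bot)
theorem topHom_vtx_le_snoc : topHom (σ.vtx_le_snoc q hq a f) = 𝟙 a :=
  hom_unique (σ.snoc q hq a f) (topHom_mem (σ.vtx_le_snoc q hq a f)) (mem_snocG_id σ q a f)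
theorem botHom_vtx_le_snoc : botHom (σ.vtx_le_snoc q hq a f) = σ.mm ≫ f :=
  hom_unique (σ.snoc q hq a f) (botHom_mem (σ.vtx_le_snoc q hq a f))
    (mem_snocG_comp σ q a f σ.mm_mem rfl)
theorem snoc_mm : (σ.snoc q hq a f).mm = σ.mm ≫ f :=
  hom_unique (σ.snoc q hq a f) (mm_mem (σ.snoc q hq a f))
    (mem_snocG_comp σ q a f σ.mm_mem rfl)
end snoc
theorem snoc_le_snoc {σ τ : Ch C} (h : σ ≤ τ) (q : ℚ) (hq : τ.it < q) (a : C) (f : τ.top ⟶ a) :
    σ.snoc q ((it_le h).trans_lt hq) a (topHom h ≫ f) ≤ τ.snoc q hq a f := by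
  rintro x (hx | hx | ⟨i, b, g, hg, hx⟩)
  · exact Or.inl (h hx)
  · exact Or.inr (Or.inl hx)
  · subst hx
    exact mem_snocG_comp τ q a f (τ.comp g (topHom h) (h hg) (topHom_mem h))
      (Category.assoc _ _ _)
theorem topHom_snoc_le_snoc {σ τ : Ch C} (h : σ ≤ τ) (q : ℚ) (hq : τ.it < q) (a : C)
    (f : τ.top ⟶ a) : topHom (snoc_le_snoc h q hq a f) = 𝟙 a :=
  hom_unique (τ.snoc q hq a f) (topHom_mem (snoc_le_snoc h q hq a f)) (mem_snocG_id τ q a f)
theorem botHom_snoc_le_snoc {σ τ : Ch C} (h : σ ≤ τ) (q : ℚ) (hq : τ.it < q) (a : C)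
    (f : τ.top ⟶ a) : botHom (snoc_le_snoc h q hq a f) = botHom h :=
  hom_unique (τ.snoc q hq a f) (botHom_mem (snoc_le_snoc h q hq a f)) (Or.inl (botHom_mem h))

end Ch

end Vale.Agent.P259
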