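import Vale.Agent.Lib.P259.Chain
namespace Vale.Agent.P259
open CategoryTheory
namespace Ch

variable {C D : Type} [Category.{0} C] [Category.{0} D]

/-! ### images under functors and relabelling -/

/-- image under a functor, with labels changed by a strictly monotone map -/
noncomputable def map (F : C ⥤ D) (ρ : ℚ → ℚ) (hρ : StrictMono ρ) (σ : Ch C) : Ch D where
  G := (fun x : LArr C => (⟨ρ x.i, ρ x.j, F.obj x.a, F.obj x.b, F.map x.f⟩ : LArr D)) '' σ.G
  fin := σ.fin.image _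
  ib := ρ σ.ib
  it := ρ σ.it
  bot := F.obj σ.bot
  top := F.obj σ.top
  mem_bot := ⟨_, σ.mem_bot, by simp⟩
  mem_top := ⟨_, σ.mem_top, by simp⟩
  bounds := by
    rintro _ ⟨x, hx, rfl⟩
    obtain ⟨h1, h2, h3⟩ := σ.bounds x hx
    exact ⟨hρ.monotone h1, hρ.monotone h2, hρ.monotone h3⟩
  mem_src := by
    rintro _ ⟨x, hx, rfl⟩
    exact ⟨_, σ.mem_src x hx, by simp⟩
  mem_tgt := by
    rintro _ ⟨x, hx, rfl⟩
    exact ⟨_, σ.mem_tgt x hx, by simp⟩
  uniq := by
    rintro _ ⟨x, hx, rfl⟩ _ ⟨y, hy, rfl⟩ hi hj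
    have h := σ.uniq x hx y hy (hρ.injective hi) (hρ.injective hj)
    rw [h]
  total := by
    rintro _ ⟨x, hx, rfl⟩ _ ⟨y, hy, rfl⟩ hi
    obtain ⟨f, hf⟩ := σ.total x hx y hy (hρ.le_iff_le.1 hi)
    exact ⟨F.map f, ⟨_, hf, rfl⟩⟩
  comp := by
    rintro i j k a b c f g ⟨⟨xi, xj, xa, xb, xf⟩, hx, hxe⟩ ⟨⟨yi, yj, ya, yb, yf⟩, hy, hye⟩
    simp only [LArr.mk.injEq] at hxe hye
    obtain ⟨rfl, rfl, rfl, rfl, hf⟩ := hxe
    obtain ⟨hji, rfl, hb, rfl, hg⟩ := hye
    have hji' : yi = xj := hρ.injective hji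
    subst hji'
    have h1 := σ.mem_tgt _ hx
    have h2 := σ.mem_src _ hy
    have h3 := σ.uniq _ h1 _ h2 rfl rfl
    simp only [LArr.mk.injEq] at h3
    obtain ⟨-, -, rfl, -, -⟩ := h3
    obtain rfl := eq_of_heq hf
    obtain rfl := eq_of_heq hg
    refine ⟨_, σ.comp xf yf hx hy, ?_⟩
    simp

section map
variable (F : C ⥤ D) (ρ : ℚ → ℚ) (hρ : StrictMono ρ)
theorem map_mono {σ τ : Ch C} (h : σ ≤ τ) : map F ρ hρ σ ≤ map F ρ hρ τ :=
  le_def.2 (Set.image_mono h)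
theorem topHom_map_mono {σ τ : Ch C} (h : σ ≤ τ) :
    topHom (map_mono F ρ hρ h) = F.map (topHom h) :=
  hom_unique (map F ρ hρ τ) (topHom_mem (map_mono F ρ hρ h)) ⟨_, topHom_mem h, rfl⟩
theorem botHom_map_mono {σ τ : Ch C} (h : σ ≤ τ) :
    botHom (map_mono F ρ hρ h) = F.map (botHom h) :=
  hom_unique (map F ρ hρ τ) (botHom_mem (map_mono F ρ hρ h)) ⟨_, botHom_mem h, rfl⟩
theorem map_mm (σ : Ch C) : (map F ρ hρ σ).mm = F.map σ.mm :=
  hom_unique (map F ρ hρ σ) (mm_mem (map F ρ hρ σ)) ⟨_, mm_mem σ, rfl⟩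
end map


/-- a strictly monotone relabelling with positive values -/
def rho (q : ℚ) : ℚ := if q ≤ 0 then 1 / (1 - q) else 1 + q
theorem rho_strictMono : StrictMono rho := by
  intro p q hpq
  unfold rho
  by_cases hp : p ≤ 0
  · rw [if_pos hp]
    by_cases hq : q ≤ 0
    · rw [if_pos hq]
      apply one_div_lt_one_div_of_lt <;> linarith
    · rw [if_neg hq]
      have h1 : 1 / (1 - p) ≤ 1 := by
        rw [div_le_one (by linarith)]; linarith
      push Not at hq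
      linarith
  · rw [if_neg hp]
    push Not at hp
    have hq : ¬ q ≤ 0 := by push Not; linarith
    rw [if_neg hq]
    linarith
theorem rho_pos (q : ℚ) : 0 < rho q := by
  unfold rho
  by_cases hq : q ≤ 0
  · rw [if_pos hq]
    apply one_div_pos.2; linarith
  · rw [if_neg hq]
    push Not at hq
    linarith

end Ch

end Vale.Agent.P259
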