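import Vale.Agent.Lib.P259.Charts
import Vale.Agent.Lib.P259.Approx
namespace Vale.Agent.P259
open Set Topology
variable {X Y Z B : Type*} [TopologicalSpace X] [TopologicalSpace Y] [TopologicalSpace Z]

/-! ## auxiliary lemmas : lifting over cells -/

namespace Cell
variable {n : ℕ}

theorem bd_subset_cl (e : Cell n) : e.bd ⊆ e.cl := sdiff_subset

theorem bd_eq_iUnion (e : Cell n) :
    e.bd = ⋃ e' ∈ {e' : Cell n | e' ≠ e ∧ e'.cl ⊆ e.cl}, e'.cl := by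
  ext x
  rw [mem_bd_iff]
  simp only [mem_ofPred_eq, mem_iUnion, exists_prop, and_assoc]

theorem isClosed_bd {N : ℕ} (e : Cell n) (he : e ∈ K n N) : IsClosed e.bd := by
  rw [bd_eq_iUnion]
  refine Set.Finite.isClosed_biUnion ?_ fun e' _ => isClosed_cl e'
  exact (K_finite n N).subset fun e' he' => K_face he he'.2

/-- the lifting lemma over cells -/
theorem lift_cells {N : ℕ} (C C₀ : Set (Cell n)) (hCK : C ⊆ K n N)
    (hC : ∀ e ∈ C, ∀ e' : Cell n, e'.cl ⊆ e.cl → e' ∈ C)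
    (hC₀ : ∀ e ∈ C₀, ∀ e' : Cell n, e'.cl ⊆ e.cl → e' ∈ C₀)
    (A : Cell n → Set X) (hA : ∀ e ∈ C, ∀ e' : Cell n, e'.cl ⊆ e.cl → A e' ⊆ A e)
    (hE : ∀ e ∈ C, e ∉ C₀ → Ext e.F.card (A e))
    (f₀ : (Fin n → ℝ) → X) (h₀ : ∀ e ∈ C₀, ContinuousOn f₀ e.cl ∧ MapsTo f₀ e.cl (A e)) :
    ∃ g : (Fin n → ℝ) → X, (∀ e ∈ C, ContinuousOn g e.cl ∧ MapsTo g e.cl (A e)) ∧
      ∀ e ∈ C₀, EqOn g f₀ e.cl := by
  refine induction C C₀ hC hC₀ (fun e f => ContinuousOn f e.cl ∧ MapsTo f e.cl (A e))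
    ?_ f₀ h₀ ?_
  · rintro e f g hfg ⟨h1, h2⟩
    exact ⟨h1.congr fun x hx => (hfg hx).symm, h2.congr hfg⟩
  · intro e he he0 f hf
    have hcont : ContinuousOn f e.bd := by
      rw [bd_eq_iUnion]
      exact continuousOn_of_cells' N _ (fun e' he' => K_face (hCK he) he'.2) f
        fun e' he' => (hf e' he'.1 he'.2).1
    have hmap : MapsTo f e.bd (A e) := by
      intro x hx
      obtain ⟨e', h1, h2, h3⟩ := (mem_bd_iff e x).1 hx
      exact hA e he e' h2 ((hf e' h1 h2).2 h3)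
    obtain ⟨g, hg1, hg2, hg3⟩ := ext_cell e (hE e he he0) f hcont hmap
    exact ⟨g, hg3, hg1, hg2⟩

/-- the homotopy version of the lifting lemma over cells -/
theorem lift_prism {N : ℕ} (C C₀ : Set (Cell n)) (hCK : C ⊆ K n N)
    (hC : ∀ e ∈ C, ∀ e' : Cell n, e'.cl ⊆ e.cl → e' ∈ C)
    (hC₀ : ∀ e ∈ C₀, ∀ e' : Cell n, e'.cl ⊆ e.cl → e' ∈ C₀)
    (A : Cell n → Set X) (hA : ∀ e ∈ C, ∀ e' : Cell n, e'.cl ⊆ e.cl → A e' ⊆ A e)
    (hE : ∀ e ∈ C, e ∉ C₀ → Ext (e.F.card + 1) (A e))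
    (u v : (Fin n → ℝ) → X) (hu : ∀ e ∈ C, ContinuousOn u e.cl ∧ MapsTo u e.cl (A e))
    (hv : ∀ e ∈ C, ContinuousOn v e.cl ∧ MapsTo v e.cl (A e))
    (H₀ : (Fin n → ℝ) × ℝ → X)
    (h₀ : ∀ e ∈ C₀, ContinuousOn H₀ (e.cl ×ˢ uI) ∧ MapsTo H₀ (e.cl ×ˢ uI) (A e) ∧
      (∀ x ∈ e.cl, H₀ (x, 0) = u x) ∧ ∀ x ∈ e.cl, H₀ (x, 1) = v x) :
    ∃ H : (Fin n → ℝ) × ℝ → X, (∀ e ∈ C, ContinuousOn H (e.cl ×ˢ uI) ∧
      MapsTo H (e.cl ×ˢ uI) (A e) ∧ (∀ x ∈ e.cl, H (x, 0) = u x) ∧ ∀ x ∈ e.cl, H (x, 1) = v x) ∧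
      ∀ e ∈ C₀, EqOn H H₀ (e.cl ×ˢ uI) := by
  classical
  let S : Cell n → ((Fin n → ℝ) → (ℝ → X)) → Prop := fun e f =>
    ContinuousOn (fun p : (Fin n → ℝ) × ℝ => f p.1 p.2) (e.cl ×ˢ uI) ∧
      MapsTo (fun p : (Fin n → ℝ) × ℝ => f p.1 p.2) (e.cl ×ˢ uI) (A e) ∧
      (∀ x ∈ e.cl, f x 0 = u x) ∧ ∀ x ∈ e.cl, f x 1 = v x
  have loc : ∀ e f g, EqOn f g e.cl → S e f → S e g := by
    rintro e f g hfg ⟨h1, h2, h3, h4⟩
    have hEq : EqOn (fun p : (Fin n → ℝ) × ℝ => f p.1 p.2)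
        (fun p : (Fin n → ℝ) × ℝ => g p.1 p.2) (e.cl ×ˢ uI) := by
      rintro ⟨x, t⟩ ⟨hx, ht⟩
      exact congrFun (hfg hx) t
    refine ⟨h1.congr hEq.symm, h2.congr hEq, fun x hx => ?_, fun x hx => ?_⟩
    · rw [← hfg hx]; exact h3 x hx
    · rw [← hfg hx]; exact h4 x hx
  suffices ext : ∀ e ∈ C, e ∉ C₀ → ∀ f, (∀ e' : Cell n, e' ≠ e → e'.cl ⊆ e.cl → S e' f) →
      ∃ g, EqOn g f e.bd ∧ S e g by
    obtain ⟨g, hg1, hg2⟩ := induction (T := ℝ → X) C C₀ hC hC₀ S loc (fun x t => H₀ (x, t)) h₀ ext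
    refine ⟨fun p => g p.1 p.2, hg1, ?_⟩
    rintro e he ⟨x, t⟩ ⟨hx, ht⟩
    exact congrFun (hg2 e he hx) t
  intro e he he0 f hf
  · have hbdcl : IsClosed e.bd := isClosed_bd e (hCK he)
    have hcont : ContinuousOn (fun p : (Fin n → ℝ) × ℝ => f p.1 p.2) (e.bd ×ˢ uI) := by
      rw [bd_eq_iUnion]
      exact continuousOn_of_cells N _ (fun e' he' => K_face (hCK he) he'.2) uI _
        fun e' he' => (hf e' he'.1 he'.2).1
    have hmap : MapsTo (fun p : (Fin n → ℝ) × ℝ => f p.1 p.2) (e.bd ×ˢ uI) (A e) := by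
      rintro ⟨x, t⟩ ⟨hx, ht⟩
      obtain ⟨e', h1, h2, h3⟩ := (mem_bd_iff e x).1 hx
      exact hA e he e' h2 ((hf e' h1 h2).2.1 (⟨h3, ht⟩ : (x, t) ∈ e'.cl ×ˢ uI))
    have hbd0 : ∀ x ∈ e.bd, f x 0 = u x := by
      intro x hx
      obtain ⟨e', h1, h2, h3⟩ := (mem_bd_iff e x).1 hx
      exact (hf e' h1 h2).2.2.1 x h3
    have hbd1 : ∀ x ∈ e.bd, f x 1 = v x := by
      intro x hx
      obtain ⟨e', h1, h2, h3⟩ := (mem_bd_iff e x).1 hx
      exact (hf e' h1 h2).2.2.2 x h3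
    let F : (Fin n → ℝ) × ℝ → X := fun p => if p.2 = 0 then u p.1 else if p.2 = 1 then v p.1
      else f p.1 p.2
    have hF0 : ∀ x, F (x, 0) = u x := fun x => by simp [F]
    have hF1 : ∀ x, F (x, 1) = v x := fun x => by simp [F]
    have hFb : ∀ x ∈ e.bd, ∀ t, F (x, t) = f x t := by
      intro x hx t
      by_cases h0 : t = 0
      · subst h0; rw [hF0, hbd0 x hx]
      by_cases h1 : t = 1
      · subst h1; rw [hF1, hbd1 x hx]
      simp [F, h0, h1]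
    have c0 : ContinuousOn F (e.cl ×ˢ ({0} : Set ℝ)) := by
      have : ContinuousOn (fun p : (Fin n → ℝ) × ℝ => u p.1) (e.cl ×ˢ ({0} : Set ℝ)) :=
        (hu e he).1.comp continuousOn_fst fun p hp => hp.1
      refine this.congr ?_
      rintro ⟨x, t⟩ ⟨hx, ht⟩
      rw [mem_singleton_iff] at ht
      change t = 0 at ht
      subst ht
      exact hF0 x
    have c1 : ContinuousOn F (e.cl ×ˢ ({1} : Set ℝ)) := by
      have : ContinuousOn (fun p : (Fin n → ℝ) × ℝ => v p.1) (e.cl ×ˢ ({1} : Set ℝ)) :=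
        (hv e he).1.comp continuousOn_fst fun p hp => hp.1
      refine this.congr ?_
      rintro ⟨x, t⟩ ⟨hx, ht⟩
      rw [mem_singleton_iff] at ht
      change t = 1 at ht
      subst ht
      exact hF1 x
    have c2 : ContinuousOn F (e.bd ×ˢ uI) := by
      refine hcont.congr ?_
      rintro ⟨x, t⟩ ⟨hx, ht⟩
      exact hFb x hx t
    have hcl : IsClosed (e.cl ×ˢ ({0, 1} : Set ℝ)) :=
      (isClosed_cl e).prod ((Set.finite_singleton (1 : ℝ)).insert 0).isClosed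
    have cF : ContinuousOn F (e.cl ×ˢ ({0, 1} : Set ℝ) ∪ e.bd ×ˢ uI) := by
      refine ContinuousOn.union_of_isClosed ?_ c2 hcl (hbdcl.prod isClosed_Icc)
      have : e.cl ×ˢ ({0, 1} : Set ℝ) = e.cl ×ˢ ({0} : Set ℝ) ∪ e.cl ×ˢ ({1} : Set ℝ) := by
        rw [← prod_union]; rfl
      rw [this]
      exact ContinuousOn.union_of_isClosed c0 c1 ((isClosed_cl e).prod isClosed_singleton)
        ((isClosed_cl e).prod isClosed_singleton)
    have mF : MapsTo F (e.cl ×ˢ ({0, 1} : Set ℝ) ∪ e.bd ×ˢ uI) (A e) := by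
      rintro ⟨x, t⟩ (⟨hx, ht⟩ | ⟨hx, ht⟩)
      · change x ∈ e.cl at hx
        change t = 0 ∨ t = 1 at ht
        rcases ht with rfl | rfl
        · rw [hF0]; exact (hu e he).2 hx
        · rw [hF1]; exact (hv e he).2 hx
      · rw [hFb x hx t]
        exact hmap (⟨hx, ht⟩ : (x, t) ∈ e.bd ×ˢ uI)
    obtain ⟨G, hG1, hG2, hG3⟩ := ext_prism_cell e (hE e he he0) F cF mF
    let g : (Fin n → ℝ) → (ℝ → X) := fun x => if x ∈ e.bd then f x else fun t => G (x, t)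
    have hg : EqOn G (fun p : (Fin n → ℝ) × ℝ => g p.1 p.2) (e.cl ×ˢ uI) := by
      rintro ⟨x, t⟩ ⟨hx, ht⟩
      by_cases hb : x ∈ e.bd
      · simp only [g, hb, if_true]
        rw [← hFb x hb t]
        exact hG3 (Or.inr ⟨hb, ht⟩)
      · simp only [g, hb, if_false]
    have h0m : (0 : ℝ) ∈ uI := ⟨le_rfl, zero_le_one⟩
    have h1m : (1 : ℝ) ∈ uI := ⟨zero_le_one, le_rfl⟩
    refine ⟨g, ?_, hG1.congr hg.symm, hG2.congr hg, ?_, ?_⟩
    · intro x hx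
      simp only [g, hx, if_true]
    · intro x hx
      have := hg (⟨hx, h0m⟩ : (x, (0 : ℝ)) ∈ e.cl ×ˢ uI)
      rw [← hF0 x]
      exact this.symm.trans (hG3 (Or.inl ⟨hx, Or.inl rfl⟩))
    · intro x hx
      have := hg (⟨hx, h1m⟩ : (x, (1 : ℝ)) ∈ e.cl ×ˢ uI)
      rw [← hF1 x]
      exact this.symm.trans (hG3 (Or.inl ⟨hx, Or.inr rfl⟩))

/-! scaling -/

theorem scl_mem_cube {N : ℕ} (hN : 0 < N) {e : Cell n} (he : e ∈ K n N) {x : Fin n → ℝ}
    (hx : x ∈ e.cl) : (fun i => x i / N) ∈ cube n := by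
  have hN' : (0 : ℝ) < N := by exact_mod_cast hN
  have h := (mem_Icc_iff N x).2 ⟨e, he, hx⟩
  refine ⟨fun i => div_nonneg (h.1 i) hN'.le, fun i => ?_⟩
  exact (div_le_one hN').2 (h.2 i)

theorem scl_mem_bdry {N : ℕ} (hN : 0 < N) {e : Cell n} (he : e ∈ L n N) {x : Fin n → ℝ}
    (hx : x ∈ e.cl) : (fun i => x i / N) ∈ bdry n := by
  have hN' : (0 : ℝ) < N := by exact_mod_cast hN
  obtain ⟨h1, i, hi⟩ := (mem_bdry_iff N x).2 ⟨e, he, hx⟩
  refine ⟨scl_mem_cube hN he.1 hx, i, ?_⟩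
  rcases hi with hi | hi
  · left; simp [hi]
  · right; change x i / N = 1; rw [hi]; exact div_self hN'.ne'

theorem scl_usc {N : ℕ} (hN : 0 < N) (x : Fin n → ℝ) :
    (fun i => (fun j => (N : ℝ) * x j) i / N) = x := by
  have hN' : (0 : ℝ) < N := by exact_mod_cast hN
  funext i
  exact mul_div_cancel_left₀ (x i) hN'.ne'

theorem usc_mem_K {N : ℕ} (hN : 0 < N) {x : Fin n → ℝ} (hx : x ∈ cube n) :
    ∃ e ∈ K n N, (fun i => (N : ℝ) * x i) ∈ e.cl := by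
  have hN' : (0 : ℝ) < N := by exact_mod_cast hN
  refine (mem_Icc_iff N _).1 ⟨fun i => mul_nonneg hN'.le (hx.1 i), fun i => ?_⟩
  exact mul_le_of_le_one_right hN'.le (hx.2 i)

theorem usc_mem_L {N : ℕ} (hN : 0 < N) {x : Fin n → ℝ} (hx : x ∈ bdry n) :
    ∃ e ∈ L n N, (fun i => (N : ℝ) * x i) ∈ e.cl := by
  have hN' : (0 : ℝ) < N := by exact_mod_cast hN
  obtain ⟨h1, i, hi⟩ := hx
  refine (mem_bdry_iff N _).1 ⟨(mem_Icc_iff N _).2 (usc_mem_K hN h1), i, ?_⟩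
  rcases hi with hi | hi
  · left; simp [hi]
  · right; simp [hi]

theorem cl_nonempty (e : Cell n) : ∃ x, x ∈ e.cl := by
  refine ⟨fun i => e.k i, fun i => ⟨fun _ => ⟨le_rfl, by linarith⟩, fun _ => rfl⟩⟩

theorem continuousOn_scl_comp {N : ℕ} {f : (Fin n → ℝ) → X} {s t : Set (Fin n → ℝ)}
    (hf : ContinuousOn f s) (h : ∀ x ∈ t, (fun i => x i / (N : ℝ)) ∈ s) :
    ContinuousOn (fun x : Fin n → ℝ => f (fun i => x i / N)) t := by
  refine hf.comp (Continuous.continuousOn ?_) h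
  exact continuous_pi fun i => (continuous_apply i).div_const _

theorem continuousOn_cube_of_cells {N : ℕ} (hN : 0 < N) {g : (Fin n → ℝ) → X}
    (h : ∀ e ∈ K n N, ContinuousOn g e.cl) :
    ContinuousOn (fun x : Fin n → ℝ => g (fun i => (N : ℝ) * x i)) (cube n) := by
  refine (continuousOn_of_cells' N (K n N) subset_rfl g h).comp (Continuous.continuousOn ?_) ?_
  · exact continuous_pi fun i => continuous_const.mul (continuous_apply i)
  · intro x hx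
    obtain ⟨e, he, hxe⟩ := usc_mem_K hN hx
    exact mem_biUnion he hxe

theorem continuousOn_bdry_of_cells {N : ℕ} (hN : 0 < N) {g : (Fin n → ℝ) → X}
    (h : ∀ e ∈ L n N, ContinuousOn g e.cl) :
    ContinuousOn (fun x : Fin n → ℝ => g (fun i => (N : ℝ) * x i)) (bdry n) := by
  refine (continuousOn_of_cells' N (L n N) (fun e he => he.1) g h).comp
    (Continuous.continuousOn ?_) ?_
  · exact continuous_pi fun i => continuous_const.mul (continuous_apply i)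
  · intro x hx
    obtain ⟨e, he, hxe⟩ := usc_mem_L hN hx
    exact mem_biUnion he hxe

theorem continuousOn_cube_prism_of_cells {N : ℕ} (hN : 0 < N) {g : (Fin n → ℝ) × ℝ → X}
    (h : ∀ e ∈ K n N, ContinuousOn g (e.cl ×ˢ uI)) :
    ContinuousOn (fun p : (Fin n → ℝ) × ℝ => g (fun i => (N : ℝ) * p.1 i, p.2))
      (cube n ×ˢ uI) := by
  refine (continuousOn_of_cells N (K n N) subset_rfl uI g h).comp (Continuous.continuousOn ?_) ?_
  · refine Continuous.prodMk ?_ continuous_snd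
    exact continuous_pi fun i => continuous_const.mul ((continuous_apply i).comp continuous_fst)
  · rintro ⟨x, t⟩ ⟨hx, ht⟩
    obtain ⟨e, he, hxe⟩ := usc_mem_K hN hx
    exact ⟨mem_biUnion he hxe, ht⟩

theorem continuousOn_bdry_prism_of_cells {N : ℕ} (hN : 0 < N) {g : (Fin n → ℝ) × ℝ → X}
    (h : ∀ e ∈ L n N, ContinuousOn g (e.cl ×ˢ uI)) :
    ContinuousOn (fun p : (Fin n → ℝ) × ℝ => g (fun i => (N : ℝ) * p.1 i, p.2))
      (bdry n ×ˢ uI) := by
  refine (continuousOn_of_cells N (L n N) (fun e he => he.1) uI g h).comp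
    (Continuous.continuousOn ?_) ?_
  · refine Continuous.prodMk ?_ continuous_snd
    exact continuous_pi fun i => continuous_const.mul ((continuous_apply i).comp continuous_fst)
  · rintro ⟨x, t⟩ ⟨hx, ht⟩
    obtain ⟨e, he, hxe⟩ := usc_mem_L hN hx
    exact ⟨mem_biUnion he hxe, ht⟩

end Cell

/-! ## T2 : lower-set (Alexandrov) targets (file T2.lean) -/
section
variable [Preorder B] [TopologicalSpace B] [Topology.IsLowerSet B]

theorem isCompact_cube (n : ℕ) : IsCompact (cube n) := isCompact_Icc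

theorem isCompact_bdry (n : ℕ) : IsCompact (bdry n) :=
  (isCompact_cube n).of_isClosed_subset (isClosed_bdry n) fun _ h => h.1

theorem bdry_subset_cube (n : ℕ) : bdry n ⊆ cube n := fun _ h => h.1

/-- the common step of `conn_source` and `isWE_of_fibers` -/
theorem lift_over_cube {n : ℕ} (f : X → B)
    (hfib : ∀ b, ∀ k ≤ n, Ext k (f ⁻¹' Iic b)) (a : (Fin n → ℝ) → X) (ha : ContinuousOn a (bdry n))
    (b : (Fin n → ℝ) → B) (hb : ContinuousOn b (cube n)) (hab : ∀ x ∈ bdry n, f (a x) = b x) :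
    ∃ (N : ℕ) (σ : Cell n → B) (g : (Fin n → ℝ) → X), 0 < N ∧
      (∀ e ∈ Cell.K n N, ∀ x ∈ e.cl, b (fun i => x i / N) ≤ σ e) ∧
      (∀ e ∈ Cell.K n N, ∀ e' : Cell n, e'.cl ⊆ e.cl → σ e' ≤ σ e) ∧
      (∀ e ∈ Cell.K n N, ContinuousOn g e.cl ∧ MapsTo g e.cl (f ⁻¹' Iic (σ e))) ∧
      ∀ e ∈ Cell.L n N, ∀ x ∈ e.cl, g x = a (fun i => x i / N) := by
  obtain ⟨N, σ, hN, h1, h2⟩ := approx (cube n) (isCompact_cube n) subset_rfl b hb
  have h1' : ∀ e ∈ Cell.K n N, ∀ x ∈ e.cl, b (fun i => x i / N) ≤ σ e :=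
    fun e he x hx => h1 e he x hx (Cell.scl_mem_cube hN he hx)
  have h2' : ∀ e ∈ Cell.K n N, ∀ e' : Cell n, e'.cl ⊆ e.cl → σ e' ≤ σ e := by
    intro e he e' he'
    obtain ⟨x, hx⟩ := Cell.cl_nonempty e'
    exact h2 e he e' he' ⟨x, hx, Cell.scl_mem_cube hN he (he' hx)⟩
  have h₀ : ∀ e ∈ Cell.L n N, ContinuousOn (fun x : Fin n → ℝ => a (fun i => x i / N)) e.cl ∧
      MapsTo (fun x : Fin n → ℝ => a (fun i => x i / N)) e.cl (f ⁻¹' Iic (σ e)) := by
    intro e he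
    refine ⟨Cell.continuousOn_scl_comp ha fun x hx => Cell.scl_mem_bdry hN he hx, fun x hx => ?_⟩
    change f (a _) ≤ σ e
    rw [hab _ (Cell.scl_mem_bdry hN he hx)]
    exact h1' e he.1 x hx
  obtain ⟨g, hg1, hg2⟩ := Cell.lift_cells (N := N) (Cell.K n N) (Cell.L n N) subset_rfl
    (fun e he e' he' => Cell.K_face he he') (fun e he e' he' => Cell.L_face he he')
    (fun e => f ⁻¹' Iic (σ e))
    (fun e he e' he' => preimage_mono (Iic_subset_Iic.2 (h2' e he e' he')))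
    (fun e _ _ => hfib (σ e) _ (Cell.card_le e)) (fun x => a (fun i => x i / N)) h₀
  exact ⟨N, σ, g, hN, h1', h2', hg1, fun e he x hx => hg2 e he hx⟩

theorem conn_source {m : ℕ} (f : X → B) (hf : Continuous f)
    (hfib : ∀ b, Conn m (f ⁻¹' Iic b)) (hB : Conn m (univ : Set B)) :
    Conn m (univ : Set X) := by
  refine ⟨⟨(hfib hB.1.some).1.some, mem_univ _⟩, ?_⟩
  intro n hn φ hφ _
  obtain ⟨G, hG1, _, hG3⟩ := hB.2 n hn (fun x => f (φ x)) (hf.comp_continuousOn hφ)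
    (fun _ _ => mem_univ _)
  obtain ⟨N, σ, g, hN, _, _, hg1, hg2⟩ := lift_over_cube f
    (fun b k hk => (hfib b).2 k (hk.trans hn)) φ hφ G hG1 (fun x hx => (hG3 hx).symm)
  refine ⟨fun x => g (fun i => (N : ℝ) * x i),
    Cell.continuousOn_cube_of_cells hN fun e he => (hg1 e he).1, fun _ _ => mem_univ _, ?_⟩
  intro x hx
  obtain ⟨e, he, hxe⟩ := Cell.usc_mem_L hN hx
  change g (fun i => (N : ℝ) * x i) = φ x
  rw [hg2 e he _ hxe, Cell.scl_usc hN x]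

theorem conn_target {m : ℕ} (f : X → B) (hf : Continuous f)
    (hfib : ∀ b, Conn m (f ⁻¹' Iic b)) (hX : Conn (m + 1) (univ : Set X)) :
    Conn (m + 1) (univ : Set B) := by
  classical
  haveI : Nonempty X := ⟨hX.1.some⟩
  refine ⟨⟨f hX.1.some, mem_univ _⟩, ?_⟩
  intro n hn φ hφ _
  obtain ⟨N, σ, hN, h1, h2⟩ := approx (bdry n) (isCompact_bdry n) (bdry_subset_cube n) φ hφ
  have h1' : ∀ e ∈ Cell.L n N, ∀ x ∈ e.cl, φ (fun i => x i / N) ≤ σ e :=
    fun e he x hx => h1 e he.1 x hx (Cell.scl_mem_bdry hN he hx)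
  have h2' : ∀ e ∈ Cell.L n N, ∀ e' : Cell n, e'.cl ⊆ e.cl → σ e' ≤ σ e := by
    intro e he e' he'
    obtain ⟨x, hx⟩ := Cell.cl_nonempty e'
    exact h2 e he.1 e' he' ⟨x, hx, Cell.scl_mem_bdry hN he (he' hx)⟩
  -- a lift of the boundary
  obtain ⟨x₀⟩ := ‹Nonempty X›
  have hnm : ∀ e ∈ Cell.L n N, e.F.card ≤ m := fun e he => by
    have := Cell.card_lt_of_mem_L he
    omega
  obtain ⟨g, hg1, -⟩ := Cell.lift_cells (N := N) (Cell.L n N) ∅ (fun e he => he.1)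
    (fun e he e' he' => Cell.L_face he he') (fun e he => absurd he (notMem_empty e))
    (fun e => f ⁻¹' Iic (σ e))
    (fun e he e' he' => preimage_mono (Iic_subset_Iic.2 (h2' e he e' he')))
    (fun e he _ => (hfib (σ e)).2 _ (hnm e he)) (fun _ => x₀) (fun e he => absurd he (notMem_empty e))
  -- extend it to the cube
  obtain ⟨g', hg'1, -, hg'3⟩ := hX.2 n hn (fun x => g (fun i => (N : ℝ) * x i))
    (Cell.continuousOn_bdry_of_cells hN fun e he => (hg1 e he).1) (fun _ _ => mem_univ _)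
  -- the homotopy on the boundary
  have hφc : ∀ e ∈ Cell.L n N, ContinuousOn (fun x : Fin n → ℝ => φ (fun i => x i / N)) e.cl :=
    fun e he => Cell.continuousOn_scl_comp hφ fun x hx => Cell.scl_mem_bdry hN he hx
  obtain ⟨H, hH1, -⟩ := Cell.lift_prism (N := N) (Cell.L n N) ∅ (fun e he => he.1)
    (fun e he e' he' => Cell.L_face he he') (fun e he => absurd he (notMem_empty e))
    (fun e => Iic (σ e)) (fun e he e' he' => Iic_subset_Iic.2 (h2' e he e' he'))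
    (fun e _ _ => (wcontr_Iic (σ e)).2 _) (fun x => f (g x)) (fun x => φ (fun i => x i / N))
    (fun e he => ⟨hf.comp_continuousOn (hg1 e he).1, fun x hx => (hg1 e he).2 hx⟩)
    (fun e he => ⟨hφc e he, fun x hx => h1' e he x hx⟩) (fun p => f x₀)
    (fun e he => absurd he (notMem_empty e))
  have hHc := Cell.continuousOn_bdry_prism_of_cells hN fun e he => (hH1 e he).1
  let F : (Fin n → ℝ) × ℝ → B := fun p => if p.2 = 0 then f (g' p.1) else
    H (fun i => (N : ℝ) * p.1 i, p.2)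
  have hF0 : ∀ x, F (x, 0) = f (g' x) := fun x => by simp [F]
  have hFb : ∀ x ∈ bdry n, ∀ t, F (x, t) = H (fun i => (N : ℝ) * x i, t) := by
    intro x hx t
    by_cases ht : t = 0
    · subst ht
      rw [hF0, hg'3 hx]
      obtain ⟨e, he, hxe⟩ := Cell.usc_mem_L hN hx
      exact ((hH1 e he).2.2.1 _ hxe).symm
    · simp [F, ht]
  have cF : ContinuousOn F (cube n ×ˢ {0} ∪ bdry n ×ˢ uI) := by
    refine ContinuousOn.union_of_isClosed ?_ ?_ (isClosed_Icc.prod isClosed_singleton)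
      ((isClosed_bdry n).prod isClosed_Icc)
    · have : ContinuousOn (fun p : (Fin n → ℝ) × ℝ => f (g' p.1)) (cube n ×ˢ ({0} : Set ℝ)) :=
        (hf.comp_continuousOn hg'1).comp continuousOn_fst fun p hp => hp.1
      refine this.congr ?_
      rintro ⟨x, t⟩ ⟨hx, ht⟩
      rw [mem_singleton_iff] at ht
      change t = 0 at ht
      subst ht
      exact hF0 x
    · refine hHc.congr ?_
      rintro ⟨x, t⟩ ⟨hx, ht⟩
      exact hFb x hx t
  obtain ⟨G, hG1, hG2, -⟩ := hep n F cF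
  have h1m : (1 : ℝ) ∈ uI := ⟨zero_le_one, le_rfl⟩
  refine ⟨fun x => G (x, 1), ?_, fun _ _ => mem_univ _, ?_⟩
  · exact hG1.comp (Continuous.prodMk_left 1).continuousOn fun x hx => ⟨hx, h1m⟩
  · intro x hx
    change G (x, 1) = φ x
    rw [hG2 (Or.inr ⟨hx, h1m⟩), hFb x hx 1]
    obtain ⟨e, he, hxe⟩ := Cell.usc_mem_L hN hx
    refine ((hH1 e he).2.2.2 _ hxe).trans ?_
    rw [Cell.scl_usc hN x]

theorem isWE_of_fibers (f : X → B) (hf : Continuous f) (hfib : ∀ b, WContr (f ⁻¹' Iic b)) :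
    IsWE f := by
  refine ⟨hf, fun ⟨b⟩ => ⟨(hfib b).1.some⟩, fun n a b ha hb hab => ?_⟩
  obtain ⟨N, σ, g, hN, h1, h2, hg1, hg2⟩ := lift_over_cube f
    (fun b k _ => (hfib b).2 k) a ha b hb hab
  have hga : ∀ x ∈ bdry n, g (fun i => (N : ℝ) * x i) = a x := by
    intro x hx
    obtain ⟨e, he, hxe⟩ := Cell.usc_mem_L hN hx
    rw [hg2 e he _ hxe, Cell.scl_usc hN x]
  have h₀ : ∀ e ∈ Cell.L n N,
      ContinuousOn (fun p : (Fin n → ℝ) × ℝ => b (fun i => p.1 i / N)) (e.cl ×ˢ uI) ∧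
      MapsTo (fun p : (Fin n → ℝ) × ℝ => b (fun i => p.1 i / N)) (e.cl ×ˢ uI) (Iic (σ e)) ∧
      (∀ x ∈ e.cl, (fun p : (Fin n → ℝ) × ℝ => b (fun i => p.1 i / N)) (x, 0) = f (g x)) ∧
      ∀ x ∈ e.cl, (fun p : (Fin n → ℝ) × ℝ => b (fun i => p.1 i / N)) (x, 1) =
        b (fun i => x i / N) := by
    intro e he
    have hc : ContinuousOn (fun x : Fin n → ℝ => b (fun i => x i / N)) e.cl :=
      Cell.continuousOn_scl_comp hb fun x hx => Cell.scl_mem_cube hN he.1 hx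
    refine ⟨hc.comp continuousOn_fst fun p hp => hp.1, fun p hp => h1 e he.1 p.1 hp.1, ?_, ?_⟩
    · intro x hx
      change b (fun i => x i / N) = f (g x)
      rw [hg2 e he x hx, hab _ (Cell.scl_mem_bdry hN he hx)]
    · intro x hx
      rfl
  obtain ⟨H, hH1, hH2⟩ := Cell.lift_prism (N := N) (Cell.K n N) (Cell.L n N) subset_rfl
    (fun e he e' he' => Cell.K_face he he') (fun e he e' he' => Cell.L_face he he')
    (fun e => Iic (σ e)) (fun e he e' he' => Iic_subset_Iic.2 (h2 e he e' he'))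
    (fun e _ _ => (wcontr_Iic (σ e)).2 _) (fun x => f (g x)) (fun x => b (fun i => x i / N))
    (fun e he => ⟨hf.comp_continuousOn (hg1 e he).1, fun x hx => (hg1 e he).2 hx⟩)
    (fun e he => ⟨Cell.continuousOn_scl_comp hb fun x hx => Cell.scl_mem_cube hN he hx,
      fun x hx => h1 e he x hx⟩) (fun p => b (fun i => p.1 i / N)) h₀
  · refine ⟨fun x => g (fun i => (N : ℝ) * x i), fun p => H (fun i => (N : ℝ) * p.1 i, p.2),
      Cell.continuousOn_cube_of_cells hN fun e he => (hg1 e he).1, hga,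
      Cell.continuousOn_cube_prism_of_cells hN fun e he => (hH1 e he).1, ?_, ?_, ?_⟩
    · intro x hx
      obtain ⟨e, he, hxe⟩ := Cell.usc_mem_K hN hx
      exact (hH1 e he).2.2.1 _ hxe
    · intro x hx
      obtain ⟨e, he, hxe⟩ := Cell.usc_mem_K hN hx
      refine ((hH1 e he).2.2.2 _ hxe).trans ?_
      rw [Cell.scl_usc hN x]
    · intro x hx t ht
      obtain ⟨e, he, hxe⟩ := Cell.usc_mem_L hN hx
      refine (hH2 e he (⟨hxe, ht⟩ : ((fun i => (N : ℝ) * x i), t) ∈ e.cl ×ˢ uI)).trans ?_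
      change b (fun i => (fun j => (N : ℝ) * x j) i / N) = b x
      rw [Cell.scl_usc hN x]

end

end Vale.Agent.P259
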