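import Vale.Agent.Lib.P259.TwoOfThree
import Vale.Agent.Lib.P259.T2
/-!
# P259, module P0: lower-set spaces: subspaces, cones, fences
-/
namespace Vale.Agent.P259
open Set Topology
variable {X Y : Type*} [TopologicalSpace X] [TopologicalSpace Y]

/-! ### subspaces -/

theorem ps_zero_mem_cube (n : ℕ) : (0 : Fin n → ℝ) ∈ cube n :=
  ⟨le_refl _, fun _ => zero_le_one⟩

/-- lifting a function with values in `A` on `s` to the subtype -/
theorem ps_lift {P : Type*} [TopologicalSpace P] {A : Set X} (hA : A.Nonempty) (s : Set P)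
    (f : P → X) (hf : ContinuousOn f s) (hfA : MapsTo f s A) :
    ∃ g : P → A, ContinuousOn g s ∧ ∀ x ∈ s, (g x : X) = f x := by
  classical
  refine ⟨fun x => if h : f x ∈ A then ⟨f x, h⟩ else ⟨hA.some, hA.some_mem⟩, ?_, ?_⟩
  · rw [Topology.IsInducing.subtypeVal.continuousOn_iff]
    refine hf.congr (fun x hx => ?_)
    simp only [Function.comp_apply, dif_pos (hfA hx)]
  · intro x hx
    simp only [dif_pos (hfA hx)]

theorem ext_subtype {A : Set X} (hA : A.Nonempty) (n : ℕ) :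
    Ext n A ↔ Ext n (univ : Set A) := by
  constructor
  · intro h f hf _
    obtain ⟨g, hg, hgA, hgE⟩ := h (fun x => (f x : X)) (continuous_subtype_val.comp_continuousOn hf)
      (fun x _ => (f x).2)
    obtain ⟨g', hg', hgg'⟩ := ps_lift hA (cube n) g hg hgA
    refine ⟨g', hg', fun _ _ => mem_univ _, fun x hx => Subtype.ext ?_⟩
    rw [hgg' x (tt_bdry_subset n hx)]
    exact hgE hx
  · intro h f hf hfA
    obtain ⟨f', hf', hff'⟩ := ps_lift hA (bdry n) f hf hfA
    obtain ⟨g, hg, _, hgE⟩ := h f' hf' (fun _ _ => mem_univ _)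
    refine ⟨fun x => (g x : X), continuous_subtype_val.comp_continuousOn hg,
      fun x _ => (g x).2, fun x hx => ?_⟩
    show (g x : X) = f x
    rw [hgE hx, hff' x hx]

theorem ps_nonempty_univ {A : Set X} : (univ : Set A).Nonempty ↔ A.Nonempty := by
  constructor
  · rintro ⟨x, _⟩
    exact ⟨x, x.2⟩
  · rintro ⟨x, hx⟩
    exact ⟨⟨x, hx⟩, mem_univ _⟩

theorem conn_subtype {A : Set X} (m : ℕ) : Conn m A ↔ Conn m (univ : Set A) := by
  unfold Conn
  rw [ps_nonempty_univ]
  constructor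
  · rintro ⟨hA, h⟩
    exact ⟨hA, fun n hn => (ext_subtype hA n).1 (h n hn)⟩
  · rintro ⟨hA, h⟩
    exact ⟨hA, fun n hn => (ext_subtype hA n).2 (h n hn)⟩

theorem wcontr_subtype {A : Set X} : WContr A ↔ WContr (univ : Set A) := by
  unfold WContr
  rw [ps_nonempty_univ]
  constructor
  · rintro ⟨hA, h⟩
    exact ⟨hA, fun n => (ext_subtype hA n).1 (h n)⟩
  · rintro ⟨hA, h⟩
    exact ⟨hA, fun n => (ext_subtype hA n).2 (h n)⟩

theorem compress_of_isWE {A A' : Set X} (h : A ⊆ A') (hw : IsWE (Set.inclusion h)) (n : ℕ) :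
    Compress n A A' := by
  intro a ha haA' haA
  have hA' : A'.Nonempty := ⟨a 0, haA' (ps_zero_mem_cube n)⟩
  have hA : A.Nonempty := by
    obtain ⟨x⟩ := hw.2.1 hA'.to_subtype
    exact ⟨x, x.2⟩
  obtain ⟨a₁, ha₁, hea₁⟩ := ps_lift hA (bdry n) a (ha.mono (tt_bdry_subset n)) haA
  obtain ⟨b, hb, heb⟩ := ps_lift hA' (cube n) a ha haA'
  obtain ⟨a', H, ha', haE, hH, hH0, hH1, hHb⟩ := hw.2.2 n a₁ b ha₁ hb (fun x hx => by
    apply Subtype.ext
    rw [heb x (tt_bdry_subset n hx), ← hea₁ x hx])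
  have hsub : ∀ t ∈ uI, 1 - t ∈ uI := fun t ht => ⟨by linarith [ht.2], by linarith [ht.1]⟩
  refine ⟨fun z => (H (z.1, 1 - z.2) : X), ?_, fun z _ => (H (z.1, 1 - z.2)).2, ?_, ?_, ?_⟩
  · apply continuous_subtype_val.comp_continuousOn
    apply hH.comp (t := cube n ×ˢ uI)
    · fun_prop
    · rintro ⟨x, t⟩ ⟨hx, ht⟩
      exact ⟨hx, hsub t ht⟩
  · intro x hx
    show (H (x, 1 - 0) : X) = a x
    rw [sub_zero, hH1 x hx, heb x hx]
  · intro x hx
    show (H (x, 1 - 1) : X) ∈ A
    rw [sub_self, hH0 x hx]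
    exact (a' x).2
  · intro x hx t ht
    show (H (x, 1 - t) : X) = a x
    rw [hHb x hx (1 - t) (hsub t ht), heb x (tt_bdry_subset n hx)]

theorem IsWE.nonempty_iff {f : X → Y} (hf : IsWE f) :
    (univ : Set X).Nonempty ↔ (univ : Set Y).Nonempty := by
  constructor
  · rintro ⟨x, _⟩
    exact ⟨f x, mem_univ _⟩
  · rintro ⟨y, _⟩
    obtain ⟨x⟩ := hf.2.1 ⟨y⟩
    exact ⟨x, mem_univ _⟩

theorem IsWE.conn_iff {f : X → Y} (hf : IsWE f) (m : ℕ) :
    Conn m (univ : Set X) ↔ Conn m (univ : Set Y) := by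
  unfold Conn
  rw [hf.nonempty_iff]
  simp only [hf.ext_iff]

theorem IsWE.wcontr_iff {f : X → Y} (hf : IsWE f) :
    WContr (univ : Set X) ↔ WContr (univ : Set Y) := by
  unfold WContr
  rw [hf.nonempty_iff]
  simp only [hf.ext_iff]

/-- two out of six -/
theorem ps_two_of_six {f : X → Y} {g : Y → X} (hfc : Continuous f) (hgc : Continuous g) {n : ℕ}
    (hgf : WE n (g ∘ f)) (hfg : WE (n + 1) (f ∘ g)) : WE n f := by
  intro a b ha hb hab
  obtain ⟨a', H', ha', haE, hH, hH0, hH1, hHb⟩ := hgf a (fun x => g (b x)) ha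
    (hgc.comp_continuousOn hb) (fun x hx => by
      show g (f (a x)) = g (b x)
      rw [hab x hx])
  have hk : ContinuousOn (fun z : (Fin n → ℝ) × ℝ => b z.1) (bdry n ×ˢ uI) :=
    (tt_const_homotopy hb).mono (prod_mono (tt_bdry_subset n) (subset_refl _))
  have hF := tt_glue_prism (n := n) (u := fun x => f (a' x)) (v := b) (k := fun z => b z.1)
    (hfc.comp_continuousOn ha') hb hk
    (fun x hx => by
      show b x = f (a' x)
      rw [haE hx, hab x hx])
    (fun x hx => rfl)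
  obtain ⟨K, hK, hKE⟩ := tt_WE_prism (n := n) hfg
    (fun z : (Fin n → ℝ) × ℝ => if z.2 = 0 then f (a' z.1) else if z.2 = 1 then b z.1 else b z.1)
    (fun z => f (H' z)) hF (hfc.comp_continuousOn hH) (by
      rintro ⟨x, t⟩ hz
      have hx : x ∈ cube n := by
        rcases hz with hz | hz
        · exact hz.1
        · exact tt_bdry_subset n hz.1
      by_cases h0 : t = 0
      · subst h0
        simp only [if_true, Function.comp_apply]
        rw [hH0 x hx]; rfl
      · by_cases h1 : t = 1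
        · subst h1
          simp only [if_true, Function.comp_apply, one_ne_zero, if_false]
          rw [hH1 x hx]
        · rcases hz with hz | hz
          · exfalso
            rcases hz.2 with h | h
            · exact h0 h
            · exact h1 h
          · simp only [h0, h1, if_false, Function.comp_apply]
            rw [hHb x hz.1 t hz.2])
  refine ⟨a', K, ha', haE, hK, ?_, ?_, ?_⟩
  · intro x hx
    rw [hKE (Or.inl ⟨hx, Or.inl rfl⟩)]
    simp
  · intro x hx
    rw [hKE (show (x, (1 : ℝ)) ∈ cube n ×ˢ ({0, 1} : Set ℝ) ∪ bdry n ×ˢ uI from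
      Or.inl ⟨hx, Or.inr rfl⟩)]
    simp
  · intro x hx t ht
    rw [hKE (Or.inr ⟨hx, ht⟩)]
    simp only
    split_ifs
    · rw [haE hx, hab x hx]
    · rfl
    · rfl

/-- homotopy equivalences are weak equivalences -/
theorem IsWE.of_homotopyEquiv (f : X → Y) (g : Y → X) (hf : Continuous f) (hg : Continuous g)
    (H : X × ℝ → X) (hH : ContinuousOn H (univ ×ˢ uI)) (h0 : ∀ x, H (x, 0) = g (f x))
    (h1 : ∀ x, H (x, 1) = x) (K : Y × ℝ → Y) (hK : ContinuousOn K (univ ×ˢ uI))
    (k0 : ∀ y, K (y, 0) = f (g y)) (k1 : ∀ y, K (y, 1) = y) : IsWE f := by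
  have hsub : ∀ t ∈ uI, 1 - t ∈ uI := fun t ht => ⟨by linarith [ht.2], by linarith [ht.1]⟩
  have hgf : IsWE (g ∘ f) := by
    refine IsWE.of_homotopy (IsWE.id) (fun z => H (z.1, 1 - z.2)) ?_ ?_ ?_
    · apply hH.comp (t := univ ×ˢ uI)
      · fun_prop
      · rintro ⟨x, t⟩ ⟨hx, ht⟩
        exact ⟨hx, hsub t ht⟩
    · intro x
      show H (x, 1 - 0) = x
      rw [sub_zero, h1]
    · intro x
      show H (x, 1 - 1) = g (f x)
      rw [sub_self, h0]
  have hfg : IsWE (f ∘ g) := by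
    refine IsWE.of_homotopy (IsWE.id) (fun z => K (z.1, 1 - z.2)) ?_ ?_ ?_
    · apply hK.comp (t := univ ×ˢ uI)
      · fun_prop
      · rintro ⟨x, t⟩ ⟨hx, ht⟩
        exact ⟨hx, hsub t ht⟩
    · intro x
      show K (x, 1 - 0) = x
      rw [sub_zero, k1]
    · intro x
      show K (x, 1 - 1) = f (g x)
      rw [sub_self, k0]
  exact ⟨hf, fun ⟨y⟩ => ⟨g y⟩, fun n => ps_two_of_six hf hg (hgf.2.2 n) (hfg.2.2 (n + 1))⟩

variable {A B : Type*} [PartialOrder A] [TopologicalSpace A] [Topology.IsLowerSet A]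
  [PartialOrder B] [TopologicalSpace B] [Topology.IsLowerSet B]

instance isLowerSet_subtype (S : Set B) : Topology.IsLowerSet S := by
  refine ⟨?_⟩
  ext U
  constructor
  · intro hU
    obtain ⟨V, hV, hVU⟩ := hU
    rw [Topology.IsLowerSet.isOpen_iff_isLowerSet] at hV
    show IsLowerSet U
    rw [← hVU]
    intro x y hyx hx
    exact hV hyx hx
  · intro hU
    have hU' : IsLowerSet U := hU
    refine ⟨(lowerClosure (Subtype.val '' U) : Set B), ?_, ?_⟩
    · rw [Topology.IsLowerSet.isOpen_iff_isLowerSet]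
      exact (lowerClosure (Subtype.val '' U)).lower
    · ext x
      constructor
      · intro hx
        obtain ⟨y, ⟨u, hu, rfl⟩, hxy⟩ := hx
        exact hU' (show x ≤ u from hxy) hu
      · intro hx
        exact ⟨x, ⟨x, hx, rfl⟩, le_refl _⟩

/-! ### fences -/

/-- five-term fence of maps -/
noncomputable def fence (f₀ f₁ f₂ f₃ f₄ : A → B) (z : A × ℝ) : B :=
  if z.2 < 1 / 3 then f₀ z.1 else if z.2 = 1 / 3 then f₁ z.1 else
    if z.2 < 2 / 3 then f₂ z.1 else if z.2 = 2 / 3 then f₃ z.1 else f₄ z.1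

theorem continuous_fence (f₀ f₁ f₂ f₃ f₄ : A → B) (h₀ : Monotone f₀) (h₁ : Monotone f₁)
    (h₂ : Monotone f₂) (h₃ : Monotone f₃) (h₄ : Monotone f₄) (h01 : ∀ x, f₀ x ≤ f₁ x)
    (h21 : ∀ x, f₂ x ≤ f₁ x) (h23 : ∀ x, f₂ x ≤ f₃ x) (h43 : ∀ x, f₄ x ≤ f₃ x) :
    Continuous (fence f₀ f₁ f₂ f₃ f₄) := by
  rw [continuous_iff_continuousAt]
  rintro ⟨x, t⟩
  rw [← continuousWithinAt_univ, continuousWithinAt_lower, nhdsWithin_univ]
  have key : ∀ s : Set ℝ, IsOpen s → t ∈ s →
      (∀ x' ≤ x, ∀ t' ∈ s, fence f₀ f₁ f₂ f₃ f₄ (x', t') ≤ fence f₀ f₁ f₂ f₃ f₄ (x, t)) →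
      ∀ᶠ y in 𝓝 (x, t), fence f₀ f₁ f₂ f₃ f₄ y ≤ fence f₀ f₁ f₂ f₃ f₄ (x, t) := by
    intro s hs hts hle
    rw [nhds_prod_eq]
    have h1 : ∀ᶠ x' in 𝓝 x, x' ≤ x := by
      rw [Topology.IsLowerSet.nhds_eq_principal_Iic]
      exact Filter.mem_principal_self _
    have h2 : ∀ᶠ t' in 𝓝 t, t' ∈ s := hs.mem_nhds hts
    filter_upwards [h1.prod_mk h2] with y hy
    exact hle y.1 hy.1 y.2 hy.2
  rcases lt_trichotomy t (1 / 3) with ht | ht | ht
  · refine key (Iio (1 / 3)) isOpen_Iio ht (fun x' hx' t' ht' => ?_)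
    simp only [fence, if_pos ht, if_pos (show t' < 1 / 3 from ht')]
    exact h₀ hx'
  · refine key (Ioo 0 (2 / 3)) isOpen_Ioo (by rw [ht]; constructor <;> norm_num)
      (fun x' hx' t' ht' => ?_)
    have e : fence f₀ f₁ f₂ f₃ f₄ (x, t) = f₁ x := by
      simp only [fence]; rw [if_neg (by rw [ht]; exact lt_irrefl _), if_pos ht]
    rw [e]
    simp only [fence]
    split_ifs with a1 a2 a3 a4
    · exact (h₀ hx').trans (h01 x)
    · exact h₁ hx'
    · exact (h₂ hx').trans (h21 x)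
    · exact absurd ht'.2 (by rw [a4]; exact lt_irrefl _)
    · exact absurd ht'.2 a3
  · rcases lt_trichotomy t (2 / 3) with ht2 | ht2 | ht2
    · refine key (Ioo (1 / 3) (2 / 3)) isOpen_Ioo ⟨ht, ht2⟩ (fun x' hx' t' ht' => ?_)
      have e : ∀ (y : A) (s : ℝ), s ∈ Ioo (1 / 3 : ℝ) (2 / 3) →
          fence f₀ f₁ f₂ f₃ f₄ (y, s) = f₂ y := by
        intro y s hs
        simp only [fence]
        rw [if_neg (not_lt.mpr hs.1.le), if_neg hs.1.ne', if_pos hs.2]
      rw [e _ _ ht', e _ _ ⟨ht, ht2⟩]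
      exact h₂ hx'
    · refine key (Ioo (1 / 3) 1) isOpen_Ioo ⟨ht, by rw [ht2]; norm_num⟩
        (fun x' hx' t' ht' => ?_)
      have e : fence f₀ f₁ f₂ f₃ f₄ (x, t) = f₃ x := by
        simp only [fence]
        rw [if_neg (not_lt.mpr ht.le), if_neg ht.ne', if_neg (by rw [ht2]; exact lt_irrefl _),
          if_pos ht2]
      rw [e]
      simp only [fence]
      rw [if_neg (not_lt.mpr ht'.1.le), if_neg ht'.1.ne']
      split_ifs with a3 a4
      · exact (h₂ hx').trans (h23 x)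
      · exact h₃ hx'
      · exact (h₄ hx').trans (h43 x)
    · refine key (Ioi (2 / 3)) isOpen_Ioi ht2 (fun x' hx' t' ht' => ?_)
      have e : ∀ (y : A) (s : ℝ), 2 / 3 < s → fence f₀ f₁ f₂ f₃ f₄ (y, s) = f₄ y := by
        intro y s hs
        simp only [fence]
        rw [if_neg (by linarith), if_neg (by intro h; linarith), if_neg (by linarith),
          if_neg (by intro h; linarith)]
      rw [e _ _ ht', e _ _ ht2]
      exact h₄ hx'

/-- `r : A → B` is a weak equivalence if it has a section `i` with a fence `id ≤ α ≥ i r`. -/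
theorem isWE_of_fence (r : A → B) (i : B → A) (α : A → A) (hr : Monotone r) (hi : Monotone i)
    (hα : Monotone α) (hri : ∀ b, r (i b) = b) (h1 : ∀ a, a ≤ α a) (h2 : ∀ a, i (r a) ≤ α a) :
    IsWE r := by
  refine IsWE.of_homotopyEquiv r i (Topology.IsLowerSet.monotone_iff_continuous.1 hr)
    (Topology.IsLowerSet.monotone_iff_continuous.1 hi)
    (fence (fun a => i (r a)) α id id id)
    (continuous_fence _ _ _ _ _ (hi.comp hr) hα monotone_id monotone_id monotone_id h2 h1
      (fun x => le_refl x) (fun x => le_refl x)).continuousOn ?_ ?_ (fun z => z.1)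
    continuous_fst.continuousOn ?_ ?_
  · intro x
    simp only [fence]
    rw [if_pos (by norm_num)]
  · intro x
    simp only [fence]
    rw [if_neg (by norm_num), if_neg (by norm_num), if_neg (by norm_num), if_neg (by norm_num)]
    rfl
  · intro y
    exact (hri y).symm
  · intro y
    rfl

/-- cone criterion: a lower-set space with finite `Iic`s in which every finite set is dominated by a
cone is weakly contractible -/
theorem wcontr_of_cone [Nonempty B] (hfin : ∀ b : B, (Iic b).Finite)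
    (h : ∀ V : Set B, V.Finite → ∃ (c : B) (φ : B → B), (∀ x ∈ V, x ≤ φ x ∧ c ≤ φ x) ∧
      ∀ x ∈ V, ∀ y ∈ V, x ≤ y → φ x ≤ φ y) : WContr (univ : Set B) := by
  classical
  refine ⟨univ_nonempty, fun n f hf _ => ?_⟩
  have hcomp : IsCompact (bdry n) :=
    (isCompact_Icc : IsCompact (cube n)).of_isClosed_subset (tt_isClosed_bdry n) (tt_bdry_subset n)
  have hloc : ∀ x ∈ bdry n, {y | f y ≤ f x} ∈ 𝓝[bdry n] x := by
    intro x hx
    have := hf x hx
    rw [continuousWithinAt_lower] at this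
    exact this
  obtain ⟨T, hT, hcov⟩ := hcomp.elim_nhdsWithin_subcover (fun x => {y | f y ≤ f x}) hloc
  obtain ⟨c, φ, hφ, hmono⟩ := h (⋃ x ∈ T, Iic (f x))
    (T.finite_toSet.biUnion (fun x _ => hfin (f x)))
  have hV : ∀ y ∈ bdry n, f y ∈ ⋃ x ∈ T, Iic (f x) := by
    intro y hy
    have := hcov hy
    simp only [mem_iUnion] at this ⊢
    obtain ⟨x, hx, hxy⟩ := this
    exact ⟨x, hx, hxy⟩
  set F : (Fin n → ℝ) × ℝ → B := fun z =>
    if z.2 < 1 / 2 then c else if z.2 = 1 / 2 then φ (f z.1) else f z.1 with hF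
  have hFc : ContinuousOn F (cube n ×ˢ {0} ∪ bdry n ×ˢ uI) := by
    rintro ⟨x, t⟩ hz
    rw [continuousWithinAt_lower]
    have key : ∀ s : Set ℝ, IsOpen s → t ∈ s →
        (∀ x' ∈ cube n, ∀ t' ∈ s, ((x', t') ∈ cube n ×ˢ ({0} : Set ℝ) ∪ bdry n ×ˢ uI) →
          (x ∈ bdry n → x' ∈ bdry n → f x' ≤ f x) → F (x', t') ≤ F (x, t)) →
        ∀ᶠ y in 𝓝[cube n ×ˢ {0} ∪ bdry n ×ˢ uI] (x, t), F y ≤ F (x, t) := by
      intro s hs hts hle
      have h2 : ∀ᶠ y in 𝓝[cube n ×ˢ {0} ∪ bdry n ×ˢ uI] (x, t), y.2 ∈ s :=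
        nhdsWithin_le_nhds (continuous_snd.continuousAt.eventually (hs.mem_nhds hts))
      have h3 : ∀ᶠ y in 𝓝[cube n ×ˢ {0} ∪ bdry n ×ˢ uI] (x, t),
          y ∈ cube n ×ˢ ({0} : Set ℝ) ∪ bdry n ×ˢ uI := eventually_mem_nhdsWithin
      have h4 : ∀ᶠ y in 𝓝[cube n ×ˢ {0} ∪ bdry n ×ˢ uI] (x, t),
          (x ∈ bdry n → y.1 ∈ bdry n → f y.1 ≤ f x) := by
        by_cases hx : x ∈ bdry n
        · have h5 := hloc x hx
          have h6 : ∀ᶠ x' in 𝓝 x, x' ∈ bdry n → f x' ≤ f x := eventually_nhdsWithin_iff.1 h5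
          have h8 : ∀ᶠ y : (Fin n → ℝ) × ℝ in 𝓝 (x, t), y.1 ∈ bdry n → f y.1 ≤ f x :=
            (continuous_fst.tendsto (x, t)).eventually h6
          have h7 : ∀ᶠ y in 𝓝[cube n ×ˢ {0} ∪ bdry n ×ˢ uI] (x, t),
              y.1 ∈ bdry n → f y.1 ≤ f x := nhdsWithin_le_nhds h8
          filter_upwards [h7] with y hy _ using hy
        · exact Filter.Eventually.of_forall (fun y hx' => absurd hx' hx)
      filter_upwards [h2, h3, h4] with y hy2 hy3 hy4
      have hyc : y.1 ∈ cube n := by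
        rcases hy3 with hy3 | hy3
        · exact hy3.1
        · exact tt_bdry_subset n hy3.1
      exact hle y.1 hyc y.2 hy2 hy3 hy4
    rcases lt_trichotomy t (1 / 2) with ht | ht | ht
    · refine key (Iio (1 / 2)) isOpen_Iio ht (fun x' _ t' ht' _ _ => ?_)
      simp only [hF, if_pos ht, if_pos (show t' < 1 / 2 from ht')]
      exact le_refl _
    · have hxb : x ∈ bdry n := by
        rcases hz with hz | hz
        · exfalso
          have : t = 0 := hz.2
          rw [this] at ht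
          norm_num at ht
        · exact hz.1
      refine key (Ioi 0) isOpen_Ioi (by rw [ht]; norm_num) (fun x' _ t' ht' hz' hle => ?_)
      have hxb' : x' ∈ bdry n := by
        rcases hz' with hz' | hz'
        · exfalso
          have h0 : t' = 0 := hz'.2
          have h1 : (0 : ℝ) < t' := ht'
          rw [h0] at h1
          exact lt_irrefl _ h1
        · exact hz'.1
      have hle' := hle hxb hxb'
      have e : F (x, t) = φ (f x) := by
        simp only [hF]; rw [if_neg (by rw [ht]; exact lt_irrefl _), if_pos ht]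
      rw [e]
      have hm := hmono _ (hV x' hxb') _ (hV x hxb) hle'
      simp only [hF]
      split_ifs
      · exact (hφ _ (hV x hxb)).2
      · exact hm
      · exact hle'.trans (hφ _ (hV x hxb)).1
    · have hxb : x ∈ bdry n := by
        rcases hz with hz | hz
        · exfalso
          have : t = 0 := hz.2
          rw [this] at ht
          norm_num at ht
        · exact hz.1
      refine key (Ioi (1 / 2)) isOpen_Ioi ht (fun x' _ t' ht' hz' hle => ?_)
      have hxb' : x' ∈ bdry n := by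
        rcases hz' with hz' | hz'
        · exfalso
          have h0 : t' = 0 := hz'.2
          have h1 : 1 / 2 < t' := ht'
          rw [h0] at h1
          norm_num at h1
        · exact hz'.1
      have e : ∀ (y : Fin n → ℝ) (s : ℝ), 1 / 2 < s → F (y, s) = f y := by
        intro y s hs
        simp only [hF]
        rw [if_neg (by linarith), if_neg (by intro h; linarith)]
      rw [e _ _ ht', e _ _ ht]
      exact hle hxb hxb'
  obtain ⟨G, hG, hGE, _⟩ := hep n F hFc
  refine ⟨fun x => G (x, 1), tt_level hG tt_one_mem, fun _ _ => mem_univ _, fun x hx => ?_⟩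
  show G (x, 1) = f x
  rw [hGE (Or.inr ⟨hx, tt_one_mem⟩)]
  simp only [hF]
  rw [if_neg (by norm_num), if_neg (by norm_num)]

/-- a monotone bijection with monotone inverse is a weak equivalence -/
theorem isWE_of_orderIso (e : A ≃o B) : IsWE e :=
  IsWE.of_homeomorph
    { toEquiv := e.toEquiv
      continuous_toFun := Topology.IsLowerSet.monotone_iff_continuous.1 e.monotone
      continuous_invFun := Topology.IsLowerSet.monotone_iff_continuous.1 e.symm.monotone }

end Vale.Agent.P259
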