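import Vale.Agent.Lib.P259.Susp
import Vale.Agent.Lib.P259.Poset
import Vale.Agent.Lib.P259.ChainCons
import Vale.Agent.Lib.P259.ChainAdd
import Vale.Agent.Lib.P259.ChainMap
/-!
# P259, module P2a: posets of elements over chains
-/
namespace Vale.Agent.P259
open CategoryTheory Set Topology

variable {A C : Type} [Category.{0} A] [Category.{0} C]

/-! ## The classifying space of the elements of a presheaf -/

/-- pairs of a chain `σ` and an element of `W` at its last object -/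
@[ext]
structure QW (W : PSh C) where
  σ : Ch C
  w : W.obj σ.top

namespace QW
variable {W V : PSh C}

instance : PartialOrder (QW W) where
  le x y := ∃ h : x.σ ≤ y.σ, W.res (Ch.topHom h) y.w = x.w
  le_refl x := ⟨le_refl _, by rw [Ch.topHom_refl, W.res_id]⟩
  le_trans x y z := by
    rintro ⟨h, e⟩ ⟨h', e'⟩
    exact ⟨h.trans h', by rw [Ch.topHom_trans h h', W.res_comp, e', e]⟩
  le_antisymm := by
    rintro ⟨σ, w⟩ ⟨τ, w'⟩ ⟨h, e⟩ ⟨h', e'⟩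
    dsimp only at h h'
    obtain rfl := le_antisymm h h'
    dsimp only at e
    rw [Ch.topHom_refl, W.res_id] at e
    rw [e]

theorem le_iff {x y : QW W} : x ≤ y ↔ ∃ h : x.σ ≤ y.σ, W.res (Ch.topHom h) y.w = x.w := Iff.rfl
instance : TopologicalSpace (QW W) := Topology.lowerSet (QW W)
instance : Topology.IsLowerSet (QW W) := ⟨rfl⟩
theorem finite_Iic (x : QW W) : (Iic x).Finite := by
  refine Set.Finite.of_finite_image (f := QW.σ) ((Ch.finite_Iic x.σ).subset ?_) ?_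
  · rintro _ ⟨y, ⟨h, -⟩, rfl⟩
    exact h
  · rintro ⟨σ, w⟩ ⟨h, e⟩ ⟨τ, w'⟩ ⟨h', e'⟩ hστ
    dsimp only at hστ h h' e e'
    subst hστ
    rw [← e, ← e']

/-- functoriality -/
def map (F : W.Hom V) (x : QW W) : QW V := ⟨x.σ, F.app x.w⟩
theorem map_mono (F : W.Hom V) : Monotone (map F) := by
  rintro x y ⟨h, e⟩
  exact ⟨h, (F.nat _ _).symm.trans (congrArg F.app e)⟩
theorem continuous_map (F : W.Hom V) : Continuous (map F) :=
  Topology.IsLowerSet.monotone_iff_continuous.1 (map_mono F)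

end QW

/-! ## One-sided posets -/

/-- A covariant functor `H` on `C` with a predicate on `H S × W S`, compatible with the actions. -/
structure CoM (W : PSh C) where
  H : C → Type
  post : ∀ {S S' : C}, H S → (S ⟶ S') → H S'
  post_id : ∀ {S : C} (ψ : H S), post ψ (𝟙 S) = ψ
  post_comp : ∀ {S S' S'' : C} (ψ : H S) (f : S ⟶ S') (g : S' ⟶ S''),
    post ψ (f ≫ g) = post (post ψ f) g
  K : ∀ {S : C}, H S → W.obj S → Prop
  K_post : ∀ {S S' : C} (ψ : H S) (f : S ⟶ S') (w : W.obj S'), K (post ψ f) w ↔ K ψ (W.res f w)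

/-- the poset of a one-sided module: `(ζ, ψ ∈ H(ζ.bot), w ∈ W(ζ.top))` with `K` -/
@[ext]
structure CoM.P {W : PSh C} (M : CoM W) where
  ζ : Ch C
  ψ : M.H ζ.bot
  w : W.obj ζ.top
  k : M.K (M.post ψ ζ.mm) w

namespace CoM
variable {W : PSh C} (M : CoM W)

instance : PartialOrder M.P where
  le x y := ∃ h : x.ζ ≤ y.ζ, M.post y.ψ (Ch.botHom h) = x.ψ ∧ W.res (Ch.topHom h) y.w = x.w
  le_refl x := ⟨le_refl _, by rw [Ch.botHom_refl, M.post_id], by rw [Ch.topHom_refl, W.res_id]⟩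
  le_trans x y z := by
    rintro ⟨h, e₁, e₂⟩ ⟨h', e₁', e₂'⟩
    exact ⟨h.trans h', by rw [Ch.botHom_trans h h', M.post_comp, e₁', e₁],
      by rw [Ch.topHom_trans h h', W.res_comp, e₂', e₂]⟩
  le_antisymm := by
    rintro ⟨ζ, ψ, w, k⟩ ⟨ζ', ψ', w', k'⟩ ⟨h, e₁, e₂⟩ ⟨h', e₁', e₂'⟩
    dsimp only at h h'
    obtain rfl := le_antisymm h h'
    dsimp only at e₁ e₂
    rw [Ch.topHom_refl, W.res_id] at e₂
    rw [Ch.botHom_refl, M.post_id] at e₁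
    subst e₁ e₂
    rfl

theorem le_iff {x y : M.P} : x ≤ y ↔ ∃ h : x.ζ ≤ y.ζ, M.post y.ψ (Ch.botHom h) = x.ψ ∧
    W.res (Ch.topHom h) y.w = x.w := Iff.rfl
instance : TopologicalSpace M.P := Topology.lowerSet M.P
instance : Topology.IsLowerSet M.P := ⟨rfl⟩
theorem finite_Iic (x : M.P) : (Iic x).Finite := by
  refine Set.Finite.of_finite_image (f := fun y : M.P => y.ζ)
    ((Ch.finite_Iic x.ζ).subset ?_) ?_
  · rintro _ ⟨y, ⟨h, -⟩, rfl⟩
    exact h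
  · rintro ⟨ζ, ψ, w, k⟩ ⟨h, e₁, e₂⟩ ⟨ζ', ψ', w', k'⟩ ⟨h', e₁', e₂'⟩ hζ
    dsimp only at hζ h h' e₁ e₂ e₁' e₂'
    subst hζ
    subst e₁ e₂ e₁' e₂'
    rfl

end CoM

/-! ## Two-sided posets -/

/-- A bifunctor `H(T, S)`, contravariant in `T : A` and covariant in `S : C`, with a predicate on
`H(T, S) × W(S)` compatible with the actions. -/
structure Bim (A : Type) [Category.{0} A] {C : Type} [Category.{0} C] (W : PSh C) where
  H : A → C → Type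
  pre : ∀ {T T' : A} {S : C}, (T ⟶ T') → H T' S → H T S
  post : ∀ {T : A} {S S' : C}, H T S → (S ⟶ S') → H T S'
  pre_id : ∀ {T : A} {S : C} (ψ : H T S), pre (𝟙 T) ψ = ψ
  pre_comp : ∀ {T T' T'' : A} {S : C} (g : T ⟶ T') (g' : T' ⟶ T'') (ψ : H T'' S),
    pre (g ≫ g') ψ = pre g (pre g' ψ)
  post_id : ∀ {T : A} {S : C} (ψ : H T S), post ψ (𝟙 S) = ψ
  post_comp : ∀ {T : A} {S S' S'' : C} (ψ : H T S) (f : S ⟶ S') (g : S' ⟶ S''),
    post ψ (f ≫ g) = post (post ψ f) g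
  pre_post : ∀ {T T' : A} {S S' : C} (g : T ⟶ T') (ψ : H T' S) (f : S ⟶ S'),
    pre g (post ψ f) = post (pre g ψ) f
  K : ∀ {T : A} {S : C}, H T S → W.obj S → Prop
  K_pre : ∀ {T T' : A} {S : C} (g : T ⟶ T') (ψ : H T' S) (w : W.obj S), K ψ w → K (pre g ψ) w
  K_post : ∀ {T : A} {S S' : C} (ψ : H T S) (f : S ⟶ S') (w : W.obj S'),
    K (post ψ f) w ↔ K ψ (W.res f w)

/-- the poset of a two-sided module -/
@[ext]
structure Bim.P {W : PSh C} (N : Bim A W) where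
  v : Ch A
  ζ : Ch C
  ψ : N.H v.top ζ.bot
  w : W.obj ζ.top
  k : N.K (N.post ψ ζ.mm) w

namespace Bim
variable {W : PSh C} (N : Bim A W)

instance : PartialOrder N.P where
  le x y := ∃ (hv : x.v ≤ y.v) (hζ : x.ζ ≤ y.ζ),
    N.pre (Ch.topHom hv) (N.post y.ψ (Ch.botHom hζ)) = x.ψ ∧ W.res (Ch.topHom hζ) y.w = x.w
  le_refl x := ⟨le_refl _, le_refl _, by rw [Ch.botHom_refl, N.post_id, Ch.topHom_refl, N.pre_id],
    by rw [Ch.topHom_refl, W.res_id]⟩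
  le_trans x y z := by
    rintro ⟨hv, h, e₁, e₂⟩ ⟨hv', h', e₁', e₂'⟩
    exact ⟨hv.trans hv', h.trans h', by rw [Ch.botHom_trans h h', Ch.topHom_trans hv hv',
      N.post_comp, N.pre_comp, N.pre_post, e₁', e₁],
      by rw [Ch.topHom_trans h h', W.res_comp, e₂', e₂]⟩
  le_antisymm := by
    rintro ⟨v, ζ, ψ, w, k⟩ ⟨v', ζ', ψ', w', k'⟩ ⟨hv, h, e₁, e₂⟩ ⟨hv', h', e₁', e₂'⟩
    dsimp only at h h' hv hv'
    obtain rfl := le_antisymm h h'
    obtain rfl := le_antisymm hv hv'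
    dsimp only at e₁ e₂
    rw [Ch.topHom_refl, W.res_id] at e₂
    rw [Ch.botHom_refl, N.post_id, Ch.topHom_refl, N.pre_id] at e₁
    subst e₁ e₂
    rfl

theorem le_iff {x y : N.P} : x ≤ y ↔ ∃ (hv : x.v ≤ y.v) (hζ : x.ζ ≤ y.ζ),
    N.pre (Ch.topHom hv) (N.post y.ψ (Ch.botHom hζ)) = x.ψ ∧ W.res (Ch.topHom hζ) y.w = x.w :=
  Iff.rfl
instance : TopologicalSpace N.P := Topology.lowerSet N.P
instance : Topology.IsLowerSet N.P := ⟨rfl⟩
theorem finite_Iic (x : N.P) : (Iic x).Finite := by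
  refine Set.Finite.of_finite_image (f := fun y : N.P => (y.v, y.ζ))
    (((Ch.finite_Iic x.v).prod (Ch.finite_Iic x.ζ)).subset ?_) ?_
  · rintro _ ⟨y, ⟨hv, h, -⟩, rfl⟩
    exact ⟨hv, h⟩
  · rintro ⟨v, ζ, ψ, w, k⟩ ⟨hv, h, e₁, e₂⟩ ⟨v', ζ', ψ', w', k'⟩ ⟨hv', h', e₁', e₂'⟩ hζ
    dsimp only at hζ hv hv' h h' e₁ e₂ e₁' e₂'
    obtain ⟨rfl, rfl⟩ := Prod.mk.inj hζ
    subst e₁ e₂ e₁' e₂'
    rfl

/-! ### Projection to the first variable -/

/-- evaluation of a two-sided module in a presheaf `R` on `A` -/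
structure Ev (R : PSh A) where
  ev : ∀ {T : A} {S : C} (ψ : N.H T S) (w : W.obj S), N.K ψ w → R.obj T
  ev_pre : ∀ {T T' : A} {S : C} (g : T ⟶ T') (ψ : N.H T' S) (w : W.obj S) (k : N.K ψ w),
    ev (N.pre g ψ) w (N.K_pre g ψ w k) = R.res g (ev ψ w k)
  ev_post : ∀ {T : A} {S S' : C} (ψ : N.H T S) (f : S ⟶ S') (w : W.obj S')
    (k : N.K (N.post ψ f) w), ev (N.post ψ f) w k = ev ψ (W.res f w) ((N.K_post ψ f w).1 k)

variable {N} {R : PSh A} (E : N.Ev R)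

/-- the projection `(v, ζ, ψ, w) ↦ (v, ev (ψ ≫ mm ζ) w)` -/
noncomputable def Ev.pr (x : N.P) : QW R := ⟨x.v, E.ev (N.post x.ψ x.ζ.mm) x.w x.k⟩
theorem Ev.ev_congr {T : A} {S : C} {ψ ψ' : N.H T S} {w w' : W.obj S} (hψ : ψ = ψ') (hw : w = w')
    (k : N.K ψ w) (k' : N.K ψ' w') : E.ev ψ w k = E.ev ψ' w' k' := by
  subst hψ hw
  rfl
theorem Ev.pr_mono : Monotone E.pr := by
  rintro x y ⟨hv, h, e₁, e₂⟩
  refine ⟨hv, ?_⟩
  change R.res (Ch.topHom hv) (E.ev (N.post y.ψ y.ζ.mm) y.w y.k) =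
    E.ev (N.post x.ψ x.ζ.mm) x.w x.k
  have e₃ : N.post y.ψ y.ζ.mm =
      N.post (N.post (N.post y.ψ (Ch.botHom h)) x.ζ.mm) (Ch.topHom h) := by
    rw [← Ch.botHom_mm_topHom h, N.post_comp, N.post_comp]
  have k₃ : N.K (N.post (N.post (N.post y.ψ (Ch.botHom h)) x.ζ.mm) (Ch.topHom h)) y.w :=
    e₃ ▸ y.k
  rw [E.ev_congr e₃ rfl y.k k₃, E.ev_post]
  have k₄ : N.K (N.post (N.post y.ψ (Ch.botHom h)) x.ζ.mm) x.w :=
    e₂ ▸ (N.K_post _ _ _).1 k₃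
  rw [E.ev_congr rfl e₂ _ k₄, ← E.ev_pre]
  exact E.ev_congr (by rw [N.pre_post, e₁]) rfl _ _

/-- the one-sided module of the elements with `T` fixed and `ev = u` -/
@[simps]
def Ev.fib (T : A) (u : R.obj T) : CoM W where
  H S := N.H T S
  post := N.post
  post_id := N.post_id
  post_comp := N.post_comp
  K ψ w := ∃ k : N.K ψ w, E.ev ψ w k = u
  K_post ψ f w := by
    constructor
    · rintro ⟨k, h⟩; exact ⟨(N.K_post ψ f w).1 k, (E.ev_post ψ f w k).symm.trans h⟩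
    · rintro ⟨k, h⟩; exact ⟨(N.K_post ψ f w).2 k, (E.ev_post ψ f w _).trans h⟩

/-! ### Projection to the second variable -/

/-- a map from a two-sided to a one-sided module over the same presheaf -/
structure Pr (N : Bim A W) (M : CoM W) where
  pr : ∀ {T : A} {S : C}, N.H T S → M.H S
  pr_pre : ∀ {T T' : A} {S : C} (g : T ⟶ T') (ψ : N.H T' S), pr (N.pre g ψ) = pr ψ
  pr_post : ∀ {T : A} {S S' : C} (ψ : N.H T S) (f : S ⟶ S'), pr (N.post ψ f) = M.post (pr ψ) f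
  K_iff : ∀ {T : A} {S : C} (ψ : N.H T S) (w : W.obj S), N.K ψ w ↔ M.K (pr ψ) w

variable {M : CoM W} (Pj : N.Pr M)

/-- the projection `(v, ζ, ψ, w) ↦ (ζ, pr ψ, w)` -/
def Pr.pr₂ (x : N.P) : M.P := ⟨x.ζ, Pj.pr x.ψ, x.w, by
  rw [← Pj.pr_post]; exact (Pj.K_iff _ _).1 x.k⟩
theorem Pr.pr₂_mono : Monotone Pj.pr₂ := by
  rintro x y ⟨hv, h, e₁, e₂⟩
  refine ⟨h, ?_, e₂⟩
  change M.post (Pj.pr y.ψ) (Ch.botHom h) = Pj.pr x.ψ
  rw [← e₁, Pj.pr_pre, Pj.pr_post]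

/-- the presheaf `T ↦ {ψ ∈ H(T, S) | pr ψ = ψ₀}` -/
@[simps]
def Pr.fib (S : C) (ψ₀ : M.H S) : PSh A where
  obj T := {ψ : N.H T S // Pj.pr ψ = ψ₀}
  res g ψ := ⟨N.pre g ψ.1, (Pj.pr_pre g ψ.1).trans ψ.2⟩
  res_id ψ := Subtype.ext (N.pre_id ψ.1)
  res_comp f g ψ := Subtype.ext (N.pre_comp f g ψ.1)

end Bim

end Vale.Agent.P259
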