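import Vale.Agent.Lib.P259.Bim
namespace Vale.Agent.P259
open CategoryTheory Set Topology

variable {A C : Type} [Category.{0} A] [Category.{0} C]

theorem exists_gt_of_finite {α : Type*} (V : Set α) (hV : V.Finite) (f : α → ℚ) :
    ∃ q : ℚ, ∀ x ∈ V, f x < q := by
  obtain ⟨b, hb⟩ := (hV.image f).bddAbove
  exact ⟨b + 1, fun x hx => lt_of_le_of_lt (hb (mem_image_of_mem f hx)) (lt_add_one b)⟩

theorem exists_lt_of_finite {α : Type*} (V : Set α) (hV : V.Finite) (f : α → ℚ) :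
    ∃ q : ℚ, ∀ x ∈ V, q < f x := by
  obtain ⟨b, hb⟩ := (hV.image f).bddBelow
  exact ⟨b - 1, fun x hx => lt_of_lt_of_le (sub_one_lt b) (hb (mem_image_of_mem f hx))⟩

theorem Ch.cons_le_cons' {σ τ : Ch C} (h : σ ≤ τ) (q : ℚ) (hσ : q < σ.ib) (hq : q < τ.ib) (a : C)
    (f : a ⟶ τ.bot) (g : a ⟶ σ.bot) (hg : g = f ≫ Ch.botHom h) :
    ∃ h' : σ.cons q hσ a g ≤ τ.cons q hq a f,
      Ch.topHom h' = Ch.topHom h ∧ Ch.botHom h' = 𝟙 a := by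
  subst hg
  exact ⟨Ch.cons_le_cons h q hq a f, Ch.topHom_cons_le_cons h q hq a f,
    Ch.botHom_cons_le_cons h q hq a f⟩

theorem Ch.snoc_le_snoc' {σ τ : Ch C} (h : σ ≤ τ) (q : ℚ) (hσ : σ.it < q) (hq : τ.it < q) (a : C)
    (f : τ.top ⟶ a) (g : σ.top ⟶ a) (hg : g = Ch.topHom h ≫ f) :
    ∃ h' : σ.snoc q hσ a g ≤ τ.snoc q hq a f, Ch.topHom h' = 𝟙 a := by
  subst hg
  exact ⟨Ch.snoc_le_snoc h q hq a f, Ch.topHom_snoc_le_snoc h q hq a f⟩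

namespace QW
/-- Lemma beta: for a representable presheaf the space is weakly contractible (add the
representing object at the end of the chains). -/
theorem wcontr_rep (S : C) : WContr (univ : Set (QW (PSh.rep S))) := by
  classical
  have : Nonempty (QW (PSh.rep S)) := ⟨⟨Ch.vtx 0 S, 𝟙 S⟩⟩
  refine wcontr_of_cone finite_Iic ?_
  intro V hV
  obtain ⟨q, hq⟩ := exists_gt_of_finite V hV fun x => x.σ.it
  refine ⟨⟨Ch.vtx q S, 𝟙 S⟩, fun x => if h : x.σ.it < q then ⟨x.σ.snoc q h S x.w, 𝟙 S⟩ else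
    ⟨Ch.vtx q S, 𝟙 S⟩, ?_, ?_⟩
  · intro x hx
    simp only [hq x hx, dif_pos]
    refine ⟨⟨x.σ.le_snoc q (hq x hx) S x.w, ?_⟩, ⟨x.σ.vtx_le_snoc q (hq x hx) S x.w, ?_⟩⟩
    · exact (Category.comp_id _).trans (x.σ.topHom_le_snoc q (hq x hx) S x.w)
    · exact (Category.comp_id _).trans (x.σ.topHom_vtx_le_snoc q (hq x hx) S x.w)
  · intro x hx y hy hxy
    have hx' : x.σ.it < q := hq _ hx
    have hy' : y.σ.it < q := hq _ hy
    simp only [hx', hy', dif_pos]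
    obtain ⟨h, hw⟩ := hxy
    obtain ⟨h', h1⟩ := Ch.snoc_le_snoc' h q hx' hy' S y.w x.w hw.symm
    exact ⟨h', (Category.comp_id _).trans h1⟩
end QW

namespace CoM
variable {W : PSh C} (M : CoM W)

/-- Lemma alpha: if `(H, K)` has a universal element `(S₀, ψ₀, w₀)` the poset is weakly contractible
(add `S₀` at the beginning of the chains). -/
theorem wcontr_of_universal (S₀ : C) (ψ₀ : M.H S₀) (w₀ : W.obj S₀) (h₀ : M.K ψ₀ w₀)
    (hu : ∀ (S : C) (ψ : M.H S) (w : W.obj S), M.K ψ w →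
      ∃ f : S₀ ⟶ S, M.post ψ₀ f = ψ ∧ W.res f w = w₀)
    (hf : ∀ (S : C) (f g : S₀ ⟶ S), M.post ψ₀ f = M.post ψ₀ g → f = g) :
    WContr (univ : Set M.P) := by
  classical
  have hk₀ : ∀ q : ℚ, M.K (M.post ψ₀ (Ch.vtx q S₀).mm) w₀ := by
    intro q
    rw [Ch.vtx_mm]
    change M.K (M.post ψ₀ (𝟙 S₀)) w₀
    rw [M.post_id]
    exact h₀
  have : Nonempty M.P := ⟨⟨Ch.vtx 0 S₀, ψ₀, w₀, hk₀ 0⟩⟩
  refine wcontr_of_cone (finite_Iic M) ?_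
  intro V hV
  obtain ⟨q, hq⟩ := exists_lt_of_finite V hV fun x => x.ζ.ib
  have hex : ∀ x : M.P, ∃ f : S₀ ⟶ x.ζ.bot, M.post ψ₀ f = x.ψ ∧
      W.res f (W.res x.ζ.mm x.w) = w₀ := fun x =>
    hu x.ζ.bot x.ψ (W.res x.ζ.mm x.w) ((M.K_post x.ψ x.ζ.mm x.w).1 x.k)
  choose F hF1 hF2 using hex
  have hkF : ∀ (x : M.P) (hx : q < x.ζ.ib),
      M.K (M.post ψ₀ (x.ζ.cons q hx S₀ (F x)).mm) x.w := by
    intro x hx
    rw [Ch.cons_mm]
    change M.K (M.post ψ₀ (F x ≫ x.ζ.mm)) x.w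
    rw [M.post_comp, hF1]
    exact x.k
  refine ⟨⟨Ch.vtx q S₀, ψ₀, w₀, hk₀ q⟩, fun x => if h : q < x.ζ.ib then
    ⟨x.ζ.cons q h S₀ (F x), ψ₀, x.w, hkF x h⟩ else ⟨Ch.vtx q S₀, ψ₀, w₀, hk₀ q⟩, ?_, ?_⟩
  · intro x hx
    have hx' : q < x.ζ.ib := hq x hx
    simp only [hx', dif_pos]
    refine ⟨⟨x.ζ.le_cons q hx' S₀ (F x), ?_, ?_⟩, ⟨x.ζ.vtx_le_cons q hx' S₀ (F x), ?_, ?_⟩⟩
    · rw [x.ζ.botHom_le_cons q hx' S₀ (F x)]
      exact hF1 x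
    · rw [x.ζ.topHom_le_cons q hx' S₀ (F x)]
      exact W.res_id x.w
    · rw [x.ζ.botHom_vtx_le_cons q hx' S₀ (F x)]
      exact M.post_id ψ₀
    · rw [x.ζ.topHom_vtx_le_cons q hx' S₀ (F x)]
      change W.res (F x ≫ x.ζ.mm) x.w = w₀
      rw [W.res_comp]
      exact hF2 x
  · intro x hx y hy hxy
    have hx' : q < x.ζ.ib := hq x hx
    have hy' : q < y.ζ.ib := hq y hy
    simp only [hx', hy', dif_pos]
    obtain ⟨h, h1, h2⟩ := hxy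
    have hFF : F x = F y ≫ Ch.botHom h := by
      apply hf
      rw [M.post_comp, hF1, hF1]
      exact h1.symm
    obtain ⟨h', h3, h4⟩ := Ch.cons_le_cons' h q hx' hy' S₀ (F y) (F x) hFF
    refine ⟨h', ?_, ?_⟩
    · change M.post ψ₀ (Ch.botHom h') = ψ₀
      rw [h4]
      exact M.post_id ψ₀
    · change W.res (Ch.topHom h') y.w = x.w
      rw [h3]
      exact h2
end CoM

end Vale.Agent.P259
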