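import Vale.Agent.Lib.P259.Bim
namespace Vale.Agent.P259
open CategoryTheory Set Topology

variable {A C : Type} [Category.{0} A] [Category.{0} C]

theorem Ch.botHom_mm_comp {v v' σ : Ch A} (hv : v ≤ v') (h' : v' ≤ σ) (h : v ≤ σ) :
    (Ch.botHom h ≫ v.mm) ≫ Ch.topHom hv = Ch.botHom h' ≫ v'.mm := by
  have h3 : Ch.botHom h = Ch.botHom h' ≫ Ch.botHom hv := Ch.botHom_trans hv h'
  rw [← Ch.botHom_mm_topHom hv, h3]
  simp only [Category.assoc]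

namespace Bim
variable {W : PSh C} {N : Bim A W} {R : PSh A} (E : N.Ev R)

/-- the comparison data satisfy the predicate of the fibre module -/
theorem Ev.r_k (y : QW R) (x : N.P) (h : x.v ≤ y.σ)
    (hw : R.res (Ch.topHom h) y.w = E.ev (N.post x.ψ x.ζ.mm) x.w x.k) :
    ∃ k : N.K (N.post (N.pre (Ch.botHom h ≫ x.v.mm) x.ψ) x.ζ.mm) x.w,
      E.ev (N.post (N.pre (Ch.botHom h ≫ x.v.mm) x.ψ) x.ζ.mm) x.w k = R.res y.σ.mm y.w := by
  rw [← N.pre_post]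
  refine ⟨N.K_pre _ _ _ x.k, (E.ev_pre _ _ _ x.k).trans ?_⟩
  rw [← hw, ← R.res_comp, Category.assoc, Ch.botHom_mm_topHom]

/-- comparison of the fibre over `Iic y` with the fibre module at the first object of `y.σ` -/
noncomputable def Ev.r (y : QW R) (x : {x : N.P // E.pr x ≤ y}) :
    (E.fib y.σ.bot (R.res y.σ.mm y.w)).P where
  ζ := x.1.ζ
  ψ := N.pre (Ch.botHom x.2.1 ≫ x.1.v.mm) x.1.ψ
  w := x.1.w
  k := E.r_k y x.1 x.2.1 x.2.2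

theorem Ev.r_mono (y : QW R) : Monotone (E.r y) := by
  rintro ⟨x, hx⟩ ⟨x', hx'⟩ hxx
  obtain ⟨hv, hζ, h1, h2⟩ : x ≤ x' := hxx
  have key : ∀ (g : y.σ.bot ⟶ x.v.top) (g' : y.σ.bot ⟶ x'.v.top), g ≫ Ch.topHom hv = g' →
      N.post (N.pre g' x'.ψ) (Ch.botHom hζ) = N.pre g x.ψ := by
    intro g g' e
    subst e
    rw [← N.pre_post, N.pre_comp, h1]
  exact ⟨hζ, key _ _ (Ch.botHom_mm_comp hv hx'.1 hx.1), h2⟩

/-- the section -/
noncomputable def Ev.sec (y : QW R) (b : (E.fib y.σ.bot (R.res y.σ.mm y.w)).P) :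
    {x : N.P // E.pr x ≤ y} :=
  ⟨{ v := Ch.vtx y.σ.ib y.σ.bot
     ζ := b.ζ
     ψ := b.ψ
     w := b.w
     k := b.k.1 }, ⟨Ch.botVtx_le y.σ,
      (congrArg (fun f => R.res f y.w) (Ch.topHom_botVtx y.σ)).trans b.k.2.symm⟩⟩

theorem Ev.sec_mono (y : QW R) : Monotone (E.sec y) := by
  intro b b' hbb
  obtain ⟨hζ, h1, h2⟩ := hbb
  have key : ∀ g : y.σ.bot ⟶ y.σ.bot, g = 𝟙 _ →
      N.pre g (N.post (T := y.σ.bot) b'.ψ (Ch.botHom hζ)) = b.ψ := by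
    intro g e
    subst e
    exact (N.pre_id _).trans h1
  exact ⟨le_rfl, hζ, key _ (Ch.topHom_refl (Ch.vtx y.σ.ib y.σ.bot)), h2⟩

theorem Ev.r_sec (y : QW R) (b : (E.fib y.σ.bot (R.res y.σ.mm y.w)).P) :
    E.r y (E.sec y b) = b := by
  have h1 : ∀ g : y.σ.bot ⟶ y.σ.bot, g = 𝟙 _ → N.pre (T' := y.σ.bot) g b.ψ = b.ψ := by
    intro g e
    subst e
    exact N.pre_id _
  have h2 : Ch.botHom (Ch.botVtx_le y.σ) ≫ (Ch.vtx y.σ.ib y.σ.bot).mm = 𝟙 y.σ.bot := by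
    rw [Ch.botHom_botVtx, Ch.vtx_mm]
    exact Category.id_comp _
  apply CoM.P.ext
  · rfl
  · exact heq_of_eq (h1 _ h2)
  · rfl

/-- the middle term of the fence -/
noncomputable def Ev.mid (y : QW R) (x : {x : N.P // E.pr x ≤ y}) : {x : N.P // E.pr x ≤ y} :=
  have h : x.1.v ≤ y.σ := x.2.1
  ⟨{ v := Ch.addBot h
     ζ := x.1.ζ
     ψ := x.1.ψ
     w := x.1.w
     k := x.1.k }, ⟨Ch.addBot_le h,
      (congrArg (fun f => R.res f y.w) (Ch.topHom_addBot_le h)).trans x.2.2⟩⟩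

theorem Ev.mid_mono (y : QW R) : Monotone (E.mid y) := by
  rintro ⟨x, hx⟩ ⟨x', hx'⟩ hxx
  obtain ⟨hv, hζ, h1, h2⟩ : x ≤ x' := hxx
  have h' : x'.v ≤ y.σ := hx'.1
  have key : ∀ g : x.v.top ⟶ x'.v.top, g = Ch.topHom hv →
      N.pre g (N.post x'.ψ (Ch.botHom hζ)) = x.ψ := by
    intro g e
    subst e
    exact h1
  exact ⟨Ch.addBot_mono h' hv, hζ, key _ (Ch.topHom_addBot_mono h' hv), h2⟩

theorem Ev.le_mid (y : QW R) (x : {x : N.P // E.pr x ≤ y}) : x ≤ E.mid y x := by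
  obtain ⟨x, hx⟩ := x
  have h : x.v ≤ y.σ := hx.1
  have key : ∀ (g : x.v.top ⟶ x.v.top) (g' : x.ζ.bot ⟶ x.ζ.bot), g = 𝟙 _ → g' = 𝟙 _ →
      N.pre g (N.post x.ψ g') = x.ψ := by
    intro g g' e e'
    subst e e'
    exact (N.pre_id _).trans (N.post_id _)
  have key2 : W.res (Ch.topHom (le_refl x.ζ)) x.w = x.w := by
    rw [Ch.topHom_refl, W.res_id]
  exact ⟨Ch.le_addBot h, le_rfl, key _ _ (Ch.topHom_le_addBot h) (Ch.botHom_refl x.ζ), key2⟩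

theorem Ev.sec_r_le_mid (y : QW R) (x : {x : N.P // E.pr x ≤ y}) :
    E.sec y (E.r y x) ≤ E.mid y x := by
  obtain ⟨x, hx⟩ := x
  have h : x.v ≤ y.σ := hx.1
  have key : ∀ (g g₁ : y.σ.bot ⟶ x.v.top) (g' : x.ζ.bot ⟶ x.ζ.bot), g = g₁ → g' = 𝟙 _ →
      N.pre g (N.post x.ψ g') = N.pre g₁ x.ψ := by
    intro g g₁ g' e e'
    subst e e'
    rw [N.post_id]
  have key2 : W.res (Ch.topHom (le_refl x.ζ)) x.w = x.w := by
    rw [Ch.topHom_refl, W.res_id]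
  exact ⟨Ch.botVtx_le_addBot h, le_rfl,
    key _ _ _ (Ch.topHom_botVtx_le_addBot h) (Ch.botHom_refl x.ζ), key2⟩

/-- fence: `(v, ..) ≤ (addBot v, ..) ≥ (first object, ..)` -/
theorem Ev.isWE_r (y : QW R) : IsWE (E.r y) := by
  have : Topology.IsLowerSet {x : N.P // E.pr x ≤ y} := isLowerSet_subtype {x : N.P | E.pr x ≤ y}
  exact isWE_of_fence (E.r y) (E.sec y) (E.mid y) (E.r_mono y) (E.sec_mono y) (E.mid_mono y)
    (E.r_sec y) (E.le_mid y) (E.sec_r_le_mid y)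

end Bim

end Vale.Agent.P259
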