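import Vale.Agent.Lib.P259.Bim
namespace Vale.Agent.P259
open CategoryTheory Set Topology

variable {A C : Type} [Category.{0} A] [Category.{0} C]

theorem PSh.res_of_eq_pr {W : PSh C} {S : C} {f : S ⟶ S} (h : f = 𝟙 S) (w : W.obj S) :
    W.res f w = w := by
  rw [h]; exact W.res_id w

namespace Bim
variable {W : PSh C} {N : Bim A W} {M : CoM W} (Pj : N.Pr M)

theorem post_of_eq_pr (N : Bim A W) {T : A} {S : C} {f : S ⟶ S} (h : f = 𝟙 S) (ψ : N.H T S) :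
    N.post ψ f = ψ := by
  rw [h]; exact N.post_id ψ

theorem pre_of_eq_pr (N : Bim A W) {T : A} {S : C} {g : T ⟶ T} (h : g = 𝟙 T) (ψ : N.H T S) :
    N.pre g ψ = ψ := by
  rw [h]; exact N.pre_id ψ

theorem Pr.auxPr₁ {ζ ζ' : Ch C} (h : ζ ≤ ζ') {T : A} (ψ : N.H T ζ.bot) (ψ' : M.H ζ'.bot)
    (h1 : M.post ψ' (Ch.botHom h) = Pj.pr ψ) :
    Pj.pr (N.post ψ (ζ.mm ≫ Ch.topHom h)) = M.post ψ' ζ'.mm := by
  rw [Pj.pr_post, ← h1, ← M.post_comp, Ch.botHom_mm_topHom h]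

/-- comparison of the fibre over `Iic y` with the fibre presheaf at the last object of `y.ζ` -/
noncomputable def Pr.r (y : M.P) (x : {x : N.P // Pj.pr₂ x ≤ y}) :
    QW (Pj.fib y.ζ.top (M.post y.ψ y.ζ.mm)) where
  σ := x.1.v
  w := ⟨N.post x.1.ψ (x.1.ζ.mm ≫ Ch.topHom x.2.1), Pr.auxPr₁ Pj x.2.1 x.1.ψ y.ψ x.2.2.1⟩

theorem Pr.auxPr₃ {v v' : Ch A} {ζ ζ' τ : Ch C} (hv : v ≤ v') (hζ : ζ ≤ ζ') (h' : ζ' ≤ τ)
    (ψ : N.H v.top ζ.bot) (ψ' : N.H v'.top ζ'.bot)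
    (e : N.pre (Ch.topHom hv) (N.post ψ' (Ch.botHom hζ)) = ψ) :
    N.pre (Ch.topHom hv) (N.post ψ' (ζ'.mm ≫ Ch.topHom h'))
      = N.post ψ (ζ.mm ≫ Ch.topHom (hζ.trans h')) := by
  rw [← e, ← N.pre_post, ← N.post_comp, Ch.topHom_trans hζ h', ← Ch.botHom_mm_topHom hζ]
  simp only [Category.assoc]

theorem Pr.r_mono (y : M.P) : Monotone (Pj.r y) := by
  rintro ⟨x, h, h1, h2⟩ ⟨x', h', h1', h2'⟩ ⟨hv, hζ, e1, e2⟩
  exact ⟨hv, Subtype.ext (Pr.auxPr₃ hv hζ h' x.ψ x'.ψ e1)⟩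

/-- the section of the comparison map -/
noncomputable def Pr.sec (y : M.P) (b : QW (Pj.fib y.ζ.top (M.post y.ψ y.ζ.mm))) :
    {x : N.P // Pj.pr₂ x ≤ y} :=
  ⟨{ v := b.σ
     ζ := Ch.vtx y.ζ.it y.ζ.top
     ψ := b.w.1
     w := y.w
     k := (Pj.K_iff _ _).2 (by
      have h2 : Pj.pr (N.post b.w.1 (𝟙 y.ζ.top)) = M.post y.ψ y.ζ.mm := by
        rw [N.post_id]; exact b.w.2
      have h1 : (Ch.vtx y.ζ.it y.ζ.top).mm = 𝟙 y.ζ.top := Ch.vtx_mm _ _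
      have h3 : Pj.pr (N.post b.w.1 (Ch.vtx y.ζ.it y.ζ.top).mm) = M.post y.ψ y.ζ.mm :=
        (congrArg (fun f => Pj.pr (N.post b.w.1 f)) h1).trans h2
      exact (congrArg (fun φ => M.K φ y.w) h3).mpr y.k) },
    ⟨Ch.topVtx_le y.ζ,
      (congrArg (fun f => M.post y.ψ f) (Ch.botHom_topVtx y.ζ)).trans b.w.2.symm,
      PSh.res_of_eq_pr (Ch.topHom_topVtx y.ζ) y.w⟩⟩

theorem Pr.auxPr₄ {ζ τ : Ch C} (h : ζ ≤ τ) : Ch.botHom h ≫ (Ch.addTop h).mm = τ.mm := by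
  have h3 := Ch.botHom_mm_topHom (Ch.addTop_le h)
  have h4 : Ch.botHom (Ch.addTop_le h) = Ch.botHom h := Ch.botHom_addTop_le h
  have h5 : Ch.topHom (Ch.addTop_le h) = 𝟙 τ.top := Ch.topHom_addTop_le h
  refine Eq.trans ?_ h3
  have h6 : (Ch.addTop h).mm ≫ Ch.topHom (Ch.addTop_le h) = (Ch.addTop h).mm :=
    (congrArg (fun f => (Ch.addTop h).mm ≫ f) h5).trans (Category.comp_id (Ch.addTop h).mm)
  exact ((congrArg (fun f => Ch.botHom (Ch.addTop_le h) ≫ f) h6).trans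
    (congrArg (fun f => f ≫ (Ch.addTop h).mm) h4)).symm

theorem Pr.auxPr₅ {ζ τ : Ch C} (h : ζ ≤ τ) {T : A} (ψ : N.H T ζ.bot) (ψ' : M.H τ.bot)
    (h1 : M.post ψ' (Ch.botHom h) = Pj.pr ψ) :
    Pj.pr (N.post ψ (Ch.addTop h).mm) = M.post ψ' τ.mm := by
  refine (Pj.pr_post ψ (Ch.addTop h).mm).trans ?_
  refine (congrArg (fun φ => M.post φ (Ch.addTop h).mm) h1.symm).trans ?_
  refine (M.post_comp ψ' (Ch.botHom h) (Ch.addTop h).mm).symm.trans ?_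
  exact congrArg (fun f => M.post ψ' f) (Pr.auxPr₄ h)

/-- the middle of the fence -/
noncomputable def Pr.mid (y : M.P) (a : {x : N.P // Pj.pr₂ x ≤ y}) :
    {x : N.P // Pj.pr₂ x ≤ y} :=
  ⟨{ v := a.1.v
     ζ := Ch.addTop a.2.1
     ψ := a.1.ψ
     w := y.w
     k := (Pj.K_iff _ _).2 (by
      have h3 := Pr.auxPr₅ Pj a.2.1 a.1.ψ y.ψ a.2.2.1
      exact (congrArg (fun φ => M.K φ y.w) h3).mpr y.k) },
    ⟨Ch.addTop_le a.2.1,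
      (congrArg (fun f => M.post y.ψ f) (Ch.botHom_addTop_le a.2.1)).trans a.2.2.1,
      PSh.res_of_eq_pr (Ch.topHom_addTop_le a.2.1) y.w⟩⟩

theorem Pr.sec_mono (y : M.P) : Monotone (Pr.sec Pj y) := by
  rintro b b' ⟨hσ, e⟩
  refine ⟨hσ, le_refl _, ?_, ?_⟩
  · refine (congrArg (fun φ => N.pre (Ch.topHom hσ) φ)
      (post_of_eq_pr N (Ch.botHom_refl (Ch.vtx y.ζ.it y.ζ.top)) b'.w.1)).trans ?_
    exact congrArg Subtype.val e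
  · exact PSh.res_of_eq_pr (Ch.topHom_refl (Ch.vtx y.ζ.it y.ζ.top)) y.w

theorem Pr.mid_mono (y : M.P) : Monotone (Pr.mid Pj y) := by
  rintro ⟨x, h, h1, h2⟩ ⟨x', h', h1', h2'⟩ ⟨hv, hζ, e1, e2⟩
  refine ⟨hv, Ch.addTop_mono h' hζ, ?_, ?_⟩
  · refine (congrArg (fun f => N.pre (Ch.topHom hv) (N.post x'.ψ f))
      (Ch.botHom_addTop_mono h' hζ)).trans e1
  · exact PSh.res_of_eq_pr (Ch.topHom_addTop_mono h' hζ) y.w

/-- fence: `(ζ, ..) ≤ (addTop ζ, ..) ≥ (last object, ..)` -/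
theorem Pr.isWE_r (y : M.P) : IsWE (Pj.r y) := by
  have hls : Topology.IsLowerSet {x : N.P // Pj.pr₂ x ≤ y} :=
    isLowerSet_subtype {x : N.P | Pj.pr₂ x ≤ y}
  refine isWE_of_fence (Pj.r y) (Pr.sec Pj y) (Pr.mid Pj y) (Pr.r_mono Pj y) (Pr.sec_mono Pj y)
    (Pr.mid_mono Pj y) (fun b => ?_) (fun a => ?_) (fun a => ?_)
  · refine QW.ext rfl (heq_of_eq (Subtype.ext ?_))
    have h1 : (Ch.vtx y.ζ.it y.ζ.top).mm = 𝟙 y.ζ.top := Ch.vtx_mm _ _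
    have h2 : Ch.topHom (Ch.topVtx_le y.ζ) = 𝟙 y.ζ.top := Ch.topHom_topVtx y.ζ
    have h3 : (Ch.vtx y.ζ.it y.ζ.top).mm ≫ Ch.topHom (Ch.topVtx_le y.ζ) = 𝟙 y.ζ.top :=
      (congrArg₂ (fun f g : y.ζ.top ⟶ y.ζ.top => f ≫ g) h1 h2).trans (Category.comp_id _)
    exact post_of_eq_pr N h3 b.w.1
  · obtain ⟨x, h, h1, h2⟩ := a
    refine ⟨le_refl _, Ch.le_addTop h, ?_, ?_⟩
    · refine (pre_of_eq_pr N (Ch.topHom_refl x.v) _).trans ?_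
      exact post_of_eq_pr N (Ch.botHom_le_addTop h) x.ψ
    · exact (congrArg (fun f => W.res f y.w) (Ch.topHom_le_addTop h)).trans h2
  · obtain ⟨x, h, h1, h2⟩ := a
    refine ⟨le_refl _, Ch.topVtx_le_addTop h, ?_, ?_⟩
    · refine (pre_of_eq_pr N (Ch.topHom_refl x.v) _).trans ?_
      exact congrArg (fun f => N.post x.ψ f) (Ch.botHom_topVtx_le_addTop h)
    · exact PSh.res_of_eq_pr (Ch.hom_unique (Ch.addTop h) (Ch.topHom_mem (Ch.topVtx_le_addTop h))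
          (Ch.addTop h).mem_top) y.w

end Bim

end Vale.Agent.P259
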