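import Mathlib
/-!
# P259, module D5: the inclusion of compactly generated spaces in `TopCat` preserves pushouts
-/
namespace Vale.Agent.P259
open CategoryTheory Limits CompactlyGenerated

/-- the underlying type of the k-ification -/
def CgpK (T : Type) : Type := T

/-- the identity -/
def cgpTo {T : Type} (x : T) : CgpK T := x

/-- the identity -/
def cgpOf {T : Type} (x : CgpK T) : T := x

instance cgpTop (T : Type) [TopologicalSpace T] : TopologicalSpace (CgpK T) :=
  TopologicalSpace.compactlyGenerated.{0} T

/-- the k-ification is compactly generated -/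
instance cgp_isCG (T : Type) [t : TopologicalSpace T] : UCompactlyGeneratedSpace.{0} (CgpK T) :=
  @uCompactlyGeneratedSpace_of_coinduced.{0}
    (Σ (i : (S : CompHaus.{0}) × C(S, T)), i.fst) (CgpK T) inferInstance (cgpTop T) inferInstance
    (fun p => p.1.2 p.2) continuous_coinduced_rng rfl

theorem cgp_continuous_of (T : Type) [t : TopologicalSpace T] :
    Continuous (cgpOf : CgpK T → T) :=
  continuous_from_compactlyGenerated.{0} (X := T) (Y := T) (fun x => x) (fun _ g => g.continuous)

/-- a continuous map from a compactly generated space lifts to the k-ification -/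
theorem cgp_continuous_lift {B T : Type} [TopologicalSpace B] [TopologicalSpace T]
    [UCompactlyGeneratedSpace.{0} B] {f : B → T} (hf : Continuous f) :
    Continuous (fun x : B => cgpTo (f x)) := by
  apply continuous_from_uCompactlyGeneratedSpace.{0}
  intro S g
  have h1 : Continuous (fun p : (Σ (i : (S : CompHaus.{0}) × C(S, T)), i.fst) =>
      cgpTo (p.1.2 p.2)) := continuous_coinduced_rng
  let i₀ : (S : CompHaus.{0}) × C(S, T) := ⟨S, ⟨fun s => f (g s), hf.comp g.continuous⟩⟩
  have h2 := @continuous_sigmaMk ((S : CompHaus.{0}) × C(S, T)) (fun i => i.fst)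
    (fun i => inferInstance) i₀
  exact h1.comp h2

/-- the k-ification -/
noncomputable def cgpObj (T : TopCat.{0}) : CompactlyGenerated.{0, 0} :=
  CompactlyGenerated.of.{0, 0} (CgpK T)

/-- the counit -/
noncomputable def cgpCounit (T : TopCat.{0}) : compactlyGeneratedToTop.obj (cgpObj T) ⟶ T :=
  TopCat.ofHom (X := CgpK T) (Y := T) ⟨cgpOf, cgp_continuous_of T⟩

/-- lift of a map to the k-ification -/
noncomputable def cgpLift' {B : CompactlyGenerated.{0, 0}} {T : TopCat.{0}}
    (u : compactlyGeneratedToTop.obj B ⟶ T) :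
    compactlyGeneratedToTop.obj B ⟶ compactlyGeneratedToTop.obj (cgpObj T) :=
  TopCat.ofHom (X := B.toTop) (Y := CgpK T)
      ⟨fun x => cgpTo ((TopCat.Hom.hom (X := B.toTop) (Y := T) u) x),
        cgp_continuous_lift (TopCat.Hom.hom (X := B.toTop) (Y := T) u).continuous⟩

/-- lift of a map to the k-ification -/
noncomputable def cgpLift {B : CompactlyGenerated.{0, 0}} {T : TopCat.{0}}
    (u : compactlyGeneratedToTop.obj B ⟶ T) : B ⟶ cgpObj T :=
  compactlyGeneratedToTop.preimage (cgpLift' u)

theorem cgp_lift_counit {B : CompactlyGenerated.{0, 0}} {T : TopCat.{0}}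
    (u : compactlyGeneratedToTop.obj B ⟶ T) :
    compactlyGeneratedToTop.map (cgpLift u) ≫ cgpCounit T = u := by
  have h : compactlyGeneratedToTop.map (cgpLift u) = cgpLift' u :=
    Functor.map_preimage compactlyGeneratedToTop (cgpLift' u)
  rw [h]
  rfl

theorem cgp_hom_ext {B : CompactlyGenerated.{0, 0}} {T : TopCat.{0}} {p r : B ⟶ cgpObj T}
    (h : compactlyGeneratedToTop.map p ≫ cgpCounit T
      = compactlyGeneratedToTop.map r ≫ cgpCounit T) : p = r := by
  apply compactlyGeneratedToTop.map_injective
  apply TopCat.hom_ext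
  apply ContinuousMap.ext
  intro x
  have h2 := congrArg (fun u => (u.hom : _ → _) x) h
  exact h2

/-- The inclusion has a right adjoint (k-ification: `TopologicalSpace.compactlyGenerated` topology),
so it preserves all colimits. -/
theorem isPushout_toTop {A B C D : CompactlyGenerated.{0, 0}} {f : A ⟶ B} {g : A ⟶ C}
    {h : B ⟶ D} {k : C ⟶ D} (sq : IsPushout f g h k) :
    IsPushout (compactlyGeneratedToTop.map f) (compactlyGeneratedToTop.map g)
      (compactlyGeneratedToTop.map h) (compactlyGeneratedToTop.map k) := by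
  have hw : compactlyGeneratedToTop.map f ≫ compactlyGeneratedToTop.map h
      = compactlyGeneratedToTop.map g ≫ compactlyGeneratedToTop.map k := by
    rw [← Functor.map_comp, ← Functor.map_comp, sq.w]
  refine ⟨⟨hw⟩, ⟨PushoutCocone.IsColimit.mk _ (fun s => ?_) ?_ ?_ ?_⟩⟩
  · refine compactlyGeneratedToTop.map (sq.desc (cgpLift s.inl) (cgpLift s.inr) ?_)
      ≫ cgpCounit s.pt
    apply cgp_hom_ext
    rw [Functor.map_comp, Functor.map_comp, Category.assoc, Category.assoc, cgp_lift_counit,
      cgp_lift_counit]
    exact s.condition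
  · intro s
    rw [← Category.assoc, ← Functor.map_comp, IsPushout.inl_desc, cgp_lift_counit]
  · intro s
    rw [← Category.assoc, ← Functor.map_comp, IsPushout.inr_desc, cgp_lift_counit]
  · intro s m h1 h2
    rw [← cgp_lift_counit m]
    congr 2
    apply sq.hom_ext
    · rw [IsPushout.inl_desc]
      apply cgp_hom_ext
      rw [Functor.map_comp, Category.assoc, cgp_lift_counit, cgp_lift_counit, h1]
    · rw [IsPushout.inr_desc]
      apply cgp_hom_ext
      rw [Functor.map_comp, Category.assoc, cgp_lift_counit, cgp_lift_counit, h2]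

/-- a type with the indiscrete topology -/
def CgpInd (Y : Type) : Type := Y

instance cgpIndTop (Y : Type) : TopologicalSpace (CgpInd Y) := ⊤

/-- the identity -/
def cgpInd {Y : Type} (y : Y) : CgpInd Y := y

/-- Conversely a pushout in `TopCat` of compactly generated spaces is compactly generated. -/
theorem isCG_of_isPushout {A B C D : TopCat.{0}} {f : A ⟶ B} {g : A ⟶ C}
    {h : B ⟶ D} {k : C ⟶ D} (sq : IsPushout f g h k) [UCompactlyGeneratedSpace.{0} B]
    [UCompactlyGeneratedSpace.{0} C] : UCompactlyGeneratedSpace.{0} D := by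
  apply uCompactlyGeneratedSpace_of_continuous_maps.{0}
  intro Y tY φ hφ
  have hB : Continuous (fun x : B => φ (h.hom x)) := by
    apply continuous_from_uCompactlyGeneratedSpace.{0}
    intro S u
    exact hφ S ⟨fun s => h.hom (u s), h.hom.continuous.comp u.continuous⟩
  have hC : Continuous (fun x : C => φ (k.hom x)) := by
    apply continuous_from_uCompactlyGeneratedSpace.{0}
    intro S u
    exact hφ S ⟨fun s => k.hom (u s), k.hom.continuous.comp u.continuous⟩
  have hw : ∀ x : A, h.hom (f.hom x) = k.hom (g.hom x) := by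
    intro x
    have := congrArg (fun u => (u.hom : _ → _) x) sq.w
    exact this
  let uB : B ⟶ TopCat.of Y := TopCat.ofHom ⟨fun x : B => φ (h.hom x), hB⟩
  let uC : C ⟶ TopCat.of Y := TopCat.ofHom ⟨fun x : C => φ (k.hom x), hC⟩
  have hcomp : f ≫ uB = g ≫ uC := by
    apply TopCat.hom_ext
    apply ContinuousMap.ext
    intro x
    show φ (h.hom (f.hom x)) = φ (k.hom (g.hom x))
    rw [hw x]
  let ψ : D ⟶ TopCat.of Y := sq.desc uB uC hcomp
  -- comparison in the indiscrete topology
  let ψ' : D ⟶ TopCat.of (CgpInd Y) := TopCat.ofHom ⟨fun x => cgpInd (ψ.hom x), continuous_top⟩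
  let φ' : D ⟶ TopCat.of (CgpInd Y) := TopCat.ofHom ⟨fun x => cgpInd (φ x), continuous_top⟩
  have h1 : h ≫ ψ = uB := sq.inl_desc uB uC hcomp
  have h2 : k ≫ ψ = uC := sq.inr_desc uB uC hcomp
  have h3 : ψ' = φ' := by
    apply sq.hom_ext
    · apply TopCat.hom_ext
      apply ContinuousMap.ext
      intro x
      have := congrArg (fun u => (u.hom : _ → _) x) h1
      exact this
    · apply TopCat.hom_ext
      apply ContinuousMap.ext
      intro x
      have := congrArg (fun u => (u.hom : _ → _) x) h2
      exact this
  have h4 : ∀ x : D, ψ.hom x = φ x := by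
    intro x
    have := congrArg (fun u => (u.hom : _ → _) x) h3
    exact this
  have h5 : (fun x : D => ψ.hom x) = φ := funext h4
  rw [← h5]
  exact ψ.hom.continuous

end Vale.Agent.P259
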