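import Vale.Agent.Lib.P259.DiscTool
/-!
# P259, module F0: calculus of homotopies of maps of discs with prescribed side walls
-/
namespace Vale.Agent.P259
open Set Topology
variable {X Y : Type*} [TopologicalSpace X] [TopologicalSpace Y] {n : ℕ}

/-- a homotopy from `f` to `g` (maps of the closed disc) with side walls `k` -/
def HOver (k : (Fin n → ℝ) × ℝ → X) (f g : (Fin n → ℝ) → X) : Prop :=
  ∃ H : (Fin n → ℝ) × ℝ → X, ContinuousOn H (closedDisc n ×ˢ uI) ∧
    (∀ x ∈ closedDisc n, H (x, 0) = f x) ∧ (∀ x ∈ closedDisc n, H (x, 1) = g x) ∧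
    (∀ x ∈ sph n, ∀ t ∈ uI, H (x, t) = k (x, t))

/-- homotopy relative to the sphere -/
def HRel (f g : (Fin n → ℝ) → X) : Prop := HOver (fun z => f z.1) f g

theorem HOver.congr {k k' : (Fin n → ℝ) × ℝ → X} {f f' g g' : (Fin n → ℝ) → X} (h : HOver k f g)
    (hk : EqOn k k' (sph n ×ˢ uI)) (hf : EqOn f f' (closedDisc n)) (hg : EqOn g g' (closedDisc n)) :
    HOver k' f' g' := by
  obtain ⟨H, hH, h0, h1, hs⟩ := h
  exact ⟨H, hH, fun x hx => (h0 x hx).trans (hf hx), fun x hx => (h1 x hx).trans (hg hx),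
    fun x hx t ht => (hs x hx t ht).trans (hk ⟨hx, ht⟩)⟩

/-- reversal -/
theorem HOver.symm {k : (Fin n → ℝ) × ℝ → X} {f g : (Fin n → ℝ) → X} (h : HOver k f g) :
    HOver (fun z => k (z.1, 1 - z.2)) g f := by
  obtain ⟨H, hH, h0, h1, hs⟩ := h
  have hI : ∀ t : ℝ, t ∈ uI → 1 - t ∈ uI := fun t ht =>
    ⟨sub_nonneg.2 ht.2, sub_le_self _ ht.1⟩
  refine ⟨fun z => H (z.1, 1 - z.2), hH.comp (by fun_prop) (fun z hz => ⟨hz.1, hI _ hz.2⟩),
    fun x hx => ?_, fun x hx => ?_, fun x hx t ht => hs x hx _ (hI t ht)⟩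
  · simpa using h1 x hx
  · simpa using h0 x hx

theorem HOver.continuousOn_left {k : (Fin n → ℝ) × ℝ → X} {f g : (Fin n → ℝ) → X}
    (h : HOver k f g) : ContinuousOn f (closedDisc n) := by
  obtain ⟨H, hH, h0, -, -⟩ := h
  exact (tt_level hH tt_zero_mem).congr (fun x hx => (h0 x hx).symm)

theorem HOver.continuousOn_right {k : (Fin n → ℝ) × ℝ → X} {f g : (Fin n → ℝ) → X}
    (h : HOver k f g) : ContinuousOn g (closedDisc n) := by
  obtain ⟨H, hH, -, h1, -⟩ := h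
  exact (tt_level hH tt_one_mem).congr (fun x hx => (h1 x hx).symm)

theorem HOver.continuousOn_side {k : (Fin n → ℝ) × ℝ → X} {f g : (Fin n → ℝ) → X}
    (h : HOver k f g) : ContinuousOn k (sph n ×ˢ uI) := by
  obtain ⟨H, hH, -, -, hs⟩ := h
  exact (hH.mono (prod_mono (sph_subset n) subset_rfl)).congr
    (fun z hz => (hs z.1 hz.1 z.2 hz.2).symm)

/-- concatenation -/
theorem HOver.trans {k k' : (Fin n → ℝ) × ℝ → X} {f g h : (Fin n → ℝ) → X} (h₁ : HOver k f g)
    (h₂ : HOver k' g h) :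
    HOver (fun z => if z.2 ≤ 1 / 2 then k (z.1, 2 * z.2) else k' (z.1, 2 * z.2 - 1)) f h := by
  obtain ⟨H, hH, h0, h1, hs⟩ := h₁
  obtain ⟨L, hL, l0, l1, ls⟩ := h₂
  refine ⟨fun z => if z.2 ≤ 1 / 2 then H (z.1, 2 * z.2) else L (z.1, 2 * z.2 - 1),
    tt_concat (dt_isClosed_closedDisc n) hH hL (fun x hx => (h1 x hx).trans (l0 x hx).symm),
    fun x hx => ?_, fun x hx => ?_, fun x hx t ht => ?_⟩
  · change (if (0 : ℝ) ≤ 1 / 2 then H (x, 2 * 0) else L (x, 2 * 0 - 1)) = f x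
    rw [if_pos (by norm_num), mul_zero]
    exact h0 x hx
  · change (if (1 : ℝ) ≤ 1 / 2 then H (x, 2 * 1) else L (x, 2 * 1 - 1)) = h x
    rw [if_neg (by norm_num)]
    have h2 : (2 : ℝ) * 1 - 1 = 1 := by norm_num
    rw [h2]
    exact l1 x hx
  · change (if t ≤ 1 / 2 then H (x, 2 * t) else L (x, 2 * t - 1)) =
      if t ≤ 1 / 2 then k (x, 2 * t) else k' (x, 2 * t - 1)
    split_ifs with h2
    · refine hs x hx _ ⟨?_, ?_⟩
      · have := ht.1
        linarith
      · linarith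
    · push Not at h2
      refine ls x hx _ ⟨?_, ?_⟩
      · linarith
      · have := ht.2
        linarith

theorem HRel.refl {f : (Fin n → ℝ) → X} (hf : ContinuousOn f (closedDisc n)) : HRel f f :=
  ⟨fun z => f z.1, hf.comp continuousOn_fst (fun _ hz => hz.1), fun _ _ => rfl, fun _ _ => rfl,
    fun _ _ _ _ => rfl⟩

theorem HRel.eqOn {f g : (Fin n → ℝ) → X} (h : HRel f g) : EqOn f g (sph n) := by
  obtain ⟨H, -, -, h1, hs⟩ := h
  intro x hx
  exact (hs x hx 1 tt_one_mem).symm.trans (h1 x (sph_subset n hx))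

theorem HRel.symm {f g : (Fin n → ℝ) → X} (h : HRel f g) : HRel g f :=
  (HOver.symm h).congr (fun z hz => h.eqOn hz.1) (fun _ _ => rfl) (fun _ _ => rfl)

theorem HRel.trans {f g h : (Fin n → ℝ) → X} (h₁ : HRel f g) (h₂ : HRel g h) : HRel f h := by
  refine (HOver.trans h₁ h₂).congr (fun z hz => ?_) (fun _ _ => rfl) (fun _ _ => rfl)
  change (if z.2 ≤ 1 / 2 then f z.1 else g z.1) = f z.1
  split_ifs
  · rfl
  · exact (h₁.eqOn hz.1).symm

theorem HRel.congr {f f' g g' : (Fin n → ℝ) → X} (h : HRel f g)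
    (hf : EqOn f f' (closedDisc n)) (hg : EqOn g g' (closedDisc n)) : HRel f' g' :=
  HOver.congr h (fun z hz => hf (sph_subset n hz.1)) hf hg

/-- existence (homotopy extension) -/
theorem exists_HOver (k : (Fin n → ℝ) × ℝ → X) (f : (Fin n → ℝ) → X)
    (hf : ContinuousOn f (closedDisc n)) (hk : ContinuousOn k (sph n ×ˢ uI))
    (h : ∀ x ∈ sph n, k (x, 0) = f x) : ∃ g, HOver k f g := by
  classical
  have hF : ContinuousOn (fun z : (Fin n → ℝ) × ℝ => if z.2 = 0 then f z.1 else k z)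
      (closedDisc n ×ˢ {0} ∪ sph n ×ˢ uI) := by
    apply ContinuousOn.union_of_isClosed _ _ ((dt_isClosed_closedDisc n).prod isClosed_singleton)
      ((dt_isClosed_sph n).prod tt_isClosed_uI)
    · have h1 : ContinuousOn (fun z : (Fin n → ℝ) × ℝ => f z.1)
          (closedDisc n ×ˢ ({0} : Set ℝ)) := by
        apply hf.comp continuous_fst.continuousOn
        intro z hz
        exact hz.1
      apply h1.congr
      intro z hz
      exact if_pos hz.2
    · apply hk.congr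
      intro z hz
      show (if z.2 = 0 then f z.1 else k z) = k z
      split_ifs with h2
      · rw [← h z.1 hz.1, ← h2]
      · rfl
  obtain ⟨G, hG, hGE⟩ := hep_disc n _ hF
  refine ⟨fun x => G (x, 1), G, hG, fun x hx => ?_, fun x hx => rfl, fun x hx t ht => ?_⟩
  · have h3 : (x, (0 : ℝ)) ∈ closedDisc n ×ˢ ({0} : Set ℝ) ∪ sph n ×ˢ uI := Or.inl ⟨hx, rfl⟩
    rw [hGE h3]
    exact if_pos rfl
  · have h3 : (x, t) ∈ closedDisc n ×ˢ ({0} : Set ℝ) ∪ sph n ×ˢ uI := Or.inr ⟨hx, ht⟩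
    rw [hGE h3]
    show (if t = 0 then f x else k (x, t)) = k (x, t)
    split_ifs with h2
    · rw [← h x hx, ← h2]
    · rfl

/-- existence, backwards -/
theorem exists_HOver' (k : (Fin n → ℝ) × ℝ → X) (g : (Fin n → ℝ) → X)
    (hg : ContinuousOn g (closedDisc n)) (hk : ContinuousOn k (sph n ×ˢ uI))
    (h : ∀ x ∈ sph n, k (x, 1) = g x) : ∃ f, HOver k f g := by
  have hI : ∀ t : ℝ, t ∈ uI → 1 - t ∈ uI := fun t ht =>
    ⟨sub_nonneg.2 ht.2, sub_le_self _ ht.1⟩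
  obtain ⟨f, hf⟩ := exists_HOver (fun z => k (z.1, 1 - z.2)) g hg
    (hk.comp (by fun_prop) (fun z hz => ⟨hz.1, hI _ hz.2⟩))
    (fun x hx => by simpa using h x hx)
  refine ⟨f, hf.symm.congr (fun z hz => ?_) (fun _ _ => rfl) (fun _ _ => rfl)⟩
  change k (z.1, 1 - (1 - z.2)) = k z
  rw [sub_sub_cancel]

/-- uniqueness -/
theorem HOver.unique {k : (Fin n → ℝ) × ℝ → X} {f g g' : (Fin n → ℝ) → X} (h : HOver k f g)
    (h' : HOver k f g') : HRel g g' := by
  obtain ⟨H, hH, h0, h1, hs⟩ := h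
  obtain ⟨L, hL, l0, l1, ls⟩ := h'
  obtain ⟨K, hK, k0, k1, ks⟩ := homotopy_unique_disc n H L hH hL
    (fun x hx => (h0 x hx).trans (l0 x hx).symm)
    (fun z hz => (hs z.1 hz.1 z.2 hz.2).trans (ls z.1 hz.1 z.2 hz.2).symm)
  exact ⟨K, hK, fun x hx => (k0 x hx).trans (h1 x hx), fun x hx => (k1 x hx).trans (l1 x hx),
    fun x hx t ht => (ks x hx t ht).trans (h1 x (sph_subset n hx))⟩

theorem HOver.unique' {k : (Fin n → ℝ) × ℝ → X} {f f' g : (Fin n → ℝ) → X} (h : HOver k f g)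
    (h' : HOver k f' g) : HRel f f' := h.symm.unique h'.symm

/-- composition with homotopies relative to the sphere, keeping the side walls (`hep_prism_disc`) -/
theorem HOver.trans_HRel {k : (Fin n → ℝ) × ℝ → X} {f g g' : (Fin n → ℝ) → X} (h : HOver k f g)
    (h' : HRel g g') : HOver k f g' := by
  classical
  obtain ⟨H, hH, h0, h1, hs⟩ := h
  obtain ⟨L, hL, l0, l1, ls⟩ := h'
  have hI : IsClosed uI := isClosed_Icc
  have hD := dt_isClosed_closedDisc n
  have hS := dt_isClosed_sph n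
  set F : (Fin n → ℝ) × ℝ × ℝ → X :=
    fun z => if z.2.1 = 1 then L (z.1, z.2.2) else H (z.1, z.2.1) with hFdef
  -- the part where `F` is given by `L`
  have hF1 : ContinuousOn F (closedDisc n ×ˢ ({1} : Set ℝ) ×ˢ uI) := by
    have : ContinuousOn (fun z : (Fin n → ℝ) × ℝ × ℝ => L (z.1, z.2.2))
        (closedDisc n ×ˢ ({1} : Set ℝ) ×ˢ uI) :=
      hL.comp (by fun_prop) (fun z hz => ⟨hz.1, hz.2.2⟩)
    refine this.congr ?_
    rintro ⟨x, s, t⟩ ⟨_, hs', _⟩
    have : s = 1 := hs'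
    simp [hFdef, this]
  -- the part where `F` is given by `H`
  have hF2 : ContinuousOn F (closedDisc n ×ˢ uI ×ˢ ({0} : Set ℝ) ∪
      closedDisc n ×ˢ ({0} : Set ℝ) ×ˢ uI ∪ sph n ×ˢ uI ×ˢ uI) := by
    have : ContinuousOn (fun z : (Fin n → ℝ) × ℝ × ℝ => H (z.1, z.2.1))
        (closedDisc n ×ˢ uI ×ˢ ({0} : Set ℝ) ∪
      closedDisc n ×ˢ ({0} : Set ℝ) ×ˢ uI ∪ sph n ×ˢ uI ×ˢ uI) := by
      refine hH.comp (by fun_prop) ?_
      rintro ⟨x, s, t⟩ ((⟨h1, h2, h3⟩ | ⟨h1, h2, h3⟩) | ⟨h1, h2, h3⟩)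
      · exact ⟨h1, h2⟩
      · refine ⟨h1, ?_⟩
        have h2' : s = 0 := h2
        subst h2'
        exact tt_zero_mem
      · exact ⟨sph_subset n h1, h2⟩
    refine this.congr ?_
    rintro ⟨x, s, t⟩ ((⟨e1, e2, e3⟩ | ⟨e1, e2, e3⟩) | ⟨e1, e2, e3⟩)
    · have e3' : t = 0 := e3
      subst e3'
      by_cases hs1 : s = 1
      · subst hs1
        change (if (1 : ℝ) = 1 then L (x, 0) else H (x, 1)) = H (x, 1)
        rw [if_pos rfl, l0 x e1, h1 x e1]
      · simp [hFdef, hs1]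
    · have e2' : s = 0 := e2
      simp [hFdef, e2']
    · by_cases hs1 : s = 1
      · subst hs1
        change (if (1 : ℝ) = 1 then L (x, t) else H (x, 1)) = H (x, 1)
        rw [if_pos rfl, ls x e1 t e3, h1 x (sph_subset n e1)]
      · simp [hFdef, hs1]
  have hc1 : IsClosed (closedDisc n ×ˢ ({1} : Set ℝ) ×ˢ uI) :=
    hD.prod (isClosed_singleton.prod hI)
  have hc2 : IsClosed (closedDisc n ×ˢ uI ×ˢ ({0} : Set ℝ) ∪
      closedDisc n ×ˢ ({0} : Set ℝ) ×ˢ uI ∪ sph n ×ˢ uI ×ˢ uI) :=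
    ((hD.prod (hI.prod isClosed_singleton)).union (hD.prod (isClosed_singleton.prod hI))).union
      (hS.prod (hI.prod hI))
  have hF : ContinuousOn F (closedDisc n ×ˢ uI ×ˢ {0} ∪ closedDisc n ×ˢ {0, 1} ×ˢ uI ∪
      sph n ×ˢ uI ×ˢ uI) := by
    refine (hF1.union_of_isClosed hF2 hc1 hc2).mono ?_
    rintro ⟨x, s, t⟩ ((⟨h1, h2, h3⟩ | ⟨h1, h2, h3⟩) | ⟨h1, h2, h3⟩)
    · exact Or.inr (Or.inl (Or.inl ⟨h1, h2, h3⟩))
    · rcases h2 with h2 | h2
      · exact Or.inr (Or.inl (Or.inr ⟨h1, h2, h3⟩))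
      · exact Or.inl ⟨h1, h2, h3⟩
    · exact Or.inr (Or.inr ⟨h1, h2, h3⟩)
  obtain ⟨E, hE, hEF⟩ := hep_prism_disc n F hF
  refine ⟨fun z => E (z.1, z.2, 1),
    hE.comp (by fun_prop) (fun z hz => ⟨hz.1, hz.2, tt_one_mem⟩), ?_, ?_, ?_⟩
  · intro x hx
    have := hEF (x := (x, 0, 1)) (Or.inl (Or.inr ⟨hx, Or.inl rfl, tt_one_mem⟩))
    change E (x, 0, 1) = f x
    rw [this]
    change (if (0 : ℝ) = 1 then L (x, 1) else H (x, 0)) = f x
    rw [if_neg (by norm_num)]
    exact h0 x hx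
  · intro x hx
    have := hEF (x := (x, 1, 1)) (Or.inl (Or.inr ⟨hx, Or.inr rfl, tt_one_mem⟩))
    change E (x, 1, 1) = g' x
    rw [this]
    change (if (1 : ℝ) = 1 then L (x, 1) else H (x, 1)) = g' x
    rw [if_pos rfl]
    exact l1 x hx
  · intro x hx t ht
    have := hEF (x := (x, t, 1)) (Or.inr ⟨hx, ht, tt_one_mem⟩)
    change E (x, t, 1) = k (x, t)
    rw [this]
    by_cases ht1 : t = 1
    · subst ht1
      change (if (1 : ℝ) = 1 then L (x, 1) else H (x, 1)) = k (x, 1)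
      rw [if_pos rfl, ls x hx 1 tt_one_mem]
      exact (h1 x (sph_subset n hx)).symm.trans (hs x hx 1 tt_one_mem)
    · change (if t = 1 then L (x, 1) else H (x, t)) = k (x, t)
      rw [if_neg ht1]
      exact hs x hx t ht

theorem HRel.trans_HOver {k : (Fin n → ℝ) × ℝ → X} {f f' g : (Fin n → ℝ) → X} (h' : HRel f f')
    (h : HOver k f' g) : HOver k f g := by
  refine (h.symm.trans_HRel h'.symm).symm.congr (fun z hz => ?_) (fun _ _ => rfl) (fun _ _ => rfl)
  change k (z.1, 1 - (1 - z.2)) = k z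
  rw [sub_sub_cancel]

/-- images under continuous maps -/
theorem HOver.map {k : (Fin n → ℝ) × ℝ → X} {f g : (Fin n → ℝ) → X} (h : HOver k f g) (F : X → Y)
    (hF : Continuous F) : HOver (fun z => F (k z)) (fun x => F (f x)) (fun x => F (g x)) := by
  obtain ⟨H, hH, h0, h1, hs⟩ := h
  exact ⟨fun z => F (H z), hF.comp_continuousOn hH, fun x hx => congrArg F (h0 x hx),
    fun x hx => congrArg F (h1 x hx), fun x hx t ht => congrArg F (hs x hx t ht)⟩

theorem HRel.map {f g : (Fin n → ℝ) → X} (h : HRel f g) (F : X → Y)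
    (hF : Continuous F) : HRel (fun x => F (f x)) (fun x => F (g x)) := HOver.map h F hF

/-! ### the quotient map from the prism to the disc of the next dimension -/

/-- `(x, t) ↦ (x, (2t - 1)√(1 - |x|²))` -/
noncomputable def dhLens {n : ℕ} (z : (Fin n → ℝ) × ℝ) : Fin (n + 1) → ℝ :=
  Fin.snoc z.1 ((2 * z.2 - 1) * Real.sqrt (1 - ∑ i, z.1 i ^ 2))

theorem dhLens_last (z : (Fin n → ℝ) × ℝ) :
    dhLens z (Fin.last n) = (2 * z.2 - 1) * Real.sqrt (1 - ∑ i, z.1 i ^ 2) := by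
  simp [dhLens]

theorem dhLens_castSucc (z : (Fin n → ℝ) × ℝ) (i : Fin n) : dhLens z i.castSucc = z.1 i := by
  simp [dhLens]

theorem continuous_dhLens (n : ℕ) : Continuous (dhLens : (Fin n → ℝ) × ℝ → _) := by
  refine continuous_pi fun i => ?_
  refine Fin.lastCases ?_ (fun j => ?_) i
  · simp only [dhLens_last]
    fun_prop
  · simp only [dhLens_castSucc]
    fun_prop

theorem dhLens_zero (x : Fin n → ℝ) : dhLens (x, 0) = hemi false x := by
  funext i
  refine Fin.lastCases ?_ (fun j => ?_) i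
  · rw [dhLens_last, DG_hemi_last]
    simp [DG_last]
  · rw [dhLens_castSucc, DG_hemi_castSucc]

theorem dhLens_one (x : Fin n → ℝ) : dhLens (x, 1) = hemi true x := by
  funext i
  refine Fin.lastCases ?_ (fun j => ?_) i
  · rw [dhLens_last, DG_hemi_last]
    simp only [DG_last, if_true]
    ring
  · rw [dhLens_castSucc, DG_hemi_castSucc]

theorem dhLens_sph {x : Fin n → ℝ} (hx : x ∈ sph n) (t : ℝ) : dhLens (x, t) = hemi false x := by
  have hx' : ∑ i, x i ^ 2 = 1 := hx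
  funext i
  refine Fin.lastCases ?_ (fun j => ?_) i
  · rw [dhLens_last, DG_hemi_last]
    simp [DG_last, hx']
  · rw [dhLens_castSucc, DG_hemi_castSucc]

theorem dhLens_sum {x : Fin n → ℝ} (hx : x ∈ closedDisc n) (t : ℝ) :
    ∑ i, dhLens (x, t) i ^ 2 = ∑ i, x i ^ 2 + (2 * t - 1) ^ 2 * (1 - ∑ i, x i ^ 2) := by
  have hx' : ∑ i, x i ^ 2 ≤ 1 := hx
  rw [Fin.sum_univ_castSucc]
  simp only [dhLens_castSucc, dhLens_last]
  rw [mul_pow, Real.sq_sqrt (sub_nonneg.2 hx')]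

theorem dhLens_mem {x : Fin n → ℝ} (hx : x ∈ closedDisc n) {t : ℝ} (ht : t ∈ uI) :
    dhLens (x, t) ∈ closedDisc (n + 1) := by
  have hx' : ∑ i, x i ^ 2 ≤ 1 := hx
  have h0 : 0 ≤ t := ht.1
  have h1 : t ≤ 1 := ht.2
  change ∑ i, dhLens (x, t) i ^ 2 ≤ 1
  rw [dhLens_sum hx]
  have h2 : (2 * t - 1) ^ 2 ≤ 1 := by nlinarith
  nlinarith [mul_le_mul_of_nonneg_right h2 (sub_nonneg.2 hx')]

theorem exists_dhLens {z : Fin (n + 1) → ℝ} (hz : z ∈ closedDisc (n + 1)) :
    ∃ x ∈ closedDisc n, ∃ t ∈ uI, dhLens (x, t) = z := by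
  have hz' : ∑ i, z i ^ 2 ≤ 1 := hz
  rw [Fin.sum_univ_castSucc] at hz'
  set x : Fin n → ℝ := fun i => z i.castSucc with hxdef
  set c : ℝ := z (Fin.last n) with hc
  have hS : ∑ i, x i ^ 2 + c ^ 2 ≤ 1 := hz'
  have hx : x ∈ closedDisc n := by
    change ∑ i, x i ^ 2 ≤ 1
    nlinarith [sq_nonneg c]
  have hr : 0 ≤ 1 - ∑ i, x i ^ 2 := by nlinarith [sq_nonneg c]
  set r : ℝ := Real.sqrt (1 - ∑ i, x i ^ 2) with hrdef
  have hr0 : 0 ≤ r := Real.sqrt_nonneg _
  have hr2 : r ^ 2 = 1 - ∑ i, x i ^ 2 := Real.sq_sqrt hr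
  have hcr : |c| ≤ r := by
    apply abs_le_of_sq_le_sq _ hr0
    rw [hr2]
    linarith
  obtain ⟨hc1, hc2⟩ := abs_le.1 hcr
  refine ⟨x, hx, ?_⟩
  rcases hr0.eq_or_lt with h0 | hpos
  · refine ⟨0, tt_zero_mem, ?_⟩
    funext i
    refine Fin.lastCases ?_ (fun j => ?_) i
    · rw [dhLens_last]
      change (2 * (0 : ℝ) - 1) * r = c
      rw [← h0] at hc1 hc2 ⊢
      linarith
    · rw [dhLens_castSucc]
  · refine ⟨(c / r + 1) / 2, ⟨?_, ?_⟩, ?_⟩
    · have : -1 ≤ c / r := by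
        rw [le_div_iff₀ hpos]
        linarith
      change (0 : ℝ) ≤ (c / r + 1) / 2
      linarith
    · have : c / r ≤ 1 := by
        rw [div_le_iff₀ hpos]
        linarith
      change (c / r + 1) / 2 ≤ (1 : ℝ)
      linarith
    · funext i
      refine Fin.lastCases ?_ (fun j => ?_) i
      · rw [dhLens_last]
        change (2 * ((c / r + 1) / 2) - 1) * r = c
        have : (2 * ((c / r + 1) / 2) - 1) = c / r := by ring
        rw [this, div_mul_cancel₀ _ hpos.ne']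
      · rw [dhLens_castSucc]

theorem dhLens_inj {x y : Fin n → ℝ} (hx : x ∈ closedDisc n) {t s : ℝ}
    (h : dhLens (x, t) = dhLens (y, s)) : x = y ∧ (t = s ∨ x ∈ sph n) := by
  have hxy : x = y := by
    funext i
    have := congrFun h i.castSucc
    rwa [dhLens_castSucc, dhLens_castSucc] at this
  refine ⟨hxy, ?_⟩
  subst hxy
  have h2 := congrFun h (Fin.last n)
  rw [dhLens_last, dhLens_last] at h2
  have hx' : ∑ i, x i ^ 2 ≤ 1 := hx
  by_cases h1 : ∑ i, x i ^ 2 = 1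
  · exact Or.inr h1
  · left
    have hpos : 0 < Real.sqrt (1 - ∑ i, x i ^ 2) :=
      Real.sqrt_pos.2 (sub_pos.2 (lt_of_le_of_ne hx' h1))
    have h3 := mul_right_cancel₀ hpos.ne' h2
    change 2 * t - 1 = 2 * s - 1 at h3
    linarith

/-- `HRel` in terms of maps of the disc of dimension `n + 1` with hemispheres `f` and `g` -/
theorem hRel_iff_exists {f g : (Fin n → ℝ) → X} (hf : ContinuousOn f (closedDisc n))
    (hg : ContinuousOn g (closedDisc n)) : HRel f g ↔ EqOn f g (sph n) ∧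
      ∃ w : (Fin (n + 1) → ℝ) → X, ContinuousOn w (closedDisc (n + 1)) ∧
        (∀ x ∈ closedDisc n, w (hemi false x) = f x) ∧
        (∀ x ∈ closedDisc n, w (hemi true x) = g x) := by
  constructor
  · intro h
    refine ⟨h.eqOn, ?_⟩
    obtain ⟨H, hH, h0, h1, hs⟩ := h
    obtain ⟨w, hw, hwH⟩ := DG_desc_compact (K := closedDisc n ×ˢ uI) (L := closedDisc (n + 1))
      (q := dhLens) ((isCompact_closedDisc n).prod DG_isCompact_uI)
      (continuous_dhLens n).continuousOn (fun z hz => dhLens_mem hz.1 hz.2)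
      (fun z hz => by
        obtain ⟨x, hx, t, ht, he⟩ := exists_dhLens hz
        exact ⟨(x, t), ⟨hx, ht⟩, he⟩) H hH
      (by
        rintro ⟨x, t⟩ ⟨hx, ht⟩ ⟨y, s⟩ ⟨hy, hs'⟩ he
        obtain ⟨hxy, h2⟩ := dhLens_inj hx he
        subst hxy
        rcases h2 with h2 | h2
        · rw [h2]
        · rw [hs x h2 t ht, hs x h2 s hs'])
    refine ⟨w, hw, fun x hx => ?_, fun x hx => ?_⟩
    · rw [← dhLens_zero, hwH _ ⟨hx, tt_zero_mem⟩]
      exact h0 x hx
    · rw [← dhLens_one, hwH _ ⟨hx, tt_one_mem⟩]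
      exact h1 x hx
  · rintro ⟨hfg, w, hw, w0, w1⟩
    refine ⟨fun z => w (dhLens z), hw.comp (continuous_dhLens n).continuousOn
      (fun z hz => dhLens_mem hz.1 hz.2), fun x hx => ?_, fun x hx => ?_, fun x hx t ht => ?_⟩
    · change w (dhLens (x, 0)) = f x
      rw [dhLens_zero]
      exact w0 x hx
    · change w (dhLens (x, 1)) = g x
      rw [dhLens_one]
      exact w1 x hx
    · change w (dhLens (x, t)) = f x
      rw [dhLens_sph hx]
      exact w0 x (sph_subset n hx)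

/-- a weak equivalence reflects homotopy relative to the sphere -/
theorem IsWE.hRel_of_map {F : X → Y} (hF : IsWE F) {f g : (Fin n → ℝ) → X}
    (hf : ContinuousOn f (closedDisc n)) (hg : ContinuousOn g (closedDisc n))
    (hfg : EqOn f g (sph n)) (h : HRel (fun x => F (f x)) (fun x => F (g x))) : HRel f g := by
  have hFf : ContinuousOn (fun x => F (f x)) (closedDisc n) := hF.1.comp_continuousOn hf
  have hFg : ContinuousOn (fun x => F (g x)) (closedDisc n) := hF.1.comp_continuousOn hg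
  obtain ⟨-, w, hw, w0, w1⟩ := (hRel_iff_exists hFf hFg).1 h
  obtain ⟨a, ha, hae⟩ := glue_hemi' (n := n) (fun ε => if ε then g else f)
    (fun ε => by cases ε <;> simpa) (fun x hx => by simpa using hfg hx)
  have ha0 : ∀ x ∈ closedDisc n, a (hemi false x) = f x := fun x hx => by
    simpa using hae false x hx
  have ha1 : ∀ x ∈ closedDisc n, a (hemi true x) = g x := fun x hx => by
    simpa using hae true x hx
  obtain ⟨a', -, ha', haa, -⟩ := hF.disc a w (fun z => F (a z.1)) ha hw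
    (hF.1.comp_continuousOn (ha.comp continuousOn_fst (fun _ hz => hz.1))) (fun _ _ => rfl)
    (fun z hz => by
      obtain ⟨ε, x, hx, he⟩ := exists_hemi hz
      subst he
      cases ε
      · change F (a (hemi false x)) = w (hemi false x)
        rw [ha0 x hx, w0 x hx]
      · change F (a (hemi true x)) = w (hemi true x)
        rw [ha1 x hx, w1 x hx])
  refine (hRel_iff_exists hf hg).2 ⟨hfg, a', ha', fun x hx => ?_, fun x hx => ?_⟩
  · rw [haa (hemi_mem false hx)]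
    exact ha0 x hx
  · rw [haa (hemi_mem true hx)]
    exact ha1 x hx

end Vale.Agent.P259
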