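import Vale.Agent.Lib.P259.S1
/-!
# P259, module S4: the comparison map `QW (hom W x y) × [0,1] ⟶ QW W`
-/
namespace Vale.Agent.P259
open CategoryTheory Set Topology

variable {C : Type} [Category.{0} C] (𝒮 : SuspData C) {W V : PSh C}

/-- the standard point of `QW W` over a `0`-cell -/
def QW.point (x : W.obj 𝒮.pt) : QW W := ⟨Ch.vtx 0 𝒮.pt, x⟩

theorem Iic_point (x : W.obj 𝒮.pt) : Iic (QW.point 𝒮 x) = {QW.point 𝒮 x} := by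
  ext y
  constructor
  · rintro ⟨h, e⟩
    obtain ⟨σ, w⟩ := y
    have h' : σ = Ch.vtx 0 𝒮.pt := Ch.le_vtx_iff.1 h
    subst h'
    have h1 : Ch.topHom h = 𝟙 (Ch.vtx (0 : ℚ) 𝒮.pt).top := Ch.topHom_refl _
    have e' : W.res (Ch.topHom h) x = w := e
    rw [h1] at e'
    have e2 : x = w := (W.res_id (S := 𝒮.pt) x).symm.trans e'
    show (⟨Ch.vtx 0 𝒮.pt, w⟩ : QW W) = ⟨Ch.vtx 0 𝒮.pt, x⟩
    rw [← e2]
  · intro h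
    exact le_of_eq h

/-- suspension of an element -/
noncomputable def QW.susp {x y : W.obj 𝒮.pt} (v : QW (𝒮.hom W x y)) : QW W :=
  ⟨Ch.map 𝒮.sus Ch.rho Ch.rho_strictMono v.σ, v.w.1⟩
/-- suspension with the first vertex added at label `0` -/
noncomputable def QW.suspFst {x y : W.obj 𝒮.pt} (v : QW (𝒮.hom W x y)) : QW W :=
  ⟨Ch.cons (Ch.map 𝒮.sus Ch.rho Ch.rho_strictMono v.σ) 0 (Ch.rho_pos _) 𝒮.pt
    (𝒮.fst (𝒮.sus.obj v.σ.bot)), v.w.1⟩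
/-- suspension with the last vertex added at label `0` -/
noncomputable def QW.suspLst {x y : W.obj 𝒮.pt} (v : QW (𝒮.hom W x y)) : QW W :=
  ⟨Ch.cons (Ch.map 𝒮.sus Ch.rho Ch.rho_strictMono v.σ) 0 (Ch.rho_pos _) 𝒮.pt
    (𝒮.lst (𝒮.sus.obj v.σ.bot)), v.w.1⟩

/-- the path `x ≤ {first} ∪ Σv ≥ Σv ≤ {last} ∪ Σv ≥ y` -/
noncomputable def sMap (x y : W.obj 𝒮.pt) : QW (𝒮.hom W x y) × ℝ → QW W :=
  fence (fun _ => QW.point 𝒮 x) (QW.suspFst 𝒮) (QW.susp 𝒮) (QW.suspLst 𝒮)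
    (fun _ => QW.point 𝒮 y)

theorem QW.susp_val {x y : W.obj 𝒮.pt} {v v' : QW (𝒮.hom W x y)} (h : v.σ ≤ v'.σ)
    (e : (𝒮.hom W x y).res (Ch.topHom h) v'.w = v.w) :
    W.res (𝒮.sus.map (Ch.topHom h)) v'.w.1 = v.w.1 := congrArg Subtype.val e

theorem QW.susp_mono {x y : W.obj 𝒮.pt} : Monotone (QW.susp 𝒮 : QW (𝒮.hom W x y) → QW W) := by
  rintro v v' ⟨h, e⟩
  refine ⟨Ch.map_mono 𝒮.sus Ch.rho Ch.rho_strictMono h, ?_⟩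
  have h1 := Ch.topHom_map_mono 𝒮.sus Ch.rho Ch.rho_strictMono h
  exact (congrArg (fun f : 𝒮.sus.obj v.σ.top ⟶ 𝒮.sus.obj v'.σ.top => W.res f v'.w.1) h1).trans
    (QW.susp_val 𝒮 h e)

theorem Ch.cons_le_cons_of_eq {σ τ : Ch C} (h : σ ≤ τ) (q : ℚ) (hq : q < τ.ib) (hq' : q < σ.ib)
    (a : C) (f : a ⟶ σ.bot) (g : a ⟶ τ.bot) (e : g ≫ Ch.botHom h = f) :
    ∃ hc : σ.cons q hq' a f ≤ τ.cons q hq a g, Ch.topHom hc = Ch.topHom h := by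
  subst e
  exact ⟨Ch.cons_le_cons h q hq a g, Ch.topHom_cons_le_cons h q hq a g⟩

/-- the monotonicity of adding an initial object, in general form -/
theorem QW.cons_mono_aux {x y : W.obj 𝒮.pt} (k : ∀ S : C, 𝒮.pt ⟶ S)
    (hk : ∀ {S T : C} (f : S ⟶ T), k (𝒮.sus.obj S) ≫ 𝒮.sus.map f = k (𝒮.sus.obj T))
    {v v' : QW (𝒮.hom W x y)} (hvv : v ≤ v') :
    (⟨Ch.cons (Ch.map 𝒮.sus Ch.rho Ch.rho_strictMono v.σ) 0 (Ch.rho_pos _) 𝒮.pt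
      (k (𝒮.sus.obj v.σ.bot)), v.w.1⟩ : QW W) ≤
    ⟨Ch.cons (Ch.map 𝒮.sus Ch.rho Ch.rho_strictMono v'.σ) 0 (Ch.rho_pos _) 𝒮.pt
      (k (𝒮.sus.obj v'.σ.bot)), v'.w.1⟩ := by
  obtain ⟨h, e⟩ := hvv
  have hm := Ch.map_mono 𝒮.sus Ch.rho Ch.rho_strictMono h
  have hb : (k (𝒮.sus.obj v'.σ.bot) : 𝒮.pt ⟶ (Ch.map 𝒮.sus Ch.rho Ch.rho_strictMono v'.σ).bot) ≫
      Ch.botHom hm = k (𝒮.sus.obj v.σ.bot) := by
    have h1 : Ch.botHom hm = 𝒮.sus.map (Ch.botHom h) := Ch.botHom_map_mono _ _ _ h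
    exact (congrArg (fun f : 𝒮.sus.obj v'.σ.bot ⟶ 𝒮.sus.obj v.σ.bot =>
      k (𝒮.sus.obj v'.σ.bot) ≫ f) h1).trans (hk _)
  obtain ⟨hc, ht⟩ := Ch.cons_le_cons_of_eq hm 0 (Ch.rho_pos v'.σ.ib) (Ch.rho_pos v.σ.ib) 𝒮.pt
    (k (𝒮.sus.obj v.σ.bot)) (k (𝒮.sus.obj v'.σ.bot)) hb
  refine ⟨hc, ?_⟩
  have h2 : Ch.topHom hc = 𝒮.sus.map (Ch.topHom h) :=
    ht.trans (Ch.topHom_map_mono 𝒮.sus Ch.rho Ch.rho_strictMono h)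
  exact (congrArg (fun f : 𝒮.sus.obj v.σ.top ⟶ 𝒮.sus.obj v'.σ.top => W.res f v'.w.1) h2).trans
    (QW.susp_val 𝒮 h e)

theorem QW.suspFst_mono {x y : W.obj 𝒮.pt} :
    Monotone (QW.suspFst 𝒮 : QW (𝒮.hom W x y) → QW W) :=
  fun _ _ h => QW.cons_mono_aux 𝒮 𝒮.fst 𝒮.fst_sus h

theorem QW.suspLst_mono {x y : W.obj 𝒮.pt} :
    Monotone (QW.suspLst 𝒮 : QW (𝒮.hom W x y) → QW W) :=
  fun _ _ h => QW.cons_mono_aux 𝒮 𝒮.lst 𝒮.lst_sus h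

theorem QW.susp_le_cons {x y : W.obj 𝒮.pt} (v : QW (𝒮.hom W x y))
    (f : 𝒮.pt ⟶ 𝒮.sus.obj v.σ.bot) :
    QW.susp 𝒮 v ≤ ⟨Ch.cons (Ch.map 𝒮.sus Ch.rho Ch.rho_strictMono v.σ) 0 (Ch.rho_pos _) 𝒮.pt f,
      v.w.1⟩ := by
  refine ⟨Ch.le_cons (Ch.map 𝒮.sus Ch.rho Ch.rho_strictMono v.σ) 0 (Ch.rho_pos _) 𝒮.pt f, ?_⟩
  have h1 := Ch.topHom_le_cons (Ch.map 𝒮.sus Ch.rho Ch.rho_strictMono v.σ) 0 (Ch.rho_pos _) 𝒮.pt f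
  exact (congrArg (fun g : 𝒮.sus.obj v.σ.top ⟶ 𝒮.sus.obj v.σ.top => W.res g v.w.1) h1).trans
    (W.res_id _)

theorem QW.point_le_cons {x y z : W.obj 𝒮.pt} (v : QW (𝒮.hom W x y))
    (f : 𝒮.pt ⟶ 𝒮.sus.obj v.σ.bot) (hz : W.res (f ≫ 𝒮.sus.map v.σ.mm) v.w.1 = z) :
    QW.point 𝒮 z ≤ ⟨Ch.cons (Ch.map 𝒮.sus Ch.rho Ch.rho_strictMono v.σ) 0 (Ch.rho_pos _) 𝒮.pt f,
      v.w.1⟩ := by
  refine ⟨Ch.vtx_le_cons (Ch.map 𝒮.sus Ch.rho Ch.rho_strictMono v.σ) 0 (Ch.rho_pos _) 𝒮.pt f,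
    ?_⟩
  have h1 := Ch.topHom_vtx_le_cons (Ch.map 𝒮.sus Ch.rho Ch.rho_strictMono v.σ) 0 (Ch.rho_pos _)
    𝒮.pt f
  have h2 := Ch.map_mm 𝒮.sus Ch.rho Ch.rho_strictMono v.σ
  have h3 : Ch.topHom (Ch.vtx_le_cons (Ch.map 𝒮.sus Ch.rho Ch.rho_strictMono v.σ) 0
      (Ch.rho_pos _) 𝒮.pt f) = f ≫ 𝒮.sus.map v.σ.mm :=
    h1.trans (congrArg (fun g : 𝒮.sus.obj v.σ.bot ⟶ 𝒮.sus.obj v.σ.top => f ≫ g) h2)
  exact (congrArg (fun g : 𝒮.pt ⟶ 𝒮.sus.obj v.σ.top => W.res g v.w.1) h3).trans hz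

theorem continuous_sMap (x y : W.obj 𝒮.pt) : Continuous (sMap 𝒮 x y) := by
  refine continuous_fence _ _ _ _ _ (fun _ _ _ => le_rfl) (QW.suspFst_mono 𝒮) (QW.susp_mono 𝒮)
    (QW.suspLst_mono 𝒮) (fun _ _ _ => le_rfl) ?_ ?_ ?_ ?_
  · intro v
    refine QW.point_le_cons 𝒮 v _ ?_
    rw [𝒮.fst_sus]
    exact v.w.2.1
  · exact fun v => QW.susp_le_cons 𝒮 v _
  · exact fun v => QW.susp_le_cons 𝒮 v _
  · intro v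
    refine QW.point_le_cons 𝒮 v _ ?_
    rw [𝒮.lst_sus]
    exact v.w.2.2

theorem sMap_zero (x y : W.obj 𝒮.pt) (v : QW (𝒮.hom W x y)) :
    sMap 𝒮 x y (v, 0) = QW.point 𝒮 x := by
  have h : (0 : ℝ) < 1 / 3 := by norm_num
  simp only [sMap, fence]
  rw [if_pos h]

theorem sMap_one (x y : W.obj 𝒮.pt) (v : QW (𝒮.hom W x y)) :
    sMap 𝒮 x y (v, 1) = QW.point 𝒮 y := by
  simp only [sMap, fence]
  rw [if_neg (by norm_num), if_neg (by norm_num), if_neg (by norm_num), if_neg (by norm_num)]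

/-- naturality -/
theorem map_sMap (F : W.Hom V) (x y : W.obj 𝒮.pt) (v : QW (𝒮.hom W x y)) (t : ℝ) :
    QW.map F (sMap 𝒮 x y (v, t)) =
      sMap 𝒮 (F.app x) (F.app y) (QW.map (𝒮.homMap F x y) v, t) := by
  simp only [sMap, fence]
  split_ifs <;> rfl

end Vale.Agent.P259
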