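import Vale.Agent.Lib.P259.Wedge
import Vale.Agent.Lib.P259.S4
import Vale.Agent.Lib.P259.DiscHtpy
/-!
# P259, module F2: the disc in `QW W` given by a cell of `W`
-/
namespace Vale.Agent.P259
open CategoryTheory Set Topology

namespace Coherator
variable {C : Coherator} {W V : PSh C.C.Cat}

/-- parallel cells -/
def ParP (W : PSh C.C.Cat) : {n : ℕ} → W.obj ⟨.D n⟩ → W.obj ⟨.D n⟩ → Prop
  | 0, _, _ => True
  | n + 1, a, b => ∀ ε : Bool, W.res (C.C.jm (bd₀ (Nat.lt_succ_self n) ε)) a =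
      W.res (C.C.jm (bd₀ (Nat.lt_succ_self n) ε)) b

/-- first vertex of a cell -/
noncomputable abbrev vx (ε : Bool) {n : ℕ} (w : W.obj ⟨.D n⟩) : W.obj ⟨.D 0⟩ :=
  W.res (if ε then C.suspData.lst ⟨.D n⟩ else C.suspData.fst ⟨.D n⟩) w

/-- The disc of a cell, by induction on the dimension: the suspension of the disc of the same cell
considered in `hom W x y`. -/
noncomputable def cellMap : (n : ℕ) → (W : PSh C.C.Cat) → W.obj ⟨.D n⟩ → (Fin n → ℝ) → QW W
  | 0, _, w, _ => QW.point C.suspData w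
  | n + 1, W, w, z =>
    sMap C.suspData (W.res (C.suspData.fst ⟨.D (n + 1)⟩) w) (W.res (C.suspData.lst ⟨.D (n + 1)⟩) w)
      (cellMap n (C.suspData.hom W _ _) ⟨w, rfl, rfl⟩
        (fun i => z i.succ / (2 * Real.sqrt ((z 0 + 1) / 2 * (1 - (z 0 + 1) / 2)))), (z 0 + 1) / 2)

theorem cellMap_zero (w : W.obj ⟨.D 0⟩) (z : Fin 0 → ℝ) :
    cellMap 0 W w z = QW.point C.suspData w := rfl

/-- the definition, with the end points given by equations -/
theorem cellMap_succ {n : ℕ} (w : W.obj ⟨.D (n + 1)⟩) (x y : W.obj ⟨.D 0⟩)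
    (hx : W.res (C.suspData.fst ⟨.D (n + 1)⟩) w = x) (hy : W.res (C.suspData.lst ⟨.D (n + 1)⟩) w = y)
    (z : Fin (n + 1) → ℝ) :
    cellMap (n + 1) W w z =
      sMap C.suspData x y (cellMap n (C.suspData.hom W x y) ⟨w, hx, hy⟩
        (fun i => z i.succ / (2 * Real.sqrt ((z 0 + 1) / 2 * (1 - (z 0 + 1) / 2)))),
        (z 0 + 1) / 2) := by
  subst hx
  subst hy
  rfl

theorem cellMap_susp {n : ℕ} (w : W.obj ⟨.D (n + 1)⟩) (x y : W.obj ⟨.D 0⟩)
    (hx : W.res (C.suspData.fst ⟨.D (n + 1)⟩) w = x) (hy : W.res (C.suspData.lst ⟨.D (n + 1)⟩) w = y)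
    {z : Fin n → ℝ} (hz : z ∈ closedDisc n) {t : ℝ} (ht : t ∈ uI) :
    cellMap (n + 1) W w (susp (z, t)) =
      sMap C.suspData x y (cellMap n (C.suspData.hom W x y) ⟨w, hx, hy⟩ z, t) := by
  have _ := hz
  rw [cellMap_succ w x y hx hy]
  have h0 : ((susp (z, t) : Fin (n + 1) → ℝ) 0 + 1) / 2 = t := by
    rw [DG_susp_zero]
    simp only
    ring
  rw [h0]
  by_cases hc0 : t = 0
  · subst hc0
    exact (sMap_zero C.suspData x y _).trans (sMap_zero C.suspData x y _).symm
  by_cases hc1 : t = 1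
  · subst hc1
    exact (sMap_one C.suspData x y _).trans (sMap_one C.suspData x y _).symm
  have hio : 0 < t * (1 - t) :=
    mul_pos (lt_of_le_of_ne ht.1 (Ne.symm hc0)) (sub_pos.2 (lt_of_le_of_ne ht.2 hc1))
  have h2 : (fun i : Fin n => (susp (z, t) : Fin (n + 1) → ℝ) i.succ /
      (2 * Real.sqrt (t * (1 - t)))) = z := by
    funext i
    rw [DG_susp_succ]
    have h3 : (2 * Real.sqrt (t * (1 - t))) ≠ 0 := by positivity
    simp only
    rw [mul_div_assoc, mul_div_cancel₀]
    exact h3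
  rw [h2]

/-- naturality -/
theorem map_cellMap (F : W.Hom V) (n : ℕ) (w : W.obj ⟨.D n⟩) (z : Fin n → ℝ) :
    QW.map F (cellMap n W w z) = cellMap n V (F.app w) z := by
  induction n generalizing W V with
  | zero => rfl
  | succ n ih =>
    set x := W.res (C.suspData.fst ⟨.D (n + 1)⟩) w with hx
    set y := W.res (C.suspData.lst ⟨.D (n + 1)⟩) w with hy
    have hx' : V.res (C.suspData.fst ⟨.D (n + 1)⟩) (F.app w) = F.app x := (F.nat _ _).symm
    have hy' : V.res (C.suspData.lst ⟨.D (n + 1)⟩) (F.app w) = F.app y := (F.nat _ _).symm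
    have h1 := ih (W := C.suspData.hom W x y) (V := C.suspData.hom V (F.app x) (F.app y))
      (C.suspData.homMap F x y) ⟨w, hx.symm, hy.symm⟩
      (fun i => z i.succ / (2 * Real.sqrt ((z 0 + 1) / 2 * (1 - (z 0 + 1) / 2))))
    refine (congrArg (QW.map F) (cellMap_succ w x y hx.symm hy.symm z)).trans
      ((map_sMap C.suspData F x y _ _).trans ?_)
    refine Eq.trans ?_ (cellMap_succ (F.app w) (F.app x) (F.app y) hx' hy' z).symm
    exact congrArg (fun v => sMap C.suspData (F.app x) (F.app y) (v, (z 0 + 1) / 2)) h1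

theorem continuousOn_cellMap (n : ℕ) (W : PSh C.C.Cat) (w : W.obj ⟨.D n⟩) :
    ContinuousOn (cellMap n W w) (closedDisc n) := by
  induction n generalizing W with
  | zero => exact continuousOn_const
  | succ n ih =>
    set x := W.res (C.suspData.fst ⟨.D (n + 1)⟩) w with hx
    set y := W.res (C.suspData.lst ⟨.D (n + 1)⟩) w with hy
    set u : (C.suspData.hom W x y).obj ⟨.D n⟩ := ⟨w, hx.symm, hy.symm⟩ with hu
    obtain ⟨g, hg, hg2⟩ := susp_desc'
      (fun z : (Fin n → ℝ) × ℝ => sMap C.suspData x y (cellMap n (C.suspData.hom W x y) u z.1, z.2))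
      ((continuous_sMap C.suspData x y).comp_continuousOn
        (((ih _ u).comp continuousOn_fst (fun z hz => hz.1)).prodMk continuousOn_snd))
      (fun a _ b _ => by
        simp only
        rw [sMap_zero, sMap_zero])
      (fun a _ b _ => by
        simp only
        rw [sMap_one, sMap_one])
    refine hg.congr fun z hz => ?_
    obtain ⟨a, ha, t, ht, rfl⟩ := exists_susp hz
    rw [hg2 a ha t ht]
    exact cellMap_susp w x y hx.symm hy.symm ha ht

/-- compatibility with the hemispheres -/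
theorem cellMap_hemi (n : ℕ) (W : PSh C.C.Cat) (w : W.obj ⟨.D (n + 1)⟩) (ε : Bool)
    {z : Fin n → ℝ} (hz : z ∈ closedDisc n) :
    cellMap (n + 1) W w (hemi ε z) =
      cellMap n W (W.res (C.C.jm (bd₀ (Nat.lt_succ_self n) ε)) w) z := by
  induction n generalizing W with
  | zero =>
    cases ε with
    | false =>
      rw [(hemi_zero z z).1, cellMap_susp w _ _ rfl rfl hz ⟨le_rfl, zero_le_one⟩, sMap_zero]
      exact congrArg (fun f => QW.point C.suspData (W.res f w)) (C.suspData_fst_D 0)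
    | true =>
      rw [(hemi_zero z z).2, cellMap_susp w _ _ rfl rfl hz ⟨zero_le_one, le_rfl⟩, sMap_one]
      exact congrArg (fun f => QW.point C.suspData (W.res f w)) (C.suspData_lst_D 0)
  | succ n ih =>
    obtain ⟨a, ha, t, ht, rfl⟩ := exists_susp hz
    set x := W.res (C.suspData.fst ⟨.D (n + 2)⟩) w with hx
    set y := W.res (C.suspData.lst ⟨.D (n + 2)⟩) w with hy
    set w' := W.res (C.C.jm (bd₀ (Nat.lt_succ_self (n + 1)) ε)) w with hw'
    set u : (C.suspData.hom W x y).obj ⟨.D (n + 1)⟩ := ⟨w, hx.symm, hy.symm⟩ with hu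
    set u' := (C.suspData.hom W x y).res (C.C.jm (bd₀ (Nat.lt_succ_self n) ε)) u with hu'
    have hval : u'.1 = w' := C.suspData_res_bd W x y _ _ _
    have hx' : W.res (C.suspData.fst ⟨.D (n + 1)⟩) w' = x := by
      rw [← hval]
      exact u'.2.1
    have hy' : W.res (C.suspData.lst ⟨.D (n + 1)⟩) w' = y := by
      rw [← hval]
      exact u'.2.2
    have hsub : (⟨w', hx', hy'⟩ : (C.suspData.hom W x y).obj ⟨.D n⟩) = u' := Subtype.ext hval.symm
    rw [hemi_susp ε ha ht]
    refine (cellMap_susp w x y hx.symm hy.symm (sph_subset _ (hemi_mem ε ha)) ht).trans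
      (Eq.trans ?_ (cellMap_susp w' x y hx' hy' ha ht).symm)
    refine congrArg (fun v => sMap C.suspData x y (v, t)) ?_
    refine (ih (C.suspData.hom W x y) u ha).trans ?_
    exact congrArg (fun v => cellMap n (C.suspData.hom W x y) v a) hsub.symm

end Coherator
end Vale.Agent.P259
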