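import Mathlib

/-!
# P259, module P1: finite chains with rational labels in a category

A chain is a finite nonempty set of labels in `ℚ` together with a functor from it to `C`; it is
encoded by the finite set `G` of its labelled arrows.  Chains are ordered by inclusion (`σ ≤ τ` iff
`σ` is a subchain of `τ`).
-/

namespace Vale.Agent.P259

open CategoryTheory

/-- labelled arrows -/
structure LArr (C : Type) [Category.{0} C] where
  i : ℚ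
  j : ℚ
  a : C
  b : C
  f : a ⟶ b

/-- chains -/
@[ext]
structure Ch (C : Type) [Category.{0} C] where
  G : Set (LArr C)
  fin : G.Finite
  ib : ℚ
  it : ℚ
  bot : C
  top : C
  mem_bot : (⟨ib, ib, bot, bot, 𝟙 bot⟩ : LArr C) ∈ G
  mem_top : (⟨it, it, top, top, 𝟙 top⟩ : LArr C) ∈ G
  bounds : ∀ x ∈ G, ib ≤ x.i ∧ x.i ≤ x.j ∧ x.j ≤ it
  mem_src : ∀ x ∈ G, (⟨x.i, x.i, x.a, x.a, 𝟙 x.a⟩ : LArr C) ∈ G
  mem_tgt : ∀ x ∈ G, (⟨x.j, x.j, x.b, x.b, 𝟙 x.b⟩ : LArr C) ∈ G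
  uniq : ∀ x ∈ G, ∀ y ∈ G, x.i = y.i → x.j = y.j → x = y
  total : ∀ x ∈ G, ∀ y ∈ G, x.i ≤ y.i → ∃ f : x.a ⟶ y.a, (⟨x.i, y.i, x.a, y.a, f⟩ : LArr C) ∈ G
  comp : ∀ {i j k : ℚ} {a b c : C} (f : a ⟶ b) (g : b ⟶ c), (⟨i, j, a, b, f⟩ : LArr C) ∈ G →
    (⟨j, k, b, c, g⟩ : LArr C) ∈ G → (⟨i, k, a, c, f ≫ g⟩ : LArr C) ∈ G

namespace Ch

variable {C D : Type} [Category.{0} C] [Category.{0} D]

theorem eq_of_G {σ τ : Ch C} (h : σ.G = τ.G) : σ = τ := by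
  have m1 : (⟨σ.ib, σ.ib, σ.bot, σ.bot, 𝟙 σ.bot⟩ : LArr C) ∈ τ.G := h ▸ σ.mem_bot
  have m2 : (⟨τ.ib, τ.ib, τ.bot, τ.bot, 𝟙 τ.bot⟩ : LArr C) ∈ σ.G := h ▸ τ.mem_bot
  have m3 : (⟨σ.it, σ.it, σ.top, σ.top, 𝟙 σ.top⟩ : LArr C) ∈ τ.G := h ▸ σ.mem_top
  have m4 : (⟨τ.it, τ.it, τ.top, τ.top, 𝟙 τ.top⟩ : LArr C) ∈ σ.G := h ▸ τ.mem_top
  have hib : σ.ib = τ.ib := le_antisymm (σ.bounds _ m2).1 (τ.bounds _ m1).1
  have hit : σ.it = τ.it := le_antisymm (τ.bounds _ m3).2.2 (σ.bounds _ m4).2.2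
  have hb := τ.uniq _ m1 _ τ.mem_bot hib hib
  have ht := τ.uniq _ m3 _ τ.mem_top hit hit
  have hbot : σ.bot = τ.bot := congrArg LArr.a hb
  have htop : σ.top = τ.top := congrArg LArr.a ht
  exact Ch.ext h hib hit hbot htop

instance : PartialOrder (Ch C) where
  le σ τ := σ.G ⊆ τ.G
  le_refl σ := Set.Subset.refl _
  le_trans _ _ _ h h' := Set.Subset.trans h h'
  le_antisymm _ _ h h' := eq_of_G (Set.Subset.antisymm h h')

theorem le_def {σ τ : Ch C} : σ ≤ τ ↔ σ.G ⊆ τ.G := Iff.rfl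

theorem exists_topHom {σ τ : Ch C} (h : σ ≤ τ) :
    ∃ f : σ.top ⟶ τ.top, (⟨σ.it, τ.it, σ.top, τ.top, f⟩ : LArr C) ∈ τ.G :=
  τ.total _ (h σ.mem_top) _ τ.mem_top (τ.bounds _ (h σ.mem_top)).2.2
theorem exists_botHom {σ τ : Ch C} (h : σ ≤ τ) :
    ∃ f : τ.bot ⟶ σ.bot, (⟨τ.ib, σ.ib, τ.bot, σ.bot, f⟩ : LArr C) ∈ τ.G :=
  τ.total _ τ.mem_bot _ (h σ.mem_bot) (τ.bounds _ (h σ.mem_bot)).1
theorem exists_mm (σ : Ch C) :
    ∃ f : σ.bot ⟶ σ.top, (⟨σ.ib, σ.it, σ.bot, σ.top, f⟩ : LArr C) ∈ σ.G :=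
  σ.total _ σ.mem_bot _ σ.mem_top (σ.bounds _ σ.mem_top).1

/-- transition on last objects -/
noncomputable def topHom {σ τ : Ch C} (h : σ ≤ τ) : σ.top ⟶ τ.top := (exists_topHom h).choose
/-- transition on first objects -/
noncomputable def botHom {σ τ : Ch C} (h : σ ≤ τ) : τ.bot ⟶ σ.bot := (exists_botHom h).choose
/-- the composite arrow of the chain -/
noncomputable def mm (σ : Ch C) : σ.bot ⟶ σ.top := (exists_mm σ).choose

theorem topHom_mem {σ τ : Ch C} (h : σ ≤ τ) :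
    (⟨σ.it, τ.it, σ.top, τ.top, topHom h⟩ : LArr C) ∈ τ.G := (exists_topHom h).choose_spec
theorem botHom_mem {σ τ : Ch C} (h : σ ≤ τ) :
    (⟨τ.ib, σ.ib, τ.bot, σ.bot, botHom h⟩ : LArr C) ∈ τ.G := (exists_botHom h).choose_spec
theorem mm_mem (σ : Ch C) : (⟨σ.ib, σ.it, σ.bot, σ.top, σ.mm⟩ : LArr C) ∈ σ.G :=
  (exists_mm σ).choose_spec

/-- uniqueness of the arrow with given labels and ends -/
theorem hom_unique (τ : Ch C) {i j : ℚ} {a b : C} {f g : a ⟶ b} (hf : (⟨i, j, a, b, f⟩ : LArr C) ∈ τ.G)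
    (hg : (⟨i, j, a, b, g⟩ : LArr C) ∈ τ.G) : f = g := by
  have h := τ.uniq _ hf _ hg rfl rfl
  simpa using h

theorem topHom_refl (σ : Ch C) : topHom (le_refl σ) = 𝟙 σ.top :=
  hom_unique σ (topHom_mem (le_refl σ)) σ.mem_top
theorem topHom_trans {σ τ υ : Ch C} (h : σ ≤ τ) (h' : τ ≤ υ) :
    topHom (h.trans h') = topHom h ≫ topHom h' :=
  hom_unique υ (topHom_mem (h.trans h')) (υ.comp _ _ (h' (topHom_mem h)) (topHom_mem h'))
theorem botHom_refl (σ : Ch C) : botHom (le_refl σ) = 𝟙 σ.bot :=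
  hom_unique σ (botHom_mem (le_refl σ)) σ.mem_bot
theorem botHom_trans {σ τ υ : Ch C} (h : σ ≤ τ) (h' : τ ≤ υ) :
    botHom (h.trans h') = botHom h' ≫ botHom h :=
  hom_unique υ (botHom_mem (h.trans h')) (υ.comp _ _ (botHom_mem h') (h' (botHom_mem h)))
theorem botHom_mm_topHom {σ τ : Ch C} (h : σ ≤ τ) : botHom h ≫ σ.mm ≫ topHom h = τ.mm :=
  hom_unique τ (τ.comp _ _ (botHom_mem h) (τ.comp _ _ (h (mm_mem σ)) (topHom_mem h))) (mm_mem τ)
theorem it_le {σ τ : Ch C} (h : σ ≤ τ) : σ.it ≤ τ.it := (τ.bounds _ (h σ.mem_top)).2.2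
theorem ib_le {σ τ : Ch C} (h : σ ≤ τ) : τ.ib ≤ σ.ib := (τ.bounds _ (h σ.mem_bot)).1
theorem ib_le_it (σ : Ch C) : σ.ib ≤ σ.it := (σ.bounds _ σ.mem_top).1
theorem finite_Iic (σ : Ch C) : (Set.Iic σ).Finite := by
  have h : {s : Set (LArr C) | s ⊆ σ.G}.Finite := σ.fin.finite_subsets
  refine (h.preimage (f := fun τ : Ch C => τ.G) (fun τ _ υ _ e => eq_of_G e)).subset ?_
  intro τ hτ
  exact hτ

/-! ### one-point chains -/

/-- the chain with one object `a` at label `q` -/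
def vtx (q : ℚ) (a : C) : Ch C where
  G := {⟨q, q, a, a, 𝟙 a⟩}
  fin := Set.finite_singleton _
  ib := q
  it := q
  bot := a
  top := a
  mem_bot := Set.mem_singleton _
  mem_top := Set.mem_singleton _
  bounds := by
    rintro x hx
    obtain rfl := Set.mem_singleton_iff.mp hx
    exact ⟨le_refl _, le_refl _, le_refl _⟩
  mem_src := by
    rintro x hx
    obtain rfl := Set.mem_singleton_iff.mp hx
    exact Set.mem_singleton _
  mem_tgt := by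
    rintro x hx
    obtain rfl := Set.mem_singleton_iff.mp hx
    exact Set.mem_singleton _
  uniq := by
    intro x hx y hy _ _
    rw [Set.mem_singleton_iff.mp hx, Set.mem_singleton_iff.mp hy]
  total := by
    intro x hx y hy _
    obtain rfl := Set.mem_singleton_iff.mp hx
    obtain rfl := Set.mem_singleton_iff.mp hy
    exact ⟨𝟙 a, Set.mem_singleton _⟩
  comp := by
    intro i j k a' b' c' f g hf hg
    have h1 := Set.mem_singleton_iff.mp hf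
    have h2 := Set.mem_singleton_iff.mp hg
    rw [LArr.mk.injEq] at h1 h2
    obtain ⟨rfl, rfl, rfl, rfl, h3⟩ := h1
    obtain ⟨_, rfl, _, rfl, h4⟩ := h2
    rw [heq_iff_eq] at h3 h4
    subst h3 h4
    simp

theorem le_vtx_iff {σ : Ch C} {q : ℚ} {a : C} : σ ≤ vtx q a ↔ σ = vtx q a := by
  constructor
  · intro h
    refine le_antisymm h ?_
    intro x hx
    have h1 : x = ⟨q, q, a, a, 𝟙 a⟩ := Set.mem_singleton_iff.mp hx
    have h2 : (⟨σ.ib, σ.ib, σ.bot, σ.bot, 𝟙 σ.bot⟩ : LArr C) = ⟨q, q, a, a, 𝟙 a⟩ :=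
      Set.mem_singleton_iff.mp (h σ.mem_bot)
    rw [h1, ← h2]
    exact σ.mem_bot
  · intro h
    exact le_of_eq h
theorem vtx_mm (q : ℚ) (a : C) : (vtx q a).mm = 𝟙 a :=
  hom_unique (vtx q a) (mm_mem (vtx q a)) (Set.mem_singleton _)
/-- the first object as a subchain -/
theorem botVtx_le (σ : Ch C) : vtx σ.ib σ.bot ≤ σ := by
  intro x hx
  have h1 : x = ⟨σ.ib, σ.ib, σ.bot, σ.bot, 𝟙 σ.bot⟩ := Set.mem_singleton_iff.mp hx
  rw [h1]; exact σ.mem_bot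
theorem topVtx_le (σ : Ch C) : vtx σ.it σ.top ≤ σ := by
  intro x hx
  have h1 : x = ⟨σ.it, σ.it, σ.top, σ.top, 𝟙 σ.top⟩ := Set.mem_singleton_iff.mp hx
  rw [h1]; exact σ.mem_top
theorem topHom_botVtx (σ : Ch C) : topHom (botVtx_le σ) = σ.mm :=
  hom_unique σ (topHom_mem (botVtx_le σ)) (mm_mem σ)
theorem botHom_topVtx (σ : Ch C) : botHom (topVtx_le σ) = σ.mm :=
  hom_unique σ (botHom_mem (topVtx_le σ)) (mm_mem σ)
theorem botHom_botVtx (σ : Ch C) : botHom (botVtx_le σ) = 𝟙 σ.bot :=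
  hom_unique σ (botHom_mem (botVtx_le σ)) σ.mem_bot
theorem topHom_topVtx (σ : Ch C) : topHom (topVtx_le σ) = 𝟙 σ.top :=
  hom_unique σ (topHom_mem (topVtx_le σ)) σ.mem_top

end Ch

end Vale.Agent.P259
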