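import Vale.Agent.Lib.P259.Grid
import Vale.Agent.Lib.P259.Hep
namespace Vale.Agent.P259
open Set Topology
variable {X Y Z B : Type*} [TopologicalSpace X] [TopologicalSpace Y] [TopologicalSpace Z]

namespace Cell
variable {n : ℕ}

theorem mem_bd_iff_coord (e : Cell n) (x : Fin n → ℝ) :
    x ∈ e.bd ↔ x ∈ e.cl ∧ ∃ i ∈ e.F, x i = e.k i ∨ x i = e.k i + 1 := by
  constructor
  · rintro ⟨hx, hx'⟩
    refine ⟨hx, ?_⟩
    by_contra hcon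
    push Not at hcon
    apply hx'
    intro i
    refine ⟨fun hi => ?_, (hx i).2⟩
    have h1 := (hx i).1 hi
    have h2 := hcon i hi
    exact ⟨lt_of_le_of_ne h1.1 (Ne.symm h2.1), lt_of_le_of_ne h1.2 h2.2⟩
  · rintro ⟨hx, i, hi, h⟩
    refine ⟨hx, fun hop => ?_⟩
    have h1 := (hop i).1 hi
    rcases h with h | h
    · linarith [h1.1]
    · linarith [h1.2]

theorem mem_cube_iff {d : ℕ} (y : Fin d → ℝ) : y ∈ cube d ↔ ∀ j, 0 ≤ y j ∧ y j ≤ 1 := by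
  simp only [cube, Set.mem_Icc, Pi.le_def, Pi.zero_apply, Pi.one_apply]
  exact ⟨fun h j => ⟨h.1 j, h.2 j⟩, fun h => ⟨fun j => (h j).1, fun j => (h j).2⟩⟩

/-- chart of a cell -/
theorem exists_chart (e : Cell n) : ∃ (φ : (Fin e.F.card → ℝ) → (Fin n → ℝ))
    (ψ : (Fin n → ℝ) → (Fin e.F.card → ℝ)), Continuous φ ∧ Continuous ψ ∧ (∀ y, ψ (φ y) = y) ∧
      (∀ x ∈ e.cl, φ (ψ x) = x) ∧ φ '' (cube e.F.card) = e.cl ∧ φ '' (bdry e.F.card) = e.bd ∧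
      ψ '' e.cl = cube e.F.card ∧ ψ '' e.bd = bdry e.F.card := by
  classical
  let σ : Fin e.F.card ≃o e.F := e.F.orderIsoOfFin rfl
  let φ : (Fin e.F.card → ℝ) → (Fin n → ℝ) := fun y i =>
    if h : i ∈ e.F then (e.k i : ℝ) + y (σ.symm ⟨i, h⟩) else e.k i
  let ψ : (Fin n → ℝ) → (Fin e.F.card → ℝ) := fun x j => x (σ j) - e.k (σ j)
  have hφin : ∀ y i (h : i ∈ e.F), φ y i = (e.k i : ℝ) + y (σ.symm ⟨i, h⟩) := by
    intro y i h
    simp only [φ, dif_pos h]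
  have hφout : ∀ y i (_ : i ∉ e.F), φ y i = (e.k i : ℝ) := by
    intro y i h
    simp only [φ, dif_neg h]
  have hφσ : ∀ y j, φ y (σ j) = (e.k (σ j) : ℝ) + y j := by
    intro y j
    rw [hφin y (σ j) (σ j).2]
    simp
  have hψφ : ∀ y, ψ (φ y) = y := by
    intro y
    funext j
    simp only [ψ]
    rw [hφσ]
    ring
  have hφψ : ∀ x ∈ e.cl, φ (ψ x) = x := by
    intro x hx
    funext i
    by_cases hi : i ∈ e.F
    · rw [hφin _ i hi]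
      simp only [ψ, OrderIso.apply_symm_apply]
      ring
    · rw [hφout _ i hi]
      exact ((hx i).2 hi).symm
  have hφcl : ∀ y ∈ cube e.F.card, φ y ∈ e.cl := by
    intro y hy i
    rw [mem_cube_iff] at hy
    refine ⟨fun hi => ?_, fun hi => hφout y i hi⟩
    rw [hφin y i hi]
    have := hy (σ.symm ⟨i, hi⟩)
    constructor <;> linarith [this.1, this.2]
  have hψcube : ∀ x ∈ e.cl, ψ x ∈ cube e.F.card := by
    intro x hx
    rw [mem_cube_iff]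
    intro j
    have := (hx (σ j)).1 (σ j).2
    simp only [ψ]
    constructor <;> linarith [this.1, this.2]
  have hφbd : ∀ y ∈ bdry e.F.card, φ y ∈ e.bd := by
    rintro y ⟨hy, j, hj⟩
    rw [mem_bd_iff_coord]
    refine ⟨hφcl y hy, σ j, (σ j).2, ?_⟩
    rw [hφσ]
    rcases hj with hj | hj
    · left; rw [hj]; ring
    · right; rw [hj]
  have hψbd : ∀ x ∈ e.bd, ψ x ∈ bdry e.F.card := by
    intro x hx
    rw [mem_bd_iff_coord] at hx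
    obtain ⟨hx, i, hi, h⟩ := hx
    refine ⟨hψcube x hx, σ.symm ⟨i, hi⟩, ?_⟩
    simp only [ψ, OrderIso.apply_symm_apply]
    rcases h with h | h
    · left; rw [h]; ring
    · right; rw [h]; ring
  refine ⟨φ, ψ, ?_, ?_, hψφ, hφψ, ?_, ?_, ?_, ?_⟩
  · refine continuous_pi fun i => ?_
    by_cases hi : i ∈ e.F
    · have : (fun y => φ y i) = fun y => (e.k i : ℝ) + y (σ.symm ⟨i, hi⟩) := by
        funext y
        exact hφin y i hi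
      rw [this]
      fun_prop
    · have : (fun y => φ y i) = fun _ => (e.k i : ℝ) := by
        funext y
        exact hφout y i hi
      rw [this]
      exact continuous_const
  · refine continuous_pi fun j => ?_
    simp only [ψ]
    fun_prop
  · apply Set.Subset.antisymm
    · rintro _ ⟨y, hy, rfl⟩
      exact hφcl y hy
    · intro x hx
      exact ⟨ψ x, hψcube x hx, hφψ x hx⟩
  · apply Set.Subset.antisymm
    · rintro _ ⟨y, hy, rfl⟩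
      exact hφbd y hy
    · intro x hx
      exact ⟨ψ x, hψbd x hx, hφψ x hx.1⟩
  · apply Set.Subset.antisymm
    · rintro _ ⟨x, hx, rfl⟩
      exact hψcube x hx
    · intro y hy
      exact ⟨φ y, hφcl y hy, hψφ y⟩
  · apply Set.Subset.antisymm
    · rintro _ ⟨x, hx, rfl⟩
      exact hψbd x hx
    · intro y hy
      exact ⟨φ y, hφbd y hy, hψφ y⟩

/-! The extension properties transported to a cell. -/

theorem ext_cell (e : Cell n) {A : Set X} (h : Ext e.F.card A) (f : (Fin n → ℝ) → X)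
    (hf : ContinuousOn f e.bd) (hA : MapsTo f e.bd A) :
    ∃ g, ContinuousOn g e.cl ∧ MapsTo g e.cl A ∧ EqOn g f e.bd := by
  obtain ⟨φ, ψ, hφ, hψ, hψφ, hφψ, h1, h2, h3, h4⟩ := e.exists_chart
  have m2 : MapsTo φ (bdry e.F.card) e.bd := by
    rw [← h2]; exact mapsTo_image _ _
  have m3 : MapsTo ψ e.cl (cube e.F.card) := by
    rw [← h3]; exact mapsTo_image _ _
  have m4 : MapsTo ψ e.bd (bdry e.F.card) := by
    rw [← h4]; exact mapsTo_image _ _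
  obtain ⟨g, hg, hgA, hgf⟩ := h (f ∘ φ) (hf.comp hφ.continuousOn m2) (hA.comp m2)
  refine ⟨g ∘ ψ, hg.comp hψ.continuousOn m3, hgA.comp m3, ?_⟩
  intro x hx
  have : g (ψ x) = f (φ (ψ x)) := hgf (m4 hx)
  rw [Function.comp_apply, this, hφψ x hx.1]

theorem ext_prism_cell (e : Cell n) {A : Set X} (h : Ext (e.F.card + 1) A)
    (F : (Fin n → ℝ) × ℝ → X) (hF : ContinuousOn F (e.cl ×ˢ {0, 1} ∪ e.bd ×ˢ uI))
    (hA : MapsTo F (e.cl ×ˢ {0, 1} ∪ e.bd ×ˢ uI) A) :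
    ∃ G : (Fin n → ℝ) × ℝ → X, ContinuousOn G (e.cl ×ˢ uI) ∧ MapsTo G (e.cl ×ˢ uI) A ∧
      EqOn G F (e.cl ×ˢ {0, 1} ∪ e.bd ×ˢ uI) := by
  obtain ⟨φ, ψ, hφ, hψ, hψφ, hφψ, h1, h2, h3, h4⟩ := e.exists_chart
  have m1 : MapsTo φ (cube e.F.card) e.cl := by
    rw [← h1]; exact mapsTo_image _ _
  have m2 : MapsTo φ (bdry e.F.card) e.bd := by
    rw [← h2]; exact mapsTo_image _ _
  have m3 : MapsTo ψ e.cl (cube e.F.card) := by
    rw [← h3]; exact mapsTo_image _ _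
  have m4 : MapsTo ψ e.bd (bdry e.F.card) := by
    rw [← h4]; exact mapsTo_image _ _
  have hΦ : Continuous (Prod.map φ (id : ℝ → ℝ)) := hφ.prodMap continuous_id
  have hΨ : Continuous (Prod.map ψ (id : ℝ → ℝ)) := hψ.prodMap continuous_id
  have mΦ : MapsTo (Prod.map φ (id : ℝ → ℝ))
      (cube e.F.card ×ˢ {0, 1} ∪ bdry e.F.card ×ˢ uI) (e.cl ×ˢ {0, 1} ∪ e.bd ×ˢ uI) := by
    rintro ⟨y, t⟩ (⟨hy, ht⟩ | ⟨hy, ht⟩)
    · exact Or.inl ⟨m1 hy, ht⟩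
    · exact Or.inr ⟨m2 hy, ht⟩
  have mΨ : MapsTo (Prod.map ψ (id : ℝ → ℝ)) (e.cl ×ˢ uI) (cube e.F.card ×ˢ uI) := by
    rintro ⟨y, t⟩ ⟨hy, ht⟩
    exact ⟨m3 hy, ht⟩
  obtain ⟨G, hG, hGA, hGF⟩ := Ext.prism h (F ∘ Prod.map φ id)
    (hF.comp hΦ.continuousOn mΦ) (hA.comp mΦ)
  refine ⟨G ∘ Prod.map ψ id, hG.comp hΨ.continuousOn mΨ, hGA.comp mΨ, ?_⟩
  rintro ⟨x, t⟩ hx
  have hx' : ((ψ x, t) : (Fin e.F.card → ℝ) × ℝ) ∈
      (cube e.F.card ×ˢ ({0, 1} : Set ℝ) ∪ bdry e.F.card ×ˢ uI) := by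
    rcases hx with ⟨hy, ht⟩ | ⟨hy, ht⟩
    · exact Or.inl ⟨m3 hy, ht⟩
    · exact Or.inr ⟨m4 hy, ht⟩
  have hxcl : x ∈ e.cl := by
    rcases hx with ⟨hy, ht⟩ | ⟨hy, ht⟩
    · exact hy
    · exact hy.1
  have := hGF hx'
  simp only [Function.comp_apply, Prod.map_apply, id_eq] at this ⊢
  rw [this, hφψ x hxcl]

theorem hep_cell (e : Cell n) (F : (Fin n → ℝ) × ℝ → X)
    (hF : ContinuousOn F (e.cl ×ˢ {0} ∪ e.bd ×ˢ uI)) :
    ∃ G : (Fin n → ℝ) × ℝ → X, ContinuousOn G (e.cl ×ˢ uI) ∧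
      EqOn G F (e.cl ×ˢ {0} ∪ e.bd ×ˢ uI) ∧
      (∀ z ∈ e.cl ×ˢ uI, ∃ z' ∈ (e.cl ×ˢ ({0} : Set ℝ) ∪ e.bd ×ˢ uI), G z = F z') := by
  obtain ⟨φ, ψ, hφ, hψ, hψφ, hφψ, h1, h2, h3, h4⟩ := e.exists_chart
  have m1 : MapsTo φ (cube e.F.card) e.cl := by
    rw [← h1]; exact mapsTo_image _ _
  have m2 : MapsTo φ (bdry e.F.card) e.bd := by
    rw [← h2]; exact mapsTo_image _ _
  have m3 : MapsTo ψ e.cl (cube e.F.card) := by
    rw [← h3]; exact mapsTo_image _ _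
  have m4 : MapsTo ψ e.bd (bdry e.F.card) := by
    rw [← h4]; exact mapsTo_image _ _
  have hΦ : Continuous (Prod.map φ (id : ℝ → ℝ)) := hφ.prodMap continuous_id
  have hΨ : Continuous (Prod.map ψ (id : ℝ → ℝ)) := hψ.prodMap continuous_id
  have mΦ : MapsTo (Prod.map φ (id : ℝ → ℝ))
      (cube e.F.card ×ˢ {0} ∪ bdry e.F.card ×ˢ uI) (e.cl ×ˢ {0} ∪ e.bd ×ˢ uI) := by
    rintro ⟨y, t⟩ (⟨hy, ht⟩ | ⟨hy, ht⟩)
    · exact Or.inl ⟨m1 hy, ht⟩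
    · exact Or.inr ⟨m2 hy, ht⟩
  have mΨ : MapsTo (Prod.map ψ (id : ℝ → ℝ)) (e.cl ×ˢ uI) (cube e.F.card ×ˢ uI) := by
    rintro ⟨y, t⟩ ⟨hy, ht⟩
    exact ⟨m3 hy, ht⟩
  obtain ⟨G, hG, hGF, hGz⟩ := hep e.F.card (F ∘ Prod.map φ id) (hF.comp hΦ.continuousOn mΦ)
  refine ⟨G ∘ Prod.map ψ id, hG.comp hΨ.continuousOn mΨ, ?_, ?_⟩
  · rintro ⟨x, t⟩ hx
    have hx' : ((ψ x, t) : (Fin e.F.card → ℝ) × ℝ) ∈
        (cube e.F.card ×ˢ ({0} : Set ℝ) ∪ bdry e.F.card ×ˢ uI) := by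
      rcases hx with ⟨hy, ht⟩ | ⟨hy, ht⟩
      · exact Or.inl ⟨m3 hy, ht⟩
      · exact Or.inr ⟨m4 hy, ht⟩
    have hxcl : x ∈ e.cl := by
      rcases hx with ⟨hy, ht⟩ | ⟨hy, ht⟩
      · exact hy
      · exact hy.1
    have := hGF hx'
    simp only [Function.comp_apply, Prod.map_apply, id_eq] at this ⊢
    rw [this, hφψ x hxcl]
  · intro z hz
    obtain ⟨w, hw, hGw⟩ := hGz _ (mΨ hz)
    exact ⟨Prod.map φ id w, mΦ hw, hGw⟩

theorem we_cell (e : Cell n) {f : X → Y} (hf : Continuous f) (h : WE e.F.card f)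
    (a : (Fin n → ℝ) → X) (b : (Fin n → ℝ) → Y) (k : (Fin n → ℝ) × ℝ → Y)
    (ha : ContinuousOn a e.bd) (hb : ContinuousOn b e.cl)
    (hk : ContinuousOn k (e.bd ×ˢ uI)) (hk0 : ∀ x ∈ e.bd, k (x, 0) = f (a x))
    (hk1 : ∀ x ∈ e.bd, k (x, 1) = b x) :
    ∃ (a' : (Fin n → ℝ) → X) (H : (Fin n → ℝ) × ℝ → Y),
      ContinuousOn a' e.cl ∧ EqOn a' a e.bd ∧ ContinuousOn H (e.cl ×ˢ uI) ∧
      (∀ x ∈ e.cl, H (x, 0) = f (a' x)) ∧ (∀ x ∈ e.cl, H (x, 1) = b x) ∧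
      EqOn H k (e.bd ×ˢ uI) := by
  obtain ⟨φ, ψ, hφ, hψ, hψφ, hφψ, h1, h2, h3, h4⟩ := e.exists_chart
  have m1 : MapsTo φ (cube e.F.card) e.cl := by
    rw [← h1]; exact mapsTo_image _ _
  have m2 : MapsTo φ (bdry e.F.card) e.bd := by
    rw [← h2]; exact mapsTo_image _ _
  have m3 : MapsTo ψ e.cl (cube e.F.card) := by
    rw [← h3]; exact mapsTo_image _ _
  have m4 : MapsTo ψ e.bd (bdry e.F.card) := by
    rw [← h4]; exact mapsTo_image _ _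
  have hΦ : Continuous (Prod.map φ (id : ℝ → ℝ)) := hφ.prodMap continuous_id
  have hΨ : Continuous (Prod.map ψ (id : ℝ → ℝ)) := hψ.prodMap continuous_id
  have mΦ : MapsTo (Prod.map φ (id : ℝ → ℝ)) (bdry e.F.card ×ˢ uI) (e.bd ×ˢ uI) := by
    rintro ⟨y, t⟩ ⟨hy, ht⟩
    exact ⟨m2 hy, ht⟩
  have mΨ : MapsTo (Prod.map ψ (id : ℝ → ℝ)) (e.cl ×ˢ uI) (cube e.F.card ×ˢ uI) := by
    rintro ⟨y, t⟩ ⟨hy, ht⟩
    exact ⟨m3 hy, ht⟩
  obtain ⟨a', H, ha', haa, hH, hH0, hH1, hHk⟩ := h.relaxed hf (a ∘ φ) (b ∘ φ)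
    (k ∘ Prod.map φ id) (ha.comp hφ.continuousOn m2) (hb.comp hφ.continuousOn m1)
    (hk.comp hΦ.continuousOn mΦ) (fun y hy => hk0 _ (m2 hy)) (fun y hy => hk1 _ (m2 hy))
  refine ⟨a' ∘ ψ, H ∘ Prod.map ψ id, ha'.comp hψ.continuousOn m3, ?_,
    hH.comp hΨ.continuousOn mΨ, ?_, ?_, ?_⟩
  · intro x hx
    have := haa (m4 hx)
    simp only [Function.comp_apply] at this ⊢
    rw [this, hφψ x hx.1]
  · intro x hx
    exact hH0 _ (m3 hx)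
  · intro x hx
    have := hH1 _ (m3 hx)
    simp only [Function.comp_apply, Prod.map_apply, id_eq] at this ⊢
    rw [this, hφψ x hx]
  · rintro ⟨x, t⟩ ⟨hx, ht⟩
    have := hHk (show ((ψ x, t) : (Fin e.F.card → ℝ) × ℝ) ∈ bdry e.F.card ×ˢ uI from ⟨m4 hx, ht⟩)
    simp only [Function.comp_apply, Prod.map_apply, id_eq] at this ⊢
    rw [this, hφψ x hx.1]

theorem compress_cell (e : Cell n) {A A' : Set X} (h : Compress e.F.card A A')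
    (a : (Fin n → ℝ) → X) (ha : ContinuousOn a e.cl) (hA' : MapsTo a e.cl A')
    (hA : MapsTo a e.bd A) :
    ∃ H : (Fin n → ℝ) × ℝ → X, ContinuousOn H (e.cl ×ˢ uI) ∧ MapsTo H (e.cl ×ˢ uI) A' ∧
      (∀ x ∈ e.cl, H (x, 0) = a x) ∧ (∀ x ∈ e.cl, H (x, 1) ∈ A) ∧
      (∀ x ∈ e.bd, ∀ t ∈ uI, H (x, t) = a x) := by
  obtain ⟨φ, ψ, hφ, hψ, hψφ, hφψ, h1, h2, h3, h4⟩ := e.exists_chart
  have m1 : MapsTo φ (cube e.F.card) e.cl := by
    rw [← h1]; exact mapsTo_image _ _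
  have m2 : MapsTo φ (bdry e.F.card) e.bd := by
    rw [← h2]; exact mapsTo_image _ _
  have m3 : MapsTo ψ e.cl (cube e.F.card) := by
    rw [← h3]; exact mapsTo_image _ _
  have m4 : MapsTo ψ e.bd (bdry e.F.card) := by
    rw [← h4]; exact mapsTo_image _ _
  have hΨ : Continuous (Prod.map ψ (id : ℝ → ℝ)) := hψ.prodMap continuous_id
  have mΨ : MapsTo (Prod.map ψ (id : ℝ → ℝ)) (e.cl ×ˢ uI) (cube e.F.card ×ˢ uI) := by
    rintro ⟨y, t⟩ ⟨hy, ht⟩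
    exact ⟨m3 hy, ht⟩
  obtain ⟨H, hH, hHA', hH0, hH1, hHb⟩ := h (a ∘ φ) (ha.comp hφ.continuousOn m1)
    (hA'.comp m1) (hA.comp m2)
  refine ⟨H ∘ Prod.map ψ id, hH.comp hΨ.continuousOn mΨ, hHA'.comp mΨ, ?_, ?_, ?_⟩
  · intro x hx
    have := hH0 _ (m3 hx)
    simp only [Function.comp_apply, Prod.map_apply, id_eq] at this ⊢
    rw [this, hφψ x hx]
  · intro x hx
    exact hH1 _ (m3 hx)
  · intro x hx t ht
    have := hHb _ (m4 hx) t ht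
    simp only [Function.comp_apply, Prod.map_apply, id_eq] at this ⊢
    rw [this, hφψ x hx.1]

end Cell


end Vale.Agent.P259
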