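import Vale.Agent.Lib.P259.Rep

/-!
# P259, module A2: the lifting property of coherators
-/

namespace Vale.Agent.P259

open CategoryTheory Limits Opposite

namespace GlobExt

theorem Mor.ext' {E F : GlobExt} {a b : E.Mor F}
    (h : ∀ (S T : Obj) (f : E.Hom S T), a.map f = b.map f) : a = b := by
  cases a with
  | mk am _ _ _ =>
  cases b with
  | mk bm _ _ _ =>
  have : @am = @bm := by
    funext S T f
    exact h S T f
  cases this
  rfl

/-- Composition of morphisms of globular extensions. -/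
def Mor.trans {E F G : GlobExt} (a : E.Mor F) (b : F.Mor G) : E.Mor G where
  map f := b.map (a.map f)
  map_id S := by rw [a.map_id, b.map_id]
  map_comp f g := by rw [a.map_comp, b.map_comp]
  map_J f := by rw [a.map_J, b.map_J]

/-- Identity morphism of a globular extension. -/
def Mor.refl (E : GlobExt) : E.Mor E where
  map f := f
  map_id _ := rfl
  map_comp _ _ := rfl
  map_J _ := rfl

theorem Mor.trans_map {E F G : GlobExt} (a : E.Mor F) (b : F.Mor G) {R S : Obj}
    (f : E.Hom R S) : (a.trans b).map f = b.map (a.map f) := rfl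

theorem Mor.trans_assoc {E F G H : GlobExt} (a : E.Mor F) (b : F.Mor G) (c : G.Mor H) :
    (a.trans b).trans c = a.trans (b.trans c) := rfl

theorem Mor.congr {E F : GlobExt} {a b : E.Mor F} (h : a = b) {R S : Obj} (f : E.Hom R S) :
    a.map f = b.map f := by rw [h]

theorem Mor.parallel {E F : GlobExt} (a : E.Mor F) {n : ℕ} {S : Obj}
    {f g : E.Hom (Obj.D n) S} (h : E.Parallel f g) : F.Parallel (a.map f) (a.map g) := by
  cases n with
  | zero => trivial
  | succ n =>
    intro ε
    rw [← a.map_J, ← a.map_comp, ← a.map_comp, h ε]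

theorem Mor.isLift {E F : GlobExt} (a : E.Mor F) {n : ℕ} {S : Obj}
    {f g : E.Hom (Obj.D n) S} {h : E.Hom (Obj.D (n + 1)) S} (hl : E.IsLift f g h) :
    F.IsLift (a.map f) (a.map g) (a.map h) := by
  obtain ⟨h1, h2⟩ := hl
  constructor
  · rw [← a.map_J, ← a.map_comp, h1]
  · rw [← a.map_J, ← a.map_comp, h2]

/-- `p : M → B` lifts lifts of parallel pairs. -/
def LiftsLifts {M B : GlobExt} (p : M.Mor B) : Prop :=
  ∀ (n : ℕ) (S : Obj) (f g : M.Hom (Obj.D n) S), M.Parallel f g →
    ∀ h : B.Hom (Obj.D (n + 1)) S, B.IsLift (p.map f) (p.map g) h →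
      ∃ h' : M.Hom (Obj.D (n + 1)) S, M.IsLift f g h' ∧ p.map h' = h

end GlobExt

open GlobExt

theorem Coherator.lift_mor (C : Coherator) {M B : GlobExt} (p : M.Mor B)
    (hp : LiftsLifts p) (a : C.C.Mor B) : ∃ s : C.C.Mor M, s.trans p = a := by
  -- stage zero
  have hz : ∃ s : (C.E 0).Mor M, s.trans p = (C.incl 0).trans a := by
    have hJ : ∀ {R S : Obj} (f : (C.E 0).Hom R S), ∃ g, (C.E 0).J g = f :=
      fun f => (C.zero _ _).2 f
    choose j hj using @hJ
    have inj : ∀ {R S : Obj} {f g : Θ₀Hom R S}, (C.E 0).J f = (C.E 0).J g → f = g :=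
      fun h => (C.zero _ _).1 h
    refine ⟨⟨fun f => M.J (j f), ?_, ?_, ?_⟩, ?_⟩
    · intro S
      have : j ((C.E 0).id S) = 𝟙 _ := by
        apply inj; rw [hj, (C.E 0).J_id]
      simp only [this, M.J_id]
    · intro R S T f g
      have : j ((C.E 0).comp f g) = (j f ≫ j g : R.real ⟶ T.real) := by
        apply inj; rw [hj, (C.E 0).J_comp, hj, hj]
      simp only [this, M.J_comp]
    · intro R S f
      have : j ((C.E 0).J f) = f := inj (hj _)
      simp only [this]
    · apply Mor.ext'
      intro R S f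
      change p.map (M.J (j f)) = a.map ((C.incl 0).map f)
      rw [p.map_J]
      conv_rhs => rw [← hj f]
      rw [(C.incl 0).map_J, a.map_J]
  -- the step
  have hs : ∀ (k : ℕ) (s : (C.E k).Mor M), s.trans p = (C.incl k).trans a →
      ∃ s' : (C.E (k + 1)).Mor M, s'.trans p = (C.incl (k + 1)).trans a ∧
        ∀ (S T : Obj) (f : (C.E k).Hom S T), s'.map ((C.step k).map f) = s.map f := by
    intro k s hs
    have e : ∀ {R S : Obj} (f : (C.E k).Hom R S),
        p.map (s.map f) = ((C.incl (k + 1)).trans a).map ((C.step k).map f) := by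
      intro R S f
      have h1 := Mor.congr hs f
      rw [Mor.trans_map] at h1
      rw [h1, Mor.trans_map, Mor.trans_map, C.incl_step]
    have hm : ∀ (q : (C.E k).Pair) (hq : q ∈ C.A k), ∃ h' : M.Hom (Obj.D (q.n + 1)) q.S,
        M.IsLift (s.map q.f) (s.map q.g) h' ∧
          p.map h' = ((C.incl (k + 1)).trans a).map (C.lift k q hq) := by
      intro q hq
      refine hp _ _ _ _ (s.parallel (C.A_parallel k q hq)) _ ?_
      rw [e, e]
      exact Mor.isLift _ (C.isLift k q hq)
    choose m hm1 hm2 using hm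
    obtain ⟨c, ⟨hc1, hc2⟩, -⟩ := C.universal k M s m hm1
    refine ⟨c, ?_, hc1⟩
    obtain ⟨d, -, hd⟩ := C.universal k B ((C.incl k).trans a)
      (fun q hq => ((C.incl (k + 1)).trans a).map (C.lift k q hq)) (by
      intro q hq
      have := Mor.isLift ((C.incl (k + 1)).trans a) (C.isLift k q hq)
      rw [← e, ← e] at this
      rw [← Mor.congr hs, ← Mor.congr hs]
      exact this)
    have e1 : c.trans p = d := hd _ ⟨fun S T f => by
      rw [Mor.trans_map, hc1, ← Mor.congr hs f]; rfl, fun q hq => by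
      rw [Mor.trans_map, hc2, hm2]⟩
    have e2 : (C.incl (k + 1)).trans a = d := hd _ ⟨fun S T f => by
      rw [← e, ← Mor.congr hs f]; rfl, fun q hq => rfl⟩
    rw [e1, e2]
  -- the sequence
  let T : ℕ → Type := fun k => { s : (C.E k).Mor M // s.trans p = (C.incl k).trans a }
  have hT : ∀ (k : ℕ) (s : T k), ∃ s' : T (k + 1),
      ∀ (S T : Obj) (f : (C.E k).Hom S T), s'.1.map ((C.step k).map f) = s.1.map f := by
    intro k s
    obtain ⟨s', h1, h2⟩ := hs k s.1 s.2
    exact ⟨⟨s', h1⟩, h2⟩
  choose nx hnx using hT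
  let sq : ∀ k, T k := fun k => Nat.rec ⟨hz.choose, hz.choose_spec⟩ (fun k s => nx k s) k
  have hsq : ∀ k (S T : Obj) (f : (C.E k).Hom S T),
      (sq (k + 1)).1.map ((C.step k).map f) = (sq k).1.map f := fun k => hnx k (sq k)
  have hsqp : ∀ k, (sq k).1.trans p = (C.incl k).trans a := fun k => (sq k).2
  obtain ⟨s, hs1, -⟩ := C.colimit M (fun k => (sq k).1) hsq
  refine ⟨s, ?_⟩
  obtain ⟨d, -, hd⟩ := C.colimit B (fun k => (C.incl k).trans a) (by
    intro k S T f
    rw [Mor.trans_map, Mor.trans_map, C.incl_step])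
  have e1 : s.trans p = d := hd _ (by
    intro k S T f
    rw [Mor.trans_map, hs1]
    exact Mor.congr (hsqp k) f)
  have e2 : a = d := hd _ (by
    intro k S T f
    rfl)
  rw [e1, ← e2]

/-- The terminal globular extension. -/
def GlobExt.terminal : GlobExt where
  Hom _ _ := Unit
  id _ := ()
  comp _ _ := ()
  id_comp _ := rfl
  comp_id _ := rfl
  assoc _ _ _ := rfl
  J _ := ()
  J_id _ := rfl
  J_comp _ _ := rfl
  glue _ _ _ _ _ _ _ := ⟨(), ⟨rfl, rfl⟩, fun _ _ => rfl⟩

/-- The morphism to the terminal globular extension. -/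
def GlobExt.toTerminal (E : GlobExt) : E.Mor GlobExt.terminal where
  map _ := ()
  map_id _ := rfl
  map_comp _ _ := rfl
  map_J _ := rfl

/-- Weak initiality: a coherator maps to every globular extension with lifts. -/
theorem Coherator.exists_mor (C : Coherator) (M : GlobExt)
    (hM : ∀ (n : ℕ) (S : Obj) (f g : M.Hom (.D n) S), M.Parallel f g → ∃ h, M.IsLift f g h) :
    Nonempty (C.C.Mor M) := by
  obtain ⟨s, -⟩ := C.lift_mor M.toTerminal (fun n S f g h h' _ => by
    obtain ⟨l, hl⟩ := hM n S f g h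
    exact ⟨l, hl, rfl⟩) C.C.toTerminal
  exact ⟨s⟩

end Vale.Agent.P259
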