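import Vale.Agent.Lib.P259.Rep
import Vale.Agent.Lib.P259.Lift
/-!
# P259, module N2: `Θ₀` as a globular extension, sequential colimits of globular extensions
-/
namespace Vale.Agent.P259
open CategoryTheory

/-- the pushout property of the defining squares, for maps of globular sets -/
theorem theta_glue {i j k : ℕ} (hi : j < i) (hk : j < k) (t : Tab k) (X : Obj)
    (f : Θ₀Hom (.D i) X) (g : Θ₀Hom ⟨k, t⟩ X)
    (h : (bd₀ hi true ≫ f : (Obj.D j).real ⟶ X.real) = (bd₀ hk false ≫ first₀ t) ≫ g) :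
    ∃! h : Θ₀Hom ⟨i, .glue hi hk t⟩ X, inl₀ hi hk t ≫ h = f ∧ inr₀ hi hk t ≫ h = g := by
  refine ⟨(real_isPushout hi hk t).desc f g h, ⟨IsPushout.inl_desc _ _ _ _,
    IsPushout.inr_desc _ _ _ _⟩, ?_⟩
  rintro u ⟨h1, h2⟩
  apply (real_isPushout hi hk t).hom_ext
  · exact h1.trans (IsPushout.inl_desc _ _ _ _).symm
  · exact h2.trans (IsPushout.inr_desc _ _ _ _).symm

/-- `Θ₀` itself (`real_isPushout` gives the pushout property) -/
noncomputable def theta₀ : GlobExt where
  Hom := Θ₀Hom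
  id S := 𝟙 S.real
  comp f g := f ≫ g
  id_comp f := Category.id_comp _
  comp_id f := Category.comp_id _
  assoc f g h := Category.assoc _ _ _
  J f := f
  J_id S := rfl
  J_comp f g := rfl
  glue hi hk t X f g h := theta_glue hi hk t X f g h

/-- the stage of level `k` seen at level `l` -/
def GlobExt.Mor.iter (E : ℕ → GlobExt) (st : ∀ k, (E k).Mor (E (k + 1))) (k : ℕ) :
    (d : ℕ) → (E k).Mor (E (k + d))
  | 0 => GlobExt.Mor.refl (E k)
  | d + 1 => (GlobExt.Mor.iter E st k d).trans (st (k + d))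

namespace Colim
variable (E : ℕ → GlobExt) (st : ∀ k, (E k).Mor (E (k + 1)))

/-- the transition functors -/
def tr (k l : ℕ) (h : k ≤ l) : (E k).Mor (E l) :=
  Nat.leRec (motive := fun l _ => (E k).Mor (E l)) (GlobExt.Mor.refl (E k))
    (fun l _ m => m.trans (st l)) h

theorem tr_self (k : ℕ) (h : k ≤ k) {S T : Obj} (f : (E k).Hom S T) :
    (tr E st k k h).map f = f := by
  unfold tr
  rw [Nat.leRec_self]
  rfl

theorem tr_succ {k l : ℕ} (h : k ≤ l) (h' : k ≤ l + 1) {S T : Obj} (f : (E k).Hom S T) :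
    (tr E st k (l + 1) h').map f = (st l).map ((tr E st k l h).map f) := by
  unfold tr
  rw [Nat.leRec_succ _ _ h]
  rfl

theorem tr_tr {k l m : ℕ} (h : k ≤ l) (h' : l ≤ m) (h'' : k ≤ m) {S T : Obj}
    (f : (E k).Hom S T) :
    (tr E st l m h').map ((tr E st k l h).map f) = (tr E st k m h'').map f := by
  induction m, h' using Nat.le_induction with
  | base => rw [tr_self]
  | succ m hm ih => rw [tr_succ E st hm, ih (h.trans hm), tr_succ E st (h.trans hm)]

theorem iter_eq (k d : ℕ) {S T : Obj} (f : (E k).Hom S T) :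
    (GlobExt.Mor.iter E st k d).map f = (tr E st k (k + d) (Nat.le_add_right k d)).map f := by
  induction d with
  | zero => exact (tr_self E st k _ f).symm
  | succ d ih =>
    change (st (k + d)).map ((GlobExt.Mor.iter E st k d).map f) = _
    rw [ih]
    exact (tr_succ E st (Nat.le_add_right k d) (Nat.le_add_right k (d + 1)) f).symm

/-- equality at a later stage -/
def setoid (S T : Obj) : Setoid (Σ k, (E k).Hom S T) where
  r x y := ∃ (m : ℕ) (hx : x.1 ≤ m) (hy : y.1 ≤ m),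
    (tr E st x.1 m hx).map x.2 = (tr E st y.1 m hy).map y.2
  iseqv := by
    refine ⟨fun x => ⟨x.1, le_refl _, le_refl _, rfl⟩, ?_, ?_⟩
    · rintro x y ⟨m, hx, hy, h⟩
      exact ⟨m, hy, hx, h.symm⟩
    · rintro x y z ⟨m, hx, hy, h⟩ ⟨m', hy', hz, h'⟩
      refine ⟨max m m', hx.trans (le_max_left _ _), hz.trans (le_max_right _ _), ?_⟩
      rw [← tr_tr E st hx (le_max_left m m'), h, tr_tr E st hy (le_max_left m m')
        (hy.trans (le_max_left _ _)), ← tr_tr E st hy' (le_max_right m m'), h',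
        tr_tr E st hz (le_max_right m m')]

/-- the morphisms of the colimit -/
def CHom (S T : Obj) : Type := Quotient (setoid E st S T)

variable {E st} in
/-- the class of a morphism -/
def mk (k : ℕ) {S T : Obj} (f : (E k).Hom S T) : CHom E st S T :=
  Quotient.mk (setoid E st S T) ⟨k, f⟩

theorem mk_eq_iff {k l : ℕ} {S T : Obj} (f : (E k).Hom S T) (g : (E l).Hom S T) :
    (mk k f : CHom E st S T) = mk l g ↔ ∃ (m : ℕ) (hk : k ≤ m) (hl : l ≤ m),
      (tr E st k m hk).map f = (tr E st l m hl).map g :=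
  ⟨fun h => Quotient.exact h, fun h => Quotient.sound h⟩

theorem mk_tr {k l : ℕ} (h : k ≤ l) {S T : Obj} (f : (E k).Hom S T) :
    (mk l ((tr E st k l h).map f) : CHom E st S T) = mk k f :=
  (mk_eq_iff E st _ _).2 ⟨l, le_refl l, h, tr_self E st l _ _⟩

theorem exists_mk {S T : Obj} (x : CHom E st S T) : ∃ (k : ℕ) (f : (E k).Hom S T),
    x = mk k f := by
  induction x using Quotient.inductionOn with
  | h x => exact ⟨x.1, x.2, rfl⟩

theorem exists_mk_ge {S T : Obj} (x : CHom E st S T) : ∃ N : ℕ, ∀ k, N ≤ k →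
    ∃ f : (E k).Hom S T, x = mk k f := by
  obtain ⟨N, f, rfl⟩ := exists_mk E st x
  exact ⟨N, fun k hk => ⟨(tr E st N k hk).map f, (mk_tr E st hk f).symm⟩⟩

theorem mk_eq_same {k : ℕ} {S T : Obj} {f g : (E k).Hom S T}
    (h : (mk k f : CHom E st S T) = mk k g) : ∃ N, ∀ m, N ≤ m → ∃ hk : k ≤ m,
      (tr E st k m hk).map f = (tr E st k m hk).map g := by
  obtain ⟨m, hk, hl, h⟩ := (mk_eq_iff E st _ _).1 h
  refine ⟨m, fun m' hm => ⟨hk.trans hm, ?_⟩⟩
  rw [← tr_tr E st hk hm, h, tr_tr E st hl hm]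

/-- composition -/
def comp {S T U : Obj} (x : CHom E st S T) (y : CHom E st T U) : CHom E st S U :=
  Quotient.liftOn₂ x y (fun a b => mk (max a.1 b.1)
    ((E (max a.1 b.1)).comp ((tr E st a.1 (max a.1 b.1) (le_max_left _ _)).map a.2)
      ((tr E st b.1 (max a.1 b.1) (le_max_right _ _)).map b.2))) (by
    rintro ⟨k, f⟩ ⟨l, g⟩ ⟨k', f'⟩ ⟨l', g'⟩ ⟨m, h1, h2, h3⟩ ⟨m', h1', h2', h3'⟩
    dsimp only at h1 h2 h3 h1' h2' h3' ⊢
    refine (mk_eq_iff E st _ _).2 ⟨max m m', max_le_max h1 h1', max_le_max h2 h2', ?_⟩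
    rw [GlobExt.Mor.map_comp, GlobExt.Mor.map_comp,
      tr_tr E st (le_max_left k l) (max_le_max h1 h1') (h1.trans (le_max_left m m')),
      tr_tr E st (le_max_right k l) (max_le_max h1 h1') (h1'.trans (le_max_right m m')),
      tr_tr E st (le_max_left k' l') (max_le_max h2 h2') (h2.trans (le_max_left m m')),
      tr_tr E st (le_max_right k' l') (max_le_max h2 h2') (h2'.trans (le_max_right m m')),
      ← tr_tr E st h1 (le_max_left m m'), h3, tr_tr E st h2 (le_max_left m m')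
        (h2.trans (le_max_left m m')), ← tr_tr E st h1' (le_max_right m m'), h3',
      tr_tr E st h2' (le_max_right m m') (h2'.trans (le_max_right m m'))])

theorem comp_mk {k : ℕ} {S T U : Obj} (f : (E k).Hom S T) (g : (E k).Hom T U) :
    comp E st (mk k f) (mk k g) = mk k ((E k).comp f g) := by
  have h1 : comp E st (mk k f) (mk k g) = mk (max k k)
    ((E (max k k)).comp ((tr E st k (max k k) (le_max_left _ _)).map f)
      ((tr E st k (max k k) (le_max_right _ _)).map g)) := rfl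
  rw [h1, ← GlobExt.Mor.map_comp, mk_tr]

theorem mk_id (k : ℕ) (S : Obj) : (mk 0 ((E 0).id S) : CHom E st S S) = mk k ((E k).id S) := by
  rw [← mk_tr E st (Nat.zero_le k), GlobExt.Mor.map_id]

theorem mk_J (k : ℕ) {S T : Obj} (f : Θ₀Hom S T) :
    (mk 0 ((E 0).J f) : CHom E st S T) = mk k ((E k).J f) := by
  rw [← mk_tr E st (Nat.zero_le k), GlobExt.Mor.map_J]

theorem J_w (F : GlobExt) {i j k : ℕ} (hi : j < i) (hk : j < k) (t : Tab k) :
    F.comp (F.J (bd₀ hi true)) (F.J (inl₀ hi hk t)) =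
      F.comp (F.comp (F.J (bd₀ hk false)) (F.J (first₀ t))) (F.J (inr₀ hi hk t)) := by
  rw [← F.J_comp (S := .D j) (T := .D i) (U := ⟨i, .glue hi hk t⟩),
    ← F.J_comp (S := .D j) (T := .D k) (U := ⟨k, t⟩),
    ← F.J_comp (S := .D j) (T := ⟨k, t⟩) (U := ⟨i, .glue hi hk t⟩)]
  exact congrArg F.J (real_isPushout hi hk t).w

theorem glue_ext (F : GlobExt) {i j k : ℕ} (hi : j < i) (hk : j < k) (t : Tab k) (X : Obj)
    (a b : F.Hom ⟨i, .glue hi hk t⟩ X)
    (h1 : F.comp (F.J (inl₀ hi hk t)) a = F.comp (F.J (inl₀ hi hk t)) b)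
    (h2 : F.comp (F.J (inr₀ hi hk t)) a = F.comp (F.J (inr₀ hi hk t)) b) : a = b := by
  obtain ⟨u, -, hu⟩ := F.glue hi hk t X (F.comp (F.J (inl₀ hi hk t)) b)
    (F.comp (F.J (inr₀ hi hk t)) b) (by rw [← F.assoc, ← F.assoc, J_w])
  rw [hu a ⟨h1, h2⟩, hu b ⟨rfl, rfl⟩]

theorem glue {i j k : ℕ} (hi : j < i) (hk : j < k) (t : Tab k) (X : Obj)
    (f : CHom E st (.D i) X) (g : CHom E st ⟨k, t⟩ X)
    (h : comp E st (mk 0 ((E 0).J (bd₀ hi true))) f =
      comp E st (comp E st (mk 0 ((E 0).J (bd₀ hk false))) (mk 0 ((E 0).J (first₀ t)))) g) :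
    ∃! h : CHom E st ⟨i, .glue hi hk t⟩ X,
      comp E st (mk 0 ((E 0).J (inl₀ hi hk t))) h = f ∧
      comp E st (mk 0 ((E 0).J (inr₀ hi hk t))) h = g := by
  obtain ⟨N, hN⟩ := exists_mk_ge E st f
  obtain ⟨N', hN'⟩ := exists_mk_ge E st g
  obtain ⟨f', rfl⟩ := hN (max N N') (le_max_left _ _)
  obtain ⟨g', rfl⟩ := hN' (max N N') (le_max_right _ _)
  rw [mk_J E st (max N N') (bd₀ hi true), mk_J E st (max N N') (bd₀ hk false),
    mk_J E st (max N N') (first₀ t), comp_mk, comp_mk, comp_mk] at h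
  obtain ⟨M, hM⟩ := mk_eq_same E st h
  obtain ⟨hm, h3⟩ := hM M le_rfl
  rw [GlobExt.Mor.map_comp, GlobExt.Mor.map_comp, GlobExt.Mor.map_comp, GlobExt.Mor.map_J,
    GlobExt.Mor.map_J, GlobExt.Mor.map_J] at h3
  obtain ⟨u, ⟨hu1, hu2⟩, -⟩ := (E M).glue hi hk t X _ _ h3
  refine ⟨mk M u, ⟨?_, ?_⟩, ?_⟩
  · rw [mk_J E st M, comp_mk, hu1, mk_tr]
  · rw [mk_J E st M, comp_mk, hu2, mk_tr]
  · rintro y ⟨hy1, hy2⟩
    obtain ⟨P, hP⟩ := exists_mk_ge E st y
    obtain ⟨y', rfl⟩ := hP (max P M) (le_max_left _ _)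
    have e1 : (mk M u : CHom E st ⟨i, .glue hi hk t⟩ X) =
        mk (max P M) ((tr E st M (max P M) (le_max_right _ _)).map u) :=
      (mk_tr E st (le_max_right P M) u).symm
    have k1 : comp E st (mk 0 ((E 0).J (inl₀ hi hk t)))
        (mk (max P M) ((tr E st M (max P M) (le_max_right _ _)).map u)) =
        mk (max N N') f' := by
      rw [← e1, mk_J E st M, comp_mk, hu1, mk_tr]
    have k2 : comp E st (mk 0 ((E 0).J (inr₀ hi hk t)))
        (mk (max P M) ((tr E st M (max P M) (le_max_right _ _)).map u)) =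
        mk (max N N') g' := by
      rw [← e1, mk_J E st M, comp_mk, hu2, mk_tr]
    rw [e1]
    have k3 := hy1.trans k1.symm
    have k4 := hy2.trans k2.symm
    rw [mk_J E st (max P M), comp_mk, comp_mk] at k3 k4
    obtain ⟨Q, hQ⟩ := mk_eq_same E st k3
    obtain ⟨Q', hQ'⟩ := mk_eq_same E st k4
    obtain ⟨hq, h5⟩ := hQ (max Q Q') (le_max_left _ _)
    obtain ⟨hq2, h6⟩ := hQ' (max Q Q') (le_max_right _ _)
    rw [GlobExt.Mor.map_comp, GlobExt.Mor.map_comp, GlobExt.Mor.map_J] at h5 h6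
    have h7 := glue_ext (E (max Q Q')) hi hk t X _ _ h5 h6
    rw [← mk_tr E st hq y', h7, mk_tr]

variable {E st} in
theorem comp_assoc {S T U V : Obj} (x : CHom E st S T) (y : CHom E st T U) (z : CHom E st U V) :
    comp E st (comp E st x y) z = comp E st x (comp E st y z) := by
  obtain ⟨N, hN⟩ := exists_mk_ge E st x
  obtain ⟨N', hN'⟩ := exists_mk_ge E st y
  obtain ⟨N'', hN''⟩ := exists_mk_ge E st z
  obtain ⟨f, rfl⟩ := hN (max (max N N') N'') ((le_max_left _ _).trans (le_max_left _ _))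
  obtain ⟨g, rfl⟩ := hN' (max (max N N') N'') ((le_max_right _ _).trans (le_max_left _ _))
  obtain ⟨h, rfl⟩ := hN'' (max (max N N') N'') (le_max_right _ _)
  rw [comp_mk, comp_mk, comp_mk, comp_mk, GlobExt.assoc]

/-- the colimit -/
def ext : GlobExt where
  Hom := CHom E st
  id S := mk 0 ((E 0).id S)
  comp := comp E st
  id_comp x := by
    obtain ⟨k, f, rfl⟩ := exists_mk E st x
    rw [mk_id E st k, comp_mk, GlobExt.id_comp]
  comp_id x := by
    obtain ⟨k, f, rfl⟩ := exists_mk E st x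
    rw [mk_id E st k, comp_mk, GlobExt.comp_id]
  assoc := comp_assoc
  J f := mk 0 ((E 0).J f)
  J_id S := congrArg (mk 0) ((E 0).J_id S)
  J_comp f g := by rw [comp_mk, GlobExt.J_comp]
  glue := glue E st

/-- the functors from the stages -/
def incl (k : ℕ) : (E k).Mor (ext E st) where
  map f := mk k f
  map_id S := (mk_id E st k S).symm
  map_comp f g := (comp_mk E st f g).symm
  map_J f := (mk_J E st k f).symm

end Colim

/-- sequential colimits: `Hom S T = colim_k (E k).Hom S T` (a quotient of `Σ k, (E k).Hom S T`) -/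
theorem exists_colim (E : ℕ → GlobExt) (st : ∀ k, (E k).Mor (E (k + 1))) :
    ∃ (C : GlobExt) (incl : ∀ k, (E k).Mor C),
      (∀ k (S T : Obj) (f : (E k).Hom S T), (incl (k + 1)).map ((st k).map f) = (incl k).map f) ∧
      (∀ (S T : Obj) (f : C.Hom S T), ∃ k, ∃ g : (E k).Hom S T, (incl k).map g = f) ∧
      (∀ k (S T : Obj) (f g : (E k).Hom S T), (incl k).map f = (incl k).map g →
        ∃ d, (GlobExt.Mor.iter E st k d).map f = (GlobExt.Mor.iter E st k d).map g) ∧
      ∀ (F : GlobExt) (G : ∀ k, (E k).Mor F),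
        (∀ k (S T : Obj) (f : (E k).Hom S T), (G (k + 1)).map ((st k).map f) = (G k).map f) →
        ∃! G' : C.Mor F, ∀ k (S T : Obj) (f : (E k).Hom S T),
          G'.map ((incl k).map f) = (G k).map f := by
  refine ⟨Colim.ext E st, Colim.incl E st, ?_, ?_, ?_, ?_⟩
  · intro k S T f
    have h1 : (st k).map f = (Colim.tr E st k (k + 1) (Nat.le_succ k)).map f := by
      rw [Colim.tr_succ E st (le_refl k), Colim.tr_self]
    change (Colim.mk (k + 1) ((st k).map f) : Colim.CHom E st S T) = Colim.mk k f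
    rw [h1, Colim.mk_tr]
  · intro S T f
    obtain ⟨k, g, h⟩ := Colim.exists_mk E st f
    exact ⟨k, g, h.symm⟩
  · intro k S T f g h
    obtain ⟨N, hN⟩ := Colim.mk_eq_same E st h
    obtain ⟨h1, h2⟩ := hN (max N k) (le_max_left _ _)
    obtain ⟨d, hd⟩ := Nat.exists_eq_add_of_le h1
    refine ⟨d, ?_⟩
    rw [Colim.iter_eq, Colim.iter_eq]
    generalize max N k = m at h1 h2 hd
    subst hd
    exact h2
  · intro F G hG
    have hG' : ∀ (k m : ℕ) (h : k ≤ m) {S T : Obj} (f : (E k).Hom S T),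
        (G m).map ((Colim.tr E st k m h).map f) = (G k).map f := by
      intro k m h S T f
      induction m, h using Nat.le_induction with
      | base => rw [Colim.tr_self]
      | succ m hm ih => rw [Colim.tr_succ E st hm, hG, ih]
    have hwd : ∀ (S T : Obj) (a b : Σ k, (E k).Hom S T), (Colim.setoid E st S T).r a b →
        (G a.1).map a.2 = (G b.1).map b.2 := by
      rintro S T a b ⟨m, h1, h2, h3⟩
      rw [← hG' _ m h1, h3, hG' _ m h2]
    refine ⟨⟨fun {S T} x => Quotient.lift (fun a : Σ k, (E k).Hom S T => (G a.1).map a.2)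
      (hwd S T) x, ?_, ?_, ?_⟩, ?_, ?_⟩
    · intro S
      exact (G 0).map_id S
    · intro S T U x y
      obtain ⟨N, hN⟩ := Colim.exists_mk_ge E st x
      obtain ⟨N', hN'⟩ := Colim.exists_mk_ge E st y
      obtain ⟨f, rfl⟩ := hN (max N N') (le_max_left _ _)
      obtain ⟨g, rfl⟩ := hN' (max N N') (le_max_right _ _)
      change Quotient.lift _ _ (Colim.comp E st (Colim.mk _ f) (Colim.mk _ g)) = _
      rw [Colim.comp_mk]
      exact (G (max N N')).map_comp f g
    · intro S T f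
      exact (G 0).map_J f
    · intro k S T f
      rfl
    · intro G' hG2
      apply GlobExt.Mor.ext'
      intro S T x
      obtain ⟨k, f, rfl⟩ := Colim.exists_mk E st x
      exact hG2 k S T f

end Vale.Agent.P259
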