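import Mathlib

/-!
# P259, module T0: cubes, extension property, weak equivalences (definitions only)
-/

namespace Vale.Agent.P259

open Set Topology

/-- The closed unit cube in `Fin n → ℝ`. -/
def cube (n : ℕ) : Set (Fin n → ℝ) := Set.Icc 0 1

/-- The boundary of the closed unit cube (empty for `n = 0`). -/
def bdry (n : ℕ) : Set (Fin n → ℝ) := {x | x ∈ cube n ∧ ∃ i, x i = 0 ∨ x i = 1}

/-- The unit interval in `ℝ`. -/
def uI : Set ℝ := Set.Icc 0 1

variable {X Y Z : Type*} [TopologicalSpace X] [TopologicalSpace Y] [TopologicalSpace Z]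

/-- `A` has the extension property in dimension `n`: every continuous map from the boundary of the
`n`-cube to `A` extends to the `n`-cube (for `n = 0` this says that `A` is nonempty). -/
def Ext (n : ℕ) (A : Set X) : Prop :=
  ∀ f : (Fin n → ℝ) → X, ContinuousOn f (bdry n) → MapsTo f (bdry n) A →
    ∃ g : (Fin n → ℝ) → X, ContinuousOn g (cube n) ∧ MapsTo g (cube n) A ∧ EqOn g f (bdry n)

/-- `Conn m A` : `A` is nonempty and `(m-1)`-connected. -/
def Conn (m : ℕ) (A : Set X) : Prop := A.Nonempty ∧ ∀ n ≤ m, Ext n A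

/-- `A` is weakly contractible (in particular nonempty). -/
def WContr (A : Set X) : Prop := A.Nonempty ∧ ∀ n, Ext n A

/-- The `n`-th condition for `f` to be a weak equivalence. -/
def WE (n : ℕ) (f : X → Y) : Prop :=
  ∀ (a : (Fin n → ℝ) → X) (b : (Fin n → ℝ) → Y), ContinuousOn a (bdry n) →
    ContinuousOn b (cube n) → (∀ x ∈ bdry n, f (a x) = b x) →
    ∃ (a' : (Fin n → ℝ) → X) (H : (Fin n → ℝ) × ℝ → Y),
      ContinuousOn a' (cube n) ∧ EqOn a' a (bdry n) ∧ ContinuousOn H (cube n ×ˢ uI) ∧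
      (∀ x ∈ cube n, H (x, 0) = f (a' x)) ∧ (∀ x ∈ cube n, H (x, 1) = b x) ∧
      (∀ x ∈ bdry n, ∀ t ∈ uI, H (x, t) = b x)

/-- Weak equivalences (weak homotopy equivalences, in terms of cubes). -/
def IsWE (f : X → Y) : Prop := Continuous f ∧ (Nonempty Y → Nonempty X) ∧ ∀ n, WE n f

/-- The pair `(A', A)` is `n`-compressible. -/
def Compress (n : ℕ) (A A' : Set X) : Prop :=
  ∀ a : (Fin n → ℝ) → X, ContinuousOn a (cube n) → MapsTo a (cube n) A' → MapsTo a (bdry n) A →
    ∃ H : (Fin n → ℝ) × ℝ → X, ContinuousOn H (cube n ×ˢ uI) ∧ MapsTo H (cube n ×ˢ uI) A' ∧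
      (∀ x ∈ cube n, H (x, 0) = a x) ∧ (∀ x ∈ cube n, H (x, 1) ∈ A) ∧
      (∀ x ∈ bdry n, ∀ t ∈ uI, H (x, t) = a x)

end Vale.Agent.P259
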