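import Vale.Agent.Lib.P259.Cylinder

/-!
# P259, module G5: functoriality of the mapping cylinders, by the lifting property of coherators
-/

namespace Vale.Agent.P259

open CategoryTheory Limits Topology Set Opposite

namespace QData

variable {C : Coherator} {D : DiscFunctor C.C} (𝒬 : QData C D)

theorem cylMap_id (S : Obj) : 𝒬.cylMap (𝟙 S.real) = ContinuousMap.id (𝒬.Cyl S) := by
  apply cyl_ext
  · intro x s
    rw [𝒬.cylMap_iD (S := S) (T := S), C.C.J_id, D.mp_id]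
    rfl
  · intro q
    rw [𝒬.cylMap_iQ (S := S) (T := S), C.C.J_id, 𝒬.qm_id]
    rfl

theorem cylMap_comp {R S T : Obj} (f : Θ₀Hom R S) (g : Θ₀Hom S T) :
    𝒬.cylMap (f ≫ g : R.real ⟶ T.real) = (𝒬.cylMap g).comp (𝒬.cylMap f) := by
  apply cyl_ext
  · intro x s
    rw [𝒬.cylMap_iD (S := R) (T := T), C.C.J_comp (S := R) (T := S) (U := T), D.mp_comp,
      ContinuousMap.comp_apply, 𝒬.cylMap_iD, 𝒬.cylMap_iD]
  · intro q
    rw [𝒬.cylMap_iQ (S := R) (T := T), C.C.J_comp (S := R) (T := S) (U := T), 𝒬.qm_comp,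
      ContinuousMap.comp_apply, 𝒬.cylMap_iQ, 𝒬.cylMap_iQ]

/-- pairs of a morphism of the coherator and a compatible map of cylinders -/
def MHom (R S : Obj) : Type :=
  {p : C.C.Hom R S × C(𝒬.Cyl R, 𝒬.Cyl S) // (∀ q, p.2 (𝒬.iQ R q) = 𝒬.iQ S (𝒬.qm p.1 q)) ∧
    ∀ x, p.2 (𝒬.iD R (x, 0)) = 𝒬.iD S (D.mp p.1 x, 0)}

/-- the identity -/
noncomputable def MHom.id (S : Obj) : 𝒬.MHom S S :=
  ⟨(C.C.id S, ContinuousMap.id _), fun q => by rw [𝒬.qm_id]; rfl, fun x => by rw [D.mp_id]; rfl⟩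

variable {𝒬}

/-- composition -/
noncomputable def MHom.comp {R S T : Obj} (f : 𝒬.MHom R S) (g : 𝒬.MHom S T) : 𝒬.MHom R T :=
  ⟨(C.C.comp f.1.1 g.1.1, g.1.2.comp f.1.2), fun q => by
    rw [𝒬.qm_comp, ContinuousMap.comp_apply, f.2.1, g.2.1], fun x => by
    rw [D.mp_comp, ContinuousMap.comp_apply, f.2.2, g.2.2]⟩

variable (𝒬)

/-- the morphism induced by a `Θ₀` map -/
noncomputable def MHom.J {R S : Obj} (f : Θ₀Hom R S) : 𝒬.MHom R S :=
  ⟨(C.C.J f, 𝒬.cylMap f), fun q => 𝒬.cylMap_iQ f q, fun x => 𝒬.cylMap_iD f x 0⟩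

variable {𝒬}

theorem MHom.ext {R S : Obj} {f g : 𝒬.MHom R S} (h1 : f.1.1 = g.1.1) (h2 : f.1.2 = g.1.2) : f = g :=
  Subtype.ext (Prod.ext h1 h2)

variable (𝒬)

theorem MHom.glue {i j k : ℕ} (hi : j < i) (hk : j < k) (t : Tab k) (X : Obj)
    (f : 𝒬.MHom (.D i) X) (g : 𝒬.MHom ⟨k, t⟩ X)
    (w : MHom.comp (MHom.J 𝒬 (bd₀ hi true)) f =
      MHom.comp (MHom.comp (MHom.J 𝒬 (bd₀ hk false)) (MHom.J 𝒬 (first₀ t))) g) :
    ∃! h : 𝒬.MHom ⟨i, .glue hi hk t⟩ X,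
      MHom.comp (MHom.J 𝒬 (inl₀ hi hk t)) h = f ∧ MHom.comp (MHom.J 𝒬 (inr₀ hi hk t)) h = g := by
  have w1 := congrArg (fun z => z.1.1) w
  have w2 := congrArg (fun z => z.1.2) w
  obtain ⟨φ, ⟨hφ1, hφ2⟩, hφ⟩ := C.C.glue hi hk t X f.1.1 g.1.1 w1
  have w3 : ∀ x s, f.1.2 (𝒬.iD (.D i) (D.mp (C.C.J (bd₀ hi true)) x, s)) =
      g.1.2 (𝒬.iD ⟨k, t⟩ (D.mp (C.C.comp (C.C.J (bd₀ hk false)) (C.C.J (first₀ t))) x, s)) := by
    intro x s
    have := DFunLike.congr_fun w2 (𝒬.iD (.D j) (x, s))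
    change f.1.2 (𝒬.cylMap (bd₀ hi true) (𝒬.iD (.D j) (x, s))) =
      g.1.2 (𝒬.cylMap (first₀ t) (𝒬.cylMap (bd₀ hk false) (𝒬.iD (.D j) (x, s)))) at this
    rw [𝒬.cylMap_iD, 𝒬.cylMap_iD, 𝒬.cylMap_iD, ← D.mp_comp] at this
    exact this
  obtain ⟨c, hc1, hc2⟩ := D.exists_glue_prod hi hk t (f.1.2.comp (𝒬.iD (.D i)))
    (g.1.2.comp (𝒬.iD ⟨k, t⟩)) w3
  have hend : ∀ x, c (x, 1) = 𝒬.iQ X (𝒬.qm φ (𝒬.h ⟨i, .glue hi hk t⟩ x)) := by
    intro x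
    have e : c.comp (oneI (D.sp ⟨i, .glue hi hk t⟩)) =
        ((𝒬.iQ X).comp (𝒬.qm φ)).comp (𝒬.h ⟨i, .glue hi hk t⟩) := by
      apply D.ext_glue hi hk t
      · intro x
        change c (D.mp (C.C.J (inl₀ hi hk t)) x, 1) =
          𝒬.iQ X (𝒬.qm φ (𝒬.h _ (D.mp (C.C.J (inl₀ hi hk t)) x)))
        rw [hc1, ← 𝒬.h_nat, ← 𝒬.qm_comp, hφ1, ContinuousMap.comp_apply, 𝒬.iD_one, f.2.1]
      · intro x
        change c (D.mp (C.C.J (inr₀ hi hk t)) x, 1) =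
          𝒬.iQ X (𝒬.qm φ (𝒬.h _ (D.mp (C.C.J (inr₀ hi hk t)) x)))
        rw [hc2, ← 𝒬.h_nat, ← 𝒬.qm_comp, hφ2, ContinuousMap.comp_apply, 𝒬.iD_one, g.2.1]
    exact DFunLike.congr_fun e x
  have hstart : ∀ x, c (x, 0) = 𝒬.iD X (D.mp φ x, 0) := by
    intro x
    have e : c.comp ⟨fun x => (x, 0), by fun_prop⟩ =
        (𝒬.iD X).comp (ContinuousMap.comp ⟨fun x => (x, 0), by fun_prop⟩ (D.mp φ)) := by
      apply D.ext_glue hi hk t
      · intro x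
        change c (D.mp (C.C.J (inl₀ hi hk t)) x, 0) =
          𝒬.iD X (D.mp φ (D.mp (C.C.J (inl₀ hi hk t)) x), 0)
        rw [hc1, ← D.mp_comp, hφ1, ContinuousMap.comp_apply, f.2.2]
      · intro x
        change c (D.mp (C.C.J (inr₀ hi hk t)) x, 0) =
          𝒬.iD X (D.mp φ (D.mp (C.C.J (inr₀ hi hk t)) x), 0)
        rw [hc2, ← D.mp_comp, hφ2, ContinuousMap.comp_apply, g.2.2]
    exact DFunLike.congr_fun e x
  obtain ⟨K, hK1, hK2⟩ := 𝒬.cyl_desc c ((𝒬.iQ X).comp (𝒬.qm φ)) hend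
  refine ⟨⟨(φ, K), hK2, fun x => ?_⟩, ⟨?_, ?_⟩, ?_⟩
  · exact (hK1 x 0).trans (hstart x)
  · apply MHom.ext
    · exact hφ1
    · apply cyl_ext
      · intro x s
        change K (𝒬.cylMap (inl₀ hi hk t) (𝒬.iD (.D i) (x, s))) = _
        rw [𝒬.cylMap_iD, hK1, hc1]
        rfl
      · intro q
        change K (𝒬.cylMap (inl₀ hi hk t) (𝒬.iQ (.D i) q)) = _
        rw [𝒬.cylMap_iQ, hK2, ContinuousMap.comp_apply, ← 𝒬.qm_comp, hφ1, f.2.1]
  · apply MHom.ext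
    · exact hφ2
    · apply cyl_ext
      · intro x s
        change K (𝒬.cylMap (inr₀ hi hk t) (𝒬.iD ⟨k, t⟩ (x, s))) = _
        rw [𝒬.cylMap_iD, hK1, hc2]
        rfl
      · intro q
        change K (𝒬.cylMap (inr₀ hi hk t) (𝒬.iQ ⟨k, t⟩ q)) = _
        rw [𝒬.cylMap_iQ, hK2, ContinuousMap.comp_apply, ← 𝒬.qm_comp, hφ2, g.2.1]
  · rintro ⟨⟨ψ, L⟩, hL1, hL2⟩ ⟨e1, e2⟩
    have h1 : ψ = φ := hφ ψ ⟨congrArg (fun z => z.1.1) e1, congrArg (fun z => z.1.1) e2⟩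
    subst h1
    apply MHom.ext
    · rfl
    · apply cyl_ext
      · intro x s
        change L (𝒬.iD _ (x, s)) = K (𝒬.iD _ (x, s))
        rw [hK1]
        have e : L.comp (𝒬.iD _) = c := by
          apply D.ext_glue_prod hi hk t
          · intro x s
            rw [hc1]
            have := DFunLike.congr_fun (congrArg (fun z => z.1.2) e1) (𝒬.iD (.D i) (x, s))
            change L (𝒬.cylMap (inl₀ hi hk t) (𝒬.iD (.D i) (x, s))) = _ at this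
            rw [𝒬.cylMap_iD] at this
            exact this
          · intro x s
            rw [hc2]
            have := DFunLike.congr_fun (congrArg (fun z => z.1.2) e2) (𝒬.iD ⟨k, t⟩ (x, s))
            change L (𝒬.cylMap (inr₀ hi hk t) (𝒬.iD ⟨k, t⟩ (x, s))) = _ at this
            rw [𝒬.cylMap_iD] at this
            exact this
        exact DFunLike.congr_fun e (x, s)
      · intro q
        exact (hL1 q).trans (hK2 q).symm

/-- the globular extension of pairs -/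
noncomputable def MExt : GlobExt where
  Hom := 𝒬.MHom
  id := MHom.id 𝒬
  comp f g := MHom.comp f g
  id_comp _ := MHom.ext (C.C.id_comp _) rfl
  comp_id _ := MHom.ext (C.C.comp_id _) rfl
  assoc _ _ _ := MHom.ext (C.C.assoc _ _ _) rfl
  J f := MHom.J 𝒬 f
  J_id S := MHom.ext (C.C.J_id S) (𝒬.cylMap_id S)
  J_comp f g := MHom.ext (C.C.J_comp f g) (𝒬.cylMap_comp f g)
  glue hi hk t X f g w := MHom.glue 𝒬 hi hk t X f g w

/-- the projection to the coherator -/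
noncomputable def MProj : 𝒬.MExt.Mor C.C where
  map f := f.1.1
  map_id _ := rfl
  map_comp _ _ := rfl
  map_J _ := rfl

theorem liftsLifts_MProj : GlobExt.LiftsLifts 𝒬.MProj := by
  intro n S f g hfg u hu
  have hu1 : C.C.comp (C.C.J (bd₀ (Nat.lt_succ_self n) false)) u = f.1.1 := hu.1
  have hu2 : C.C.comp (C.C.J (bd₀ (Nat.lt_succ_self n) true)) u = g.1.1 := hu.2
  let kk : Bool → 𝒬.MHom (.D n) S := fun ε => if ε then g else f
  have hkk : ∀ ε, C.C.comp (C.C.J (bd₀ (Nat.lt_succ_self n) ε)) u = (kk ε).1.1 := by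
    intro ε
    cases ε
    · exact hu1
    · exact hu2
  obtain ⟨H, h0, h1, hw⟩ := D.exists_prism (𝒬.wcontr_cyl S) n
    (fun ε => (kk ε).1.2.comp (𝒬.iD (.D n))) (by
      cases n with
      | zero => trivial
      | succ m =>
        intro ε x s
        have e1 := congrArg (fun z : 𝒬.MHom (.D m) S => z.1.2 (𝒬.iD (.D m) (x, s))) (hfg ε)
        change f.1.2 (𝒬.cylMap (bd₀ (Nat.lt_succ_self m) ε) (𝒬.iD (.D m) (x, s))) =
          g.1.2 (𝒬.cylMap (bd₀ (Nat.lt_succ_self m) ε) (𝒬.iD (.D m) (x, s))) at e1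
        rw [𝒬.cylMap_iD] at e1
        exact e1)
    ((𝒬.iD S).comp (ContinuousMap.comp ⟨fun x => (x, 0), by fun_prop⟩ (D.mp u)))
    (((𝒬.iQ S).comp (𝒬.qm u)).comp (𝒬.h _))
    (by
      intro ε x
      change 𝒬.iD S (D.mp u (D.mp (C.C.J (bd₀ (Nat.lt_succ_self n) ε)) x), 0) =
        (kk ε).1.2 (𝒬.iD (.D n) (x, 0))
      rw [← D.mp_comp, hkk, (kk ε).2.2])
    (by
      intro ε x
      change 𝒬.iQ S (𝒬.qm u (𝒬.h _ (D.mp (C.C.J (bd₀ (Nat.lt_succ_self n) ε)) x))) =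
        (kk ε).1.2 (𝒬.iD (.D n) (x, 1))
      rw [← 𝒬.h_nat, ← 𝒬.qm_comp, hkk, 𝒬.iD_one, (kk ε).2.1])
  obtain ⟨K, hK1, hK2⟩ := 𝒬.cyl_desc H ((𝒬.iQ S).comp (𝒬.qm u)) h1
  have key : ∀ ε, K.comp (𝒬.cylMap (bd₀ (Nat.lt_succ_self n) ε)) = (kk ε).1.2 := by
    intro ε
    apply cyl_ext
    · intro x s
      rw [ContinuousMap.comp_apply, 𝒬.cylMap_iD, hK1]
      exact hw ε x s
    · intro q
      rw [ContinuousMap.comp_apply, 𝒬.cylMap_iQ, hK2, ContinuousMap.comp_apply, ← 𝒬.qm_comp, hkk,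
        (kk ε).2.1]
  refine ⟨⟨(u, K), hK2, fun x => (hK1 x 0).trans (h0 x)⟩, ⟨?_, ?_⟩, rfl⟩
  · exact MHom.ext hu1 (key false)
  · exact MHom.ext hu2 (key true)

theorem exists_cylFun : Nonempty 𝒬.CylFun := by
  obtain ⟨s, hs⟩ := C.lift_mor 𝒬.MProj 𝒬.liftsLifts_MProj (GlobExt.Mor.refl C.C)
  have key : ∀ {S T : Obj} (φ : C.C.Hom S T), (s.map φ).1.1 = φ := fun φ =>
    GlobExt.Mor.congr hs φ
  exact ⟨{
    mm := fun φ => (s.map φ).1.2
    mm_id := fun S => congrArg (fun z : 𝒬.MHom S S => z.1.2) (s.map_id S)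
    mm_comp := fun {R S T} φ ψ => congrArg (fun z : 𝒬.MHom R T => z.1.2) (s.map_comp φ ψ)
    mm_J := fun {S T} f => congrArg (fun z : 𝒬.MHom S T => z.1.2) (s.map_J f)
    mm_iQ := fun φ q => by
      have h := (s.map φ).2.1 q
      rw [key] at h
      exact h
    mm_iD := fun φ x => by
      have h := (s.map φ).2.2 x
      rw [key] at h
      exact h }⟩

end QData

end Vale.Agent.P259
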