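import Vale.Agent.Lib.P259.Sigma

/-!
# P259, module A4b: maps out of `G S` for a functor `G` on a globular extension that preserves
globular sums
-/

namespace Vale.Agent.P259

open CategoryTheory Limits Topology Set Opposite

universe u

namespace GlobExt

variable (E : GlobExt)

/-- the globes in `E.Cat`, as a functor -/
noncomputable def glF : Globe ⥤ E.Cat where
  obj n := ⟨.D n.dim⟩
  map {m n} f := E.jm (gl₀ (m := m.dim) (n := n.dim) f)
  map_id n := (congrArg E.jm (gl₀_id n.dim)).trans (E.jm_id _)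
  map_comp {l m n} f g := (congrArg E.jm (gl₀_comp (l := l.dim) (m := m.dim) (n := n.dim) f g)).trans
    (E.jm_comp (S := .D l.dim) (T := .D m.dim) (U := .D n.dim) _ _)

/-- preservation of globular sums -/
def Preserves {D : Type u} [Category.{0} D] (G : E.Cat ⥤ D) : Prop :=
  ∀ {i j k : ℕ} (hi : j < i) (hk : j < k) (t : Tab k),
    IsPushout (G.map (E.jm (bd₀ hi true))) (G.map (E.jm (bd₀ hk false) ≫ E.jm (first₀ t)))
      (G.map (E.jm (inl₀ hi hk t))) (G.map (E.jm (inr₀ hi hk t)))

variable {E} {D : Type u} [Category.{0} D] (G : E.Cat ⥤ D) (hG : E.Preserves G)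

theorem map_first_disc (i : ℕ) : G.map (E.jm (first₀ (.disc i))) = 𝟙 (G.obj ⟨.D i⟩) :=
  (congrArg (fun z => G.map z) (E.jm_id (.D i))).trans (G.map_id _)

theorem isIso_map_first_disc (i : ℕ) : IsIso (G.map (E.jm (first₀ (.disc i)))) :=
  (map_first_disc G i).symm ▸ (inferInstance : IsIso (𝟙 (G.obj ⟨.D i⟩)))

/-- a functor preserving globular sums, as a realization -/
noncomputable def realOf : Realization (E.glF ⋙ G) where
  obj S := G.obj ⟨S⟩
  first {i} t := G.map (E.jm (first₀ t))
  first_disc i := isIso_map_first_disc G i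
  rest hi hk t := G.map (E.jm (inr₀ hi hk t))
  isPushout {i j k} hi hk t := by
    have h := hG hi hk t
    rw [G.map_comp] at h
    exact h

/-- the map of globes classifying a cell -/
noncomputable def cellMap {S : Obj} {n : ℕ} (c : S.real.obj (op ⟨n⟩)) : Θ₀Hom (.D n) S :=
  yonedaEquiv.symm c

theorem cellMap_map {S : Obj} {m n : ℕ} (f : Globe.mk m ⟶ Globe.mk n) (c : S.real.obj (op ⟨n⟩)) :
    cellMap (S.real.map f.op c) = (gl₀ f ≫ cellMap c : (Obj.D m).real ⟶ S.real) :=
  yonedaEquiv_symm_map f.op c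

theorem cellMap_surjective {S : Obj} {n : ℕ} (c : Θ₀Hom (.D n) S) :
    ∃ d : S.real.obj (op ⟨n⟩), cellMap d = c := yonedaEquiv.symm.surjective c

/-- explicit form of the universal element -/
noncomputable def natG (S : Obj) : S.real ⟶ nerveG (E.glF ⋙ G) (G.obj ⟨S⟩) where
  app n := TypeCat.ofHom fun c => G.map (E.jm (cellMap (n := n.unop.dim) c))
  naturality {m n} f := by
    ext c
    have h1 := cellMap_map (S := S) (m := n.unop.dim) (n := m.unop.dim) f.unop c
    have h2 := congrArg (fun z => G.map (E.jm z)) h1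
    refine h2.trans ?_
    have h3 := E.jm_comp (S := .D n.unop.dim) (T := .D m.unop.dim) (U := S)
      (gl₀ (m := n.unop.dim) (n := m.unop.dim) f.unop) (cellMap (n := m.unop.dim) c)
    exact (congrArg (fun z => G.map z) h3).trans (G.map_comp _ _)

theorem natG_nat {S T : Obj} (f : Θ₀Hom S T) :
    (f ≫ natG G T : S.real ⟶ _) = natG G S ≫ nerveG.map (E.glF ⋙ G) (G.map (E.jm f)) := by
  ext n c
  have h1 : cellMap (n := n.unop.dim) (f.app n c) =
      (cellMap (n := n.unop.dim) c ≫ f : (Obj.D n.unop.dim).real ⟶ T.real) :=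
    (yonedaEquiv_symm_naturality_right (Globe.mk n.unop.dim) f c).symm
  have h2 := congrArg (fun z => G.map (E.jm z)) h1
  refine h2.trans ?_
  have h3 := E.jm_comp (S := .D n.unop.dim) (T := S) (U := T) (cellMap (n := n.unop.dim) c) f
  exact (congrArg (fun z => G.map z) h3).trans (G.map_comp _ _)

theorem comp_natG {S : Obj} {n : ℕ} (c : Θ₀Hom (.D n) S) :
    (c ≫ natG G S : (Obj.D n).real ⟶ _) = elt (E.glF ⋙ G) (n := n) (G.map (E.jm c)) := by
  obtain ⟨d, rfl⟩ := cellMap_surjective c
  exact yonedaEquiv_symm_naturality_right (Globe.mk n) (natG G S) d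

theorem realOf_iota : ∀ {i : ℕ} (t : Tab i), (realOf G hG).iota ⟨i, t⟩ = natG G ⟨i, t⟩
  | i, .disc _ => by
    rw [(realOf G hG).iota_disc i]
    have h := comp_natG G (S := .D i) (𝟙 (Obj.D i).real)
    rw [Category.id_comp] at h
    exact h.symm
  | i, .glue hi hk t => by
    apply (real_isPushout hi hk t).hom_ext
    · rw [(realOf G hG).inl_iota]
      exact (comp_natG G (inl₀ hi hk t)).symm
    · rw [(realOf G hG).rest_iota, realOf_iota t]
      exact (natG_nat G (inr₀ hi hk t)).symm

theorem realOf_iota' (S : Obj) : (realOf G hG).iota S = natG G S := realOf_iota G hG S.tab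

theorem realOf_J {S T : Obj} (f : Θ₀Hom S T) : (realOf G hG).J f = G.map (E.jm f) := by
  apply (realOf G hG).hom_ext
  rw [(realOf G hG).iota_J, realOf_iota', realOf_iota']
  exact natG_nat G f

include hG in
/-- maps out of `G S` are determined by the globes of `S` -/
theorem Preserves.hom_ext_globes {S : Obj} {X : D} {f g : G.obj ⟨S⟩ ⟶ X}
    (h : ∀ (n : ℕ) (c : Θ₀Hom (.D n) S), G.map (E.jm c) ≫ f = G.map (E.jm c) ≫ g) : f = g := by
  apply (realOf G hG).hom_ext (S := S)
  rw [realOf_iota']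
  ext n c
  exact h n.unop.dim (cellMap c)

include hG in
/-- a natural family on the globes of `S` comes from a map out of `G S` -/
theorem Preserves.exists_of_globes {S : Obj} {X : D}
    (φ : ∀ n : ℕ, Θ₀Hom (.D n) S → (G.obj ⟨.D n⟩ ⟶ X))
    (h : ∀ {m n : ℕ} (hmn : m < n) (ε : Bool) (c : Θ₀Hom (.D n) S),
      G.map (E.jm (bd₀ hmn ε)) ≫ φ n c = φ m (bd₀ hmn ε ≫ c)) :
    ∃ f : G.obj ⟨S⟩ ⟶ X, ∀ (n : ℕ) (c : Θ₀Hom (.D n) S), G.map (E.jm c) ≫ f = φ n c := by
  have nat : ∀ {m n : ℕ} (b : GlobeHom m n) (c : Θ₀Hom (.D n) S),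
      G.map (E.jm (gl₀ (m := m) (n := n) b)) ≫ φ n c = φ m (gl₀ (m := m) (n := n) b ≫ c) := by
    intro m n b c
    cases b with
    | id =>
      have h1 : gl₀ (m := m) (n := m) (GlobeHom.id m) = 𝟙 (Obj.D m).real := gl₀_id m
      rw [h1, Category.id_comp]
      have h2 : G.map (E.jm (𝟙 (Obj.D m).real)) = 𝟙 (G.obj ⟨.D m⟩) :=
        (congrArg (fun z => G.map z) (E.jm_id (.D m))).trans (G.map_id _)
      rw [h2, Category.id_comp]
    | bd hmn ε => exact h hmn ε c
  let a : S.real ⟶ nerveG (E.glF ⋙ G) X :=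
    { app := fun n => TypeCat.ofHom fun c => φ n.unop.dim (cellMap (n := n.unop.dim) c)
      naturality := by
        intro m n f
        ext c
        have h1 := cellMap_map (S := S) (m := n.unop.dim) (n := m.unop.dim) f.unop c
        refine (congrArg (fun z => φ n.unop.dim z) h1).trans ?_
        exact (nat (m := n.unop.dim) (n := m.unop.dim) f.unop
          (cellMap (n := m.unop.dim) c)).symm }
  refine ⟨(realOf G hG).desc (S := S) a, ?_⟩
  intro n c
  have h1 := (realOf G hG).iota_desc (S := S) a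
  rw [realOf_iota'] at h1
  obtain ⟨d, rfl⟩ := cellMap_surjective c
  have h2 := NatTrans.congr_app h1 (op (Globe.mk n))
  exact ConcreteCategory.congr_hom h2 d

end GlobExt

end Vale.Agent.P259
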