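import Vale.Agent.Lib.P259.DiscContr
import Vale.Agent.Lib.P259.DiscRep
/-!
# P259, module G1: maps out of the values of a disc functor are given on globes
-/
namespace Vale.Agent.P259
open CategoryTheory Limits Set Topology CompactlyGenerated

namespace DiscFunctor
variable {E : GlobExt} (D : DiscFunctor E)

/-- the underlying functor to `TopCat` -/
noncomputable def toTopF : E.Cat ⥤ TopCat.{0} := D.F ⋙ compactlyGeneratedToTop

theorem preserves : E.Preserves D.toTopF := fun hi hk t => isPushout_toTop (D.glue hi hk t)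

/-- maps out of `D(S)` are determined by the globes of `S` -/
theorem hom_ext_globes {S : Obj} {Z : Type} [TopologicalSpace Z] (f g : C(D.sp S, Z))
    (h : ∀ (n : ℕ) (c : Θ₀Hom (.D n) S) (x : D.sp (.D n)),
      f (D.mp (E.J c) x) = g (D.mp (E.J c) x)) : f = g := by
  have e : (TopCat.ofHom f : D.toTopF.obj ⟨S⟩ ⟶ TopCat.of Z) = TopCat.ofHom g := by
    apply GlobExt.Preserves.hom_ext_globes D.toTopF D.preserves
    intro n c
    ext x
    exact h n c x
  exact congrArg TopCat.Hom.hom e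

/-- a natural family on the globes of `S` comes from a map out of `D(S)` -/
theorem exists_of_globes {S : Obj} {Z : Type} [TopologicalSpace Z]
    (φ : ∀ n : ℕ, Θ₀Hom (.D n) S → C(D.sp (.D n), Z))
    (h : ∀ {m n : ℕ} (hmn : m < n) (ε : Bool) (c : Θ₀Hom (.D n) S) (x : D.sp (.D m)),
      φ m (bd₀ hmn ε ≫ c) x = φ n c (D.mp (E.J (bd₀ hmn ε)) x)) :
    ∃ f : C(D.sp S, Z), ∀ (n : ℕ) (c : Θ₀Hom (.D n) S) (x : D.sp (.D n)),
      f (D.mp (E.J c) x) = φ n c x := by
  obtain ⟨f, hf⟩ := GlobExt.Preserves.exists_of_globes D.toTopF D.preserves (S := S)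
    (X := TopCat.of Z)
    (fun n c => TopCat.ofHom (φ n c)) (by
      intro m n hmn ε c
      ext x
      exact (h hmn ε c x).symm)
  exact ⟨f.hom, fun n c x => ConcreteCategory.congr_hom (hf n c) x⟩

/-- it is enough to check naturality for consecutive dimensions -/
theorem exists_of_globes' {S : Obj} {Z : Type} [TopologicalSpace Z]
    (φ : ∀ n : ℕ, Θ₀Hom (.D n) S → C(D.sp (.D n), Z))
    (h : ∀ (n : ℕ) (ε : Bool) (c : Θ₀Hom (.D (n + 1)) S) (x : D.sp (.D n)),
      φ n (bd₀ (Nat.lt_succ_self n) ε ≫ c) x =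
        φ (n + 1) c (D.mp (E.J (bd₀ (Nat.lt_succ_self n) ε)) x)) :
    ∃ f : C(D.sp S, Z), ∀ (n : ℕ) (c : Θ₀Hom (.D n) S) (x : D.sp (.D n)),
      f (D.mp (E.J c) x) = φ n c x := by
  apply D.exists_of_globes φ
  intro m n
  induction n with
  | zero => intro hmn; exact absurd hmn (Nat.not_lt_zero _)
  | succ n ih =>
    intro hmn ε c x
    rcases Nat.lt_succ_iff_lt_or_eq.1 hmn with h' | rfl
    · have e1 : (bd₀ hmn ε ≫ c : (Obj.D m).real ⟶ S.real) =
          bd₀ h' ε ≫ (bd₀ (Nat.lt_succ_self n) false ≫ c) := by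
        rw [← Category.assoc, bd₀_bd₀]
      rw [e1, D.mp_bd_bd h' (Nat.lt_succ_self n) ε false x, ← h n false c,
        ih h' ε (bd₀ (Nat.lt_succ_self n) false ≫ c) x]
    · exact h m ε c x

end DiscFunctor
end Vale.Agent.P259
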