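import Vale.Agent.Lib.P259.DPt
import Vale.Agent.Lib.P259.DiscHtpy
/-!
# P259, module G2: filling of prisms over the globes of a disc functor
-/
namespace Vale.Agent.P259
open CategoryTheory Set Topology

namespace DiscFunctor
variable {E : GlobExt} (D : DiscFunctor E) {X : Type} [TopologicalSpace X]

/-- the boundary inclusions of the globes -/
noncomputable abbrev bdp (n : ℕ) (ε : Bool) : C(D.sp (.D n), D.sp (.D (n + 1))) :=
  D.mp (E.J (bd₀ (Nat.lt_succ_self n) ε))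

/-- The two homotopies `k false`, `k true` agree on the common boundary of the hemispheres. -/
def Walls : (n : ℕ) → (Bool → C(D.sp (.D n) × unitInterval, X)) → Prop
  | 0, _ => True
  | m + 1, k => ∀ (ε : Bool) (x : D.sp (.D m)) (t : unitInterval),
      k false (D.bdp m ε x, t) = k true (D.bdp m ε x, t)

/-! ### transport between `D(D_n) × I` and the standard prism -/

/-- a map out of `D(D_n) × I` as a function on the standard prism -/
noncomputable def toPr (n : ℕ) (H : C(D.sp (.D n) × unitInterval, X)) :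
    (Fin n → ℝ) × ℝ → X :=
  fun z => H (D.pt n z.1, projIcc 0 1 zero_le_one z.2)

theorem continuousOn_toPr (n : ℕ) (H : C(D.sp (.D n) × unitInterval, X)) :
    ContinuousOn (D.toPr n H) (closedDisc n ×ˢ uI) := by
  apply H.continuous.comp_continuousOn
  apply ContinuousOn.prodMk
  · exact (D.continuousOn_pt n).comp continuousOn_fst (fun z hz => hz.1)
  · exact (continuous_projIcc.comp continuous_snd).continuousOn

theorem toPr_apply (n : ℕ) (H : C(D.sp (.D n) × unitInterval, X)) (x : Fin n → ℝ)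
    (t : unitInterval) : D.toPr n H (x, (t : ℝ)) = H (D.pt n x, t) := by
  change H (D.pt n x, projIcc 0 1 zero_le_one (t : ℝ)) = _
  rw [projIcc_val]

theorem toPr_of_mem (n : ℕ) (H : C(D.sp (.D n) × unitInterval, X)) (x : Fin n → ℝ)
    {t : ℝ} (ht : t ∈ uI) : D.toPr n H (x, t) = H (D.pt n x, ⟨t, ht⟩) :=
  D.toPr_apply n H x ⟨t, ht⟩

/-- a continuous function on the standard prism as a map out of `D(D_n) × I` -/
noncomputable def ofPr (n : ℕ) (G : (Fin n → ℝ) × ℝ → X)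
    (hG : ContinuousOn G (closedDisc n ×ˢ uI)) : C(D.sp (.D n) × unitInterval, X) :=
  ⟨fun z => G ((D.homeo n z.1 : Fin n → ℝ), (z.2 : ℝ)), by
    apply hG.comp_continuous
    · exact (continuous_subtype_val.comp ((D.homeo n).continuous.comp continuous_fst)).prodMk
        (continuous_subtype_val.comp continuous_snd)
    · intro z
      exact ⟨(D.homeo n z.1).2, z.2.2⟩⟩

theorem ofPr_apply (n : ℕ) (G : (Fin n → ℝ) × ℝ → X)
    (hG : ContinuousOn G (closedDisc n ×ˢ uI)) (x : D.sp (.D n)) (t : unitInterval) :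
    D.ofPr n G hG (x, t) = G ((D.homeo n x : Fin n → ℝ), (t : ℝ)) := rfl

theorem hover_toPr (n : ℕ) (H : C(D.sp (.D n) × unitInterval, X)) :
    HOver (D.toPr n H) (fun x => H (D.pt n x, 0)) (fun x => H (D.pt n x, 1)) :=
  ⟨D.toPr n H, D.continuousOn_toPr n H, fun x _ => D.toPr_apply n H x 0,
    fun x _ => D.toPr_apply n H x 1, fun _ _ _ _ => rfl⟩

theorem exists_of_hover {n : ℕ} {k : (Fin n → ℝ) × ℝ → X} {f g : (Fin n → ℝ) → X}
    (h : HOver k f g) : ∃ H : C(D.sp (.D n) × unitInterval, X),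
      (∀ x, H (x, 0) = f (D.homeo n x)) ∧ (∀ x, H (x, 1) = g (D.homeo n x)) ∧
      ∀ x t, (D.homeo n x : Fin n → ℝ) ∈ sph n → H (x, t) = k (D.homeo n x, (t : ℝ)) := by
  obtain ⟨G, hG, h0, h1, hs⟩ := h
  refine ⟨D.ofPr n G hG, fun x => ?_, fun x => ?_, fun x t hx => ?_⟩
  · exact h0 _ (D.homeo n x).2
  · exact h1 _ (D.homeo n x).2
  · exact hs _ hx _ t.2

theorem homeo_bdp (n : ℕ) (ε : Bool) (x : D.sp (.D n)) :
    (D.homeo (n + 1) (D.bdp n ε x) : Fin (n + 1) → ℝ) = Vale.Agent.P259.hemi ε (D.homeo n x) :=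
  D.hemi_mp n ε x

theorem homeo_bdp_mem (n : ℕ) (ε : Bool) (x : D.sp (.D n)) :
    (D.homeo (n + 1) (D.bdp n ε x) : Fin (n + 1) → ℝ) ∈ sph (n + 1) := by
  rw [D.homeo_bdp]
  exact hemi_mem ε (D.homeo n x).2

/-- the side walls, glued -/
theorem exists_walls (n : ℕ) (k : Bool → C(D.sp (.D n) × unitInterval, X)) (hk : D.Walls n k) :
    ∃ g : (Fin (n + 1) → ℝ) × ℝ → X, ContinuousOn g (sph (n + 1) ×ˢ uI) ∧
      ∀ ε x (t : unitInterval),
        g ((D.homeo (n + 1) (D.bdp n ε x) : Fin (n + 1) → ℝ), (t : ℝ)) = k ε (x, t) := by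
  have hglue : ∀ x ∈ sph n, ∀ p ∈ uI, D.toPr n (k false) (x, p) = D.toPr n (k true) (x, p) := by
    intro x hx p hp
    cases n with
    | zero =>
      have h : ∑ i : Fin 0, x i ^ 2 = 1 := hx
      rw [Finset.univ_eq_empty, Finset.sum_empty] at h
      exact absurd h zero_ne_one
    | succ m =>
      obtain ⟨ε, y, hy, rfl⟩ := exists_hemi hx
      rw [D.toPr_of_mem _ _ _ hp, D.toPr_of_mem _ _ _ hp, ← D.mp_pt ε hy]
      exact hk ε (D.pt m y) ⟨p, hp⟩
  obtain ⟨g, hg, hgk⟩ := glue_hemi uI (fun ε => D.toPr n (k ε))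
    (fun ε => D.continuousOn_toPr n (k ε)) hglue
  refine ⟨g, hg, fun ε x t => ?_⟩
  rw [D.homeo_bdp, hgk ε _ (D.homeo n x).2 _ t.2, D.toPr_apply, D.pt_homeo]

theorem walls_bot {n : ℕ} {k : Bool → C(D.sp (.D n) × unitInterval, X)}
    {g : (Fin (n + 1) → ℝ) × ℝ → X} (hgk : ∀ ε x (t : unitInterval),
        g ((D.homeo (n + 1) (D.bdp n ε x) : Fin (n + 1) → ℝ), (t : ℝ)) = k ε (x, t))
    (s : unitInterval)
    (a : C(D.sp (.D (n + 1)), X)) (ha : ∀ ε x, a (D.bdp n ε x) = k ε (x, s))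
    (x : Fin (n + 1) → ℝ) (hx : x ∈ sph (n + 1)) : g (x, (s : ℝ)) = a (D.pt (n + 1) x) := by
  obtain ⟨ε, y, hy, rfl⟩ := exists_hemi hx
  rw [← D.mp_pt ε hy, ha ε, ← hgk, D.homeo_bdp, D.homeo_pt hy]

/-- Filling of prisms in weakly contractible spaces (`glue_hemi`, `Ext.prism_disc`). -/
theorem exists_prism (hX : WContr (univ : Set X)) (n : ℕ)
    (k : Bool → C(D.sp (.D n) × unitInterval, X)) (hk : D.Walls n k)
    (a b : C(D.sp (.D (n + 1)), X)) (ha : ∀ ε x, a (D.bdp n ε x) = k ε (x, 0))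
    (hb : ∀ ε x, b (D.bdp n ε x) = k ε (x, 1)) :
    ∃ H : C(D.sp (.D (n + 1)) × unitInterval, X), (∀ x, H (x, 0) = a x) ∧ (∀ x, H (x, 1) = b x) ∧
      ∀ ε x t, H (D.bdp n ε x, t) = k ε (x, t) := by
  classical
  obtain ⟨g, hg, hgk⟩ := D.exists_walls n k hk
  have hg0 : ∀ x ∈ sph (n + 1), g (x, 0) = a (D.pt (n + 1) x) := D.walls_bot hgk 0 a ha
  have hg1 : ∀ x ∈ sph (n + 1), g (x, 1) = b (D.pt (n + 1) x) := D.walls_bot hgk 1 b hb
  set F : (Fin (n + 1) → ℝ) × ℝ → X := fun z =>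
    if z.2 = 0 then a (D.pt (n + 1) z.1) else if z.2 = 1 then b (D.pt (n + 1) z.1) else g z with hF
  have hF0 : ∀ x, F (x, 0) = a (D.pt (n + 1) x) := fun x => if_pos rfl
  have hF1 : ∀ x, F (x, 1) = b (D.pt (n + 1) x) := fun x => by
    simp [hF]
  have hFs : ∀ z ∈ sph (n + 1) ×ˢ uI, F z = g z := by
    rintro ⟨x, t⟩ ⟨hx, -⟩
    by_cases h0 : t = 0
    · subst h0
      rw [hF0, hg0 x hx]
    · by_cases h1 : t = 1
      · subst h1
        rw [hF1, hg1 x hx]
      · simp [hF, h0, h1]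
  have hpt : ∀ c : C(D.sp (.D (n + 1)), X), ∀ S : Set ℝ, ContinuousOn
      (fun z : (Fin (n + 1) → ℝ) × ℝ => c (D.pt (n + 1) z.1)) (closedDisc (n + 1) ×ˢ S) :=
    fun c S => c.continuous.comp_continuousOn
      ((D.continuousOn_pt (n + 1)).comp continuousOn_fst (fun z hz => hz.1))
  have hcF : ContinuousOn F (closedDisc (n + 1) ×ˢ {0, 1} ∪ sph (n + 1) ×ˢ uI) := by
    have c0 : ContinuousOn F (closedDisc (n + 1) ×ˢ ({0} : Set ℝ)) := by
      refine (hpt a _).congr ?_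
      rintro ⟨x, t⟩ ⟨-, ht⟩
      obtain rfl : t = 0 := ht
      exact hF0 x
    have c1 : ContinuousOn F (closedDisc (n + 1) ×ˢ ({1} : Set ℝ)) := by
      refine (hpt b _).congr ?_
      rintro ⟨x, t⟩ ⟨-, ht⟩
      obtain rfl : t = 1 := ht
      exact hF1 x
    have c2 : ContinuousOn F (sph (n + 1) ×ˢ uI) := hg.congr hFs
    have k0 : IsClosed (closedDisc (n + 1) ×ˢ ({0} : Set ℝ)) :=
      (dt_isClosed_closedDisc _).prod isClosed_singleton
    have k1 : IsClosed (closedDisc (n + 1) ×ˢ ({1} : Set ℝ)) :=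
      (dt_isClosed_closedDisc _).prod isClosed_singleton
    have k2 : IsClosed (sph (n + 1) ×ˢ uI) := (dt_isClosed_sph _).prod isClosed_Icc
    refine ((c0.union_of_isClosed c1 k0 k1).union_of_isClosed c2 (k0.union k1) k2).mono ?_
    rintro ⟨x, t⟩ (⟨h1, h2⟩ | h)
    · rcases h2 with h2 | h2
      · exact Or.inl (Or.inl ⟨h1, h2⟩)
      · exact Or.inl (Or.inr ⟨h1, h2⟩)
    · exact Or.inr h
  obtain ⟨G, hG, -, hGF⟩ := (hX.2 (n + 1 + 1)).prism_disc F hcF (fun _ _ => mem_univ _)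
  refine ⟨D.ofPr (n + 1) G hG, fun x => ?_, fun x => ?_, fun ε x t => ?_⟩
  · rw [D.ofPr_apply]
    have h1 : ((D.homeo (n + 1) x : Fin (n + 1) → ℝ), (0 : ℝ)) ∈
        closedDisc (n + 1) ×ˢ ({0, 1} : Set ℝ) ∪ sph (n + 1) ×ˢ uI :=
      Or.inl ⟨(D.homeo (n + 1) x).2, Or.inl rfl⟩
    exact (hGF h1).trans ((hF0 _).trans (by rw [D.pt_homeo]))
  · rw [D.ofPr_apply]
    have h1 : ((D.homeo (n + 1) x : Fin (n + 1) → ℝ), (1 : ℝ)) ∈
        closedDisc (n + 1) ×ˢ ({0, 1} : Set ℝ) ∪ sph (n + 1) ×ˢ uI :=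
      Or.inl ⟨(D.homeo (n + 1) x).2, Or.inr rfl⟩
    exact (hGF h1).trans ((hF1 _).trans (by rw [D.pt_homeo]))
  · rw [D.ofPr_apply]
    have h2 : ((D.homeo (n + 1) (D.bdp n ε x) : Fin (n + 1) → ℝ), (t : ℝ)) ∈
        sph (n + 1) ×ˢ uI := ⟨D.homeo_bdp_mem n ε x, t.2⟩
    exact (hGF (Or.inr h2)).trans ((hFs _ h2).trans (hgk ε x t))

/-- Homotopy extension with given start (`glue_hemi`, `hep_disc` or `exists_HOver`). -/
theorem exists_hep₀ (n : ℕ) (k : Bool → C(D.sp (.D n) × unitInterval, X)) (hk : D.Walls n k)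
    (a : C(D.sp (.D (n + 1)), X)) (ha : ∀ ε x, a (D.bdp n ε x) = k ε (x, 0)) :
    ∃ H : C(D.sp (.D (n + 1)) × unitInterval, X), (∀ x, H (x, 0) = a x) ∧
      ∀ ε x t, H (D.bdp n ε x, t) = k ε (x, t) := by
  obtain ⟨g, hg, hgk⟩ := D.exists_walls n k hk
  obtain ⟨b, hb⟩ := exists_HOver g (fun x => a (D.pt (n + 1) x))
    (a.continuous.comp_continuousOn (D.continuousOn_pt (n + 1))) hg
    (D.walls_bot hgk 0 a ha)
  obtain ⟨H, h0, -, hs⟩ := D.exists_of_hover hb
  refine ⟨H, fun x => ?_, fun ε x t => ?_⟩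
  · rw [h0, D.pt_homeo]
  · rw [hs _ _ (D.homeo_bdp_mem n ε x), hgk]

/-- Homotopy extension with given end (`exists_HOver'`). -/
theorem exists_hep₁ (n : ℕ) (k : Bool → C(D.sp (.D n) × unitInterval, X)) (hk : D.Walls n k)
    (b : C(D.sp (.D (n + 1)), X)) (hb : ∀ ε x, b (D.bdp n ε x) = k ε (x, 1)) :
    ∃ H : C(D.sp (.D (n + 1)) × unitInterval, X), (∀ x, H (x, 1) = b x) ∧
      ∀ ε x t, H (D.bdp n ε x, t) = k ε (x, t) := by
  obtain ⟨g, hg, hgk⟩ := D.exists_walls n k hk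
  obtain ⟨a, ha⟩ := exists_HOver' g (fun x => b (D.pt (n + 1) x))
    (b.continuous.comp_continuousOn (D.continuousOn_pt (n + 1))) hg
    (D.walls_bot hgk 1 b hb)
  obtain ⟨H, -, h1, hs⟩ := D.exists_of_hover ha
  refine ⟨H, fun x => ?_, fun ε x t => ?_⟩
  · rw [h1, D.pt_homeo]
  · rw [hs _ _ (D.homeo_bdp_mem n ε x), hgk]

/-- The sphere in `D(D_{n+1})`. -/
def bdSet (n : ℕ) : Set (D.sp (.D (n + 1))) :=
  {x | (D.homeo (n + 1) x : Fin (n + 1) → ℝ) ∈ sph (n + 1)}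

theorem mem_bdSet (n : ℕ) (ε : Bool) (x : D.sp (.D n)) : D.bdp n ε x ∈ D.bdSet n :=
  D.homeo_bdp_mem n ε x

theorem exists_of_mem_bdSet (n : ℕ) {y : D.sp (.D (n + 1))} (hy : y ∈ D.bdSet n) :
    ∃ ε x, D.bdp n ε x = y := by
  have hy' : (D.homeo (n + 1) y : Fin (n + 1) → ℝ) ∈ sph (n + 1) := hy
  obtain ⟨ε, x, hx, he⟩ := exists_hemi hy'
  refine ⟨ε, D.pt n x, ?_⟩
  rw [bdp, D.mp_pt ε hx, he, D.pt_homeo]

/-- a homotopy relative to the sphere, in coordinates -/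
theorem hrel_of_homotopicRel {n : ℕ} {f g : C(D.sp (.D (n + 1)), X)}
    (h : ContinuousMap.HomotopicRel f g (D.bdSet n)) :
    HRel (fun x => f (D.pt (n + 1) x)) (fun x => g (D.pt (n + 1) x)) := by
  obtain ⟨K⟩ := h
  refine ⟨fun z => K (projIcc 0 1 zero_le_one z.2, D.pt (n + 1) z.1), ?_, fun x _ => ?_,
    fun x _ => ?_, fun x hx t _ => ?_⟩
  · apply (map_continuous K).comp_continuousOn
    apply ContinuousOn.prodMk
    · exact (continuous_projIcc.comp continuous_snd).continuousOn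
    · exact (D.continuousOn_pt (n + 1)).comp continuousOn_fst (fun z hz => hz.1)
  · change K (projIcc 0 1 zero_le_one (0 : ℝ), _) = _
    rw [projIcc_left]
    exact K.apply_zero _
  · change K (projIcc 0 1 zero_le_one (1 : ℝ), _) = _
    rw [projIcc_right]
    exact K.apply_one _
  · refine K.eq_fst _ ?_
    change (D.homeo (n + 1) (D.pt (n + 1) x) : Fin (n + 1) → ℝ) ∈ sph (n + 1)
    rw [D.homeo_pt (sph_subset _ hx)]
    exact hx

/-- a homotopy relative to the sphere, from coordinates -/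
theorem homotopicRel_of_hrel {n : ℕ} {f g : C(D.sp (.D (n + 1)), X)}
    (h : HRel (fun x => f (D.pt (n + 1) x)) (fun x => g (D.pt (n + 1) x))) :
    ContinuousMap.HomotopicRel f g (D.bdSet n) := by
  obtain ⟨H, h0, h1, hs⟩ := D.exists_of_hover h
  have hc : Continuous (fun z : unitInterval × D.sp (.D (n + 1)) => H (z.2, z.1)) :=
    H.continuous.comp (continuous_snd.prodMk continuous_fst)
  exact ⟨{
    toFun := fun z => H (z.2, z.1)
    continuous_toFun := hc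
    map_zero_left := fun x => (h0 x).trans (congrArg f (D.pt_homeo x))
    map_one_left := fun x => (h1 x).trans (congrArg g (D.pt_homeo x))
    prop' := fun t x hx => (hs x t hx).trans (congrArg f (D.pt_homeo x)) }⟩

/-- Changing the end of a homotopy by a homotopy relative to the sphere, with the same side walls
(`HOver.trans_HRel`). -/
theorem exists_adjust (n : ℕ) (H₀ : C(D.sp (.D (n + 1)) × unitInterval, X))
    (b : C(D.sp (.D (n + 1)), X))
    (h : ContinuousMap.HomotopicRel (H₀.comp (ContinuousMap.prodMk (ContinuousMap.id _)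
      (ContinuousMap.const _ 1))) b (D.bdSet n)) :
    ∃ H : C(D.sp (.D (n + 1)) × unitInterval, X), (∀ x, H (x, 0) = H₀ (x, 0)) ∧
      (∀ x, H (x, 1) = b x) ∧ ∀ ε x t, H (D.bdp n ε x, t) = H₀ (D.bdp n ε x, t) := by
  have h1 : HOver (D.toPr (n + 1) H₀) (fun x => H₀ (D.pt (n + 1) x, 0))
      (fun x => b (D.pt (n + 1) x)) :=
    (D.hover_toPr (n + 1) H₀).trans_HRel (D.hrel_of_homotopicRel h)
  obtain ⟨H, h0, h1, hs⟩ := D.exists_of_hover h1
  refine ⟨H, fun x => ?_, fun x => ?_, fun ε x t => ?_⟩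
  · rw [h0, D.pt_homeo]
  · rw [h1, D.pt_homeo]
  · rw [hs _ _ (D.homeo_bdp_mem n ε x), D.toPr_apply, D.pt_homeo]

/-- Two homotopies with the same end and the same side walls have starts homotopic relative to the
sphere (`HOver.unique'`). -/
theorem homotopicRel_of_walls (n : ℕ) (H H' : C(D.sp (.D (n + 1)) × unitInterval, X))
    (h1 : ∀ x, H (x, 1) = H' (x, 1)) (hs : ∀ ε x t, H (D.bdp n ε x, t) = H' (D.bdp n ε x, t)) :
    ContinuousMap.HomotopicRel (H.comp (ContinuousMap.prodMk (ContinuousMap.id _)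
      (ContinuousMap.const _ 0))) (H'.comp (ContinuousMap.prodMk (ContinuousMap.id _)
      (ContinuousMap.const _ 0))) (D.bdSet n) := by
  apply D.homotopicRel_of_hrel
  have e1 := D.hover_toPr (n + 1) H
  have e2 := D.hover_toPr (n + 1) H'
  have e3 : HOver (D.toPr (n + 1) H) (fun x => H' (D.pt (n + 1) x, 0))
      (fun x => H (D.pt (n + 1) x, 1)) := by
    refine e2.congr ?_ (fun _ _ => rfl) (fun x _ => (h1 _).symm)
    rintro ⟨x, t⟩ ⟨hx, ht⟩
    obtain ⟨ε, y, hy, rfl⟩ := exists_hemi hx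
    rw [D.toPr_of_mem _ _ _ ht, D.toPr_of_mem _ _ _ ht, ← D.mp_pt ε hy]
    exact (hs ε _ _).symm
  exact e1.unique' e3

end DiscFunctor
end Vale.Agent.P259
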