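import Vale.Agent.Lib.P259.QData
import Vale.Agent.Lib.P259.DGlobes
import Vale.Agent.Lib.P259.Walls
import Vale.Agent.Lib.P259.Lift

/-!
# P259, module G4: the mapping cylinders of the comparison maps `D(S) ⟶ Q(S)`
-/

namespace Vale.Agent.P259

open CategoryTheory Limits Topology Set Opposite

namespace Coherator

variable (C : Coherator)

/-- the infinity-groupoid represented by `S` -/
abbrev rp (S : Obj) : C.C.Gpd := C.repG.obj ⟨S⟩

/-- functoriality of `rp` -/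
abbrev rm {S T : Obj} (φ : C.C.Hom S T) : C.rp S ⟶ C.rp T := C.repG.map (X := ⟨S⟩) (Y := ⟨T⟩) φ

theorem rm_id (S : Obj) : C.rm (C.C.id S) = 𝟙 (C.rp S) := C.repG.map_id ⟨S⟩

theorem rm_comp {R S T : Obj} (φ : C.C.Hom R S) (ψ : C.C.Hom S T) :
    C.rm (C.C.comp φ ψ) = C.rm φ ≫ C.rm ψ :=
  C.repG.map_comp (X := ⟨R⟩) (Y := ⟨S⟩) (Z := ⟨T⟩) φ ψ

variable {C}

theorem act_id (W : C.C.Catᵒᵖ ⥤ Type) {S : Obj} (w : W.obj (op ⟨S⟩)) :
    GlobExt.act W (C.C.id S) w = w :=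
  ConcreteCategory.congr_hom (W.map_id (op (⟨S⟩ : C.C.Cat))) w

theorem act_act (W : C.C.Catᵒᵖ ⥤ Type) {R S T : Obj} (φ : C.C.Hom R S) (ψ : C.C.Hom S T)
    (w : W.obj (op ⟨T⟩)) :
    GlobExt.act W φ (GlobExt.act W ψ w) = GlobExt.act W (C.C.comp φ ψ) w :=
  (ConcreteCategory.congr_hom (W.map_comp (Quiver.Hom.op (X := (⟨S⟩ : C.C.Cat)) (Y := ⟨T⟩) ψ)
    (Quiver.Hom.op (X := (⟨R⟩ : C.C.Cat)) (Y := ⟨S⟩) φ)) w).symm

theorem act_nat {W V : C.C.Catᵒᵖ ⥤ Type} (f : W ⟶ V) {S T : Obj} (φ : C.C.Hom S T)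
    (w : W.obj (op ⟨T⟩)) :
    GlobExt.act V φ (f.app (op ⟨T⟩) w) = f.app (op ⟨S⟩) (GlobExt.act W φ w) :=
  (ConcreteCategory.congr_hom (f.naturality _) w).symm

/-- morphisms as elements of the representable infinity-groupoids -/
def el {R S : Obj} (u : C.C.Hom R S) : (C.rp S).obj.obj (op ⟨R⟩) := u

/-- the Yoneda map -/
def yo (W : C.C.Gpd) {S : Obj} (w : W.obj.obj (op ⟨S⟩)) : C.rp S ⟶ W :=
  ObjectProperty.homMk (yonedaEquiv.symm w : yoneda.obj (⟨S⟩ : C.C.Cat) ⟶ W.obj)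

theorem yo_app (W : C.C.Gpd) {S R : Obj} (w : W.obj.obj (op ⟨S⟩)) (u : C.C.Hom R S) :
    (C.yo W w).hom.app (op ⟨R⟩) (C.el u) = GlobExt.act W.obj u w := rfl

theorem rm_app {R S T : Obj} (φ : C.C.Hom S T) (u : C.C.Hom R S) :
    (C.rm φ).hom.app (op ⟨R⟩) (C.el u) = C.el (C.C.comp u φ) := rfl

theorem bdCell_el {n : ℕ} {S : Obj} (ε : Bool) (u : C.C.Hom (.D (n + 1)) S) :
    bdCell (C.rp S).obj (n := n) ε (C.el u) =
      C.el (C.C.comp (C.C.J (bd₀ (Nat.lt_succ_self n) ε)) u) := rfl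

theorem rm_yo (W : C.C.Gpd) {S T : Obj} (φ : C.C.Hom S T) (w : W.obj.obj (op ⟨T⟩)) :
    C.rm φ ≫ C.yo W w = C.yo W (GlobExt.act W.obj φ w) := by
  apply ObjectProperty.hom_ext
  ext R u
  exact (act_act W.obj (R := R.unop.obj) u φ w).symm

theorem yo_comp {W V : C.C.Gpd} (f : W ⟶ V) {S : Obj} (w : W.obj.obj (op ⟨S⟩)) :
    C.yo W w ≫ f = C.yo V (f.hom.app _ w) := by
  apply ObjectProperty.hom_ext
  ext R u
  exact (act_nat f.hom (S := R.unop.obj) u w).symm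

end Coherator

/-! ### weak contractibility of a space that deforms to a weakly contractible one -/

/-- a space that deforms into a weakly contractible space is weakly contractible -/
theorem wcontr_of_deform {X Y : Type} [TopologicalSpace X] [TopologicalSpace Y]
    (hX : WContr (univ : Set X)) (i : C(X, Y)) (r : C(Y, X)) (H : C(Y × unitInterval, Y))
    (h0 : ∀ y, H (y, 0) = i (r y)) (h1 : ∀ y, H (y, 1) = y) : WContr (univ : Set Y) := by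
  obtain ⟨⟨x₀, -⟩, hX⟩ := hX
  refine ⟨⟨i x₀, mem_univ _⟩, ?_⟩
  intro n f hf _
  obtain ⟨g, hg1, -, hg2⟩ := hX n (fun z => r (f z)) (r.continuous.comp_continuousOn hf)
    (fun _ _ => mem_univ _)
  obtain ⟨G, hG1, hG2, hG3⟩ := tt_hep (n := n) (u := fun z => i (g z))
    (k := fun z => H (f z.1, projIcc 0 1 zero_le_one z.2))
    (i.continuous.comp_continuousOn hg1)
    (by
      apply H.continuous.comp_continuousOn
      apply ContinuousOn.prodMk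
      · exact hf.comp continuousOn_fst fun z hz => hz.1
      · exact (continuous_projIcc.comp continuous_snd).continuousOn)
    (by
      intro x hx
      have : projIcc (0 : ℝ) 1 zero_le_one 0 = 0 := projIcc_left zero_le_one
      simp only [this, h0, hg2 hx])
  refine ⟨fun x => G (x, 1), ?_, fun _ _ => mem_univ _, ?_⟩
  · exact hG1.comp (by fun_prop) fun x hx => ⟨hx, zero_le_one, le_rfl⟩
  · intro x hx
    have h2 : G (x, 1) = H (f x, projIcc 0 1 zero_le_one 1) :=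
      hG3 (x := (x, (1 : ℝ))) ⟨hx, zero_le_one, le_rfl⟩
    have : projIcc (0 : ℝ) 1 zero_le_one 1 = 1 := projIcc_right zero_le_one
    simp only [h2, this, h1]

/-! ### maps out of `D(S)` and `D(S) × I` for a globular sum `S` -/

namespace DiscFunctor

variable {E : GlobExt} (D : DiscFunctor E)

theorem ext_glue {i j k : ℕ} (hi : j < i) (hk : j < k) (t : Tab k) {Z : Type} [TopologicalSpace Z]
    {f g : C(D.sp ⟨i, .glue hi hk t⟩, Z)}
    (h1 : ∀ x, f (D.mp (E.J (inl₀ hi hk t)) x) = g (D.mp (E.J (inl₀ hi hk t)) x))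
    (h2 : ∀ x, f (D.mp (E.J (inr₀ hi hk t)) x) = g (D.mp (E.J (inr₀ hi hk t)) x)) : f = g := by
  have e : (TopCat.ofHom f : TopCat.of (D.sp ⟨i, .glue hi hk t⟩) ⟶ TopCat.of Z) =
      TopCat.ofHom g := by
    apply (D.isPushout_top hi hk t).hom_ext
    · ext x
      exact h1 x
    · ext x
      exact h2 x
  exact congrArg TopCat.Hom.hom e

theorem exists_glue {i j k : ℕ} (hi : j < i) (hk : j < k) (t : Tab k) {Z : Type}
    [TopologicalSpace Z] (a : C(D.sp (.D i), Z)) (b : C(D.sp ⟨k, t⟩, Z))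
    (hab : ∀ x, a (D.mp (E.J (bd₀ hi true)) x) =
      b (D.mp (E.comp (E.J (bd₀ hk false)) (E.J (first₀ t))) x)) :
    ∃ c : C(D.sp ⟨i, .glue hi hk t⟩, Z), (∀ x, c (D.mp (E.J (inl₀ hi hk t)) x) = a x) ∧
      (∀ x, c (D.mp (E.J (inr₀ hi hk t)) x) = b x) := by
  have sq := D.isPushout_top hi hk t
  have w : TopCat.ofHom (D.mp (E.J (bd₀ hi true))) ≫ (TopCat.ofHom a : _ ⟶ TopCat.of Z) =
      TopCat.ofHom (D.mp (E.comp (E.J (bd₀ hk false)) (E.J (first₀ t)))) ≫ TopCat.ofHom b := by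
    ext x
    exact hab x
  refine ⟨(sq.desc (TopCat.ofHom a) (TopCat.ofHom b) w).hom, fun x => ?_, fun x => ?_⟩
  · exact ConcreteCategory.congr_hom (sq.inl_desc _ _ w) x
  · exact ConcreteCategory.congr_hom (sq.inr_desc _ _ w) x

theorem ext_glue_prod {i j k : ℕ} (hi : j < i) (hk : j < k) (t : Tab k) {Z : Type}
    [TopologicalSpace Z] {f g : C(D.sp ⟨i, .glue hi hk t⟩ × unitInterval, Z)}
    (h1 : ∀ x s, f (D.mp (E.J (inl₀ hi hk t)) x, s) = g (D.mp (E.J (inl₀ hi hk t)) x, s))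
    (h2 : ∀ x s, f (D.mp (E.J (inr₀ hi hk t)) x, s) = g (D.mp (E.J (inr₀ hi hk t)) x, s)) :
    f = g := by
  have e : f.curry = g.curry := by
    apply D.ext_glue hi hk t
    · intro x
      ext s
      exact h1 x s
    · intro x
      ext s
      exact h2 x s
  ext ⟨x, s⟩
  exact DFunLike.congr_fun (DFunLike.congr_fun e x) s

theorem exists_glue_prod {i j k : ℕ} (hi : j < i) (hk : j < k) (t : Tab k) {Z : Type}
    [TopologicalSpace Z] (a : C(D.sp (.D i) × unitInterval, Z))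
    (b : C(D.sp ⟨k, t⟩ × unitInterval, Z))
    (hab : ∀ x s, a (D.mp (E.J (bd₀ hi true)) x, s) =
      b (D.mp (E.comp (E.J (bd₀ hk false)) (E.J (first₀ t))) x, s)) :
    ∃ c : C(D.sp ⟨i, .glue hi hk t⟩ × unitInterval, Z),
      (∀ x s, c (D.mp (E.J (inl₀ hi hk t)) x, s) = a (x, s)) ∧
      (∀ x s, c (D.mp (E.J (inr₀ hi hk t)) x, s) = b (x, s)) := by
  obtain ⟨c, h1, h2⟩ := D.exists_glue hi hk t a.curry b.curry (by
    intro x
    ext s
    exact hab x s)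
  refine ⟨c.uncurry, fun x s => ?_, fun x s => ?_⟩
  · exact DFunLike.congr_fun (h1 x) s
  · exact DFunLike.congr_fun (h2 x) s

end DiscFunctor

namespace QData

variable {C : Coherator} {D : DiscFunctor C.C} (𝒬 : QData C D)

/-- the map of spaces induced by a morphism of infinity-groupoids -/
def qmap {W V : C.C.Gpd} (f : W ⟶ V) : C((𝒬.Q.obj W).toTop, (𝒬.Q.obj V).toTop) :=
  (𝒬.Q.map f).hom.hom

theorem qmap_id (W : C.C.Gpd) (x : (𝒬.Q.obj W).toTop) : 𝒬.qmap (𝟙 W) x = x :=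
  ConcreteCategory.congr_hom (𝒬.Q.map_id W) x

theorem qmap_comp {W V U : C.C.Gpd} (f : W ⟶ V) (g : V ⟶ U) (x : (𝒬.Q.obj W).toTop) :
    𝒬.qmap (f ≫ g) x = 𝒬.qmap g (𝒬.qmap f x) :=
  ConcreteCategory.congr_hom (𝒬.Q.map_comp f g) x

/-- the space of a representable infinity-groupoid -/
abbrev QS (S : Obj) : Type := (𝒬.Q.obj (C.rp S)).toTop

/-- functoriality of `QS` -/
def qm {S T : Obj} (φ : C.C.Hom S T) : C(𝒬.QS S, 𝒬.QS T) := 𝒬.qmap (C.rm φ)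

theorem qm_id (S : Obj) (x : 𝒬.QS S) : 𝒬.qm (C.C.id S) x = x := by
  rw [qm, C.rm_id, qmap_id]

theorem qm_comp {R S T : Obj} (φ : C.C.Hom R S) (ψ : C.C.Hom S T) (x : 𝒬.QS R) :
    𝒬.qm (C.C.comp φ ψ) x = 𝒬.qm ψ (𝒬.qm φ x) := by
  rw [qm, C.rm_comp, qmap_comp]
  rfl

theorem exists_h (S : Obj) : ∃ f : C(D.sp S, 𝒬.QS S),
    ∀ (n : ℕ) (c : Θ₀Hom (.D n) S) (x : D.sp (.D n)),
      f (D.mp (C.C.J c) x) = 𝒬.η (C.rp S) n (C.el (C.C.J c)) x := by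
  apply D.exists_of_globes' (fun n c => 𝒬.η (C.rp S) n (C.el (C.C.J c)))
  intro n ε c x
  rw [𝒬.η_bd (C.rp S) n ε (C.el (C.C.J c)) x]
  have : C.C.J (bd₀ (Nat.lt_succ_self n) ε ≫ c) =
      C.C.comp (C.C.J (bd₀ (Nat.lt_succ_self n) ε)) (C.C.J c) :=
    C.C.J_comp (S := .D n) (T := .D (n + 1)) (U := S) _ _
  rw [this]
  rfl

/-- the comparison map `D(S) ⟶ Q(S)` -/
noncomputable def h (S : Obj) : C(D.sp S, 𝒬.QS S) := (𝒬.exists_h S).choose

theorem h_spec (S : Obj) (n : ℕ) (c : Θ₀Hom (.D n) S) (x : D.sp (.D n)) :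
    𝒬.h S (D.mp (C.C.J c) x) = 𝒬.η (C.rp S) n (C.el (C.C.J c)) x :=
  (𝒬.exists_h S).choose_spec n c x

theorem qmap_η {W V : C.C.Gpd} (f : W ⟶ V) (n : ℕ) (u : Coherator.cells W.obj n)
    (x : D.sp (.D n)) : 𝒬.qmap f (𝒬.η W n u x) = 𝒬.η V n (Coherator.onCells f.hom u) x :=
  𝒬.η_nat f n u x

theorem h_nat {S T : Obj} (f : Θ₀Hom S T) (x : D.sp S) :
    𝒬.qm (C.C.J f) (𝒬.h S x) = 𝒬.h T (D.mp (C.C.J f) x) := by
  have e : (𝒬.qm (C.C.J f)).comp (𝒬.h S) = (𝒬.h T).comp (D.mp (C.C.J f)) := by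
    apply D.hom_ext_globes
    intro n c y
    change 𝒬.qmap (C.rm (C.C.J f)) (𝒬.h S (D.mp (C.C.J c) y)) =
      𝒬.h T (D.mp (C.C.J f) (D.mp (C.C.J c) y))
    rw [𝒬.h_spec, 𝒬.qmap_η, Coherator.onCells, C.rm_app, ← D.mp_comp,
      ← C.C.J_comp (S := .D n) (T := S) (U := T), 𝒬.h_spec]
  exact DFunLike.congr_fun e x

/-- the disc of a cell factors through the comparison map -/
theorem qmap_yo_h (W : C.C.Gpd) {n : ℕ} (w : Coherator.cells W.obj n) (x : D.sp (.D n)) :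
    𝒬.qmap (C.yo W w) (𝒬.h (.D n) x) = 𝒬.η W n w x := by
  have h1 := 𝒬.h_spec (.D n) n (𝟙 _) x
  rw [C.C.J_id, D.mp_id] at h1
  rw [h1, 𝒬.qmap_η]
  have : Coherator.onCells (C.yo W w).hom (n := n) (C.el (C.C.id (.D n))) = w :=
    (Coherator.yo_app W w (C.C.id (.D n))).trans (Coherator.act_id W.obj w)
  rw [this]

/-! ### the cylinders -/

/-- the inclusion of the end `t = 1` -/
def oneI (X : Type) [TopologicalSpace X] : C(X, X × unitInterval) :=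
  ⟨fun x => (x, 1), by fun_prop⟩

/-- the mapping cylinder of `h S`, with `D(S)` at time zero and glued along time one -/
noncomputable def Cyl (S : Obj) : TopCat.{0} :=
  pushout (TopCat.ofHom (oneI (D.sp S))) (TopCat.ofHom (𝒬.h S))

/-- the map from `D(S) × I` -/
noncomputable def iD (S : Obj) : C(D.sp S × unitInterval, 𝒬.Cyl S) :=
  (pushout.inl (TopCat.ofHom (oneI (D.sp S))) (TopCat.ofHom (𝒬.h S))).hom

/-- the map from `Q(S)` -/
noncomputable def iQ (S : Obj) : C(𝒬.QS S, 𝒬.Cyl S) :=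
  (pushout.inr (TopCat.ofHom (oneI (D.sp S))) (TopCat.ofHom (𝒬.h S))).hom

theorem iD_one (S : Obj) (x : D.sp S) : 𝒬.iD S (x, 1) = 𝒬.iQ S (𝒬.h S x) :=
  ConcreteCategory.congr_hom
    (pushout.condition (f := TopCat.ofHom (oneI (D.sp S))) (g := TopCat.ofHom (𝒬.h S))) x

variable {𝒬}

theorem cyl_ext {S : Obj} {Z : Type} [TopologicalSpace Z] {f g : C(𝒬.Cyl S, Z)}
    (h1 : ∀ x s, f (𝒬.iD S (x, s)) = g (𝒬.iD S (x, s))) (h2 : ∀ q, f (𝒬.iQ S q) = g (𝒬.iQ S q)) :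
    f = g := by
  have e : (TopCat.ofHom f : 𝒬.Cyl S ⟶ TopCat.of Z) = TopCat.ofHom g := by
    apply pushout.hom_ext
    · ext ⟨x, s⟩
      exact h1 x s
    · ext x
      exact h2 x
  exact congrArg TopCat.Hom.hom e

variable (𝒬)

theorem cyl_desc {S : Obj} {Z : Type} [TopologicalSpace Z] (a : C(D.sp S × unitInterval, Z))
    (b : C(𝒬.QS S, Z)) (hab : ∀ x, a (x, 1) = b (𝒬.h S x)) :
    ∃ K : C(𝒬.Cyl S, Z), (∀ x s, K (𝒬.iD S (x, s)) = a (x, s)) ∧ ∀ q, K (𝒬.iQ S q) = b q := by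
  have w : TopCat.ofHom (oneI (D.sp S)) ≫ (TopCat.ofHom a : _ ⟶ TopCat.of Z) =
      TopCat.ofHom (𝒬.h S) ≫ TopCat.ofHom b := by
    ext x
    exact hab x
  refine ⟨(pushout.desc (TopCat.ofHom a) (TopCat.ofHom b) w).hom, fun x s => ?_, fun q => ?_⟩
  · exact ConcreteCategory.congr_hom (pushout.inl_desc (TopCat.ofHom a) (TopCat.ofHom b) w) (x, s)
  · exact ConcreteCategory.congr_hom (pushout.inr_desc (TopCat.ofHom a) (TopCat.ofHom b) w) q

theorem wcontr_cyl (S : Obj) : WContr (univ : Set (𝒬.Cyl S)) := by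
  obtain ⟨r, hr1, hr2⟩ := 𝒬.cyl_desc (S := S) ((𝒬.h S).comp ContinuousMap.fst)
    (ContinuousMap.id _) (fun x => rfl)
  -- the deformation, curried
  obtain ⟨K, hK1, hK2⟩ := 𝒬.cyl_desc (S := S) (Z := C(unitInterval, 𝒬.Cyl S))
    ((𝒬.iD S).comp (⟨fun p => (p.1.1, max p.1.2 (unitInterval.symm p.2)), by fun_prop⟩ :
      C((D.sp S × unitInterval) × unitInterval, D.sp S × unitInterval))).curry
    ((𝒬.iQ S).comp ContinuousMap.fst).curry (by
      intro x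
      ext s
      change 𝒬.iD S (x, max 1 (unitInterval.symm s)) = 𝒬.iQ S (𝒬.h S x)
      rw [max_eq_left unitInterval.le_one', 𝒬.iD_one])
  refine wcontr_of_deform (𝒬.wc ⟨S⟩) (𝒬.iQ S) r K.uncurry ?_ ?_
  · intro y
    have e : (⟨fun y => K y 0, (continuous_eval_const 0).comp K.continuous⟩ : C(𝒬.Cyl S, 𝒬.Cyl S)) =
        (𝒬.iQ S).comp r := by
      apply cyl_ext
      · intro x s
        change K (𝒬.iD S (x, s)) 0 = 𝒬.iQ S (r (𝒬.iD S (x, s)))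
        rw [hK1, hr1]
        change 𝒬.iD S (x, max s (unitInterval.symm 0)) = 𝒬.iQ S (𝒬.h S x)
        rw [unitInterval.symm_zero, max_eq_right unitInterval.le_one', 𝒬.iD_one]
      · intro q
        change K (𝒬.iQ S q) 0 = 𝒬.iQ S (r (𝒬.iQ S q))
        rw [hK2, hr2]
        rfl
    exact DFunLike.congr_fun e y
  · intro y
    have e : (⟨fun y => K y 1, (continuous_eval_const 1).comp K.continuous⟩ : C(𝒬.Cyl S, 𝒬.Cyl S)) =
        ContinuousMap.id _ := by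
      apply cyl_ext
      · intro x s
        change K (𝒬.iD S (x, s)) 1 = 𝒬.iD S (x, s)
        rw [hK1]
        change 𝒬.iD S (x, max s (unitInterval.symm 1)) = 𝒬.iD S (x, s)
        rw [unitInterval.symm_one, max_eq_left unitInterval.nonneg']
      · intro q
        change K (𝒬.iQ S q) 1 = 𝒬.iQ S q
        rw [hK2]
        rfl
    exact DFunLike.congr_fun e y

theorem exists_cylMap {S T : Obj} (f : Θ₀Hom S T) : ∃ K : C(𝒬.Cyl S, 𝒬.Cyl T),
    (∀ x s, K (𝒬.iD S (x, s)) = 𝒬.iD T (D.mp (C.C.J f) x, s)) ∧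
      ∀ q, K (𝒬.iQ S q) = 𝒬.iQ T (𝒬.qm (C.C.J f) q) := by
  obtain ⟨K, h1, h2⟩ := 𝒬.cyl_desc
    ((𝒬.iD T).comp ((D.mp (C.C.J f)).prodMap (ContinuousMap.id unitInterval)))
    ((𝒬.iQ T).comp (𝒬.qm (C.C.J f))) (by
      intro x
      change 𝒬.iD T (D.mp (C.C.J f) x, 1) = 𝒬.iQ T (𝒬.qm (C.C.J f) (𝒬.h S x))
      rw [𝒬.iD_one, 𝒬.h_nat])
  exact ⟨K, h1, h2⟩

/-- the map of cylinders induced by a `Θ₀` map -/
noncomputable def cylMap {S T : Obj} (f : Θ₀Hom S T) : C(𝒬.Cyl S, 𝒬.Cyl T) :=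
  (𝒬.exists_cylMap f).choose

theorem cylMap_iD {S T : Obj} (f : Θ₀Hom S T) (x : D.sp S) (s : unitInterval) :
    𝒬.cylMap f (𝒬.iD S (x, s)) = 𝒬.iD T (D.mp (C.C.J f) x, s) :=
  (𝒬.exists_cylMap f).choose_spec.1 x s

theorem cylMap_iQ {S T : Obj} (f : Θ₀Hom S T) (q : 𝒬.QS S) :
    𝒬.cylMap f (𝒬.iQ S q) = 𝒬.iQ T (𝒬.qm (C.C.J f) q) :=
  (𝒬.exists_cylMap f).choose_spec.2 q

/-- a functorial family of maps of cylinders, extending the maps of the ends -/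
structure CylFun where
  /-- the maps -/
  mm : ∀ {S T : Obj}, C.C.Hom S T → C(𝒬.Cyl S, 𝒬.Cyl T)
  mm_id : ∀ S, mm (C.C.id S) = ContinuousMap.id _
  mm_comp : ∀ {R S T : Obj} (φ : C.C.Hom R S) (ψ : C.C.Hom S T),
    mm (C.C.comp φ ψ) = (mm ψ).comp (mm φ)
  mm_J : ∀ {S T : Obj} (f : Θ₀Hom S T), mm (C.C.J f) = 𝒬.cylMap f
  mm_iQ : ∀ {S T : Obj} (φ : C.C.Hom S T) (q : 𝒬.QS S), mm φ (𝒬.iQ S q) = 𝒬.iQ T (𝒬.qm φ q)
  mm_iD : ∀ {S T : Obj} (φ : C.C.Hom S T) (x : D.sp S),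
    mm φ (𝒬.iD S (x, 0)) = 𝒬.iD T (D.mp φ x, 0)

end QData

end Vale.Agent.P259
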