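import Vale.Agent.Lib.P259.DiscContr
/-!
# P259, module A5b: coordinates of the globes
-/
namespace Vale.Agent.P259
open CategoryTheory Set Topology

namespace DiscFunctor
variable {E : GlobExt} (D : DiscFunctor E)

/-- the coordinates of the globes: points of the standard disc -/
noncomputable def pt (n : ℕ) (x : Fin n → ℝ) : D.sp (.D n) :=
  open Classical in
  if h : x ∈ closedDisc n then (D.homeo n).symm ⟨x, h⟩ else
    (D.homeo n).symm ⟨0, by simp [closedDisc]⟩

theorem pt_of_mem {n : ℕ} {x : Fin n → ℝ} (h : x ∈ closedDisc n) :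
    D.pt n x = (D.homeo n).symm ⟨x, h⟩ := dif_pos h

theorem continuousOn_pt (n : ℕ) : ContinuousOn (D.pt n) (closedDisc n) := by
  rw [continuousOn_iff_continuous_domRestrict]
  have : (closedDisc n).domRestrict (D.pt n) = (D.homeo n).symm := by
    funext x
    exact D.pt_of_mem x.2
  rw [this]
  exact (D.homeo n).symm.continuous
theorem pt_homeo {n : ℕ} (d : D.sp (.D n)) : D.pt n (D.homeo n d) = d := by
  rw [D.pt_of_mem (D.homeo n d).2]
  exact (D.homeo n).symm_apply_apply d
theorem pt_surj {n : ℕ} (d : D.sp (.D n)) : ∃ x ∈ closedDisc n, D.pt n x = d :=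
  ⟨_, (D.homeo n d).2, D.pt_homeo d⟩
theorem homeo_pt {n : ℕ} {x : Fin n → ℝ} (hx : x ∈ closedDisc n) :
    (D.homeo n (D.pt n x) : Fin n → ℝ) = x := by
  rw [D.pt_of_mem hx, Homeomorph.apply_symm_apply]
theorem mp_pt {n : ℕ} (ε : Bool) {x : Fin n → ℝ} (hx : x ∈ closedDisc n) :
    D.mp (E.J (bd₀ (Nat.lt_succ_self n) ε)) (D.pt n x) =
      D.pt (n + 1) (Vale.Agent.P259.hemi ε x) := by
  apply (D.homeo (n + 1)).injective
  apply Subtype.ext
  rw [D.hemi_mp, D.homeo_pt hx, D.homeo_pt (sph_subset _ (hemi_mem ε hx))]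

end DiscFunctor
end Vale.Agent.P259
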