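import Vale.Agent.Lib.P259.Walls
/-!
# P259, module G3: self-maps of the globes compatible with the boundary are homotopic to the identity
-/
namespace Vale.Agent.P259
open CategoryTheory Set Topology

namespace DiscFunctor
variable {E : GlobExt} (D : DiscFunctor E) {X : Type} [TopologicalSpace X]

theorem subsingleton_sp₀ : Subsingleton (D.sp (.D 0)) := by
  refine ⟨fun a b => (D.homeo 0).injective (Subtype.ext (funext fun i => i.elim0))⟩

/-- the two boundary inclusions agree on the boundary -/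
theorem bdp_bdp (m : ℕ) (ε : Bool) (y : D.sp (.D m)) :
    D.bdp (m + 1) false (D.bdp m ε y) = D.bdp (m + 1) true (D.bdp m ε y) :=
  (D.mp_bd_bd (Nat.lt_succ_self m) (Nat.lt_succ_self (m + 1)) ε false y).symm.trans
    (D.mp_bd_bd (Nat.lt_succ_self m) (Nat.lt_succ_self (m + 1)) ε true y)

/-- The inductive property of the stages of the deformation. -/
def DefGood (e : ∀ n : ℕ, C(D.sp (.D n), D.sp (.D n))) :
    (n : ℕ) → C(D.sp (.D n) × unitInterval, D.sp (.D n)) → Prop
  | 0, g => (∀ x, g (x, 0) = e 0 x) ∧ (∀ x, g (x, 1) = x)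
  | m + 1, g => ((∀ x, g (x, 0) = e (m + 1) x) ∧ (∀ x, g (x, 1) = x)) ∧
      ∀ (ε : Bool) (x : D.sp (.D m)) (t : unitInterval), ∃ y : D.sp (.D m),
        g (D.bdp m ε x, t) = D.bdp m ε y

theorem DefGood.ends {e : ∀ n : ℕ, C(D.sp (.D n), D.sp (.D n))} {n : ℕ}
    {g : C(D.sp (.D n) × unitInterval, D.sp (.D n))} (h : D.DefGood e n g) :
    (∀ x, g (x, 0) = e n x) ∧ (∀ x, g (x, 1) = x) := by
  cases n with
  | zero => exact h
  | succ m => exact h.1

theorem DefGood.walls {e : ∀ n : ℕ, C(D.sp (.D n), D.sp (.D n))} {n : ℕ}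
    {g : C(D.sp (.D n) × unitInterval, D.sp (.D n))} (h : D.DefGood e n g) :
    D.Walls n (fun ε => (D.bdp n ε).comp g) := by
  cases n with
  | zero => trivial
  | succ m =>
    intro ε x t
    obtain ⟨y, hy⟩ := h.2 ε x t
    show D.bdp (m + 1) false (g (D.bdp m ε x, t)) = D.bdp (m + 1) true (g (D.bdp m ε x, t))
    rw [hy]
    exact D.bdp_bdp m ε y

theorem DefGood.exists_next {e : ∀ n : ℕ, C(D.sp (.D n), D.sp (.D n))}
    (he : ∀ n ε x, e (n + 1) (D.bdp n ε x) = D.bdp n ε (e n x)) {n : ℕ}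
    {g : C(D.sp (.D n) × unitInterval, D.sp (.D n))} (h : D.DefGood e n g) :
    ∃ g' : C(D.sp (.D (n + 1)) × unitInterval, D.sp (.D (n + 1))), D.DefGood e (n + 1) g' ∧
      ∀ ε x t, g' (D.bdp n ε x, t) = D.bdp n ε (g (x, t)) := by
  obtain ⟨H, h0, h1, h2⟩ := D.exists_prism (D.wcontr (.D (n + 1))) n
    (fun ε => (D.bdp n ε).comp g) (DefGood.walls D h) (e (n + 1)) (ContinuousMap.id _)
    (fun ε x => by
      rw [he]
      exact congrArg (D.bdp n ε) ((DefGood.ends D h).1 x).symm)
    (fun ε x => by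
      show D.bdp n ε x = D.bdp n ε (g (x, 1))
      rw [(DefGood.ends D h).2 x])
  exact ⟨H, ⟨⟨h0, h1⟩, fun ε x t => ⟨g (x, t), h2 ε x t⟩⟩, h2⟩

/-- A family of self-maps of the globes compatible with the boundary inclusions is homotopic to the
identity, compatibly with the boundary inclusions.  By induction on `n` with `exists_prism`
(`X = D.sp (.D (n + 1))`, `D.wcontr`); `D.sp (.D 0)` is a point. -/
theorem exists_deformation (e : ∀ n : ℕ, C(D.sp (.D n), D.sp (.D n)))
    (he : ∀ n ε x, e (n + 1) (D.bdp n ε x) = D.bdp n ε (e n x)) :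
    ∃ G : ∀ n : ℕ, C(D.sp (.D n) × unitInterval, D.sp (.D n)),
      (∀ n x, G n (x, 0) = e n x) ∧ (∀ n x, G n (x, 1) = x) ∧
      ∀ n ε x t, G (n + 1) (D.bdp n ε x, t) = D.bdp n ε (G n (x, t)) := by
  have := D.subsingleton_sp₀
  let G' : ∀ n : ℕ, {g : C(D.sp (.D n) × unitInterval, D.sp (.D n)) // D.DefGood e n g} :=
    fun n => Nat.rec (motive := fun n => {g : C(D.sp (.D n) × unitInterval, D.sp (.D n)) //
        D.DefGood e n g})
      ⟨⟨Prod.fst, continuous_fst⟩, fun x => Subsingleton.elim _ _, fun x => rfl⟩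
      (fun n g => ⟨(DefGood.exists_next D he g.2).choose,
        (DefGood.exists_next D he g.2).choose_spec.1⟩) n
  refine ⟨fun n => (G' n).1, fun n => (DefGood.ends D (G' n).2).1,
    fun n => (DefGood.ends D (G' n).2).2, fun n ε x t => ?_⟩
  exact (DefGood.exists_next D he (G' n).2).choose_spec.2 ε x t

/-- Let `z` be a disc whose hemispheres are `u ∘ e n` and `v ∘ e n`, with `u`, `v` parallel. Then
there is a disc `w` with hemispheres `u` and `v` such that `w ∘ e (n+1)` is homotopic to `z` relative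
to the sphere: `w` is the end of a homotopy starting at `z` with side walls `u ∘ G n`, `v ∘ G n`
(`exists_hep₀`); compare with `w ∘ G (n+1)` by `homotopicRel_of_walls`. -/
theorem exists_disc_of_deformation (e : ∀ n : ℕ, C(D.sp (.D n), D.sp (.D n)))
    (he : ∀ n ε x, e (n + 1) (D.bdp n ε x) = D.bdp n ε (e n x)) (n : ℕ)
    (u v : C(D.sp (.D n), X))
    (huv : ∀ (m : ℕ) (h : n = m + 1) (ε : Bool) (x : D.sp (.D m)),
      u (h ▸ D.bdp m ε x) = v (h ▸ D.bdp m ε x))
    (z : C(D.sp (.D (n + 1)), X)) (hz0 : ∀ x, z (D.bdp n false x) = u (e n x))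
    (hz1 : ∀ x, z (D.bdp n true x) = v (e n x)) :
    ∃ w : C(D.sp (.D (n + 1)), X), (∀ x, w (D.bdp n false x) = u x) ∧
      (∀ x, w (D.bdp n true x) = v x) ∧
      ContinuousMap.HomotopicRel z (w.comp (e (n + 1))) (D.bdSet n) := by
  obtain ⟨G, G0, G1, Gb⟩ := D.exists_deformation e he
  let k : Bool → C(D.sp (.D n) × unitInterval, X) := fun ε => (bif ε then v else u).comp (G n)
  have hk : D.Walls n k := by
    cases n with
    | zero => trivial
    | succ m =>
      intro ε x t
      show u (G (m + 1) (D.bdp m ε x, t)) = v (G (m + 1) (D.bdp m ε x, t))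
      rw [Gb]
      exact huv m rfl ε (G m (x, t))
  obtain ⟨H, h0, hw⟩ := D.exists_hep₀ n k hk z (by
    intro ε x
    cases ε with
    | false =>
      show z (D.bdp n false x) = u (G n (x, 0))
      rw [hz0, G0]
    | true =>
      show z (D.bdp n true x) = v (G n (x, 0))
      rw [hz1, G0])
  let w : C(D.sp (.D (n + 1)), X) :=
    H.comp (ContinuousMap.prodMk (ContinuousMap.id _) (ContinuousMap.const _ 1))
  have w0 : ∀ x, w (D.bdp n false x) = u x := fun x => by
    show H (D.bdp n false x, 1) = u x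
    rw [hw false x 1]
    show u (G n (x, 1)) = u x
    rw [G1]
  have w1 : ∀ x, w (D.bdp n true x) = v x := fun x => by
    show H (D.bdp n true x, 1) = v x
    rw [hw true x 1]
    show v (G n (x, 1)) = v x
    rw [G1]
  refine ⟨w, w0, w1, ?_⟩
  have key := D.homotopicRel_of_walls n H (w.comp (G (n + 1)))
    (fun x => by
      show H (x, 1) = H (G (n + 1) (x, 1), 1)
      rw [G1])
    (fun ε x t => by
      rw [hw ε x t]
      show k ε (x, t) = w (G (n + 1) (D.bdp n ε x, t))
      rw [Gb]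
      cases ε with
      | false => exact (w0 (G n (x, t))).symm
      | true => exact (w1 (G n (x, t))).symm)
  have e1 : H.comp (ContinuousMap.prodMk (ContinuousMap.id _) (ContinuousMap.const _ 0)) = z := by
    ext x
    exact h0 x
  have e2 : (w.comp (G (n + 1))).comp
      (ContinuousMap.prodMk (ContinuousMap.id _) (ContinuousMap.const _ 0)) =
      w.comp (e (n + 1)) := by
    ext x
    show w (G (n + 1) (x, 0)) = w (e (n + 1) x)
    rw [G0]
  rw [e1, e2] at key
  exact key

end DiscFunctor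
end Vale.Agent.P259
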