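import Mathlib

/-!
# P259: Grothendieck infinity-groupoids, coherators, disc functors (definitions)

All definitions follow the problem text (conventions of Maltsiniotis 2010 and Ara 2013).
-/

namespace Vale.Agent.P259

open CategoryTheory CategoryTheory.Limits Opposite

/-! ## The globe category and globular sets -/

/-- Morphisms of the globe category: identities, and for `m < n` exactly two morphisms
`D_m ⟶ D_n`, the iterated source (`false`) and the iterated target (`true`). -/
inductive GlobeHom : ℕ → ℕ → Type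
  | id (n : ℕ) : GlobeHom n n
  | bd {m n : ℕ} (h : m < n) (ε : Bool) : GlobeHom m n

/-- Composition (in diagrammatic order): by the relations `σσ = τσ` and `στ = ττ`, a composite of
boundary inclusions is determined by the one applied first. -/
def GlobeHom.comp : {l m n : ℕ} → GlobeHom l m → GlobeHom m n → GlobeHom l n
  | _, _, _, .id _, g => g
  | _, _, _, .bd h ε, .id _ => .bd h ε
  | _, _, _, .bd h ε, .bd h' _ => .bd (h.trans h') ε

/-- Objects of the globe category. -/
structure Globe where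
  /-- the dimension -/
  dim : ℕ

theorem GlobeHom.comp_id {m n : ℕ} (f : GlobeHom m n) : f.comp (.id n) = f := by
  cases f <;> rfl

theorem GlobeHom.assoc {l m n p : ℕ} (f : GlobeHom l m) (g : GlobeHom m n) (h : GlobeHom n p) :
    (f.comp g).comp h = f.comp (g.comp h) := by
  cases f <;> cases g <;> cases h <;> rfl

instance : Category Globe where
  Hom m n := GlobeHom m.dim n.dim
  id n := GlobeHom.id n.dim
  comp f g := GlobeHom.comp f g
  id_comp _ := rfl
  comp_id f := GlobeHom.comp_id f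
  assoc f g h := GlobeHom.assoc f g h

/-- Globular sets: presheaves on the globe category. -/
abbrev GSet := Globeᵒᵖ ⥤ Type

/-- The representable globular set `D_n`. -/
abbrev disk (n : ℕ) : GSet := yoneda.obj (Globe.mk n)

/-- The iterated source (`ε = false`) or target (`ε = true`) inclusion `D_m ⟶ D_n`. -/
abbrev bdMap {m n : ℕ} (h : m < n) (ε : Bool) : disk m ⟶ disk n :=
  yoneda.map (X := Globe.mk m) (Y := Globe.mk n) (GlobeHom.bd h ε)

/-! ## Globular sums -/

/-- `Tab i`: tables of dimensions `(i₁, j₁, i₂, …, j_{k-1}, i_k)` with `j_l < min (i_l, i_{l+1})`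
and `i₁ = i`. -/
inductive Tab : ℕ → Type
  | disc (i : ℕ) : Tab i
  | glue {i j k : ℕ} (hi : j < i) (hk : j < k) (t : Tab k) : Tab i

/-- The dimension `max_l i_l`: `dim (disc i) = i` and `dim (glue t) = max i (dim t)` for
`glue t : Tab i`. -/
noncomputable def Tab.dim {i : ℕ} (t : Tab i) : ℕ :=
  Tab.rec (motive := fun _ _ => ℕ) (fun i => i) (fun {i _ _} _ _ _ d => max i d) t

/-- The pushout `D_i ⨿_{D_j} S` of the target `D_j ⟶ D_i` and of the composite of the source
`D_j ⟶ D_k` with a map `r.2 : D_k ⟶ S`, `S = r.1`. -/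
noncomputable def glueReal {i j k : ℕ} (hi : j < i) (hk : j < k)
    (r : (S : GSet) × (disk k ⟶ S)) : GSet :=
  pushout (bdMap hi true) (bdMap hk false ≫ r.2)

/-- the left inclusion `D_i ⟶ D_i ⨿_{D_j} S` -/
noncomputable def glueInl {i j k : ℕ} (hi : j < i) (hk : j < k)
    (r : (S : GSet) × (disk k ⟶ S)) : disk i ⟶ glueReal hi hk r :=
  pushout.inl _ _

/-- the right inclusion `S ⟶ D_i ⨿_{D_j} S` -/
noncomputable def glueInr {i j k : ℕ} (hi : j < i) (hk : j < k)
    (r : (S : GSet) × (disk k ⟶ S)) : r.1 ⟶ glueReal hi hk r :=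
  pushout.inr _ _

/-- The globular set `D_{i₁} ⨿_{D_{j₁}} D_{i₂} ⨿ … ⨿ D_{i_k}` (iterated pushout, target glued to
source), together with the inclusion of its first summand `D_{i₁}`; by recursion on the table: the
value at `disc i` is `(D_i, 𝟙)`, and the value at `glue hi hk t` is the pushout `D_i ⨿_{D_j} S` for
the value `r = (S, first)` at `t`. -/
noncomputable def Tab.real {i : ℕ} (t : Tab i) : (S : GSet) × (disk i ⟶ S) :=
  Tab.rec (motive := fun i _ => (S : GSet) × (disk i ⟶ S)) (fun i => ⟨disk i, 𝟙 _⟩)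
    (fun hi hk _ r => ⟨glueReal hi hk r, glueInl hi hk r⟩) t

/-- Globular sums (the objects of `Θ₀`). -/
structure Obj where
  /-- dimension of the first summand -/
  fst : ℕ
  /-- the table of dimensions -/
  tab : Tab fst

/-- The globular set of a globular sum. -/
noncomputable abbrev Obj.real (S : Obj) : GSet := S.tab.real.1

/-- The globe `D_n` as a globular sum. -/
abbrev Obj.D (n : ℕ) : Obj := ⟨n, .disc n⟩

/-- `Θ₀` maps between globular sums are maps of globular sets. -/
abbrev Θ₀Hom (S T : Obj) : Type := S.real ⟶ T.real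

/-- The boundary inclusion `D_m ⟶ D_n` in `Θ₀`. -/
noncomputable abbrev bd₀ {m n : ℕ} (h : m < n) (ε : Bool) : Θ₀Hom (.D m) (.D n) := bdMap h ε

/-- the inclusion of the first summand `D_{i₁}` -/
noncomputable abbrev first₀ {i : ℕ} (t : Tab i) : Θ₀Hom (.D i) ⟨i, t⟩ := t.real.2

/-- left leg of the defining pushout of `D_i ⨿_{D_j} S` -/
noncomputable abbrev inl₀ {i j k : ℕ} (hi : j < i) (hk : j < k) (t : Tab k) :
    Θ₀Hom (.D i) ⟨i, .glue hi hk t⟩ := glueInl hi hk t.real

/-- right leg of the defining pushout of `D_i ⨿_{D_j} S` -/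
noncomputable abbrev inr₀ {i j k : ℕ} (hi : j < i) (hk : j < k) (t : Tab k) :
    Θ₀Hom ⟨k, t⟩ ⟨i, .glue hi hk t⟩ := glueInr hi hk t.real

/-! ## Globular extensions -/

/-- A globular extension: a category whose objects are the globular sums, with a functor from `Θ₀`
that is the identity on objects and preserves globular sums. -/
structure GlobExt where
  /-- morphisms -/
  Hom : Obj → Obj → Type
  /-- identities -/
  id : ∀ S, Hom S S
  /-- composition, in diagrammatic order -/
  comp : ∀ {S T U : Obj}, Hom S T → Hom T U → Hom S U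
  id_comp : ∀ {S T : Obj} (f : Hom S T), comp (id S) f = f
  comp_id : ∀ {S T : Obj} (f : Hom S T), comp f (id T) = f
  assoc : ∀ {S T U V : Obj} (f : Hom S T) (g : Hom T U) (h : Hom U V),
    comp (comp f g) h = comp f (comp g h)
  /-- the functor from `Θ₀` on morphisms -/
  J : ∀ {S T : Obj}, Θ₀Hom S T → Hom S T
  J_id : ∀ S : Obj, J (𝟙 S.real) = id S
  J_comp : ∀ {S T U : Obj} (f : Θ₀Hom S T) (g : Θ₀Hom T U), J (S := S) (T := U) (f ≫ g) = comp (J f) (J g)
  /-- each defining square of a globular sum `D_i ⨿_{D_j} S` is sent to a pushout square -/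
  glue : ∀ {i j k : ℕ} (hi : j < i) (hk : j < k) (t : Tab k) (X : Obj)
    (f : Hom (.D i) X) (g : Hom ⟨k, t⟩ X),
    comp (J (bd₀ hi true)) f = comp (comp (J (bd₀ hk false)) (J (first₀ t))) g →
    ∃! h : Hom ⟨i, .glue hi hk t⟩ X,
      comp (J (inl₀ hi hk t)) h = f ∧ comp (J (inr₀ hi hk t)) h = g

/-- The category underlying a globular extension (its objects are the globular sums). -/
structure GlobExt.Cat (E : GlobExt) where
  /-- the globular sum -/
  obj : Obj

instance (E : GlobExt) : Category E.Cat where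
  Hom S T := E.Hom S.obj T.obj
  id S := E.id S.obj
  comp f g := E.comp f g
  id_comp := E.id_comp
  comp_id := E.comp_id
  assoc := E.assoc

namespace GlobExt

/-- Morphisms of globular extensions: functors under `Θ₀`. -/
structure Mor (E F : GlobExt) where
  /-- action on morphisms -/
  map : ∀ {S T : Obj}, E.Hom S T → F.Hom S T
  map_id : ∀ S : Obj, map (E.id S) = F.id S
  map_comp : ∀ {S T U : Obj} (f : E.Hom S T) (g : E.Hom T U),
    map (E.comp f g) = F.comp (map f) (map g)
  map_J : ∀ {S T : Obj} (f : Θ₀Hom S T), map (E.J f) = F.J f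

/-- Two maps `D_n ⇉ S` are parallel if `n = 0` or they agree on the source and the target. -/
def Parallel (E : GlobExt) {S : Obj} : {n : ℕ} → (f g : E.Hom (.D n) S) → Prop
  | 0, _, _ => True
  | n + 1, f, g => ∀ ε : Bool,
      E.comp (E.J (bd₀ (Nat.lt_succ_self n) ε)) f = E.comp (E.J (bd₀ (Nat.lt_succ_self n) ε)) g

/-- `h : D_{n+1} ⟶ S` is a lift of `f, g : D_n ⇉ S`. -/
def IsLift (E : GlobExt) {S : Obj} {n : ℕ} (f g : E.Hom (.D n) S) (h : E.Hom (.D (n + 1)) S) :
    Prop :=
  E.comp (E.J (bd₀ (Nat.lt_succ_self n) false)) h = f ∧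
    E.comp (E.J (bd₀ (Nat.lt_succ_self n) true)) h = g

/-- A pair of maps `D_n ⇉ S`. -/
structure Pair (E : GlobExt) where
  /-- the dimension `n` -/
  n : ℕ
  /-- the target `S` -/
  S : Obj
  /-- first map -/
  f : E.Hom (.D n) S
  /-- second map -/
  g : E.Hom (.D n) S

end GlobExt

/-! ## Coherators -/

/-- A coherator (convention of Ara 2013): a globular extension `C = colim E_k`, `E_0 = Θ₀`,
where `E_{k+1}` universally adjoins to `E_k` lifts of a set `A_k` of parallel pairs
`D_n ⇉ S` with `dim S ≤ n + 1`, and in which every parallel pair has a lift. -/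
structure Coherator where
  /-- the stages -/
  E : ℕ → GlobExt
  /-- `E_0 = Θ₀` -/
  zero : ∀ S T : Obj, Function.Bijective ((E 0).J : Θ₀Hom S T → (E 0).Hom S T)
  /-- the transition functors -/
  step : ∀ k, (E k).Mor (E (k + 1))
  /-- the set of pairs that get a lift at stage `k + 1` -/
  A : ∀ k, Set (E k).Pair
  A_parallel : ∀ k, ∀ p ∈ A k, (E k).Parallel p.f p.g
  A_dim : ∀ k, ∀ p ∈ A k, p.S.tab.dim ≤ p.n + 1
  /-- the adjoined lifts -/
  lift : ∀ k, ∀ p ∈ A k, (E (k + 1)).Hom (.D (p.n + 1)) p.S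
  isLift : ∀ k p (hp : p ∈ A k),
    (E (k + 1)).IsLift ((step k).map p.f) ((step k).map p.g) (lift k p hp)
  /-- the lifts are adjoined universally (among globular extensions) -/
  universal : ∀ (k : ℕ) (F : GlobExt) (G : (E k).Mor F)
    (l : ∀ p ∈ A k, F.Hom (.D (p.n + 1)) p.S),
    (∀ p (hp : p ∈ A k), F.IsLift (G.map p.f) (G.map p.g) (l p hp)) →
    ∃! G' : (E (k + 1)).Mor F,
      (∀ (S T : Obj) (f : (E k).Hom S T), G'.map ((step k).map f) = G.map f) ∧
      ∀ p (hp : p ∈ A k), G'.map (lift k p hp) = l p hp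
  /-- the coherator itself -/
  C : GlobExt
  /-- the functors from the stages -/
  incl : ∀ k, (E k).Mor C
  incl_step : ∀ k {S T : Obj} (f : (E k).Hom S T),
    (incl (k + 1)).map ((step k).map f) = (incl k).map f
  /-- `C` is the colimit of the stages -/
  colimit : ∀ (F : GlobExt) (G : ∀ k, (E k).Mor F),
    (∀ k (S T : Obj) (f : (E k).Hom S T), (G (k + 1)).map ((step k).map f) = (G k).map f) →
    ∃! G' : C.Mor F, ∀ k (S T : Obj) (f : (E k).Hom S T), G'.map ((incl k).map f) = (G k).map f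
  /-- every parallel pair in `C` has a lift -/
  exists_lift : ∀ (n : ℕ) (S : Obj) (f g : C.Hom (.D n) S), C.Parallel f g → ∃ h, C.IsLift f g h

/-! ## Infinity-groupoids -/

namespace GlobExt

/-- Action of a morphism of `E` on a presheaf on `E`. -/
abbrev act {E : GlobExt} (W : E.Catᵒᵖ ⥤ Type) {S T : Obj} (f : E.Hom S T) :
    W.obj (op ⟨T⟩) → W.obj (op ⟨S⟩) :=
  W.map (Quiver.Hom.op (X := (⟨S⟩ : E.Cat)) (Y := ⟨T⟩) f)

/-- A presheaf on `E` sends globular sums to iterated fibre products. -/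
def IsGpd (E : GlobExt) : ObjectProperty (E.Catᵒᵖ ⥤ Type) := fun W =>
  ∀ {i j k : ℕ} (hi : j < i) (hk : j < k) (t : Tab k)
    (a : W.obj (op ⟨.D i⟩)) (b : W.obj (op ⟨⟨k, t⟩⟩)),
    act W (E.J (bd₀ hi true)) a = act W (E.J (bd₀ hk false)) (act W (E.J (first₀ t)) b) →
    ∃! w : W.obj (op ⟨⟨i, .glue hi hk t⟩⟩),
      act W (E.J (inl₀ hi hk t)) w = a ∧ act W (E.J (inr₀ hi hk t)) w = b

/-- The category of `E`-infinity-groupoids (all natural transformations as morphisms). -/
abbrev Gpd (E : GlobExt) := E.IsGpd.FullSubcategory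

end GlobExt

namespace Coherator

variable (C : Coherator)

/-- A chosen lift `D_{n+1} ⟶ D_n` of `(𝟙, 𝟙)`; it provides the identity cells. -/
noncomputable def unit (n : ℕ) : C.C.Hom (.D (n + 1)) (.D n) :=
  (C.exists_lift n (.D n) (C.C.id _) (C.C.id _) (by cases n <;> simp [GlobExt.Parallel])).choose

variable {C}

/-- cells of dimension `n` -/
abbrev cells (W : C.C.Catᵒᵖ ⥤ Type) (n : ℕ) : Type := W.obj (op ⟨.D n⟩)

/-- source (`ε = false`) or target (`ε = true`) of a cell -/
noncomputable abbrev bdCell (W : C.C.Catᵒᵖ ⥤ Type) {n : ℕ} (ε : Bool) (u : cells W (n + 1)) :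
    cells W n :=
  GlobExt.act W (C.C.J (bd₀ (Nat.lt_succ_self n) ε)) u

/-- the iterated identity `1ⁿ_x` -/
noncomputable def idCell (W : C.C.Catᵒᵖ ⥤ Type) (x : cells W 0) : (n : ℕ) → cells W n
  | 0 => x
  | n + 1 => GlobExt.act W (C.unit n) (idCell W x n)

/-- `x` and `y` are related if there is a `1`-cell `x ⟶ y` -/
def rel₀ (W : C.C.Catᵒᵖ ⥤ Type) (x y : cells W 0) : Prop :=
  ∃ u : cells W 1, bdCell W false u = x ∧ bdCell W true u = y

/-- `π₀` -/
def pi₀ (W : C.C.Catᵒᵖ ⥤ Type) : Type := Quot (rel₀ W)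

/-- the `(n+1)`-cells `1ⁿ_x ⟶ 1ⁿ_x` -/
def Loops (W : C.C.Catᵒᵖ ⥤ Type) (x : cells W 0) (n : ℕ) : Type :=
  {u : cells W (n + 1) // ∀ ε : Bool, bdCell W ε u = idCell W x n}

/-- two such cells are related if there is an `(n+2)`-cell between them -/
def relLoops (W : C.C.Catᵒᵖ ⥤ Type) (x : cells W 0) (n : ℕ) (u v : Loops W x n) : Prop :=
  ∃ w : cells W (n + 2), bdCell W false w = u.1 ∧ bdCell W true w = v.1

/-- `π_{n+1}(W, x)` (underlying set) -/
def pi (W : C.C.Catᵒᵖ ⥤ Type) (x : cells W 0) (n : ℕ) : Type := Quot (relLoops W x n)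

variable {W V : C.C.Catᵒᵖ ⥤ Type}

/-- action of a morphism on cells -/
abbrev onCells (f : W ⟶ V) {n : ℕ} (u : cells W n) : cells V n := f.app _ u

theorem onCells_bd (f : W ⟶ V) {n : ℕ} (ε : Bool) (u : cells W (n + 1)) :
    bdCell V ε (onCells f u) = onCells f (bdCell W ε u) :=
  (ConcreteCategory.congr_hom (f.naturality _) u).symm

theorem onCells_idCell (f : W ⟶ V) (x : cells W 0) (n : ℕ) :
    onCells f (idCell W x n) = idCell V (onCells f x) n := by
  induction n with
  | zero => rfl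
  | succ n ih =>
    exact (ConcreteCategory.congr_hom (f.naturality _) _).trans (congrArg _ ih)

/-- the map induced on `π₀` -/
def pi₀Map (f : W ⟶ V) : pi₀ W → pi₀ V :=
  Quot.map (onCells f) fun _ _ ⟨u, h, h'⟩ =>
    ⟨onCells f u, by rw [onCells_bd, h], by rw [onCells_bd, h']⟩

/-- the map induced on loops -/
def loopsMap (f : W ⟶ V) (x : cells W 0) (n : ℕ) (u : Loops W x n) : Loops V (onCells f x) n :=
  ⟨onCells f u.1, fun ε => by rw [onCells_bd, u.2, onCells_idCell]⟩

/-- the map induced on `π_{n+1}` -/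
def piMap (f : W ⟶ V) (x : cells W 0) (n : ℕ) : pi W x n → pi V (onCells f x) n :=
  Quot.map (loopsMap f x n) fun _ _ ⟨w, h, h'⟩ =>
    ⟨onCells f w, by rw [onCells_bd, h]; rfl, by rw [onCells_bd, h']; rfl⟩

/-- Weak equivalences of infinity-groupoids: bijections on `π₀` and on all `π_n(W, x)`
(the maps induced on `π_n` are homomorphisms, so bijective means isomorphism). -/
def IsWeq (f : W ⟶ V) : Prop :=
  Function.Bijective (pi₀Map f) ∧
    ∀ (x : cells W 0) (n : ℕ), Function.Bijective (piMap f x n)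

/-- The class of weak equivalences of infinity-groupoids. -/
def weq (C : Coherator) : MorphismProperty C.C.Gpd := fun W V f =>
  IsWeq (W := W.obj) (V := V.obj) f.hom

end Coherator

/-! ## Spaces, discs and disc functors -/

/-- The category `Top` of compactly generated spaces. -/
abbrev Top' := CompactlyGenerated.{0, 0}

/-- the closed unit disc in `ℝⁿ` -/
def closedDisc (n : ℕ) : Set (Fin n → ℝ) := {x | ∑ i, x i ^ 2 ≤ 1}

/-- the closed `n`-disc as an object of `Top` -/
abbrev disc (n : ℕ) : Top' := CompactlyGenerated.of (closedDisc n)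

/-- The point of the boundary hemisphere of `D^{n+1}` over a point `x` of `D^n`:
`(x, -√(1 - ‖x‖²))` (source, `ε = false`) or `(x, √(1 - ‖x‖²))` (target, `ε = true`). -/
noncomputable def hemi {n : ℕ} (ε : Bool) (x : Fin n → ℝ) : Fin (n + 1) → ℝ :=
  Fin.snoc x (if ε then Real.sqrt (1 - ∑ i, x i ^ 2) else -Real.sqrt (1 - ∑ i, x i ^ 2))

/-- A disc functor for `E` (Maltsiniotis 2010): a functor to `Top` that preserves globular sums
and sends `D_n` to the closed `n`-disc, with `σ, τ` the two boundary hemispheres. -/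
structure DiscFunctor (E : GlobExt) where
  /-- the functor -/
  F : E.Cat ⥤ Top'
  /-- preservation of globular sums -/
  glue : ∀ {i j k : ℕ} (hi : j < i) (hk : j < k) (t : Tab k),
    IsPushout (F.map (X := ⟨.D j⟩) (Y := ⟨.D i⟩) (E.J (bd₀ hi true)))
      (F.map (X := ⟨.D j⟩) (Y := ⟨⟨k, t⟩⟩) (E.comp (E.J (bd₀ hk false)) (E.J (first₀ t))))
      (F.map (X := ⟨.D i⟩) (Y := ⟨⟨i, .glue hi hk t⟩⟩) (E.J (inl₀ hi hk t)))
      (F.map (X := ⟨⟨k, t⟩⟩) (Y := ⟨⟨i, .glue hi hk t⟩⟩) (E.J (inr₀ hi hk t)))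
  /-- `D_n` is sent to the closed `n`-disc -/
  homeo : ∀ n, F.obj ⟨.D n⟩ ≃ₜ closedDisc n
  /-- `σ` and `τ` are sent to the hemispheres -/
  hemi : ∀ (n : ℕ) (ε : Bool) (x : F.obj ⟨.D n⟩),
    ((homeo (n + 1) (F.map (X := ⟨.D n⟩) (Y := ⟨.D (n + 1)⟩)
      (E.J (bd₀ (Nat.lt_succ_self n) ε)) x) : closedDisc (n + 1)) : Fin (n + 1) → ℝ) =
      hemi ε (homeo n x : Fin n → ℝ)

namespace DiscFunctor

variable {E : GlobExt} (D : DiscFunctor E)

/-- The presheaf `S ↦ Hom (D S, Y)`. -/
def presheaf (Y : Top') : E.Catᵒᵖ ⥤ Type := D.F.op ⋙ yoneda.obj Y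

theorem presheaf_isGpd (Y : Top') : E.IsGpd (D.presheaf Y) := by
  intro i j k hi hk t a b hab
  have sq := D.glue hi hk t
  have w : D.F.map (X := ⟨.D j⟩) (Y := ⟨.D i⟩) (E.J (bd₀ hi true)) ≫ a =
      D.F.map (X := ⟨.D j⟩) (Y := ⟨⟨k, t⟩⟩)
        (E.comp (E.J (bd₀ hk false)) (E.J (first₀ t))) ≫ b := by
    refine Eq.trans hab ?_
    have := D.F.map_comp (X := ⟨.D j⟩) (Y := ⟨.D k⟩) (Z := ⟨⟨k, t⟩⟩)
      (E.J (bd₀ hk false)) (E.J (first₀ t))
    exact ((Category.assoc _ _ _).symm.trans (congrArg (fun z => z ≫ b) this.symm))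
  refine ⟨sq.desc a b w, ⟨sq.inl_desc a b w, sq.inr_desc a b w⟩, ?_⟩
  rintro c ⟨h1, h2⟩
  exact sq.hom_ext (h1.trans (sq.inl_desc a b w).symm) (h2.trans (sq.inr_desc a b w).symm)

/-- The fundamental infinity-groupoid functor `Π_∞ = Hom_Top (D(-), Y)`. -/
def Pi : Top' ⥤ E.Gpd :=
  E.IsGpd.lift (yoneda ⋙ (Functor.whiskeringLeft _ _ _).obj D.F.op) D.presheaf_isGpd

end DiscFunctor

/-! ## Weak homotopy equivalences -/

/-- The map of generalized loops induced by a continuous map. -/
def genLoopMap {X Y : Type} [TopologicalSpace X] [TopologicalSpace Y] (f : C(X, Y)) (n : ℕ) (x : X)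
    (p : GenLoop (Fin n) X x) : GenLoop (Fin n) Y (f x) :=
  ⟨f.comp p.1, fun y hy => congrArg f (p.2 y hy)⟩

/-- The map induced on the homotopy group `π_n`. -/
def homotopyGroupMap {X Y : Type} [TopologicalSpace X] [TopologicalSpace Y] (f : C(X, Y)) (n : ℕ)
    (x : X) : HomotopyGroup (Fin n) X x → HomotopyGroup (Fin n) Y (f x) :=
  Quotient.map (genLoopMap f n x) fun _ _ ⟨H⟩ => ⟨H.compContinuousMap f⟩

/-- The map induced on the set of path components. -/
def zerothMap {X Y : Type} [TopologicalSpace X] [TopologicalSpace Y] (f : C(X, Y)) :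
    ZerothHomotopy X → ZerothHomotopy Y :=
  Quotient.map f fun _ _ ⟨p⟩ => ⟨p.map f.continuous⟩

/-- Weak homotopy equivalences of spaces: bijections on path components and on all homotopy groups
`π_n`, `n ≥ 1`, at all base points. -/
def IsWhe {X Y : Type} [TopologicalSpace X] [TopologicalSpace Y] (f : C(X, Y)) : Prop :=
  Function.Bijective (zerothMap f) ∧
    ∀ (n : ℕ) (x : X), Function.Bijective (homotopyGroupMap f (n + 1) x)

/-- The class of weak homotopy equivalences in `Top`. -/
def whe : MorphismProperty Top' := fun _ _ f => IsWhe f.hom.hom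

/-! ## The comparison functor and the homotopy hypothesis -/

/-- The functor `Ho(Top) ⥤ C-Gpd[W⁻¹]` induced by `Π_∞`, when `Π_∞` followed by the localization
functor inverts the weak homotopy equivalences. -/
noncomputable def DiscFunctor.Ho {C : Coherator} (D : DiscFunctor C.C)
    (h : whe.IsInvertedBy (D.Pi ⋙ C.weq.Q)) : whe.Localization ⥤ C.weq.Localization :=
  Localization.Construction.lift (D.Pi ⋙ C.weq.Q) h

/-- The homotopy hypothesis for the coherator `C`: disc functors exist, and for every disc functor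
`Π_∞` preserves weak equivalences and induces an equivalence of localizations. -/
def HomotopyHypothesis (C : Coherator) : Prop :=
  Nonempty (DiscFunctor C.C) ∧ ∀ D : DiscFunctor C.C,
    (∀ (X Y : Top') (f : X ⟶ Y), IsWhe f.hom.hom → Coherator.IsWeq (D.Pi.map f).hom) ∧
    ∃ h : whe.IsInvertedBy (D.Pi ⋙ C.weq.Q), (D.Ho h).IsEquivalence

end Vale.Agent.P259
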