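import Vale.Agent.Lib.P259.DiscGeom
/-!
# P259, module D1b: the toolbox (extension, homotopy extension, weak equivalences) for discs
-/
namespace Vale.Agent.P259
open Set Topology
variable {X Y Z P : Type*} [TopologicalSpace X] [TopologicalSpace Y] [TopologicalSpace Z]
  [TopologicalSpace P]

/-! ### the transport homeomorphism -/

/-- a homeomorphism of `ℝⁿ` carrying the cube to the disc and the boundary to the sphere -/
noncomputable def dh (n : ℕ) : (Fin n → ℝ) ≃ₜ (Fin n → ℝ) := (exists_disc_homeo n).choose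

theorem dh_cube {n : ℕ} {x : Fin n → ℝ} : dh n x ∈ closedDisc n ↔ x ∈ cube n := by
  have h := (exists_disc_homeo n).choose_spec.1
  change (dh n) '' cube n = closedDisc n at h
  rw [← h]
  exact (dh n).injective.mem_set_image

theorem dh_bdry {n : ℕ} {x : Fin n → ℝ} : dh n x ∈ sph n ↔ x ∈ bdry n := by
  have h := (exists_disc_homeo n).choose_spec.2
  change (dh n) '' bdry n = sph n at h
  rw [← h]
  exact (dh n).injective.mem_set_image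

theorem dh_symm_cube {n : ℕ} {x : Fin n → ℝ} : (dh n).symm x ∈ cube n ↔ x ∈ closedDisc n := by
  rw [← dh_cube, Homeomorph.apply_symm_apply]

theorem dh_symm_bdry {n : ℕ} {x : Fin n → ℝ} : (dh n).symm x ∈ bdry n ↔ x ∈ sph n := by
  rw [← dh_bdry, Homeomorph.apply_symm_apply]

theorem dt_isClosed_sph (n : ℕ) : IsClosed (sph n) :=
  isClosed_eq (by fun_prop) continuous_const

theorem dt_isClosed_closedDisc (n : ℕ) : IsClosed (closedDisc n) :=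
  isClosed_le (by fun_prop) continuous_const

/-! ### the toolbox for discs (transport along `exists_disc_homeo`) -/

theorem Ext.disc {n : ℕ} {A : Set X} (h : Ext n A) (f : (Fin n → ℝ) → X)
    (hf : ContinuousOn f (sph n)) (hA : MapsTo f (sph n) A) :
    ∃ g, ContinuousOn g (closedDisc n) ∧ MapsTo g (closedDisc n) A ∧ EqOn g f (sph n) := by
  obtain ⟨g, hg, hgA, hgf⟩ := h (fun x => f (dh n x))
    (hf.comp (dh n).continuous.continuousOn (fun x hx => dh_bdry.2 hx))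
    (fun x hx => hA (dh_bdry.2 hx))
  refine ⟨fun x => g ((dh n).symm x), hg.comp (dh n).symm.continuous.continuousOn
    (fun x hx => dh_symm_cube.2 hx), fun x hx => hgA (dh_symm_cube.2 hx), fun x hx => ?_⟩
  have := hgf (dh_symm_bdry.2 hx)
  simpa using this

theorem Ext.prism_disc {n : ℕ} {A : Set X} (h : Ext (n + 1) A) (F : (Fin n → ℝ) × ℝ → X)
    (hF : ContinuousOn F (closedDisc n ×ˢ {0, 1} ∪ sph n ×ˢ uI))
    (hA : MapsTo F (closedDisc n ×ˢ {0, 1} ∪ sph n ×ˢ uI) A) :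
    ∃ G : (Fin n → ℝ) × ℝ → X, ContinuousOn G (closedDisc n ×ˢ uI) ∧
      MapsTo G (closedDisc n ×ˢ uI) A ∧ EqOn G F (closedDisc n ×ˢ {0, 1} ∪ sph n ×ˢ uI) := by
  have hm : ∀ z : (Fin n → ℝ) × ℝ, z ∈ cube n ×ˢ ({0, 1} : Set ℝ) ∪ bdry n ×ˢ uI →
      (dh n z.1, z.2) ∈ closedDisc n ×ˢ ({0, 1} : Set ℝ) ∪ sph n ×ˢ uI := by
    rintro ⟨x, t⟩ (⟨h1, h2⟩ | ⟨h1, h2⟩)
    · exact Or.inl ⟨dh_cube.2 h1, h2⟩
    · exact Or.inr ⟨dh_bdry.2 h1, h2⟩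
  obtain ⟨G, hG, hGA, hGF⟩ := h.prism (fun z => F (dh n z.1, z.2))
    (hF.comp (by fun_prop) hm) (fun z hz => hA (hm z hz))
  refine ⟨fun z => G ((dh n).symm z.1, z.2), hG.comp (by fun_prop) ?_, ?_, ?_⟩
  · rintro ⟨x, t⟩ ⟨h1, h2⟩
    exact ⟨dh_symm_cube.2 h1, h2⟩
  · rintro ⟨x, t⟩ ⟨h1, h2⟩
    exact hGA (x := ((dh n).symm x, t)) ⟨dh_symm_cube.2 h1, h2⟩
  · rintro ⟨x, t⟩ hz
    have hz' : ((dh n).symm x, t) ∈ cube n ×ˢ ({0, 1} : Set ℝ) ∪ bdry n ×ˢ uI := by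
      rcases hz with ⟨h1, h2⟩ | ⟨h1, h2⟩
      · exact Or.inl ⟨dh_symm_cube.2 h1, h2⟩
      · exact Or.inr ⟨dh_symm_bdry.2 h1, h2⟩
    have := hGF hz'
    simpa using this

theorem hep_disc (n : ℕ) (F : (Fin n → ℝ) × ℝ → X)
    (hF : ContinuousOn F (closedDisc n ×ˢ {0} ∪ sph n ×ˢ uI)) :
    ∃ G : (Fin n → ℝ) × ℝ → X, ContinuousOn G (closedDisc n ×ˢ uI) ∧
      EqOn G F (closedDisc n ×ˢ {0} ∪ sph n ×ˢ uI) := by
  have hm : ∀ z : (Fin n → ℝ) × ℝ, z ∈ cube n ×ˢ ({0} : Set ℝ) ∪ bdry n ×ˢ uI →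
      (dh n z.1, z.2) ∈ closedDisc n ×ˢ ({0} : Set ℝ) ∪ sph n ×ˢ uI := by
    rintro ⟨x, t⟩ (⟨h1, h2⟩ | ⟨h1, h2⟩)
    · exact Or.inl ⟨dh_cube.2 h1, h2⟩
    · exact Or.inr ⟨dh_bdry.2 h1, h2⟩
  obtain ⟨G, hG, hGF, -⟩ := hep n (fun z => F (dh n z.1, z.2))
    (hF.comp (by fun_prop) hm)
  refine ⟨fun z => G ((dh n).symm z.1, z.2), hG.comp (by fun_prop) ?_, ?_⟩
  · rintro ⟨x, t⟩ ⟨h1, h2⟩
    exact ⟨dh_symm_cube.2 h1, h2⟩
  · rintro ⟨x, t⟩ hz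
    have hz' : ((dh n).symm x, t) ∈ cube n ×ˢ ({0} : Set ℝ) ∪ bdry n ×ˢ uI := by
      rcases hz with ⟨h1, h2⟩ | ⟨h1, h2⟩
      · exact Or.inl ⟨dh_symm_cube.2 h1, h2⟩
      · exact Or.inr ⟨dh_symm_bdry.2 h1, h2⟩
    have := hGF hz'
    simpa using this

theorem hep_prism_disc (n : ℕ) (F : (Fin n → ℝ) × ℝ × ℝ → X)
    (hF : ContinuousOn F (closedDisc n ×ˢ uI ×ˢ {0} ∪ closedDisc n ×ˢ {0, 1} ×ˢ uI ∪
      sph n ×ˢ uI ×ˢ uI)) :
    ∃ G : (Fin n → ℝ) × ℝ × ℝ → X, ContinuousOn G (closedDisc n ×ˢ uI ×ˢ uI) ∧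
      EqOn G F (closedDisc n ×ˢ uI ×ˢ {0} ∪ closedDisc n ×ˢ {0, 1} ×ˢ uI ∪
        sph n ×ˢ uI ×ˢ uI) := by
  have hm : ∀ z : (Fin n → ℝ) × ℝ × ℝ, z ∈ cube n ×ˢ uI ×ˢ ({0} : Set ℝ) ∪
      cube n ×ˢ ({0, 1} : Set ℝ) ×ˢ uI ∪ bdry n ×ˢ uI ×ˢ uI →
      (dh n z.1, z.2) ∈ closedDisc n ×ˢ uI ×ˢ ({0} : Set ℝ) ∪
        closedDisc n ×ˢ ({0, 1} : Set ℝ) ×ˢ uI ∪ sph n ×ˢ uI ×ˢ uI := by
    rintro ⟨x, t⟩ ((⟨h1, h2⟩ | ⟨h1, h2⟩) | ⟨h1, h2⟩)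
    · exact Or.inl (Or.inl ⟨dh_cube.2 h1, h2⟩)
    · exact Or.inl (Or.inr ⟨dh_cube.2 h1, h2⟩)
    · exact Or.inr ⟨dh_bdry.2 h1, h2⟩
  obtain ⟨G, hG, hGF, -⟩ := hep_prism n (fun z => F (dh n z.1, z.2))
    (hF.comp (by fun_prop) hm)
  refine ⟨fun z => G ((dh n).symm z.1, z.2), hG.comp (by fun_prop) ?_, ?_⟩
  · rintro ⟨x, t⟩ ⟨h1, h2⟩
    exact ⟨dh_symm_cube.2 h1, h2⟩
  · rintro ⟨x, t⟩ hz
    have hz' : ((dh n).symm x, t) ∈ cube n ×ˢ uI ×ˢ ({0} : Set ℝ) ∪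
        cube n ×ˢ ({0, 1} : Set ℝ) ×ˢ uI ∪ bdry n ×ˢ uI ×ˢ uI := by
      rcases hz with (⟨h1, h2⟩ | ⟨h1, h2⟩) | ⟨h1, h2⟩
      · exact Or.inl (Or.inl ⟨dh_symm_cube.2 h1, h2⟩)
      · exact Or.inl (Or.inr ⟨dh_symm_cube.2 h1, h2⟩)
      · exact Or.inr ⟨dh_symm_bdry.2 h1, h2⟩
    have := hGF hz'
    simpa using this

theorem IsWE.disc {n : ℕ} {f : X → Y} (hf : IsWE f)
    (a : (Fin n → ℝ) → X) (b : (Fin n → ℝ) → Y) (k : (Fin n → ℝ) × ℝ → Y)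
    (ha : ContinuousOn a (sph n)) (hb : ContinuousOn b (closedDisc n))
    (hk : ContinuousOn k (sph n ×ˢ uI)) (hk0 : ∀ x ∈ sph n, k (x, 0) = f (a x))
    (hk1 : ∀ x ∈ sph n, k (x, 1) = b x) :
    ∃ (a' : (Fin n → ℝ) → X) (H : (Fin n → ℝ) × ℝ → Y),
      ContinuousOn a' (closedDisc n) ∧ EqOn a' a (sph n) ∧ ContinuousOn H (closedDisc n ×ˢ uI) ∧
      (∀ x ∈ closedDisc n, H (x, 0) = f (a' x)) ∧ (∀ x ∈ closedDisc n, H (x, 1) = b x) ∧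
      EqOn H k (sph n ×ˢ uI) := by
  obtain ⟨a', H, ha', haa, hH, h0, h1, hHk⟩ := WE.relaxed hf.1 (hf.2.2 n)
    (fun x => a (dh n x)) (fun x => b (dh n x)) (fun z => k (dh n z.1, z.2))
    (ha.comp (dh n).continuous.continuousOn (fun x hx => dh_bdry.2 hx))
    (hb.comp (dh n).continuous.continuousOn (fun x hx => dh_cube.2 hx))
    (hk.comp (by fun_prop) (fun z hz => ⟨dh_bdry.2 hz.1, hz.2⟩))
    (fun x hx => hk0 _ (dh_bdry.2 hx)) (fun x hx => hk1 _ (dh_bdry.2 hx))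
  refine ⟨fun x => a' ((dh n).symm x), fun z => H ((dh n).symm z.1, z.2),
    ha'.comp (dh n).symm.continuous.continuousOn (fun x hx => dh_symm_cube.2 hx), ?_,
    hH.comp (by fun_prop) (fun z hz => ⟨dh_symm_cube.2 hz.1, hz.2⟩), ?_, ?_, ?_⟩
  · intro x hx
    have := haa (dh_symm_bdry.2 hx)
    simpa using this
  · intro x hx
    exact h0 _ (dh_symm_cube.2 hx)
  · intro x hx
    have := h1 _ (dh_symm_cube.2 hx)
    simpa using this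
  · rintro ⟨x, t⟩ ⟨hx, ht⟩
    have := hHk (x := ((dh n).symm x, t)) ⟨dh_symm_bdry.2 hx, ht⟩
    simpa using this

/-- two homotopies with the same start and the same side walls have ends homotopic rel boundary -/
theorem homotopy_unique_disc (n : ℕ) (G H : (Fin n → ℝ) × ℝ → X)
    (hG : ContinuousOn G (closedDisc n ×ˢ uI)) (hH : ContinuousOn H (closedDisc n ×ˢ uI))
    (h0 : ∀ x ∈ closedDisc n, G (x, 0) = H (x, 0)) (hs : EqOn G H (sph n ×ˢ uI)) :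
    ∃ L : (Fin n → ℝ) × ℝ → X, ContinuousOn L (closedDisc n ×ˢ uI) ∧
      (∀ x ∈ closedDisc n, L (x, 0) = G (x, 1)) ∧ (∀ x ∈ closedDisc n, L (x, 1) = H (x, 1)) ∧
      (∀ x ∈ sph n, ∀ t ∈ uI, L (x, t) = G (x, 1)) := by
  classical
  set F : (Fin n → ℝ) × ℝ × ℝ → X :=
    fun z => if z.2.1 = 1 then H (z.1, z.2.2) else G (z.1, z.2.2) with hFdef
  have hI : IsClosed uI := isClosed_Icc
  have hD := dt_isClosed_closedDisc n
  have hS := dt_isClosed_sph n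
  have h0I : (0 : ℝ) ∈ uI := ⟨le_rfl, zero_le_one⟩
  have h1I : (1 : ℝ) ∈ uI := ⟨zero_le_one, le_rfl⟩
  -- the part where `F` is given by `H`
  have hF1 : ContinuousOn F (closedDisc n ×ˢ ({1} : Set ℝ) ×ˢ uI) := by
    have : ContinuousOn (fun z : (Fin n → ℝ) × ℝ × ℝ => H (z.1, z.2.2))
        (closedDisc n ×ˢ ({1} : Set ℝ) ×ˢ uI) :=
      hH.comp (by fun_prop) (fun z hz => ⟨hz.1, hz.2.2⟩)
    refine this.congr ?_
    rintro ⟨x, s, t⟩ ⟨_, hs', _⟩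
    have : s = 1 := hs'
    simp [hFdef, this]
  -- the part where `F` is given by `G`
  have hF2 : ContinuousOn F (closedDisc n ×ˢ uI ×ˢ ({0} : Set ℝ) ∪
      closedDisc n ×ˢ ({0} : Set ℝ) ×ˢ uI ∪ sph n ×ˢ uI ×ˢ uI) := by
    have : ContinuousOn (fun z : (Fin n → ℝ) × ℝ × ℝ => G (z.1, z.2.2))
        (closedDisc n ×ˢ uI ×ˢ ({0} : Set ℝ) ∪
      closedDisc n ×ˢ ({0} : Set ℝ) ×ˢ uI ∪ sph n ×ˢ uI ×ˢ uI) := by
      refine hG.comp (by fun_prop) ?_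
      rintro ⟨x, s, t⟩ ((⟨h1, h2, h3⟩ | ⟨h1, h2, h3⟩) | ⟨h1, h2, h3⟩)
      · refine ⟨h1, ?_⟩
        have h3' : t = 0 := h3
        subst h3'
        exact h0I
      · exact ⟨h1, h3⟩
      · exact ⟨sph_subset n h1, h3⟩
    refine this.congr ?_
    rintro ⟨x, s, t⟩ ((⟨h1, h2, h3⟩ | ⟨h1, h2, h3⟩) | ⟨h1, h2, h3⟩)
    · have h3' : t = 0 := h3
      subst h3'
      by_cases hs1 : s = 1
      · simp [hFdef, hs1, h0 x h1]
      · simp [hFdef, hs1]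
    · have h2' : s = 0 := h2
      simp [hFdef, h2']
    · by_cases hs1 : s = 1
      · have := hs (x := (x, t)) ⟨h1, h3⟩
        simp [hFdef, hs1, this]
      · simp [hFdef, hs1]
  have hc1 : IsClosed (closedDisc n ×ˢ ({1} : Set ℝ) ×ˢ uI) :=
    hD.prod (isClosed_singleton.prod hI)
  have hc2 : IsClosed (closedDisc n ×ˢ uI ×ˢ ({0} : Set ℝ) ∪
      closedDisc n ×ˢ ({0} : Set ℝ) ×ˢ uI ∪ sph n ×ˢ uI ×ˢ uI) :=
    ((hD.prod (hI.prod isClosed_singleton)).union (hD.prod (isClosed_singleton.prod hI))).union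
      (hS.prod (hI.prod hI))
  have hF : ContinuousOn F (closedDisc n ×ˢ uI ×ˢ {0} ∪ closedDisc n ×ˢ {0, 1} ×ˢ uI ∪
      sph n ×ˢ uI ×ˢ uI) := by
    refine (hF1.union_of_isClosed hF2 hc1 hc2).mono ?_
    rintro ⟨x, s, t⟩ ((⟨h1, h2, h3⟩ | ⟨h1, h2, h3⟩) | ⟨h1, h2, h3⟩)
    · exact Or.inr (Or.inl (Or.inl ⟨h1, h2, h3⟩))
    · rcases h2 with h2 | h2
      · exact Or.inr (Or.inl (Or.inr ⟨h1, h2, h3⟩))
      · exact Or.inl ⟨h1, h2, h3⟩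
    · exact Or.inr (Or.inr ⟨h1, h2, h3⟩)
  obtain ⟨E, hE, hEF⟩ := hep_prism_disc n F hF
  refine ⟨fun z => E (z.1, z.2, 1), hE.comp (by fun_prop) (fun z hz => ⟨hz.1, hz.2, h1I⟩),
    ?_, ?_, ?_⟩
  · intro x hx
    have := hEF (x := (x, 0, 1)) (Or.inl (Or.inr ⟨hx, Or.inl rfl, h1I⟩))
    simpa [hFdef] using this
  · intro x hx
    have := hEF (x := (x, 1, 1)) (Or.inl (Or.inr ⟨hx, Or.inr rfl, h1I⟩))
    simpa [hFdef] using this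
  · intro x hx t ht
    have := hEF (x := (x, t, 1)) (Or.inr ⟨hx, ht, h1I⟩)
    change E (x, t, 1) = G (x, 1)
    rw [this]
    have h' := hs (x := (x, 1)) ⟨hx, h1I⟩
    by_cases ht1 : t = 1
    · simp [hFdef, ht1, h']
    · simp [hFdef, ht1]

/-- scaling by a factor in `[0, 1]` preserves the disc -/
theorem dt_smul_mem_closedDisc {n : ℕ} {x : Fin n → ℝ} (hx : x ∈ closedDisc n) {c : ℝ}
    (h0 : 0 ≤ c) (h1 : c ≤ 1) : c • x ∈ closedDisc n := by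
  have hx' : ∑ i, x i ^ 2 ≤ 1 := hx
  change ∑ i, (c • x) i ^ 2 ≤ 1
  have : ∑ i, (c • x) i ^ 2 = c ^ 2 * ∑ i, x i ^ 2 := by
    rw [Finset.mul_sum]
    refine Finset.sum_congr rfl fun i _ => ?_
    simp only [Pi.smul_apply, smul_eq_mul]
    ring
  rw [this]
  have hc : c ^ 2 ≤ 1 := pow_le_one₀ h0 h1
  have hs : 0 ≤ ∑ i, x i ^ 2 := Finset.sum_nonneg fun i _ => sq_nonneg _
  calc c ^ 2 * ∑ i, x i ^ 2 ≤ 1 * 1 := mul_le_mul hc hx' hs zero_le_one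
    _ = 1 := one_mul 1

theorem wcontr_closedDisc (n : ℕ) : WContr (univ : Set (closedDisc n)) := by
  have hz : (0 : Fin n → ℝ) ∈ closedDisc n := by
    change ∑ i, (0 : Fin n → ℝ) i ^ 2 ≤ 1
    simp
  have hc0 : ∀ t : ℝ, 0 ≤ max 0 (min 1 (1 - t)) := fun t => le_max_left _ _
  have hc1 : ∀ t : ℝ, max 0 (min 1 (1 - t)) ≤ 1 := fun t =>
    max_le zero_le_one (min_le_left _ _)
  refine WContr.of_contraction (⟨0, hz⟩ : closedDisc n) (mem_univ _)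
    (fun z => ⟨(max 0 (min 1 (1 - z.2))) • (z.1 : Fin n → ℝ),
      dt_smul_mem_closedDisc z.1.2 (hc0 z.2) (hc1 z.2)⟩) ?_ (fun _ _ => mem_univ _) ?_ ?_
  · refine Continuous.continuousOn ?_
    refine Continuous.subtype_mk ?_ _
    fun_prop
  · intro x _
    apply Subtype.ext
    simp
  · intro x _
    apply Subtype.ext
    simp

end Vale.Agent.P259
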