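import Mathlib

/-!
# P259: the abstract interface between coherators (algebra) and posets of chains (topology)
-/

namespace Vale.Agent.P259

open CategoryTheory Opposite

/-- Presheaves of sets, unbundled (friendlier than `Cᵒᵖ ⥤ Type`). -/
@[ext]
structure PSh (C : Type) [Category.{0} C] where
  obj : C → Type
  res : ∀ {S T : C}, (S ⟶ T) → obj T → obj S
  res_id : ∀ {S : C} (w : obj S), res (𝟙 S) w = w
  res_comp : ∀ {S T U : C} (f : S ⟶ T) (g : T ⟶ U) (w : obj U), res (f ≫ g) w = res f (res g w)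

namespace PSh
variable {C : Type} [Category.{0} C]

attribute [simp] res_id

/-- representable presheaf -/
@[simps]
def rep (S : C) : PSh C where
  obj T := T ⟶ S
  res f g := f ≫ g
  res_id := by simp
  res_comp := by simp

/-- morphisms of presheaves -/
@[ext]
structure Hom (W V : PSh C) where
  app : ∀ {S : C}, W.obj S → V.obj S
  nat : ∀ {S T : C} (f : S ⟶ T) (w : W.obj T), app (W.res f w) = V.res f (app w)

/-- identity -/
@[simps] def Hom.id (W : PSh C) : W.Hom W := ⟨fun w => w, fun _ _ => rfl⟩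
/-- composition -/
@[simps] def Hom.comp {W V U : PSh C} (g : V.Hom U) (f : W.Hom V) : W.Hom U :=
  ⟨fun w => g.app (f.app w), fun h w => by rw [f.nat, g.nat]⟩
/-- Yoneda: the map classifying an element -/
@[simps] def ofElt {W : PSh C} {S : C} (w : W.obj S) : (rep S).Hom W :=
  ⟨fun f => W.res f w, fun f g => W.res_comp f g w⟩

/-- from a Mathlib presheaf -/
@[simps]
def ofFunctor (W : Cᵒᵖ ⥤ Type) : PSh C where
  obj S := W.obj (op S)
  res f w := W.map f.op w
  res_id := by simp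
  res_comp := by simp

end PSh

/-- A category with a point, a first and a last vertex for each object, and a suspension functor
whose maps preserve first and last vertices. -/
structure SuspData (C : Type) [Category.{0} C] where
  pt : C
  fst : ∀ S : C, pt ⟶ S
  lst : ∀ S : C, pt ⟶ S
  fst_pt : fst pt = 𝟙 pt
  lst_pt : lst pt = 𝟙 pt
  sus : C ⥤ C
  fst_sus : ∀ {S T : C} (f : S ⟶ T), fst (sus.obj S) ≫ sus.map f = fst (sus.obj T)
  lst_sus : ∀ {S T : C} (f : S ⟶ T), lst (sus.obj S) ≫ sus.map f = lst (sus.obj T)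

namespace SuspData

variable {C : Type} [Category.{0} C] (𝒮 : SuspData C)

/-- the presheaf `T ↦ {u ∈ W(ΣT) | first = x, last = y}` -/
@[simps]
def hom (W : PSh C) (x y : W.obj 𝒮.pt) : PSh C where
  obj T := {u : W.obj (𝒮.sus.obj T) // W.res (𝒮.fst (𝒮.sus.obj T)) u = x ∧
    W.res (𝒮.lst (𝒮.sus.obj T)) u = y}
  res {T T'} f u := ⟨W.res (𝒮.sus.map f) u.1, by
    rw [← W.res_comp, 𝒮.fst_sus, ← W.res_comp, 𝒮.lst_sus]; exact u.2⟩
  res_id u := by simp
  res_comp f g u := by simp [W.res_comp]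

/-- functoriality of `hom` -/
@[simps]
def homMap {W V : PSh C} (F : W.Hom V) (x y : W.obj 𝒮.pt) :
    (𝒮.hom W x y).Hom (𝒮.hom V (F.app x) (F.app y)) where
  app {T} u := ⟨F.app u.1, by rw [← F.nat, u.2.1], by rw [← F.nat, u.2.2]⟩
  nat f u := Subtype.ext (F.nat _ _)

end SuspData

/-- The two classes of presheaves (infinity-groupoids, contractible infinity-groupoids) with the
properties used in the topological part. -/
structure SuspClass {C : Type} [Category.{0} C] (𝒮 : SuspData C) where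
  Gp : PSh C → Prop
  Ctr : PSh C → Prop
  gp_rep : ∀ S : C, Gp (PSh.rep S)
  gp_hom : ∀ (W : PSh C) (x y : W.obj 𝒮.pt), Gp W → Gp (𝒮.hom W x y)
  ctr_gp : ∀ W : PSh C, Ctr W → Gp W
  ctr_nonempty : ∀ W : PSh C, Ctr W → Nonempty (W.obj 𝒮.pt)
  ctr_hom : ∀ (W : PSh C) (x y : W.obj 𝒮.pt), Ctr W → Ctr (𝒮.hom W x y)
  ctr_rep : ∀ (S : C) (s t : 𝒮.pt ⟶ S), Ctr (𝒮.hom (PSh.rep S) s t)
  /-- the wedge `ΣT * S` (last vertex of `ΣT` glued to the first vertex of `S`) -/
  glueL : ∀ T S : C, ∃ (L : C) (l : 𝒮.sus.obj T ⟶ L) (r : S ⟶ L),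
    𝒮.lst (𝒮.sus.obj T) ≫ l = 𝒮.fst S ≫ r ∧
    ∀ W : PSh C, Gp W → ∀ (u : W.obj (𝒮.sus.obj T)) (v : W.obj S),
      W.res (𝒮.lst (𝒮.sus.obj T)) u = W.res (𝒮.fst S) v →
      ∃! w : W.obj L, W.res l w = u ∧ W.res r w = v
  /-- the wedge `S * ΣT` -/
  glueR : ∀ T S : C, ∃ (L : C) (l : 𝒮.sus.obj T ⟶ L) (r : S ⟶ L),
    𝒮.fst (𝒮.sus.obj T) ≫ l = 𝒮.lst S ≫ r ∧
    ∀ W : PSh C, Gp W → ∀ (u : W.obj (𝒮.sus.obj T)) (v : W.obj S),
      W.res (𝒮.fst (𝒮.sus.obj T)) u = W.res (𝒮.lst S) v →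
      ∃! w : W.obj L, W.res l w = u ∧ W.res r w = v

end Vale.Agent.P259
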