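import Vale.Agent.Lib.P259.Lift
import Vale.Agent.Lib.P259.Susp

/-!
# P259, module A3: suspension of globular sums and the suspension functor of a coherator
-/

namespace Vale.Agent.P259

open CategoryTheory Limits Opposite

/-! ### relations in `Θ₀` -/

theorem bd₀_bd₀ {l m n : ℕ} (h : l < m) (h' : m < n) (ε ε' : Bool) :
    (bd₀ h ε ≫ bd₀ h' ε' : (Obj.D l).real ⟶ (Obj.D n).real) = bd₀ (h.trans h') ε :=
  (yoneda.map_comp (C := Globe) (gbd h ε) (gbd h' ε')).symm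

theorem bd₀_inl₀ {i j k : ℕ} (hi : j < i) (hk : j < k) (t : Tab k) :
    (bd₀ hi true ≫ inl₀ hi hk t : (Obj.D j).real ⟶ (Obj.mk i (.glue hi hk t)).real) =
      bd₀ hk false ≫ first₀ t ≫ inr₀ hi hk t :=
  (real_isPushout hi hk t).w.trans (Category.assoc _ _ _)

/-! ### morphisms of the category of a globular extension -/

namespace GlobExt

variable (E : GlobExt)

/-- a morphism of `E` as a morphism of the category `E.Cat` -/
def up {S T : Obj} (f : E.Hom S T) : (⟨S⟩ : E.Cat) ⟶ ⟨T⟩ := f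

/-- the image of a morphism of `Θ₀` in the category `E.Cat` -/
def jm {S T : Obj} (f : Θ₀Hom S T) : (⟨S⟩ : E.Cat) ⟶ ⟨T⟩ := E.J f

theorem up_comp {R S T : Obj} (f : E.Hom R S) (g : E.Hom S T) :
    E.up (E.comp f g) = E.up f ≫ E.up g := rfl

theorem jm_id (S : Obj) : E.jm (𝟙 S.real) = 𝟙 (⟨S⟩ : E.Cat) := E.J_id S

theorem jm_comp {S T U : Obj} (f : Θ₀Hom S T) (g : Θ₀Hom T U) :
    E.jm (S := S) (T := U) (f ≫ g) = E.jm f ≫ E.jm g := E.J_comp f g

@[reassoc]
theorem jm_bd_bd {l m n : ℕ} (h : l < m) (h' : m < n) (ε ε' : Bool) :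
    E.jm (bd₀ h ε) ≫ E.jm (bd₀ h' ε') = E.jm (bd₀ (h.trans h') ε) := by
  rw [← E.jm_comp (S := .D l) (T := .D m) (U := .D n), bd₀_bd₀]

@[reassoc]
theorem jm_bd_inl {i j k : ℕ} (hi : j < i) (hk : j < k) (t : Tab k) :
    E.jm (bd₀ hi true) ≫ E.jm (inl₀ hi hk t) =
      E.jm (bd₀ hk false) ≫ E.jm (first₀ t) ≫ E.jm (inr₀ hi hk t) := by
  rw [← E.jm_comp (S := .D j) (T := .D i) (U := ⟨i, .glue hi hk t⟩), bd₀_inl₀,
    E.jm_comp (S := .D j) (T := .D k) (U := ⟨i, .glue hi hk t⟩),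
    E.jm_comp (S := .D k) (T := ⟨k, t⟩) (U := ⟨i, .glue hi hk t⟩)]

theorem jm_isPushout {i j k : ℕ} (hi : j < i) (hk : j < k) (t : Tab k) :
    IsPushout (E.jm (bd₀ hi true)) (E.jm (bd₀ hk false) ≫ E.jm (first₀ t))
      (E.jm (inl₀ hi hk t)) (E.jm (inr₀ hi hk t)) := by
  refine ⟨⟨by rw [jm_bd_inl, Category.assoc]⟩, ⟨PushoutCocone.IsColimit.mk _ (fun s =>
    (E.glue hi hk t s.pt.obj s.inl s.inr s.condition).choose) ?_ ?_ ?_⟩⟩
  · intro s
    exact (E.glue hi hk t s.pt.obj s.inl s.inr s.condition).choose_spec.1.1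
  · intro s
    exact (E.glue hi hk t s.pt.obj s.inl s.inr s.condition).choose_spec.1.2
  · intro s m h1 h2
    exact (E.glue hi hk t s.pt.obj s.inl s.inr s.condition).choose_spec.2 m ⟨h1, h2⟩

end GlobExt

/-! ### suspension of tables, first and last vertices -/

/-- suspension of a table: all entries are increased by `1` -/
def Tab.sus : {i : ℕ} → Tab i → Tab (i + 1)
  | i, .disc _ => .disc (i + 1)
  | _, .glue hi hk t => .glue (Nat.succ_lt_succ hi) (Nat.succ_lt_succ hk) t.sus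

/-- suspension of a globular sum -/
abbrev Obj.sus (S : Obj) : Obj := ⟨S.fst + 1, S.tab.sus⟩

/-- the first vertex -/
noncomputable def Tab.fstV : {i : ℕ} → (t : Tab i) → Θ₀Hom (.D 0) ⟨i, t⟩
  | 0, t => first₀ t
  | i + 1, t => (bd₀ (Nat.succ_pos i) false ≫ first₀ t : (Obj.D 0).real ⟶ (Obj.mk (i + 1) t).real)

/-- the last vertex -/
noncomputable def Tab.lstV : {i : ℕ} → (t : Tab i) → Θ₀Hom (.D 0) ⟨i, t⟩
  | 0, .disc _ => 𝟙 (Obj.D 0).real
  | i + 1, .disc _ => bd₀ (Nat.succ_pos i) true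
  | i, .glue hi hk t => (t.lstV ≫ inr₀ hi hk t : (Obj.D 0).real ⟶ (Obj.mk i (.glue hi hk t)).real)

theorem Tab.fstV_succ {i : ℕ} (t : Tab (i + 1)) :
    t.fstV = (bd₀ (Nat.succ_pos i) false ≫ first₀ t : (Obj.D 0).real ⟶ _) := rfl

theorem Tab.fstV_pos {i : ℕ} (hi : 0 < i) (t : Tab i) :
    t.fstV = (bd₀ hi false ≫ first₀ t : (Obj.D 0).real ⟶ _) := by
  obtain ⟨i, rfl⟩ := Nat.exists_eq_succ_of_ne_zero hi.ne'
  rfl

theorem Tab.lstV_glue {i j k : ℕ} (hi : j < i) (hk : j < k) (t : Tab k) :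
    (Tab.glue hi hk t).lstV = (t.lstV ≫ inr₀ hi hk t : (Obj.D 0).real ⟶ _) := by
  cases i <;> rfl

theorem Tab.bd_first_inr {i j k : ℕ} (hi : j + 1 < i + 1) (hk : j + 1 < k + 1) (t : Tab (k + 1))
    (ε : Bool) :
    (bd₀ (Nat.succ_pos k) ε ≫ first₀ t ≫ inr₀ hi hk t :
      (Obj.D 0).real ⟶ (Obj.mk (i + 1) (.glue hi hk t)).real) =
      bd₀ (Nat.succ_pos i) ε ≫ inl₀ hi hk t := by
  rw [← bd₀_bd₀ (Nat.succ_pos j) hk ε false, ← bd₀_bd₀ (Nat.succ_pos j) hi ε true,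
    Category.assoc, Category.assoc, bd₀_inl₀]

theorem Tab.lstV_sus {i : ℕ} (t : Tab i) :
    t.sus.lstV = (bd₀ (Nat.succ_pos i) true ≫ first₀ t.sus : (Obj.D 0).real ⟶ _) := by
  induction t with
  | disc i => exact (Category.comp_id _).symm
  | @glue i j k hi hk t ih =>
    change (Tab.glue (Nat.succ_lt_succ hi) (Nat.succ_lt_succ hk) t.sus).lstV = _
    rw [Tab.lstV_glue, ih, Category.assoc, Tab.bd_first_inr]
    rfl

/-! ### bipointed objects and the suspension -/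

/-- bipointed objects of the category of a globular extension -/
structure BiPt (E : GlobExt) where
  /-- the object -/
  X : E.Cat
  /-- the first point -/
  a : (⟨.D 0⟩ : E.Cat) ⟶ X
  /-- the second point -/
  b : (⟨.D 0⟩ : E.Cat) ⟶ X

/-- morphisms of bipointed objects -/
@[ext]
structure BiPt.Hom {E : GlobExt} (P Q : BiPt E) where
  /-- the morphism -/
  f : P.X ⟶ Q.X
  ha : P.a ≫ f = Q.a
  hb : P.b ≫ f = Q.b

instance (E : GlobExt) : Category (BiPt E) where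
  Hom P Q := BiPt.Hom P Q
  id P := ⟨𝟙 _, Category.comp_id _, Category.comp_id _⟩
  comp f g := ⟨f.f ≫ g.f, by rw [← Category.assoc, f.ha, g.ha],
    by rw [← Category.assoc, f.hb, g.hb]⟩
  id_comp f := BiPt.Hom.ext (Category.id_comp _)
  comp_id f := BiPt.Hom.ext (Category.comp_id _)
  assoc f g h := BiPt.Hom.ext (Category.assoc _ _ _)

namespace BiPt

variable {E : GlobExt}

@[simp] theorem comp_f {P Q R : BiPt E} (f : P ⟶ Q) (g : Q ⟶ R) : (f ≫ g).f = f.f ≫ g.f := rfl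
@[simp] theorem id_f (P : BiPt E) : BiPt.Hom.f (𝟙 P) = 𝟙 P.X := rfl
theorem hext {P Q : BiPt E} {f g : P ⟶ Q} (h : f.f = g.f) : f = g := BiPt.Hom.ext h

end BiPt

/-- The end `ε` of a suspension. -/
noncomputable def GlobExt.endOf (E : GlobExt) (ε : Bool) {i : ℕ} (t : Tab (i + 1)) :
    (⟨.D 0⟩ : E.Cat) ⟶ ⟨⟨i + 1, t⟩⟩ :=
  E.jm (bd₀ (Nat.succ_pos i) ε) ≫ E.jm (first₀ t)

theorem GlobExt.endOf_disc (E : GlobExt) (ε : Bool) (i : ℕ) :
    E.endOf ε (.disc (i + 1)) = E.jm (bd₀ (Nat.succ_pos i) ε) := by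
  have : E.jm (first₀ (.disc (i + 1))) = 𝟙 _ := E.jm_id _
  rw [endOf, this, Category.comp_id]

theorem GlobExt.endOf_inr (E : GlobExt) (ε : Bool) {i j k : ℕ} (hi : j + 1 < i + 1)
    (hk : j + 1 < k + 1) (t : Tab (k + 1)) :
    E.endOf ε t ≫ E.jm (inr₀ hi hk t) = E.endOf ε (.glue hi hk t) := by
  rw [endOf, endOf, ← E.jm_comp (S := .D 0) (T := .D (k + 1)) (U := ⟨k + 1, t⟩),
    ← E.jm_comp (S := .D 0) (T := ⟨k + 1, t⟩) (U := ⟨i + 1, .glue hi hk t⟩),
    ← E.jm_comp (S := .D 0) (T := .D (i + 1)) (U := ⟨i + 1, .glue hi hk t⟩),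
    Category.assoc, Tab.bd_first_inr, first₀_glue]

/-- The suspension of a globular sum as a bipointed object. -/
noncomputable abbrev BiPt.sus (E : GlobExt) (S : Obj) : BiPt E :=
  ⟨⟨S.sus⟩, E.endOf false S.tab.sus, E.endOf true S.tab.sus⟩

/-- The suspended globes. -/
noncomputable abbrev BiPt.gl (E : GlobExt) (n : ℕ) : BiPt E :=
  ⟨⟨.D (n + 1)⟩, E.jm (bd₀ (Nat.succ_pos n) false), E.jm (bd₀ (Nat.succ_pos n) true)⟩

/-- The suspended maps of globes. -/
noncomputable def BiPt.glMap (E : GlobExt) : {m n : ℕ} → GlobeHom m n → (BiPt.gl E m ⟶ BiPt.gl E n)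
  | _, _, .id _ => 𝟙 _
  | _, _, .bd h ε => ⟨E.jm (bd₀ (Nat.succ_lt_succ h) ε), E.jm_bd_bd _ _ _ _,
      E.jm_bd_bd _ _ _ _⟩

theorem BiPt.glMap_comp (E : GlobExt) {l m n : ℕ} (f : GlobeHom l m) (g : GlobeHom m n) :
    BiPt.glMap E (f.comp g) = BiPt.glMap E f ≫ BiPt.glMap E g := by
  cases f with
  | id => exact (Category.id_comp _).symm
  | bd h ε =>
    cases g with
    | id => exact (Category.comp_id _).symm
    | bd h' ε' => exact BiPt.hext (E.jm_bd_bd _ _ _ _).symm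

/-- The suspended globes, as a functor. -/
noncomputable def BiPt.globe (E : GlobExt) : Globe ⥤ BiPt E where
  obj n := BiPt.gl E n.dim
  map f := BiPt.glMap E f
  map_id _ := rfl
  map_comp f g := BiPt.glMap_comp E f g

/-- the inclusion of the first globe in a suspension -/
noncomputable def BiPt.first (E : GlobExt) {i : ℕ} (t : Tab i) :
    BiPt.gl E i ⟶ BiPt.sus E ⟨i, t⟩ := ⟨E.jm (first₀ t.sus), rfl, rfl⟩

/-- the inclusion of the rest in a suspension -/
noncomputable def BiPt.rest (E : GlobExt) {i j k : ℕ} (hi : j < i) (hk : j < k) (t : Tab k) :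
    BiPt.sus E ⟨k, t⟩ ⟶ BiPt.sus E ⟨i, .glue hi hk t⟩ :=
  ⟨E.jm (inr₀ (Nat.succ_lt_succ hi) (Nat.succ_lt_succ hk) t.sus),
    E.endOf_inr false _ _ _, E.endOf_inr true _ _ _⟩

theorem BiPt.first_f (E : GlobExt) {i : ℕ} (t : Tab i) :
    BiPt.Hom.f (BiPt.first E t) = E.jm (first₀ t.sus) := rfl

theorem BiPt.first_disc_f (E : GlobExt) (i : ℕ) :
    BiPt.Hom.f (BiPt.first E (.disc i)) = 𝟙 (⟨.D (i + 1)⟩ : E.Cat) := by
  exact E.jm_id (.D (i + 1))

instance BiPt.isIso_first_disc (E : GlobExt) (i : ℕ) : IsIso (BiPt.first E (.disc i)) := by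
  have h := BiPt.first_disc_f E i
  refine ⟨⟨𝟙 (⟨.D (i + 1)⟩ : E.Cat), ?_, ?_⟩, BiPt.hext ?_, BiPt.hext ?_⟩
  · exact (Category.comp_id _).trans (E.endOf_disc false i)
  · exact (Category.comp_id _).trans (E.endOf_disc true i)
  · exact (Category.comp_id _).trans h
  · exact (Category.id_comp _).trans h

theorem BiPt.isPushout (E : GlobExt) {i j k : ℕ} (hi : j < i) (hk : j < k) (t : Tab k) :
    IsPushout (BiPt.glMap E (.bd hi true)) (BiPt.glMap E (.bd hk false) ≫ BiPt.first E t)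
      (BiPt.first E (.glue hi hk t)) (BiPt.rest E hi hk t) := by
  have sq := E.jm_isPushout (Nat.succ_lt_succ hi) (Nat.succ_lt_succ hk) t.sus
  refine ⟨⟨BiPt.hext sq.w⟩, ⟨PushoutCocone.IsColimit.mk _ (fun s =>
    ⟨sq.desc s.inl.f s.inr.f (congrArg BiPt.Hom.f s.condition), ?_, ?_⟩) ?_ ?_ ?_⟩⟩
  · refine Eq.trans ?_ s.inl.ha
    refine (Category.assoc _ _ _).trans ?_
    exact congrArg (fun z => E.jm (bd₀ (Nat.succ_pos i) false) ≫ z) (sq.inl_desc _ _ _)
  · refine Eq.trans ?_ s.inl.hb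
    refine (Category.assoc _ _ _).trans ?_
    exact congrArg (fun z => E.jm (bd₀ (Nat.succ_pos i) true) ≫ z) (sq.inl_desc _ _ _)
  · intro s
    exact BiPt.hext (sq.inl_desc _ _ _)
  · intro s
    exact BiPt.hext (sq.inr_desc _ _ _)
  · intro s m h1 h2
    refine BiPt.hext (sq.hom_ext ?_ ?_)
    · exact (congrArg BiPt.Hom.f h1).trans (sq.inl_desc _ _ _).symm
    · exact (congrArg BiPt.Hom.f h2).trans (sq.inr_desc _ _ _).symm

/-- The realization of globular sums by their suspensions. -/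
noncomputable def BiPt.realization (E : GlobExt) : Realization (BiPt.globe E) where
  obj S := BiPt.sus E S
  first t := BiPt.first E t
  first_disc i := BiPt.isIso_first_disc E i
  rest hi hk t := BiPt.rest E hi hk t
  isPushout hi hk t := BiPt.isPushout E hi hk t

/-- The globular extension of suspensions. -/
noncomputable def GlobExt.susExt (E : GlobExt) : GlobExt := (BiPt.realization E).globExt

theorem GlobExt.susExt_J_bd (E : GlobExt) {m n : ℕ} (h : m < n) (ε : Bool) :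
    BiPt.Hom.f (E.susExt.J (bd₀ h ε)) = E.jm (bd₀ (Nat.succ_lt_succ h) ε) := by
  have h1 := congrArg BiPt.Hom.f ((BiPt.realization E).first_J_bd h ε)
  have h2 : BiPt.Hom.f ((BiPt.realization E).first (.disc m)) = 𝟙 _ := BiPt.first_disc_f E m
  have h3 : BiPt.Hom.f ((BiPt.realization E).first (.disc n)) = 𝟙 _ := BiPt.first_disc_f E n
  rw [BiPt.comp_f, BiPt.comp_f] at h1
  have h4 := (congrArg (fun z => z ≫ BiPt.Hom.f ((BiPt.realization E).J (bd₀ h ε))) h2).symm.trans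
    (h1.trans (congrArg (fun z => BiPt.Hom.f ((BiPt.globe E).map (gbd h ε)) ≫ z) h3))
  exact (Category.id_comp _).symm.trans (h4.trans (Category.comp_id _))

theorem GlobExt.susExt_J_first (E : GlobExt) {i : ℕ} (t : Tab i) :
    BiPt.Hom.f (E.susExt.J (first₀ t)) = E.jm (first₀ t.sus) := by
  have h1 := congrArg BiPt.Hom.f ((BiPt.realization E).first_J_first t)
  have h2 : BiPt.Hom.f ((BiPt.realization E).first (.disc i)) = 𝟙 _ := BiPt.first_disc_f E i
  rw [BiPt.comp_f] at h1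
  have h4 := (congrArg (fun z => z ≫ BiPt.Hom.f ((BiPt.realization E).J (first₀ t))) h2).symm.trans
    h1
  exact (Category.id_comp _).symm.trans h4

theorem GlobExt.susExt_J_inl (E : GlobExt) {i j k : ℕ} (hi : j < i) (hk : j < k) (t : Tab k) :
    BiPt.Hom.f (E.susExt.J (inl₀ hi hk t)) =
      E.jm (inl₀ (Nat.succ_lt_succ hi) (Nat.succ_lt_succ hk) t.sus) :=
  E.susExt_J_first (.glue hi hk t)

theorem GlobExt.susExt_J_inr (E : GlobExt) {i j k : ℕ} (hi : j < i) (hk : j < k) (t : Tab k) :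
    BiPt.Hom.f (E.susExt.J (inr₀ hi hk t)) =
      E.jm (inr₀ (Nat.succ_lt_succ hi) (Nat.succ_lt_succ hk) t.sus) :=
  congrArg BiPt.Hom.f ((BiPt.realization E).J_inr hi hk t)

/-! ### the suspension functor of a coherator -/

namespace Coherator

variable (C : Coherator)

theorem susExt_lift (n : ℕ) (S : Obj) (f g : C.C.susExt.Hom (.D n) S)
    (h : C.C.susExt.Parallel f g) : ∃ l, C.C.susExt.IsLift f g l := by
  have hp : C.C.Parallel (S := S.sus) (n := n + 1) f.f g.f := by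
    intro ε
    cases n with
    | zero =>
      cases ε with
      | false =>
        have e := f.ha.trans g.ha.symm
        change C.C.endOf false (.disc (0 + 1)) ≫ f.f = C.C.endOf false (.disc (0 + 1)) ≫ g.f at e
        rw [C.C.endOf_disc] at e
        exact e
      | true =>
        have e := f.hb.trans g.hb.symm
        change C.C.endOf true (.disc (0 + 1)) ≫ f.f = C.C.endOf true (.disc (0 + 1)) ≫ g.f at e
        rw [C.C.endOf_disc] at e
        exact e
    | succ n =>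
      have := congrArg BiPt.Hom.f (h ε)
      have e := C.C.susExt_J_bd (Nat.lt_succ_self n) ε
      change BiPt.Hom.f (C.C.susExt.J (bd₀ (Nat.lt_succ_self n) ε)) ≫ f.f =
        BiPt.Hom.f (C.C.susExt.J (bd₀ (Nat.lt_succ_self n) ε)) ≫ g.f at this
      rw [e] at this
      exact this
  obtain ⟨l, hl1, hl2⟩ := C.exists_lift (n + 1) S.sus f.f g.f hp
  refine ⟨⟨l, ?_, ?_⟩, ?_, ?_⟩
  · refine Eq.trans ?_ f.ha
    change C.C.endOf false (.disc (n + 1 + 1)) ≫ l = C.C.endOf false (.disc (n + 1)) ≫ f.f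
    rw [C.C.endOf_disc, C.C.endOf_disc]
    refine Eq.trans ?_ (congrArg (fun z => C.C.jm (bd₀ (Nat.succ_pos n) false) ≫ z) hl1)
    exact (C.C.jm_bd_bd_assoc (Nat.succ_pos n) (Nat.lt_succ_self (n + 1)) false false l).symm
  · refine Eq.trans ?_ f.hb
    change C.C.endOf true (.disc (n + 1 + 1)) ≫ l = C.C.endOf true (.disc (n + 1)) ≫ f.f
    rw [C.C.endOf_disc, C.C.endOf_disc]
    refine Eq.trans ?_ (congrArg (fun z => C.C.jm (bd₀ (Nat.succ_pos n) true) ≫ z) hl1)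
    exact (C.C.jm_bd_bd_assoc (Nat.succ_pos n) (Nat.lt_succ_self (n + 1)) true false l).symm
  · apply BiPt.hext
    change BiPt.Hom.f (C.C.susExt.J (bd₀ (Nat.lt_succ_self n) false)) ≫ l = f.f
    rw [C.C.susExt_J_bd]
    exact hl1
  · apply BiPt.hext
    change BiPt.Hom.f (C.C.susExt.J (bd₀ (Nat.lt_succ_self n) true)) ≫ l = g.f
    rw [C.C.susExt_J_bd]
    exact hl2

/-- The chosen suspension morphism. -/
noncomputable def susMor : C.C.Mor C.C.susExt :=
  (C.exists_mor C.C.susExt C.susExt_lift).some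

/-- The suspension functor. -/
noncomputable def susFunctor : C.C.Cat ⥤ C.C.Cat where
  obj S := ⟨S.obj.sus⟩
  map f := BiPt.Hom.f (C.susMor.map f)
  map_id S := congrArg BiPt.Hom.f (C.susMor.map_id S.obj)
  map_comp f g := congrArg BiPt.Hom.f (C.susMor.map_comp f g)

theorem susFunctor_endOf {S T : C.C.Cat} (f : S ⟶ T) (ε : Bool) :
    C.C.endOf ε S.obj.tab.sus ≫ C.susFunctor.map f = C.C.endOf ε T.obj.tab.sus := by
  cases ε with
  | false => exact (C.susMor.map f).ha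
  | true => exact (C.susMor.map f).hb

theorem susFunctor_jm {S T : Obj} (f : Θ₀Hom S T) :
    C.susFunctor.map (C.C.jm f) = BiPt.Hom.f (C.C.susExt.J f) :=
  congrArg BiPt.Hom.f (C.susMor.map_J f)

theorem susFunctor_bd {m n : ℕ} (h : m < n) (ε : Bool) :
    C.susFunctor.map (C.C.jm (bd₀ h ε)) = C.C.jm (bd₀ (Nat.succ_lt_succ h) ε) :=
  (C.susFunctor_jm _).trans (C.C.susExt_J_bd h ε)

theorem susFunctor_first {i : ℕ} (t : Tab i) :
    C.susFunctor.map (C.C.jm (first₀ t)) = C.C.jm (first₀ t.sus) :=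
  (C.susFunctor_jm _).trans (C.C.susExt_J_first t)

theorem susFunctor_inl {i j k : ℕ} (hi : j < i) (hk : j < k) (t : Tab k) :
    C.susFunctor.map (C.C.jm (inl₀ hi hk t)) =
      C.C.jm (inl₀ (Nat.succ_lt_succ hi) (Nat.succ_lt_succ hk) t.sus) :=
  (C.susFunctor_jm _).trans (C.C.susExt_J_inl hi hk t)

theorem susFunctor_inr {i j k : ℕ} (hi : j < i) (hk : j < k) (t : Tab k) :
    C.susFunctor.map (C.C.jm (inr₀ hi hk t)) =
      C.C.jm (inr₀ (Nat.succ_lt_succ hi) (Nat.succ_lt_succ hk) t.sus) :=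
  (C.susFunctor_jm _).trans (C.C.susExt_J_inr hi hk t)

end Coherator

end Vale.Agent.P259
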