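import Vale.Agent.Lib.P259.CGPush
import Vale.Agent.Lib.P259.DiscTool
import Vale.Agent.Lib.P259.Sigma

/-!
# P259, module A5a: the values of a disc functor are contractible
-/

namespace Vale.Agent.P259

open CategoryTheory Limits Topology Set

/-- Pushout along the inclusion of a strong deformation retract preserves contractibility. -/
theorem contractible_pushout {A B C D : TopCat.{0}} {f : A ⟶ B} {g : A ⟶ C} {h : B ⟶ D}
    {k : C ⟶ D} (sq : IsPushout f g h k) (r : B ⟶ A)
    (H : C(B, C(unitInterval, B))) (H0 : ∀ b, H b 0 = b) (H1 : ∀ b, H b 1 = f (r b))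
    (Hf : ∀ a t, H (f a) t = f a) (hr : ∀ a, r (f a) = a) [ContractibleSpace C] :
    ContractibleSpace D := by
  let K1 : B ⟶ TopCat.of C(unitInterval, D) :=
    TopCat.ofHom ((⟨fun φ => h.hom.comp φ, ContinuousMap.continuous_postcomp h.hom⟩ :
      C(C(unitInterval, B), C(unitInterval, D))).comp H)
  let K2 : C ⟶ TopCat.of C(unitInterval, D) :=
    TopCat.ofHom ((⟨fun x => ContinuousMap.const unitInterval x,
      ContinuousMap.continuous_const'⟩ : C(D, C(unitInterval, D))).comp k.hom)
  have hw : ∀ a, h (f a) = k (g a) := fun a => ConcreteCategory.congr_hom sq.w a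
  have w : f ≫ K1 = g ≫ K2 := by
    ext a t
    change h (H (f a) t) = k (g a)
    rw [Hf, hw]
  let K : D ⟶ TopCat.of C(unitInterval, D) := sq.desc K1 K2 w
  have wr : f ≫ (r ≫ g) = g ≫ 𝟙 C := by
    ext a
    change g (r (f a)) = g a
    rw [hr]
  let ρ : D ⟶ C := sq.desc (r ≫ g) (𝟙 C) wr
  have hρ1 : ∀ b, ρ (h b) = g (r b) := fun b => ConcreteCategory.congr_hom (sq.inl_desc _ _ wr) b
  have hρ2 : ∀ c, ρ (k c) = c := fun c => ConcreteCategory.congr_hom (sq.inr_desc _ _ wr) c
  have hK1 : ∀ b t, (K (h b) : C(unitInterval, D)) t = h (H b t) := fun b t =>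
    DFunLike.congr_fun (ConcreteCategory.congr_hom (sq.inl_desc K1 K2 w) b) t
  have hK2 : ∀ c t, (K (k c) : C(unitInterval, D)) t = k c := fun c t =>
    DFunLike.congr_fun (ConcreteCategory.congr_hom (sq.inr_desc K1 K2 w) c) t
  let ev : unitInterval → (TopCat.of C(unitInterval, D) ⟶ D) := fun t =>
    TopCat.ofHom ⟨fun φ : C(unitInterval, D) => φ t, continuous_eval_const t⟩
  have e0 : K ≫ ev 0 = 𝟙 D := by
    apply sq.hom_ext
    · ext b
      change (K (h b) : C(unitInterval, D)) 0 = h b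
      rw [hK1, H0]
    · ext c
      change (K (k c) : C(unitInterval, D)) 0 = k c
      rw [hK2]
  have e1 : K ≫ ev 1 = ρ ≫ k := by
    apply sq.hom_ext
    · ext b
      change (K (h b) : C(unitInterval, D)) 1 = k (ρ (h b))
      rw [hK1, H1, hρ1, hw]
    · ext c
      change (K (k c) : C(unitInterval, D)) 1 = k (ρ (k c))
      rw [hK2, hρ2]
  have he0 : ∀ d, (K d : C(unitInterval, D)) 0 = d := fun d => ConcreteCategory.congr_hom e0 d
  have he1 : ∀ d, (K d : C(unitInterval, D)) 1 = k (ρ d) :=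
    fun d => ConcreteCategory.congr_hom e1 d
  let F : ContinuousMap.Homotopy (ContinuousMap.id D) (k.hom.comp ρ.hom) :=
    { toFun := fun p => (K p.2 : C(unitInterval, D)) p.1
      continuous_toFun := by
        have : Continuous (fun p : D × unitInterval => (K p.1 : C(unitInterval, D)) p.2) :=
          ContinuousMap.continuous_uncurry_of_continuous K.hom
        exact this.comp continuous_swap
      map_zero_left := fun d => he0 d
      map_one_left := fun d => he1 d }
  let e : ContinuousMap.HomotopyEquiv D C :=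
    { toFun := ρ.hom
      invFun := k.hom
      left_inv := ⟨F.symm⟩
      right_inv := by
        have : ρ.hom.comp k.hom = ContinuousMap.id C := ContinuousMap.ext fun c => hρ2 c
        rw [this] }
  exact e.contractibleSpace

/-- a contractible space is weakly contractible -/
theorem wcontr_of_contractible (X : Type) [TopologicalSpace X] [ContractibleSpace X] :
    WContr (univ : Set X) := by
  obtain ⟨x₀, ⟨F⟩⟩ := id_nullhomotopic X
  refine WContr.of_contraction x₀ (mem_univ _)
    (fun p => F (projIcc (0 : ℝ) 1 zero_le_one p.2, p.1)) ?_ (fun _ _ => mem_univ _) ?_ ?_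
  · exact (F.continuous.comp ((continuous_projIcc.comp continuous_snd).prodMk
      continuous_fst)).continuousOn
  · intro x _
    have : projIcc (0 : ℝ) 1 zero_le_one 0 = 0 := projIcc_left zero_le_one
    simp only [this]
    exact F.map_zero_left x
  · intro x _
    have : projIcc (0 : ℝ) 1 zero_le_one 1 = 1 := projIcc_right zero_le_one
    simp only [this]
    exact F.map_one_left x

theorem convex_closedDisc (n : ℕ) : Convex ℝ (closedDisc n) := by
  intro x hx y hy a b ha hb hab
  change ∑ i, (a * x i + b * y i) ^ 2 ≤ 1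
  have h1 : ∑ i, (a * x i + b * y i) ^ 2 ≤ a * ∑ i, x i ^ 2 + b * ∑ i, y i ^ 2 := by
    rw [Finset.mul_sum, Finset.mul_sum, ← Finset.sum_add_distrib]
    apply Finset.sum_le_sum
    intro i _
    have hb' : b = 1 - a := by linarith
    subst hb'
    nlinarith [mul_nonneg ha hb, sq_nonneg (x i - y i), mul_nonneg (mul_nonneg ha hb)
      (sq_nonneg (x i - y i))]
  have hx' : ∑ i, x i ^ 2 ≤ 1 := hx
  have hy' : ∑ i, y i ^ 2 ≤ 1 := hy
  nlinarith

/-- In a closed disc every self-map is homotopic to the identity by a homotopy which is constant at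
its fixed points. -/
theorem closedDisc_homotopy (n : ℕ) (φ : C(closedDisc n, closedDisc n)) :
    ∃ H : C(closedDisc n, C(unitInterval, closedDisc n)), (∀ b, H b 0 = b) ∧
      (∀ b, H b 1 = φ b) ∧ ∀ b, φ b = b → ∀ t, H b t = b := by
  let G : C(closedDisc n × unitInterval, closedDisc n) :=
    ⟨fun p => ⟨(1 - (p.2 : ℝ)) • (p.1 : Fin n → ℝ) + (p.2 : ℝ) • (φ p.1 : Fin n → ℝ),
      convex_closedDisc n p.1.2 (φ p.1).2 (by linarith [p.2.2.2]) p.2.2.1 (by ring)⟩, by
      apply Continuous.subtype_mk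
      fun_prop⟩
  refine ⟨G.curry, ?_, ?_, ?_⟩
  · intro b
    apply Subtype.ext
    change (1 - ((0 : unitInterval) : ℝ)) • (b : Fin n → ℝ) +
      ((0 : unitInterval) : ℝ) • (φ b : Fin n → ℝ) = b
    simp
  · intro b
    apply Subtype.ext
    change (1 - ((1 : unitInterval) : ℝ)) • (b : Fin n → ℝ) +
      ((1 : unitInterval) : ℝ) • (φ b : Fin n → ℝ) = φ b
    simp
  · intro b hb t
    apply Subtype.ext
    change (1 - (t : ℝ)) • (b : Fin n → ℝ) + (t : ℝ) • (φ b : Fin n → ℝ) = b
    rw [hb, ← add_smul]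
    simp

theorem homotopy_of_homeo {B : Type} [TopologicalSpace B] {n : ℕ} (e : B ≃ₜ closedDisc n)
    (φ : C(B, B)) : ∃ H : C(B, C(unitInterval, B)), (∀ b, H b 0 = b) ∧
      (∀ b, H b 1 = φ b) ∧ ∀ b, φ b = b → ∀ t, H b t = b := by
  let e1 : C(B, closedDisc n) := ⟨e, e.continuous⟩
  let e2 : C(closedDisc n, B) := ⟨e.symm, e.symm.continuous⟩
  obtain ⟨H, h0, h1, hf⟩ := closedDisc_homotopy n (e1.comp (φ.comp e2))
  refine ⟨(⟨fun ψ => e2.comp ψ, ContinuousMap.continuous_postcomp e2⟩ :
    C(C(unitInterval, closedDisc n), C(unitInterval, B))).comp (H.comp e1), ?_, ?_, ?_⟩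
  · intro b
    change e.symm (H (e b) 0) = b
    rw [h0, e.symm_apply_apply]
  · intro b
    change e.symm (H (e b) 1) = φ b
    rw [h1]
    change e.symm (e (φ (e.symm (e b)))) = φ b
    rw [e.symm_apply_apply, e.symm_apply_apply]
  · intro b hb t
    change e.symm (H (e b) t) = b
    rw [hf, e.symm_apply_apply]
    change e (φ (e.symm (e b))) = e b
    rw [e.symm_apply_apply, hb]

theorem init_mem_closedDisc {n : ℕ} {z : Fin (n + 1) → ℝ} (hz : z ∈ closedDisc (n + 1)) :
    (Fin.init z : Fin n → ℝ) ∈ closedDisc n := by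
  change ∑ i, (z (Fin.castSucc i)) ^ 2 ≤ 1
  have h : ∑ i, z i ^ 2 ≤ 1 := hz
  rw [Fin.sum_univ_castSucc] at h
  nlinarith [sq_nonneg (z (Fin.last n))]

namespace DiscFunctor

variable {E : GlobExt} (D : DiscFunctor E)

/-- the value of a disc functor on a globular sum, as a type -/
abbrev sp (S : Obj) : Type := (D.F.obj ⟨S⟩).toTop

/-- the continuous map induced by a morphism -/
def mp {S T : Obj} (f : E.Hom S T) : C(D.sp S, D.sp T) :=
  (D.F.map (X := ⟨S⟩) (Y := ⟨T⟩) f).hom.hom

theorem mp_id (S : Obj) (x : D.sp S) : D.mp (E.id S) x = x :=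
  ConcreteCategory.congr_hom (D.F.map_id ⟨S⟩) x

theorem mp_comp {S T U : Obj} (f : E.Hom S T) (g : E.Hom T U) (x : D.sp S) :
    D.mp (E.comp f g) x = D.mp g (D.mp f x) :=
  ConcreteCategory.congr_hom (D.F.map_comp (X := ⟨S⟩) (Y := ⟨T⟩) (Z := ⟨U⟩) f g) x

theorem hemi_mp (n : ℕ) (ε : Bool) (x : D.sp (.D n)) :
    ((D.homeo (n + 1) (D.mp (E.J (bd₀ (Nat.lt_succ_self n) ε)) x) : closedDisc (n + 1)) :
      Fin (n + 1) → ℝ) = Vale.Agent.P259.hemi ε (D.homeo n x : Fin n → ℝ) := D.hemi n ε x

theorem mp_bd_bd {l m n : ℕ} (h : l < m) (h' : m < n) (ε ε' : Bool) (x : D.sp (.D l)) :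
    D.mp (E.J (bd₀ (h.trans h') ε)) x = D.mp (E.J (bd₀ h' ε')) (D.mp (E.J (bd₀ h ε)) x) := by
  rw [← D.mp_comp, ← E.J_comp (S := .D l) (T := .D m) (U := .D n), bd₀_bd₀]

theorem exists_retraction {j : ℕ} (ε : Bool) : ∀ {i : ℕ} (h : j < i),
    ∃ r : C(D.sp (.D i), D.sp (.D j)), ∀ x, r (D.mp (E.J (bd₀ h ε)) x) = x := by
  have one : ∀ (n : ℕ) (ε : Bool), ∃ r : C(D.sp (.D (n + 1)), D.sp (.D n)),
      ∀ x, r (D.mp (E.J (bd₀ (Nat.lt_succ_self n) ε)) x) = x := by
    intro n ε
    refine ⟨⟨fun z => (D.homeo n).symm ⟨Fin.init (D.homeo (n + 1) z : Fin (n + 1) → ℝ),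
      init_mem_closedDisc (D.homeo (n + 1) z).2⟩, ?_⟩, ?_⟩
    · apply (D.homeo n).symm.continuous.comp
      apply Continuous.subtype_mk
      have h1 : Continuous (fun z : D.sp (.D (n + 1)) =>
          (D.homeo (n + 1) z : Fin (n + 1) → ℝ)) :=
        continuous_subtype_val.comp (D.homeo (n + 1)).continuous
      exact continuous_pi fun i => (continuous_apply (Fin.castSucc i)).comp h1
    · intro x
      change (D.homeo n).symm ⟨Fin.init (D.homeo (n + 1)
        (D.mp (E.J (bd₀ (Nat.lt_succ_self n) ε)) x) : Fin (n + 1) → ℝ), _⟩ = x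
      rw [Homeomorph.symm_apply_eq]
      apply Subtype.ext
      change Fin.init (D.homeo (n + 1)
        (D.mp (E.J (bd₀ (Nat.lt_succ_self n) ε)) x) : Fin (n + 1) → ℝ) = _
      rw [D.hemi_mp, Vale.Agent.P259.hemi, Fin.init_snoc]
  intro i
  induction i with
  | zero => intro h; exact absurd h (Nat.not_lt_zero _)
  | succ m ih =>
    intro h
    rcases Nat.lt_succ_iff_lt_or_eq.1 h with h' | rfl
    · obtain ⟨r, hr⟩ := ih h'
      obtain ⟨r', hr'⟩ := one m false
      refine ⟨r.comp r', ?_⟩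
      intro x
      rw [D.mp_bd_bd h' (Nat.lt_succ_self m) ε false, ContinuousMap.comp_apply, hr', hr]
    · exact one j ε

theorem isPushout_top {i j k : ℕ} (hi : j < i) (hk : j < k) (t : Tab k) :
    IsPushout (C := TopCat.{0})
      (TopCat.ofHom (D.mp (E.J (bd₀ hi true))))
      (TopCat.ofHom (D.mp (E.comp (E.J (bd₀ hk false)) (E.J (first₀ t)))))
      (TopCat.ofHom (D.mp (E.J (inl₀ hi hk t))))
      (TopCat.ofHom (D.mp (E.J (inr₀ hi hk t)))) :=
  isPushout_toTop (D.glue hi hk t)

theorem contractible_tab : ∀ {i : ℕ} (t : Tab i), ContractibleSpace (D.sp ⟨i, t⟩)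
  | i, .disc _ => by
    have : ContractibleSpace (closedDisc i) :=
      (convex_closedDisc i).contractibleSpace ⟨0, by simp [closedDisc]⟩
    exact (D.homeo i).contractibleSpace
  | i, .glue hi hk t => by
    have := contractible_tab t
    obtain ⟨r, hr⟩ := D.exists_retraction true hi
    obtain ⟨H, h0, h1, hf⟩ := homotopy_of_homeo (D.homeo i)
      ((D.mp (E.J (bd₀ hi true))).comp r)
    refine contractible_pushout (D.isPushout_top hi hk t) (TopCat.ofHom r) H h0 h1 ?_ hr
    intro a s
    apply hf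
    change D.mp (E.J (bd₀ hi true)) (r (D.mp (E.J (bd₀ hi true)) a)) = _
    rw [hr]
    rfl

theorem contractible (S : Obj) : ContractibleSpace (D.sp S) := D.contractible_tab S.tab

/-- the values of a disc functor are weakly contractible -/
theorem wcontr (S : Obj) : WContr (univ : Set (D.sp S)) := by
  have := D.contractible S
  exact wcontr_of_contractible _

end DiscFunctor

end Vale.Agent.P259
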