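import Vale.Agent.Lib.P259.Charts
namespace Vale.Agent.P259
open Set Topology
variable {X Y Z B : Type*} [TopologicalSpace X] [TopologicalSpace Y] [TopologicalSpace Z]

/-! ## T1b : two-out-of-three (file TwoOfThree.lean) -/

/-! ### Basic facts on cubes -/

theorem tt_bdry_subset (n : ℕ) : bdry n ⊆ cube n := fun _ hx => hx.1

theorem tt_isClosed_cube (n : ℕ) : IsClosed (cube n) := isClosed_Icc

theorem tt_isClosed_uI : IsClosed uI := isClosed_Icc

theorem tt_zero_mem : (0 : ℝ) ∈ uI := ⟨le_refl _, zero_le_one⟩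

theorem tt_one_mem : (1 : ℝ) ∈ uI := ⟨zero_le_one, le_refl _⟩

theorem tt_isClosed_bdry (n : ℕ) : IsClosed (bdry n) := by
  have h : bdry n = cube n ∩ ⋃ i : Fin n, ({x | x i = 0} ∪ {x | x i = 1}) := by
    ext x
    simp only [bdry, mem_ofPred_eq, mem_inter_iff, mem_iUnion, mem_union]
  rw [h]
  apply (tt_isClosed_cube n).inter
  apply isClosed_iUnion_of_finite
  intro i
  apply IsClosed.union
  · exact isClosed_eq (continuous_apply i) continuous_const
  · exact isClosed_eq (continuous_apply i) continuous_const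

/-- the level map -/
theorem tt_level {P : Type*} [TopologicalSpace P] {S : Set P} {G : P × ℝ → Y}
    (hG : ContinuousOn G (S ×ˢ uI)) {t : ℝ} (ht : t ∈ uI) :
    ContinuousOn (fun x => G (x, t)) S := by
  apply hG.comp
  · exact (continuous_id.prodMk continuous_const).continuousOn
  · intro x hx
    exact ⟨hx, ht⟩

/-- concatenation of homotopies -/
theorem tt_concat {P : Type*} [TopologicalSpace P] {S : Set P} (hS : IsClosed S)
    {G H : P × ℝ → Y} (hG : ContinuousOn G (S ×ˢ uI)) (hH : ContinuousOn H (S ×ˢ uI))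
    (hGH : ∀ x ∈ S, G (x, 1) = H (x, 0)) :
    ContinuousOn (fun z : P × ℝ => if z.2 ≤ 1 / 2 then G (z.1, 2 * z.2)
      else H (z.1, 2 * z.2 - 1)) (S ×ˢ uI) := by
  have hU : S ×ˢ uI = S ×ˢ Icc (0 : ℝ) (1 / 2) ∪ S ×ˢ Icc (1 / 2 : ℝ) 1 := by
    rw [← prod_union, Icc_union_Icc_eq_Icc (by norm_num) (by norm_num)]
    rfl
  rw [hU]
  apply ContinuousOn.union_of_isClosed _ _ (hS.prod isClosed_Icc) (hS.prod isClosed_Icc)
  · have h1 : ContinuousOn (fun z : P × ℝ => G (z.1, 2 * z.2)) (S ×ˢ Icc (0 : ℝ) (1 / 2)) := by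
      apply hG.comp (t := S ×ˢ uI)
      · fun_prop
      · intro z hz
        refine ⟨hz.1, ?_, ?_⟩
        · have := hz.2.1
          show (0 : ℝ) ≤ 2 * z.2
          linarith
        · have := hz.2.2
          show 2 * z.2 ≤ (1 : ℝ)
          linarith
    apply h1.congr
    intro z hz
    exact if_pos hz.2.2
  · have h1 : ContinuousOn (fun z : P × ℝ => H (z.1, 2 * z.2 - 1))
        (S ×ˢ Icc (1 / 2 : ℝ) 1) := by
      apply hH.comp (t := S ×ˢ uI)
      · fun_prop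
      · intro z hz
        refine ⟨hz.1, ?_, ?_⟩
        · have := hz.2.1
          show (0 : ℝ) ≤ 2 * z.2 - 1
          linarith
        · have := hz.2.2
          show 2 * z.2 - 1 ≤ (1 : ℝ)
          linarith
    apply h1.congr
    intro z hz
    show (if z.2 ≤ 1 / 2 then G (z.1, 2 * z.2) else H (z.1, 2 * z.2 - 1)) = H (z.1, 2 * z.2 - 1)
    split_ifs with h2
    · have h3 : z.2 = 1 / 2 := le_antisymm h2 hz.2.1
      rw [h3]
      have h4 : (2 : ℝ) * (1 / 2) = 1 := by norm_num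
      rw [h4, sub_self]
      exact hGH z.1 hz.1
    · rfl

/-- gluing over the base and the side walls of a prism -/
theorem tt_glue {n : ℕ} {u : (Fin n → ℝ) → Y} {k : (Fin n → ℝ) × ℝ → Y}
    (hu : ContinuousOn u (cube n)) (hk : ContinuousOn k (bdry n ×ˢ uI))
    (huk : ∀ x ∈ bdry n, k (x, 0) = u x) :
    ContinuousOn (fun z : (Fin n → ℝ) × ℝ => if z.2 = 0 then u z.1 else k z)
      (cube n ×ˢ {0} ∪ bdry n ×ˢ uI) := by
  apply ContinuousOn.union_of_isClosed _ _ ((tt_isClosed_cube n).prod isClosed_singleton)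
    ((tt_isClosed_bdry n).prod tt_isClosed_uI)
  · have h1 : ContinuousOn (fun z : (Fin n → ℝ) × ℝ => u z.1) (cube n ×ˢ ({0} : Set ℝ)) := by
      apply hu.comp continuous_fst.continuousOn
      intro z hz
      exact hz.1
    apply h1.congr
    intro z hz
    exact if_pos hz.2
  · apply hk.congr
    intro z hz
    show (if z.2 = 0 then u z.1 else k z) = k z
    split_ifs with h2
    · rw [← huk z.1 hz.1, ← h2]
    · rfl

/-- homotopy extension, base and side walls given separately -/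
theorem tt_hep {n : ℕ} {u : (Fin n → ℝ) → Y} {k : (Fin n → ℝ) × ℝ → Y}
    (hu : ContinuousOn u (cube n)) (hk : ContinuousOn k (bdry n ×ˢ uI))
    (huk : ∀ x ∈ bdry n, k (x, 0) = u x) :
    ∃ G : (Fin n → ℝ) × ℝ → Y, ContinuousOn G (cube n ×ˢ uI) ∧ (∀ x ∈ cube n, G (x, 0) = u x) ∧
      EqOn G k (bdry n ×ˢ uI) := by
  obtain ⟨G, hG, hGE, _⟩ := hep n _ (tt_glue hu hk huk)
  refine ⟨G, hG, fun x hx => ?_, fun z hz => ?_⟩
  · have h3 : (x, (0 : ℝ)) ∈ cube n ×ˢ ({0} : Set ℝ) ∪ bdry n ×ˢ uI := Or.inl ⟨hx, rfl⟩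
    rw [hGE h3]
    exact if_pos rfl
  · rw [hGE (Or.inr hz)]
    show (if z.2 = 0 then u z.1 else k z) = k z
    split_ifs with h2
    · rw [← huk z.1 hz.1, ← h2]
    · rfl

/-- two homotopies with the same start and the same side walls have ends that are homotopic
relative to the boundary -/
theorem tt_correct {n : ℕ} {G₁ G₂ : (Fin n → ℝ) × ℝ → Y}
    (h₁ : ContinuousOn G₁ (cube n ×ˢ uI)) (h₂ : ContinuousOn G₂ (cube n ×ˢ uI))
    (h0 : ∀ x ∈ cube n, G₁ (x, 0) = G₂ (x, 0)) (hE : EqOn G₁ G₂ (bdry n ×ˢ uI)) :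
    ∃ K : (Fin n → ℝ) × ℝ → Y, ContinuousOn K (cube n ×ˢ uI) ∧
      (∀ x ∈ cube n, K (x, 0) = G₁ (x, 1)) ∧ (∀ x ∈ cube n, K (x, 1) = G₂ (x, 1)) ∧
      (∀ x ∈ bdry n, ∀ t ∈ uI, K (x, t) = G₂ (x, 1)) := by
  have hcc := tt_isClosed_cube n
  have hcb := tt_isClosed_bdry n
  have hcu := tt_isClosed_uI
  let F : (Fin n → ℝ) × ℝ × ℝ → Y := fun z =>
    if z.2.1 = 0 then G₁ (z.1, z.2.2) else G₂ (z.1, z.2.2)
  have hp : ContinuousOn (fun z : (Fin n → ℝ) × ℝ × ℝ => (z.1, z.2.2)) univ := by fun_prop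
  have hF0 : ContinuousOn F (cube n ×ˢ uI ×ˢ {0}) := by
    have h1 : ContinuousOn (fun z : (Fin n → ℝ) × ℝ × ℝ => G₁ (z.1, z.2.2))
        (cube n ×ˢ uI ×ˢ {0}) := by
      apply h₁.comp (hp.mono (subset_univ _))
      intro z hz
      have h3 : z.2.2 = 0 := hz.2.2
      refine ⟨hz.1, ?_⟩
      show z.2.2 ∈ uI
      rw [h3]
      exact tt_zero_mem
    apply h1.congr
    intro z hz
    have h3 : z.2.2 = 0 := hz.2.2
    show (if z.2.1 = 0 then G₁ (z.1, z.2.2) else G₂ (z.1, z.2.2)) = G₁ (z.1, z.2.2)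
    split_ifs
    · rfl
    · rw [h3, h0 z.1 hz.1]
  have hF1 : ContinuousOn F (cube n ×ˢ {0} ×ˢ uI) := by
    have h1 : ContinuousOn (fun z : (Fin n → ℝ) × ℝ × ℝ => G₁ (z.1, z.2.2))
        (cube n ×ˢ {0} ×ˢ uI) := by
      apply h₁.comp (hp.mono (subset_univ _))
      intro z hz
      exact ⟨hz.1, hz.2.2⟩
    apply h1.congr
    intro z hz
    exact if_pos hz.2.1
  have hF2 : ContinuousOn F (cube n ×ˢ {1} ×ˢ uI) := by
    have h1 : ContinuousOn (fun z : (Fin n → ℝ) × ℝ × ℝ => G₂ (z.1, z.2.2))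
        (cube n ×ˢ {1} ×ˢ uI) := by
      apply h₂.comp (hp.mono (subset_univ _))
      intro z hz
      exact ⟨hz.1, hz.2.2⟩
    apply h1.congr
    intro z hz
    have h3 : z.2.1 = 1 := hz.2.1
    apply if_neg
    rw [h3]
    norm_num
  have hF3 : ContinuousOn F (bdry n ×ˢ uI ×ˢ uI) := by
    have h1 : ContinuousOn (fun z : (Fin n → ℝ) × ℝ × ℝ => G₂ (z.1, z.2.2))
        (bdry n ×ˢ uI ×ˢ uI) := by
      apply h₂.comp (hp.mono (subset_univ _))
      intro z hz
      exact ⟨hz.1.1, hz.2.2⟩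
    apply h1.congr
    intro z hz
    show (if z.2.1 = 0 then G₁ (z.1, z.2.2) else G₂ (z.1, z.2.2)) = G₂ (z.1, z.2.2)
    split_ifs
    · exact hE ⟨hz.1, hz.2.2⟩
    · rfl
  have hF12 : ContinuousOn F (cube n ×ˢ {0, 1} ×ˢ uI) := by
    have h4 : cube n ×ˢ ({0, 1} : Set ℝ) ×ˢ uI
        = cube n ×ˢ ({0} : Set ℝ) ×ˢ uI ∪ cube n ×ˢ ({1} : Set ℝ) ×ˢ uI := by
      rw [← prod_union, ← union_prod, singleton_union]
    rw [h4]
    exact hF1.union_of_isClosed hF2 (hcc.prod (isClosed_singleton.prod hcu))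
      (hcc.prod (isClosed_singleton.prod hcu))
  have hcl01 : IsClosed ({0, 1} : Set ℝ) := (Set.toFinite _).isClosed
  have hF : ContinuousOn F
      (cube n ×ˢ uI ×ˢ {0} ∪ cube n ×ˢ {0, 1} ×ˢ uI ∪ bdry n ×ˢ uI ×ˢ uI) := by
    apply ContinuousOn.union_of_isClosed _ hF3
    · exact (hcc.prod (hcu.prod isClosed_singleton)).union (hcc.prod (hcl01.prod hcu))
    · exact hcb.prod (hcu.prod hcu)
    · exact hF0.union_of_isClosed hF12 (hcc.prod (hcu.prod isClosed_singleton))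
        (hcc.prod (hcl01.prod hcu))
  obtain ⟨G, hG, hGE, _⟩ := hep_prism n F hF
  refine ⟨fun z => G (z.1, z.2, 1), ?_, ?_, ?_, ?_⟩
  · apply hG.comp (t := cube n ×ˢ uI ×ˢ uI)
    · fun_prop
    · intro z hz
      exact ⟨hz.1, hz.2, tt_one_mem⟩
  · intro x hx
    have h3 : G (x, 0, 1) = F (x, 0, 1) :=
      hGE (Or.inl (Or.inr ⟨hx, Or.inl rfl, tt_one_mem⟩))
    show G (x, 0, 1) = _
    rw [h3]
    exact if_pos rfl
  · intro x hx
    have h3 : G (x, 1, 1) = F (x, 1, 1) :=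
      hGE (Or.inl (Or.inr ⟨hx, Or.inr rfl, tt_one_mem⟩))
    show G (x, 1, 1) = _
    rw [h3]
    exact if_neg (by norm_num)
  · intro x hx t ht
    have h3 : G (x, t, 1) = F (x, t, 1) := hGE (Or.inr ⟨hx, ht, tt_one_mem⟩)
    show G (x, t, 1) = _
    rw [h3]
    show (if t = 0 then G₁ (x, 1) else G₂ (x, 1)) = G₂ (x, 1)
    split_ifs
    · exact hE ⟨hx, tt_one_mem⟩
    · rfl

/-! ### Prisms and the `n+1`-cube -/

/-- the identification of `(Fin n → ℝ) × ℝ` with `Fin (n + 1) → ℝ` -/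
def ttJoin (n : ℕ) (z : (Fin n → ℝ) × ℝ) : Fin (n + 1) → ℝ := Fin.snoc (α := fun _ => ℝ) z.1 z.2

/-- its inverse -/
def ttSplit (n : ℕ) (y : Fin (n + 1) → ℝ) : (Fin n → ℝ) × ℝ :=
  (fun i => y i.castSucc, y (Fin.last n))

theorem tt_split_join (n : ℕ) (z : (Fin n → ℝ) × ℝ) : ttSplit n (ttJoin n z) = z := by
  unfold ttSplit ttJoin
  ext
  · simp
  · simp

theorem tt_join_split (n : ℕ) (y : Fin (n + 1) → ℝ) : ttJoin n (ttSplit n y) = y := by
  funext i
  unfold ttSplit ttJoin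
  refine Fin.lastCases ?_ (fun j => ?_) i
  · simp
  · simp

theorem tt_continuous_join (n : ℕ) : Continuous (ttJoin n) := by
  rw [continuous_pi_iff]
  intro i
  unfold ttJoin
  refine Fin.lastCases ?_ (fun j => ?_) i
  · simp only [Fin.snoc_last]
    exact continuous_snd
  · simp only [Fin.snoc_castSucc]
    exact (continuous_apply j).comp continuous_fst

theorem tt_continuous_split (n : ℕ) : Continuous (ttSplit n) := by
  unfold ttSplit
  fun_prop

theorem tt_join_mem_cube (n : ℕ) (z : (Fin n → ℝ) × ℝ) :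
    ttJoin n z ∈ cube (n + 1) ↔ z ∈ cube n ×ˢ uI := by
  unfold cube uI
  simp only [mem_Icc, Pi.le_def, Pi.zero_apply, Pi.one_apply, mem_prod]
  rw [Fin.forall_fin_succ', Fin.forall_fin_succ']
  unfold ttJoin
  simp only [Fin.snoc_castSucc, Fin.snoc_last]
  tauto

theorem tt_join_mem_bdry (n : ℕ) (z : (Fin n → ℝ) × ℝ) :
    ttJoin n z ∈ bdry (n + 1) ↔ z ∈ cube n ×ˢ {0, 1} ∪ bdry n ×ˢ uI := by
  have h1 : ttJoin n z ∈ bdry (n + 1)
      ↔ ttJoin n z ∈ cube (n + 1) ∧ ∃ i, ttJoin n z i = 0 ∨ ttJoin n z i = 1 := Iff.rfl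
  rw [h1, tt_join_mem_cube, Fin.exists_fin_succ']
  unfold ttJoin
  simp only [Fin.snoc_castSucc, Fin.snoc_last]
  constructor
  · rintro ⟨⟨h2, h3⟩, h4 | h4⟩
    · exact Or.inr ⟨⟨h2, h4⟩, h3⟩
    · exact Or.inl ⟨h2, h4⟩
  · rintro (⟨h2, h3⟩ | ⟨h2, h3⟩)
    · refine ⟨⟨h2, ?_⟩, Or.inr h3⟩
      rcases h3 with h3 | h3
      · rw [h3]
        exact tt_zero_mem
      · rw [h3]
        exact tt_one_mem
    · exact ⟨⟨h2.1, h3⟩, Or.inl h2.2⟩

/-- the condition `WE (n+1)` for prisms -/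
theorem tt_WE_prism {n : ℕ} {g : Y → Z} (h : WE (n + 1) g) (F : (Fin n → ℝ) × ℝ → Y)
    (c : (Fin n → ℝ) × ℝ → Z) (hF : ContinuousOn F (cube n ×ˢ {0, 1} ∪ bdry n ×ˢ uI))
    (hc : ContinuousOn c (cube n ×ˢ uI))
    (hFc : ∀ z ∈ cube n ×ˢ {0, 1} ∪ bdry n ×ˢ uI, g (F z) = c z) :
    ∃ K : (Fin n → ℝ) × ℝ → Y, ContinuousOn K (cube n ×ˢ uI) ∧
      EqOn K F (cube n ×ˢ {0, 1} ∪ bdry n ×ˢ uI) := by
  obtain ⟨a', H, ha', haE, _⟩ := h (fun y => F (ttSplit n y)) (fun y => c (ttSplit n y))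
    (by
      apply hF.comp (tt_continuous_split n).continuousOn
      intro y hy
      rw [← tt_join_mem_bdry, tt_join_split]
      exact hy)
    (by
      apply hc.comp (tt_continuous_split n).continuousOn
      intro y hy
      rw [← tt_join_mem_cube, tt_join_split]
      exact hy)
    (by
      intro y hy
      apply hFc
      rw [← tt_join_mem_bdry, tt_join_split]
      exact hy)
  refine ⟨fun z => a' (ttJoin n z), ?_, ?_⟩
  · apply ha'.comp (tt_continuous_join n).continuousOn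
    intro z hz
    rw [tt_join_mem_cube]
    exact hz
  · intro z hz
    have h2 : ttJoin n z ∈ bdry (n + 1) := (tt_join_mem_bdry n z).2 hz
    show a' (ttJoin n z) = F z
    rw [haE h2]
    show F (ttSplit n (ttJoin n z)) = F z
    rw [tt_split_join]

/-- gluing over the boundary of a prism -/
theorem tt_glue_prism {n : ℕ} {u v : (Fin n → ℝ) → Y} {k : (Fin n → ℝ) × ℝ → Y}
    (hu : ContinuousOn u (cube n)) (hv : ContinuousOn v (cube n))
    (hk : ContinuousOn k (bdry n ×ˢ uI))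
    (huk : ∀ x ∈ bdry n, k (x, 0) = u x) (hvk : ∀ x ∈ bdry n, k (x, 1) = v x) :
    ContinuousOn (fun z : (Fin n → ℝ) × ℝ => if z.2 = 0 then u z.1 else
      if z.2 = 1 then v z.1 else k z) (cube n ×ˢ {0, 1} ∪ bdry n ×ˢ uI) := by
  have h0 : cube n ×ˢ ({0, 1} : Set ℝ) ∪ bdry n ×ˢ uI
      = cube n ×ˢ ({1} : Set ℝ) ∪ (cube n ×ˢ ({0} : Set ℝ) ∪ bdry n ×ˢ uI) := by
    rw [← union_assoc, ← prod_union, union_comm {1} {0}, singleton_union]
  rw [h0]
  apply ContinuousOn.union_of_isClosed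
  · have h1 : ContinuousOn (fun z : (Fin n → ℝ) × ℝ => v z.1) (cube n ×ˢ ({1} : Set ℝ)) := by
      apply hv.comp continuous_fst.continuousOn
      intro z hz
      exact hz.1
    apply h1.congr
    intro z hz
    have h3 : z.2 = 1 := hz.2
    show (if z.2 = 0 then u z.1 else if z.2 = 1 then v z.1 else k z) = v z.1
    rw [if_neg (by rw [h3]; norm_num), if_pos h3]
  · apply (tt_glue hu hk huk).congr
    intro z hz
    show (if z.2 = 0 then u z.1 else if z.2 = 1 then v z.1 else k z)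
      = if z.2 = 0 then u z.1 else k z
    split_ifs with h4 h5
    · rfl
    · rcases hz with hz | hz
      · exact absurd hz.2 h4
      · rw [← hvk z.1 hz.1, ← h5]
    · rfl
  · exact (tt_isClosed_cube n).prod isClosed_singleton
  · exact ((tt_isClosed_cube n).prod isClosed_singleton).union
      ((tt_isClosed_bdry n).prod tt_isClosed_uI)

/-- cellular approximation of a map on the boundary along a weak equivalence -/
theorem we_lift_bdry' [hX : Nonempty X] {n : ℕ} {f : X → Y} (hfc : Continuous f)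
    (hf : ∀ n, WE n f) (b : (Fin n → ℝ) → Y)
    (hb : ContinuousOn b (bdry n)) : ∃ (a : (Fin n → ℝ) → X) (h : (Fin n → ℝ) × ℝ → Y),
      ContinuousOn a (bdry n) ∧ ContinuousOn h (bdry n ×ˢ uI) ∧
      (∀ x ∈ bdry n, h (x, 0) = f (a x)) ∧ (∀ x ∈ bdry n, h (x, 1) = b x) := by
  classical
  obtain ⟨x₀⟩ := hX
  have hcube : ∀ x : Fin n → ℝ, x ∈ bdry n ↔ ∃ e ∈ Cell.L n 1, x ∈ e.cl := by
    intro x
    rw [← Cell.mem_bdry_iff]
    unfold bdry cube
    simp only [Nat.cast_one, mem_ofPred_eq]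
    rfl
  have hLK : Cell.L n 1 ⊆ Cell.K n 1 := fun e he => he.1
  have hbU : bdry n = ⋃ e ∈ Cell.L n 1, e.cl := by
    ext x
    rw [hcube]
    simp
  let S : Cell n → ((Fin n → ℝ) → X × (ℝ → Y)) → Prop := fun e F =>
    ContinuousOn (fun x => (F x).1) e.cl ∧
    ContinuousOn (fun z : (Fin n → ℝ) × ℝ => (F z.1).2 z.2) (e.cl ×ˢ uI) ∧
    (∀ x ∈ e.cl, (F x).2 0 = f (F x).1) ∧ (∀ x ∈ e.cl, (F x).2 1 = b x)
  have key := Cell.induction (T := X × (ℝ → Y)) (Cell.L n 1) ∅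
    (fun e he e' h => Cell.L_face he h) (fun e he => absurd he (notMem_empty e)) S
    (by
      rintro e F G hFG ⟨h1, h2, h3, h4⟩
      refine ⟨?_, ?_, ?_, ?_⟩
      · apply h1.congr
        intro x hx
        show (G x).1 = (F x).1
        rw [hFG hx]
      · apply h2.congr
        intro z hz
        show (G z.1).2 z.2 = (F z.1).2 z.2
        rw [hFG hz.1]
      · intro x hx
        rw [← hFG hx]
        exact h3 x hx
      · intro x hx
        rw [← hFG hx]
        exact h4 x hx)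
    (fun _ => (x₀, fun _ => f x₀)) (fun e he => absurd he (notMem_empty e))
    (by
      intro e he _ F hF
      set C' : Set (Cell n) := {e' | e' ≠ e ∧ e'.cl ⊆ e.cl} with hC'
      have hC'K : C' ⊆ Cell.K n 1 := fun e' he' => Cell.K_face (hLK he) he'.2
      have hU : (⋃ e' ∈ C', e'.cl) = e.bd := by
        ext x
        rw [Cell.mem_bd_iff]
        simp only [mem_iUnion, exists_prop, hC', mem_ofPred_eq]
        constructor
        · rintro ⟨e', ⟨h1, h2⟩, h3⟩
          exact ⟨e', h1, h2, h3⟩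
        · rintro ⟨e', h1, h2, h3⟩
          exact ⟨e', ⟨h1, h2⟩, h3⟩
      have hbdcl : e.bd ⊆ e.cl := fun x hx => hx.1
      have hclb : e.cl ⊆ bdry n := fun x hx => (hcube x).2 ⟨e, he, hx⟩
      have ha : ContinuousOn (fun x => (F x).1) e.bd := by
        rw [← hU]
        exact Cell.continuousOn_of_cells' 1 C' hC'K _ (fun e' he' => (hF e' he'.1 he'.2).1)
      have hk : ContinuousOn (fun z : (Fin n → ℝ) × ℝ => (F z.1).2 z.2) (e.bd ×ˢ uI) := by
        rw [← hU]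
        exact Cell.continuousOn_of_cells 1 C' hC'K uI _
          (fun e' he' => (hF e' he'.1 he'.2).2.1)
      have hk0 : ∀ x ∈ e.bd, (F x).2 0 = f (F x).1 := by
        intro x hx
        obtain ⟨e', h1, h2, h3⟩ := (Cell.mem_bd_iff e x).1 hx
        exact (hF e' h1 h2).2.2.1 x h3
      have hk1 : ∀ x ∈ e.bd, (F x).2 1 = b x := by
        intro x hx
        obtain ⟨e', h1, h2, h3⟩ := (Cell.mem_bd_iff e x).1 hx
        exact (hF e' h1 h2).2.2.2 x h3
      obtain ⟨a', H, ha', haE, hH, hH0, hH1, hHE⟩ := Cell.we_cell e hfc (hf e.F.card)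
        (fun x => (F x).1) b (fun z => (F z.1).2 z.2) ha (hb.mono hclb) hk hk0 hk1
      refine ⟨fun x => if x ∈ e.bd then F x else (a' x, fun t => H (x, t)), ?_, ?_, ?_, ?_, ?_⟩
      · intro x hx
        exact if_pos hx
      · apply ha'.congr
        intro x hx
        show (if x ∈ e.bd then F x else (a' x, fun t => H (x, t))).1 = a' x
        split_ifs with h
        · exact (haE h).symm
        · rfl
      · apply hH.congr
        intro z hz
        show (if z.1 ∈ e.bd then F z.1 else (a' z.1, fun t => H (z.1, t))).2 z.2 = H z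
        split_ifs with h
        · exact (hHE ⟨h, hz.2⟩).symm
        · rfl
      · intro x hx
        show (if x ∈ e.bd then F x else (a' x, fun t => H (x, t))).2 0
          = f (if x ∈ e.bd then F x else (a' x, fun t => H (x, t))).1
        split_ifs with h
        · exact hk0 x h
        · exact hH0 x hx
      · intro x hx
        show (if x ∈ e.bd then F x else (a' x, fun t => H (x, t))).2 1 = b x
        split_ifs with h
        · exact hk1 x h
        · exact hH1 x hx)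
  obtain ⟨G, hG, _⟩ := key
  refine ⟨fun x => (G x).1, fun z => (G z.1).2 z.2, ?_, ?_, ?_, ?_⟩
  · rw [hbU]
    exact Cell.continuousOn_of_cells' 1 _ hLK _ (fun e he => (hG e he).1)
  · rw [hbU]
    exact Cell.continuousOn_of_cells 1 _ hLK uI _ (fun e he => (hG e he).2.1)
  · intro x hx
    obtain ⟨e, he, hxe⟩ := (hcube x).1 hx
    exact (hG e he).2.2.1 x hxe
  · intro x hx
    obtain ⟨e, he, hxe⟩ := (hcube x).1 hx
    exact (hG e he).2.2.2 x hxe

/-! ### The two-out-of-three property, for the conditions `WE n` -/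

theorem tt_comp {g : Y → Z} {f : X → Y} (hgc : Continuous g) (hfc : Continuous f) {n : ℕ}
    (hg : WE n g) (hf : WE n f) : WE n (g ∘ f) := by
  intro a c ha hc hac
  obtain ⟨b', H, hb', hbE, hH, hH0, hH1, hHb⟩ := hg (fun x => f (a x)) c
    (hfc.comp_continuousOn ha) hc hac
  obtain ⟨a', H', ha', haE, hH', hH'0, hH'1, hH'b⟩ := hf a b' ha hb'
    (fun x hx => (hbE hx).symm)
  refine ⟨a', fun z => if z.2 ≤ 1 / 2 then g (H' (z.1, 2 * z.2)) else H (z.1, 2 * z.2 - 1),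
    ha', haE, ?_, ?_, ?_, ?_⟩
  · refine tt_concat (G := fun z => g (H' z)) (H := H) (tt_isClosed_cube n)
      (hgc.comp_continuousOn hH') hH (fun x hx => ?_)
    show g (H' (x, 1)) = H (x, 0)
    rw [hH'1 x hx, hH0 x hx]
  · intro x hx
    show (if (0 : ℝ) ≤ 1 / 2 then g (H' (x, 2 * 0)) else H (x, 2 * 0 - 1)) = g (f (a' x))
    rw [if_pos (by norm_num), mul_zero, hH'0 x hx]
  · intro x hx
    show (if (1 : ℝ) ≤ 1 / 2 then g (H' (x, 2 * 1)) else H (x, 2 * 1 - 1)) = c x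
    rw [if_neg (by norm_num)]
    have h4 : (2 : ℝ) * 1 - 1 = 1 := by norm_num
    rw [h4, hH1 x hx]
  · intro x hx t ht
    show (if t ≤ 1 / 2 then g (H' (x, 2 * t)) else H (x, 2 * t - 1)) = c x
    split_ifs with h
    · have h2 : (2 * t) ∈ uI := ⟨by have := ht.1; linarith, by linarith⟩
      rw [hH'b x hx _ h2, hbE hx]
      exact hac x hx
    · have h2 : (2 * t - 1) ∈ uI :=
        ⟨by have := not_le.1 h; linarith, by have := ht.2; linarith⟩
      exact hHb x hx _ h2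

theorem tt_of_comp_left {g : Y → Z} {f : X → Y} (hfc : Continuous f) {n : ℕ}
    (hg : WE (n + 1) g) (hgc : Continuous g) (hgf : WE n (g ∘ f)) : WE n f := by
  intro a b ha hb hab
  obtain ⟨a', H, ha', haE, hH, hH0, hH1, hHb⟩ := hgf a (fun x => g (b x)) ha
    (hgc.comp_continuousOn hb) (fun x hx => by
      show g (f (a x)) = g (b x)
      rw [hab x hx])
  have hk : ContinuousOn (fun z : (Fin n → ℝ) × ℝ => b z.1) (bdry n ×ˢ uI) := by
    apply hb.comp continuous_fst.continuousOn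
    intro z hz
    exact hz.1.1
  have hF := tt_glue_prism (n := n) (u := fun x => f (a' x)) (v := b) (k := fun z => b z.1)
    (hfc.comp_continuousOn ha') hb hk
    (fun x hx => by
      show b x = f (a' x)
      rw [haE hx, hab x hx])
    (fun x hx => rfl)
  obtain ⟨K, hK, hKE⟩ := tt_WE_prism hg _ H hF hH (by
    intro z hz
    show g (if z.2 = 0 then f (a' z.1) else if z.2 = 1 then b z.1 else b z.1) = H z
    rcases hz with hz | hz
    · split_ifs with h1
      · have h2 := hH0 z.1 hz.1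
        rw [← h1] at h2
        exact h2.symm
      · have h3 : z.2 = 1 := hz.2.resolve_left h1
        have h2 := hH1 z.1 hz.1
        rw [← h3] at h2
        exact h2.symm
      · have h3 : z.2 = 1 := hz.2.resolve_left h1
        have h2 := hH1 z.1 hz.1
        rw [← h3] at h2
        exact h2.symm
    · have h2 := hHb z.1 hz.1 z.2 hz.2
      split_ifs with h1
      · rw [haE hz.1, hab z.1 hz.1]
        exact h2.symm
      · exact h2.symm
      · exact h2.symm)
  refine ⟨a', K, ha', haE, hK, ?_, ?_, ?_⟩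
  · intro x hx
    have h3 : (x, (0 : ℝ)) ∈ cube n ×ˢ ({0, 1} : Set ℝ) ∪ bdry n ×ˢ uI :=
      Or.inl ⟨hx, Or.inl rfl⟩
    rw [hKE h3]
    exact if_pos rfl
  · intro x hx
    have h3 : (x, (1 : ℝ)) ∈ cube n ×ˢ ({0, 1} : Set ℝ) ∪ bdry n ×ˢ uI :=
      Or.inl ⟨hx, Or.inr rfl⟩
    rw [hKE h3]
    show (if (1 : ℝ) = 0 then f (a' x) else if (1 : ℝ) = 1 then b x else b x) = b x
    rw [if_neg (by norm_num), if_pos rfl]
  · intro x hx t ht
    have h3 : (x, t) ∈ cube n ×ˢ ({0, 1} : Set ℝ) ∪ bdry n ×ˢ uI := Or.inr ⟨hx, ht⟩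
    rw [hKE h3]
    show (if t = 0 then f (a' x) else if t = 1 then b x else b x) = b x
    split_ifs
    · rw [haE hx, hab x hx]
    · rfl
    · rfl

theorem tt_of_comp_right [Nonempty X] {g : Y → Z} {f : X → Y} (hgc : Continuous g)
    (hfc : Continuous f) (hf : ∀ n, WE n f) {n : ℕ} (hgf : WE n (g ∘ f)) : WE n g := by
  intro b c hb hc hbc
  obtain ⟨a, h, ha, hh, hh0, hh1⟩ := we_lift_bdry' hfc hf b hb
  obtain ⟨a', H, ha', haE, hH, hH0, hH1, hHE⟩ := WE.relaxed (hgc.comp hfc) hgf a c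
    (fun z => g (h z)) ha hc (hgc.comp_continuousOn hh)
    (fun x hx => by
      show g (h (x, 0)) = g (f (a x))
      rw [hh0 x hx])
    (fun x hx => by
      show g (h (x, 1)) = c x
      rw [hh1 x hx, hbc x hx])
  obtain ⟨G, hG, hG0, hGE⟩ := tt_hep (u := fun x => f (a' x)) (k := h)
    (hfc.comp_continuousOn ha') hh (fun x hx => by
      show h (x, 0) = f (a' x)
      rw [hh0 x hx, haE hx])
  obtain ⟨K, hK, hK0, hK1, hKb⟩ := tt_correct (G₁ := fun z => g (G z)) (G₂ := H)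
    (hgc.comp_continuousOn hG) hH
    (fun x hx => by
      show g (G (x, 0)) = H (x, 0)
      rw [hG0 x hx, hH0 x hx]
      rfl)
    (fun z hz => by
      show g (G z) = H z
      rw [hGE hz, hHE hz])
  refine ⟨fun x => G (x, 1), K, tt_level hG tt_one_mem, ?_, hK, hK0, ?_, ?_⟩
  · intro x hx
    show G (x, 1) = b x
    have h3 : (x, (1 : ℝ)) ∈ bdry n ×ˢ uI := ⟨hx, tt_one_mem⟩
    rw [hGE h3, hh1 x hx]
  · intro x hx
    rw [hK1 x hx, hH1 x hx]
  · intro x hx t ht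
    rw [hKb x hx t ht, hH1 x hx.1]

theorem tt_of_homotopy {f g : X → Y} (hfc : Continuous f) {n : ℕ} (hf : WE n f)
    (H : X × ℝ → Y)
    (hH : ContinuousOn H (univ ×ˢ uI)) (h0 : ∀ x, H (x, 0) = f x) (h1 : ∀ x, H (x, 1) = g x) :
    WE n g := by
  intro a b ha hb hab
  have hk : ContinuousOn (fun z : (Fin n → ℝ) × ℝ => H (a z.1, z.2)) (bdry n ×ˢ uI) := by
    apply hH.comp (t := univ ×ˢ uI)
    · exact (ha.comp continuous_fst.continuousOn (fun z hz => hz.1)).prodMk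
        continuous_snd.continuousOn
    · intro z hz
      exact ⟨mem_univ _, hz.2⟩
  obtain ⟨a', H', ha', haE, hH', hH'0, hH'1, hHE⟩ := WE.relaxed hfc hf a b
    (fun z => H (a z.1, z.2)) ha hb hk (fun x hx => h0 (a x))
    (fun x hx => by
      show H (a x, 1) = b x
      rw [h1, hab x hx])
  have hG : ContinuousOn (fun z : (Fin n → ℝ) × ℝ => H (a' z.1, z.2)) (cube n ×ˢ uI) := by
    apply hH.comp (t := univ ×ˢ uI)
    · exact (ha'.comp continuous_fst.continuousOn (fun _ hz => hz.1)).prodMk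
        continuous_snd.continuousOn
    · intro z hz
      exact ⟨mem_univ _, hz.2⟩
  obtain ⟨K, hK, hK0, hK1, hKb⟩ := tt_correct (G₁ := fun z => H (a' z.1, z.2)) (G₂ := H')
    hG hH'
    (fun x hx => by
      show H (a' x, 0) = H' (x, 0)
      rw [h0, hH'0 x hx])
    (fun z hz => by
      show H (a' z.1, z.2) = H' z
      rw [hHE hz, haE hz.1])
  refine ⟨a', K, ha', haE, hK, ?_, ?_, ?_⟩
  · intro x hx
    rw [hK0 x hx]
    exact h1 (a' x)
  · intro x hx
    rw [hK1 x hx, hH'1 x hx]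
  · intro x hx t ht
    rw [hKb x hx t ht, hH'1 x hx.1]

theorem tt_continuous_of_homotopy {g : X → Y} (H : X × ℝ → Y)
    (hH : ContinuousOn H (univ ×ˢ uI)) (h1 : ∀ x, H (x, 1) = g x) : Continuous g := by
  have h2 := tt_level hH tt_one_mem
  rw [continuousOn_univ] at h2
  have h3 : (fun x => H (x, 1)) = g := funext h1
  rwa [h3] at h2

theorem tt_ext_of_WE {f : X → Y} (hfc : Continuous f) {n : ℕ} (hf : WE n f)
    (h : Ext n (univ : Set Y)) : Ext n (univ : Set X) := by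
  intro a ha _
  obtain ⟨b, hb, _, hbE⟩ := h (fun x => f (a x)) (hfc.comp_continuousOn ha)
    (fun _ _ => mem_univ _)
  obtain ⟨a', H, ha', haE, _⟩ := hf a b ha hb (fun x hx => (hbE hx).symm)
  exact ⟨a', ha', fun _ _ => mem_univ _, haE⟩

theorem tt_ext_of_WE' [Nonempty X] {f : X → Y} (hfc : Continuous f) (hf : ∀ n, WE n f) {n : ℕ}
    (h : Ext n (univ : Set X)) : Ext n (univ : Set Y) := by
  intro b hb _
  obtain ⟨a, k, ha, hk, hk0, hk1⟩ := we_lift_bdry' hfc hf b hb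
  obtain ⟨a', ha', _, haE⟩ := h a ha (fun _ _ => mem_univ _)
  obtain ⟨G, hG, hG0, hGE⟩ := tt_hep (u := fun x => f (a' x)) (k := k)
    (hfc.comp_continuousOn ha') hk (fun x hx => by
      show k (x, 0) = f (a' x)
      rw [hk0 x hx, haE hx])
  refine ⟨fun x => G (x, 1), tt_level hG tt_one_mem, fun _ _ => mem_univ _, ?_⟩
  intro x hx
  show G (x, 1) = b x
  have h3 : (x, (1 : ℝ)) ∈ bdry n ×ˢ uI := ⟨hx, tt_one_mem⟩
  rw [hGE h3, hk1 x hx]

theorem tt_const_homotopy {n : ℕ} {b : (Fin n → ℝ) → Y} (hb : ContinuousOn b (cube n)) :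
    ContinuousOn (fun z : (Fin n → ℝ) × ℝ => b z.1) (cube n ×ˢ uI) :=
  hb.comp continuous_fst.continuousOn (fun _ hz => hz.1)

theorem tt_WE_homeomorph (f : X ≃ₜ Y) (n : ℕ) : WE n (f : X → Y) := by
  intro a b ha hb hab
  refine ⟨fun x => f.symm (b x), fun z => b z.1, f.symm.continuous.comp_continuousOn hb, ?_,
    tt_const_homotopy hb, ?_, fun x hx => rfl, fun x hx t ht => rfl⟩
  · intro x hx
    show f.symm (b x) = a x
    rw [← hab x hx, f.symm_apply_apply]
  · intro x hx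
    show b x = f (f.symm (b x))
    rw [f.apply_symm_apply]

theorem tt_WE_of_wcontr {f : X → Y} (hf : Continuous f) {n : ℕ} (hX : Ext n (univ : Set X))
    (hY : Ext (n + 1) (univ : Set Y)) : WE n f := by
  intro a b ha hb hab
  obtain ⟨a', ha', _, haE⟩ := hX a ha (fun _ _ => mem_univ _)
  have hk : ContinuousOn (fun z : (Fin n → ℝ) × ℝ => b z.1) (bdry n ×ˢ uI) :=
    (tt_const_homotopy hb).mono (prod_mono (tt_bdry_subset n) (subset_refl _))
  have hF := tt_glue_prism (n := n) (u := fun x => f (a' x)) (v := b) (k := fun z => b z.1)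
    (hf.comp_continuousOn ha') hb hk
    (fun x hx => by
      show b x = f (a' x)
      rw [haE hx, hab x hx])
    (fun x hx => rfl)
  obtain ⟨K, hK, _, hKE⟩ := Ext.prism hY _ hF (fun _ _ => mem_univ _)
  refine ⟨a', K, ha', haE, hK, ?_, ?_, ?_⟩
  · intro x hx
    have h3 : (x, (0 : ℝ)) ∈ cube n ×ˢ ({0, 1} : Set ℝ) ∪ bdry n ×ˢ uI :=
      Or.inl ⟨hx, Or.inl rfl⟩
    rw [hKE h3]
    exact if_pos rfl
  · intro x hx
    have h3 : (x, (1 : ℝ)) ∈ cube n ×ˢ ({0, 1} : Set ℝ) ∪ bdry n ×ˢ uI :=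
      Or.inl ⟨hx, Or.inr rfl⟩
    rw [hKE h3]
    show (if (1 : ℝ) = 0 then f (a' x) else if (1 : ℝ) = 1 then b x else b x) = b x
    rw [if_neg (by norm_num), if_pos rfl]
  · intro x hx t ht
    have h3 : (x, t) ∈ cube n ×ˢ ({0, 1} : Set ℝ) ∪ bdry n ×ˢ uI := Or.inr ⟨hx, ht⟩
    rw [hKE h3]
    show (if t = 0 then f (a' x) else if t = 1 then b x else b x) = b x
    split_ifs
    · rw [haE hx, hab x hx]
    · rfl
    · rfl

/-! ### The final statements -/

/-- cellular approximation of a map on the boundary along a weak equivalence -/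
theorem we_lift_bdry {n : ℕ} {f : X → Y} (hf : IsWE f) (b : (Fin n → ℝ) → Y)
    (hb : ContinuousOn b (bdry n)) : ∃ (a : (Fin n → ℝ) → X) (h : (Fin n → ℝ) × ℝ → Y),
      ContinuousOn a (bdry n) ∧ ContinuousOn h (bdry n ×ˢ uI) ∧
      (∀ x ∈ bdry n, h (x, 0) = f (a x)) ∧ (∀ x ∈ bdry n, h (x, 1) = b x) := by
  haveI : Nonempty X := hf.2.1 ⟨b 0⟩
  exact we_lift_bdry' hf.1 hf.2.2 b hb

theorem IsWE.comp {g : Y → Z} {f : X → Y} (hg : IsWE g) (hf : IsWE f) : IsWE (g ∘ f) :=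
  ⟨hg.1.comp hf.1, fun h => hf.2.1 (hg.2.1 h), fun n => tt_comp hg.1 hf.1 (hg.2.2 n) (hf.2.2 n)⟩

theorem IsWE.of_comp_left {g : Y → Z} {f : X → Y} (hf : Continuous f) (hg : IsWE g)
    (hgf : IsWE (g ∘ f)) : IsWE f :=
  ⟨hf, fun ⟨y⟩ => hgf.2.1 ⟨g y⟩,
    fun n => tt_of_comp_left hf (hg.2.2 (n + 1)) hg.1 (hgf.2.2 n)⟩

theorem IsWE.of_comp_right {g : Y → Z} {f : X → Y} (hg : Continuous g) (hf : IsWE f)
    (hgf : IsWE (g ∘ f)) : IsWE g := by
  refine ⟨hg, fun h => ?_, fun n => ?_⟩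
  · obtain ⟨x⟩ := hgf.2.1 h
    exact ⟨f x⟩
  · intro b
    haveI : Nonempty X := hf.2.1 ⟨b 0⟩
    exact tt_of_comp_right hg hf.1 hf.2.2 (hgf.2.2 n) b

theorem IsWE.of_homotopy {f g : X → Y} (hf : IsWE f) (H : X × ℝ → Y)
    (hH : ContinuousOn H (univ ×ˢ uI)) (h0 : ∀ x, H (x, 0) = f x) (h1 : ∀ x, H (x, 1) = g x) :
    IsWE g :=
  ⟨tt_continuous_of_homotopy H hH h1, hf.2.1,
    fun n => tt_of_homotopy hf.1 (hf.2.2 n) H hH h0 h1⟩

theorem IsWE.ext_iff {f : X → Y} (hf : IsWE f) (n : ℕ) :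
    Ext n (univ : Set X) ↔ Ext n (univ : Set Y) := by
  constructor
  · intro h b
    haveI : Nonempty X := hf.2.1 ⟨b 0⟩
    exact tt_ext_of_WE' hf.1 hf.2.2 h b
  · exact tt_ext_of_WE hf.1 (hf.2.2 n)

theorem IsWE.of_homeomorph (f : X ≃ₜ Y) : IsWE f :=
  ⟨f.continuous, fun ⟨y⟩ => ⟨f.symm y⟩, fun n => tt_WE_homeomorph f n⟩

theorem IsWE.id : IsWE (id : X → X) := IsWE.of_homeomorph (Homeomorph.refl X)

/-- a map between weakly contractible spaces is a weak equivalence -/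
theorem IsWE.of_wcontr {f : X → Y} (hf : Continuous f)
    (hX : WContr (univ : Set X)) (hY : WContr (univ : Set Y)) : IsWE f :=
  ⟨hf, fun _ => ⟨hX.1.some⟩, fun n => tt_WE_of_wcontr hf (hX.2 n) (hY.2 (n + 1))⟩

end Vale.Agent.P259
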