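import Vale.Agent.Lib.P259.Defs
import Vale.Agent.Lib.P259.TwoOfThree
/-!
# P259, module D1: geometry of the closed discs, hemispheres and suspensions.
(`closedDisc n = {x | ∑ x_i² ≤ 1}`, `hemi` are in Defs.lean.)
-/
namespace Vale.Agent.P259
open Set Topology
variable {X Y Z P : Type*} [TopologicalSpace X] [TopologicalSpace Y] [TopologicalSpace Z]
  [TopologicalSpace P]

/-- the unit sphere (empty for `n = 0`) -/
def sph (n : ℕ) : Set (Fin n → ℝ) := {x | ∑ i, x i ^ 2 = 1}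

/-! ### auxiliary topology -/

/-- continuity on a set covered by two closed sets -/
theorem DG_continuousOn_of_closed_cover {A B : Type*} [TopologicalSpace A] [TopologicalSpace B]
    {f : A → B} {s U V : Set A} (hU : IsClosed U) (hV : IsClosed V) (h : s ⊆ U ∪ V)
    (hfU : ContinuousOn f (s ∩ U)) (hfV : ContinuousOn f (s ∩ V)) : ContinuousOn f s := by
  have key : ∀ {W : Set A}, IsClosed W → ContinuousOn f (s ∩ W) → ∀ x ∈ s,
      ContinuousWithinAt f (s ∩ W) x := by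
    intro W hW hf x hx
    by_cases hxW : x ∈ W
    · exact hf x ⟨hx, hxW⟩
    · refine continuousWithinAt_of_notMem_closure fun hcon => hxW ?_
      exact hW.closure_subset (closure_mono inter_subset_right hcon)
  intro x hx
  have h1 : s = (s ∩ U) ∪ (s ∩ V) := by
    rw [← inter_union_distrib_left]; exact (inter_eq_self_of_subset_left h).symm
  rw [h1]
  exact (key hU hfU x hx).union (key hV hfV x hx)

/-- descent along a surjection from a compact set -/
theorem DG_desc_compact {A B : Type*} [TopologicalSpace A] [TopologicalSpace B] [T2Space B]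
    [Nonempty A] {K : Set A} (hK : IsCompact K) {L : Set B} {q : A → B} (hq : ContinuousOn q K)
    (hm : MapsTo q K L) (hs : SurjOn q K L) (Γ : A → X) (hΓ : ContinuousOn Γ K)
    (hc : ∀ a ∈ K, ∀ b ∈ K, q a = q b → Γ a = Γ b) :
    ∃ g : B → X, ContinuousOn g L ∧ ∀ a ∈ K, g (q a) = Γ a := by
  classical
  obtain ⟨a₀⟩ := ‹Nonempty A›
  set g : B → X := fun b => if h : ∃ a ∈ K, q a = b then Γ h.choose else Γ a₀ with hg
  have hgq : ∀ a ∈ K, g (q a) = Γ a := by
    intro a ha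
    have h : ∃ a' ∈ K, q a' = q a := ⟨a, ha, rfl⟩
    simp only [hg, dif_pos h]
    exact hc _ h.choose_spec.1 _ ha h.choose_spec.2
  refine ⟨g, ?_, hgq⟩
  have : CompactSpace K := isCompact_iff_compactSpace.1 hK
  set q' : K → L := fun a => ⟨q a.1, hm a.2⟩ with hq'
  have hcont : Continuous q' := by
    refine Continuous.subtype_mk ?_ _
    exact continuousOn_iff_continuous_domRestrict.1 hq
  have hsurj : Function.Surjective q' := by
    rintro ⟨b, hb⟩
    obtain ⟨a, ha, hab⟩ := hs hb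
    exact ⟨⟨a, ha⟩, Subtype.ext hab⟩
  have hquot : IsQuotientMap q' := hcont.isClosedMap.isQuotientMap hcont hsurj
  rw [continuousOn_iff_continuous_domRestrict, hquot.continuous_iff]
  have : (L.domRestrict g) ∘ q' = K.domRestrict Γ := by
    funext a
    exact hgq a.1 a.2
  rw [this]
  exact continuousOn_iff_continuous_domRestrict.1 hΓ

/-! ### discs -/

theorem DG_continuous_sumsq (n : ℕ) : Continuous (fun x : Fin n → ℝ => ∑ i, x i ^ 2) := by
  fun_prop

theorem DG_sumsq_nonneg {n : ℕ} (x : Fin n → ℝ) : 0 ≤ ∑ i, x i ^ 2 :=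
  Finset.sum_nonneg fun _ _ => sq_nonneg _

theorem DG_closedDisc_eq (n : ℕ) : closedDisc n =
    (EuclideanSpace.equiv (Fin n) ℝ).symm ⁻¹' Metric.closedBall 0 1 := by
  ext x
  simp [closedDisc, EuclideanSpace.norm_eq]

theorem DG_sph_eq (n : ℕ) : sph n =
    (EuclideanSpace.equiv (Fin n) ℝ).symm ⁻¹' Metric.sphere 0 1 := by
  ext x
  simp [sph, EuclideanSpace.norm_eq, Real.sqrt_eq_one]

theorem DG_isClosed_closedDisc (n : ℕ) : IsClosed (closedDisc n) :=
  isClosed_le (DG_continuous_sumsq n) continuous_const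

theorem DG_closedDisc_subset (n : ℕ) : closedDisc n ⊆ Icc (-1) 1 := by
  intro x hx
  have h : ∀ i, x i ^ 2 ≤ 1 := fun i =>
    (Finset.single_le_sum (f := fun i => x i ^ 2) (fun _ _ => sq_nonneg _)
      (Finset.mem_univ i)).trans hx
  exact ⟨fun i => by have := h i; simp only [Pi.neg_apply, Pi.one_apply]; nlinarith,
    fun i => by have := h i; simp only [Pi.one_apply]; nlinarith⟩

theorem isCompact_closedDisc (n : ℕ) : IsCompact (closedDisc n) :=
  isCompact_Icc.of_isClosed_subset (DG_isClosed_closedDisc n) (DG_closedDisc_subset n)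

theorem sph_subset (n : ℕ) : sph n ⊆ closedDisc n := fun _ hx => le_of_eq hx

theorem DG_cube_eq (n : ℕ) : cube n = Set.pi univ (fun _ => Icc (0 : ℝ) 1) := by
  rw [cube, ← Set.pi_univ_Icc]
  rfl

theorem DG_isClosed_cube (n : ℕ) : IsClosed (cube n) := isClosed_Icc

theorem DG_frontier_cube (n : ℕ) : frontier (cube n) = bdry n := by
  rw [(DG_isClosed_cube n).frontier_eq, DG_cube_eq, interior_pi_set finite_univ]
  ext x
  simp only [interior_Icc, mem_sdiff, mem_pi, mem_univ, forall_const, bdry, mem_ofPred_eq,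
    DG_cube_eq]
  constructor
  · rintro ⟨h1, h2⟩
    refine ⟨h1, ?_⟩
    push Not at h2
    obtain ⟨i, hi⟩ := h2
    refine ⟨i, ?_⟩
    have h3 := h1 i
    by_contra hcon
    push Not at hcon
    exact hi ⟨lt_of_le_of_ne h3.1 (Ne.symm hcon.1), lt_of_le_of_ne h3.2 hcon.2⟩
  · rintro ⟨h1, i, hi⟩
    refine ⟨h1, fun h2 => ?_⟩
    rcases hi with hi | hi
    · exact absurd (h2 i).1 (by rw [hi]; exact lt_irrefl _)
    · exact absurd (h2 i).2 (by rw [hi]; exact lt_irrefl _)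

theorem DG_frontier_disc (n : ℕ) : frontier (closedDisc n) = sph n := by
  rw [DG_closedDisc_eq, DG_sph_eq]
  have h := (EuclideanSpace.equiv (Fin n) ℝ).symm.toHomeomorph.preimage_frontier
    (Metric.closedBall 0 1)
  rw [frontier_closedBall _ one_ne_zero] at h
  exact h.symm

/-- the pair `(cube, boundary)` is homeomorphic to `(disc, sphere)` by a homeomorphism of `ℝⁿ`
(for instance via `gaugeRescaleHomeomorph`) -/
theorem exists_disc_homeo (n : ℕ) : ∃ h : (Fin n → ℝ) ≃ₜ (Fin n → ℝ),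
    h '' cube n = closedDisc n ∧ h '' bdry n = sph n := by
  have h1 : (interior (cube n)).Nonempty := by
    rw [DG_cube_eq, interior_pi_set finite_univ]
    refine ⟨fun _ => 1 / 2, fun i _ => ?_⟩
    rw [interior_Icc]
    constructor <;> norm_num
  have h2 : (interior (closedDisc n)).Nonempty := by
    refine ⟨0, ?_⟩
    rw [mem_interior]
    refine ⟨{x | ∑ i, x i ^ 2 < 1}, ?_,
      isOpen_lt (DG_continuous_sumsq n) continuous_const, ?_⟩
    · intro x hx
      exact le_of_lt (show ∑ i, x i ^ 2 < 1 from hx)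
    · show ∑ i, (0 : Fin n → ℝ) i ^ 2 < 1
      simp
  have h3 : Convex ℝ (closedDisc n) := by
    rw [DG_closedDisc_eq]
    exact (convex_closedBall (0 : EuclideanSpace ℝ (Fin n)) 1).is_linear_preimage
      (EuclideanSpace.equiv (Fin n) ℝ).symm.toLinearEquiv.toLinearMap.isLinear
  obtain ⟨e, -, he2, he3⟩ := exists_homeomorph_image_eq (convex_Icc (0 : Fin n → ℝ) 1)
    h1 (NormedSpace.isVonNBounded_of_isBounded ℝ (isCompact_Icc (a := (0 : Fin n → ℝ))).isBounded)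
    h3 h2 (NormedSpace.isVonNBounded_of_isBounded ℝ (isCompact_closedDisc n).isBounded)
  refine ⟨e, ?_, ?_⟩
  · have := he2
    rw [(DG_isClosed_closedDisc n).closure_eq] at this
    rw [← this]
    congr 1
    exact (DG_isClosed_cube n).closure_eq.symm
  · rw [← DG_frontier_disc, ← he3, ← DG_frontier_cube]
    rfl

/-! ### hemispheres -/
theorem continuous_hemi (n : ℕ) (ε : Bool) : Continuous (hemi ε : (Fin n → ℝ) → _) := by
  refine continuous_pi fun i => ?_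
  refine Fin.lastCases ?_ (fun i => ?_) i
  · simp only [hemi, Fin.snoc_last]
    cases ε
    · simp only [Bool.false_eq_true, if_false]; fun_prop
    · simp only [if_true]; fun_prop
  · simp only [hemi, Fin.snoc_castSucc]
    fun_prop

/-- the last coordinate of `hemi` -/
noncomputable def DG_last {n : ℕ} (ε : Bool) (x : Fin n → ℝ) : ℝ :=
  if ε then Real.sqrt (1 - ∑ i, x i ^ 2) else -Real.sqrt (1 - ∑ i, x i ^ 2)

theorem DG_last_sq {n : ℕ} (ε : Bool) {x : Fin n → ℝ} (hx : x ∈ closedDisc n) :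
    DG_last ε x ^ 2 = 1 - ∑ i, x i ^ 2 := by
  have h : 0 ≤ 1 - ∑ i, x i ^ 2 := sub_nonneg.2 hx
  cases ε <;> simp [DG_last, Real.sq_sqrt h]

theorem DG_hemi_def {n : ℕ} (ε : Bool) (x : Fin n → ℝ) : hemi ε x = Fin.snoc x (DG_last ε x) :=
  rfl

theorem DG_hemi_last {n : ℕ} (ε : Bool) (x : Fin n → ℝ) :
    hemi ε x (Fin.last n) = DG_last ε x := by
  rw [DG_hemi_def, Fin.snoc_last]

theorem DG_hemi_castSucc {n : ℕ} (ε : Bool) (x : Fin n → ℝ) (i : Fin n) :
    hemi ε x i.castSucc = x i := by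
  rw [DG_hemi_def, Fin.snoc_castSucc]

theorem DG_sum_hemi {n : ℕ} (ε : Bool) (x : Fin n → ℝ) :
    ∑ i, hemi ε x i ^ 2 = ∑ i, x i ^ 2 + DG_last ε x ^ 2 := by
  rw [Fin.sum_univ_castSucc, DG_hemi_last]
  simp only [DG_hemi_castSucc]

theorem hemi_mem {n : ℕ} (ε : Bool) {x : Fin n → ℝ} (hx : x ∈ closedDisc n) :
    hemi ε x ∈ sph (n + 1) := by
  show ∑ i, hemi ε x i ^ 2 = 1
  rw [DG_sum_hemi, DG_last_sq ε hx]
  ring

theorem DG_init_mem {n : ℕ} {z : Fin (n + 1) → ℝ} (hz : z ∈ sph (n + 1)) :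
    (fun i : Fin n => z i.castSucc) ∈ closedDisc n := by
  have h : ∑ i, z i ^ 2 = 1 := hz
  rw [Fin.sum_univ_castSucc] at h
  show ∑ i : Fin n, z i.castSucc ^ 2 ≤ 1
  nlinarith [sq_nonneg (z (Fin.last n))]

theorem DG_hemi_init_true {n : ℕ} {z : Fin (n + 1) → ℝ} (hz : z ∈ sph (n + 1))
    (h0 : 0 ≤ z (Fin.last n)) : hemi true (fun i : Fin n => z i.castSucc) = z := by
  have h : ∑ i, z i ^ 2 = 1 := hz
  rw [Fin.sum_univ_castSucc] at h
  funext i
  refine Fin.lastCases ?_ (fun i => ?_) i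
  · rw [DG_hemi_last]
    simp only [DG_last, if_true]
    rw [show 1 - ∑ i : Fin n, z i.castSucc ^ 2 = z (Fin.last n) ^ 2 by linarith,
      Real.sqrt_sq h0]
  · rw [DG_hemi_castSucc]

theorem DG_hemi_init_false {n : ℕ} {z : Fin (n + 1) → ℝ} (hz : z ∈ sph (n + 1))
    (h0 : z (Fin.last n) ≤ 0) : hemi false (fun i : Fin n => z i.castSucc) = z := by
  have h : ∑ i, z i ^ 2 = 1 := hz
  rw [Fin.sum_univ_castSucc] at h
  funext i
  refine Fin.lastCases ?_ (fun i => ?_) i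
  · rw [DG_hemi_last]
    simp only [DG_last, Bool.false_eq_true, if_false]
    rw [show 1 - ∑ i : Fin n, z i.castSucc ^ 2 = (-z (Fin.last n)) ^ 2 by
      rw [neg_sq]; linarith, Real.sqrt_sq (by linarith), neg_neg]
  · rw [DG_hemi_castSucc]

theorem exists_hemi {n : ℕ} {z : Fin (n + 1) → ℝ} (hz : z ∈ sph (n + 1)) :
    ∃ ε, ∃ x ∈ closedDisc n, hemi ε x = z := by
  rcases le_total 0 (z (Fin.last n)) with h0 | h0
  · exact ⟨true, _, DG_init_mem hz, DG_hemi_init_true hz h0⟩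
  · exact ⟨false, _, DG_init_mem hz, DG_hemi_init_false hz h0⟩

theorem hemi_inj {n : ℕ} {ε : Bool} {x y : Fin n → ℝ} (h : hemi ε x = hemi ε y) : x = y := by
  funext i
  have := congrFun h i.castSucc
  rwa [DG_hemi_castSucc, DG_hemi_castSucc] at this

theorem hemi_eq_iff {n : ℕ} {x y : Fin n → ℝ} (hx : x ∈ closedDisc n) (_hy : y ∈ closedDisc n) :
    hemi true x = hemi false y ↔ x = y ∧ x ∈ sph n := by
  constructor
  · intro h
    have hxy : x = y := by
      funext i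
      have := congrFun h i.castSucc
      rwa [DG_hemi_castSucc, DG_hemi_castSucc] at this
    subst hxy
    refine ⟨rfl, ?_⟩
    have h1 := congrFun h (Fin.last n)
    rw [DG_hemi_last, DG_hemi_last] at h1
    simp only [DG_last, if_true, Bool.false_eq_true, if_false] at h1
    have h2 : Real.sqrt (1 - ∑ i, x i ^ 2) = 0 := by linarith
    have h3 : 0 ≤ 1 - ∑ i, x i ^ 2 := sub_nonneg.2 hx
    rw [Real.sqrt_eq_zero h3] at h2
    show ∑ i, x i ^ 2 = 1
    linarith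
  · rintro ⟨rfl, hs⟩
    have h : ∑ i, x i ^ 2 = 1 := hs
    rw [DG_hemi_def, DG_hemi_def]
    simp [DG_last, h]

/-- gluing of maps defined on the two hemispheres, with parameters in `D ⊆ P` -/
theorem glue_hemi {n : ℕ} (D : Set P) (f : Bool → (Fin n → ℝ) × P → X)
    (hf : ∀ ε, ContinuousOn (f ε) (closedDisc n ×ˢ D))
    (h : ∀ x ∈ sph n, ∀ p ∈ D, f false (x, p) = f true (x, p)) :
    ∃ g : (Fin (n + 1) → ℝ) × P → X, ContinuousOn g (sph (n + 1) ×ˢ D) ∧
      ∀ ε, ∀ x ∈ closedDisc n, ∀ p ∈ D, g (hemi ε x, p) = f ε (x, p) := by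
  classical
  set π : (Fin (n + 1) → ℝ) × P → (Fin n → ℝ) × P := fun z => (fun i => z.1 i.castSucc, z.2)
    with hπ
  have hπc : Continuous π := by
    refine Continuous.prodMk ?_ continuous_snd
    exact continuous_pi fun i => (continuous_apply _).comp continuous_fst
  set g : (Fin (n + 1) → ℝ) × P → X := fun z =>
    if 0 ≤ z.1 (Fin.last n) then f true (π z) else f false (π z) with hg
  have hcl : Continuous fun z : (Fin (n + 1) → ℝ) × P => z.1 (Fin.last n) :=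
    (continuous_apply _).comp continuous_fst
  have hmaps : MapsTo π (sph (n + 1) ×ˢ D) (closedDisc n ×ˢ D) := by
    rintro ⟨z, p⟩ ⟨hz, hp⟩
    exact ⟨DG_init_mem hz, hp⟩
  have hgf : ∀ z ∈ sph (n + 1) ×ˢ D, z.1 (Fin.last n) ≤ 0 → g z = f false (π z) := by
    rintro ⟨z, p⟩ ⟨hz, hp⟩ hle
    simp only [hg]
    split_ifs with h0
    · have h1 : z (Fin.last n) = 0 := le_antisymm hle h0
      refine (h _ ?_ p hp).symm
      have h2 : ∑ i, z i ^ 2 = 1 := hz
      rw [Fin.sum_univ_castSucc, h1] at h2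
      show ∑ i : Fin n, z i.castSucc ^ 2 = 1
      simpa using h2
    · rfl
  have hgt : ∀ z : (Fin (n + 1) → ℝ) × P, 0 ≤ z.1 (Fin.last n) → g z = f true (π z) := by
    intro z h0
    simp only [hg, if_pos h0]
  refine ⟨g, ?_, ?_⟩
  · refine DG_continuousOn_of_closed_cover (U := {z | 0 ≤ z.1 (Fin.last n)})
      (V := {z | z.1 (Fin.last n) ≤ 0}) (isClosed_le continuous_const hcl)
      (isClosed_le hcl continuous_const) (fun z _ => le_total 0 (z.1 (Fin.last n))) ?_ ?_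
    · refine (((hf true).comp hπc.continuousOn (hmaps.mono_left inter_subset_left))).congr ?_
      rintro z ⟨-, hz⟩
      exact hgt z hz
    · refine (((hf false).comp hπc.continuousOn (hmaps.mono_left inter_subset_left))).congr ?_
      rintro z ⟨hz1, hz⟩
      exact hgf z hz1 hz
  · intro ε x hx p hp
    have hπh : π (hemi ε x, p) = (x, p) := by
      simp only [hπ, DG_hemi_castSucc]
    have hmem : (hemi ε x, p) ∈ sph (n + 1) ×ˢ D := ⟨hemi_mem ε hx, hp⟩
    cases ε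
    · have h1 : (hemi false x, p).1 (Fin.last n) ≤ 0 := by
        show hemi false x (Fin.last n) ≤ 0
        rw [DG_hemi_last]
        simp only [DG_last, Bool.false_eq_true, if_false]
        exact neg_nonpos.2 (Real.sqrt_nonneg _)
      rw [hgf _ hmem h1, hπh]
    · have h1 : 0 ≤ (hemi true x, p).1 (Fin.last n) := by
        show 0 ≤ hemi true x (Fin.last n)
        rw [DG_hemi_last]
        simp only [DG_last, if_true]
        exact Real.sqrt_nonneg _
      rw [hgt _ h1, hπh]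

theorem glue_hemi' {n : ℕ} (f : Bool → (Fin n → ℝ) → X)
    (hf : ∀ ε, ContinuousOn (f ε) (closedDisc n)) (h : ∀ x ∈ sph n, f false x = f true x) :
    ∃ g : (Fin (n + 1) → ℝ) → X, ContinuousOn g (sph (n + 1)) ∧
      ∀ ε, ∀ x ∈ closedDisc n, g (hemi ε x) = f ε x := by
  obtain ⟨g, hg, hg2⟩ := glue_hemi (P := Unit) univ (fun ε z => f ε z.1)
    (fun ε => (hf ε).comp continuousOn_fst (fun z hz => hz.1)) (fun x hx _ _ => h x hx)
  refine ⟨fun x => g (x, ()), ?_, fun ε x hx => hg2 ε x hx () trivial⟩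
  exact hg.comp (by fun_prop) (fun x hx => ⟨hx, trivial⟩)

/-! ### suspension coordinates `D^n × [0,1] ⟶ D^{n+1}` -/

/-- `(y, t) ↦ (2t - 1, 2√(t(1-t)) y)` -/
noncomputable def susp {n : ℕ} (z : (Fin n → ℝ) × ℝ) : Fin (n + 1) → ℝ :=
  Fin.cons (2 * z.2 - 1) (fun i => 2 * Real.sqrt (z.2 * (1 - z.2)) * z.1 i)

theorem continuous_susp (n : ℕ) : Continuous (susp : (Fin n → ℝ) × ℝ → _) := by
  refine continuous_pi fun i => ?_
  refine Fin.cases ?_ (fun i => ?_) i
  · simp only [susp, Fin.cons_zero]; fun_prop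
  · simp only [susp, Fin.cons_succ]; fun_prop

theorem DG_susp_zero {n : ℕ} (z : (Fin n → ℝ) × ℝ) : susp z 0 = 2 * z.2 - 1 := rfl

theorem DG_susp_succ {n : ℕ} (z : (Fin n → ℝ) × ℝ) (i : Fin n) :
    susp z i.succ = 2 * Real.sqrt (z.2 * (1 - z.2)) * z.1 i := rfl

theorem DG_tt {t : ℝ} (ht : t ∈ uI) : 0 ≤ t * (1 - t) :=
  mul_nonneg ht.1 (sub_nonneg.2 ht.2)

theorem DG_sum_susp {n : ℕ} (y : Fin n → ℝ) {t : ℝ} (ht : t ∈ uI) :
    ∑ i, susp (y, t) i ^ 2 = 1 - 4 * (t * (1 - t)) * (1 - ∑ i, y i ^ 2) := by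
  rw [Fin.sum_univ_succ, DG_susp_zero]
  simp only [DG_susp_succ, mul_pow, Real.sq_sqrt (DG_tt ht)]
  rw [← Finset.mul_sum]
  ring

theorem susp_mem {n : ℕ} {y : Fin n → ℝ} {t : ℝ} (hy : y ∈ closedDisc n) (ht : t ∈ uI) :
    susp (y, t) ∈ closedDisc (n + 1) := by
  show ∑ i, susp (y, t) i ^ 2 ≤ 1
  rw [DG_sum_susp y ht]
  have h1 := DG_tt ht
  have h2 : 0 ≤ 1 - ∑ i, y i ^ 2 := sub_nonneg.2 hy
  nlinarith [mul_nonneg h1 h2]

theorem exists_susp {n : ℕ} {z : Fin (n + 1) → ℝ} (hz : z ∈ closedDisc (n + 1)) :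
    ∃ y ∈ closedDisc n, ∃ t ∈ uI, susp (y, t) = z := by
  have h : ∑ i, z i ^ 2 ≤ 1 := hz
  rw [Fin.sum_univ_succ] at h
  have hS : 0 ≤ ∑ i : Fin n, z i.succ ^ 2 := Finset.sum_nonneg fun _ _ => sq_nonneg _
  have h0 : z 0 ^ 2 ≤ 1 := by linarith
  have habs : -1 ≤ z 0 ∧ z 0 ≤ 1 := ⟨by nlinarith, by nlinarith⟩
  have ht : (z 0 + 1) / 2 ∈ uI := ⟨by linarith [habs.1], by linarith [habs.2]⟩
  have htt : (z 0 + 1) / 2 * (1 - (z 0 + 1) / 2) = (1 - z 0 ^ 2) / 4 := by ring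
  have hnn : 0 ≤ 1 - z 0 ^ 2 := by linarith
  have hsq : 2 * Real.sqrt ((z 0 + 1) / 2 * (1 - (z 0 + 1) / 2)) = Real.sqrt (1 - z 0 ^ 2) := by
    rw [htt, Real.sqrt_div hnn, show (4 : ℝ) = 2 ^ 2 by norm_num, Real.sqrt_sq (by norm_num)]
    ring
  rcases eq_or_lt_of_le hnn with h1 | h1
  · have hS0 : ∑ i : Fin n, z i.succ ^ 2 = 0 := le_antisymm (by linarith) hS
    have hz0 : ∀ i : Fin n, z i.succ = 0 := by
      intro i
      have := (Finset.sum_eq_zero_iff_of_nonneg (fun _ _ => sq_nonneg _)).1 hS0 i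
        (Finset.mem_univ i)
      exact pow_eq_zero_iff (two_ne_zero) |>.1 this
    refine ⟨0, ?_, _, ht, ?_⟩
    · show ∑ i : Fin n, (0 : Fin n → ℝ) i ^ 2 ≤ 1
      simp
    · funext i
      refine Fin.cases ?_ (fun i => ?_) i
      · rw [DG_susp_zero]; ring
      · rw [DG_susp_succ, hz0]; simp
  · have hpos : 0 < Real.sqrt (1 - z 0 ^ 2) := Real.sqrt_pos.2 h1
    refine ⟨fun i => z i.succ / Real.sqrt (1 - z 0 ^ 2), ?_, _, ht, ?_⟩
    · show ∑ i : Fin n, (z i.succ / Real.sqrt (1 - z 0 ^ 2)) ^ 2 ≤ 1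
      simp only [div_pow, Real.sq_sqrt hnn]
      rw [← Finset.sum_div, div_le_one h1]
      linarith
    · funext i
      refine Fin.cases ?_ (fun i => ?_) i
      · rw [DG_susp_zero]; ring
      · rw [DG_susp_succ]
        simp only
        rw [hsq]
        field_simp

theorem susp_mem_sph_iff {n : ℕ} {y : Fin n → ℝ} {t : ℝ} (hy : y ∈ closedDisc n) (ht : t ∈ uI) :
    susp (y, t) ∈ sph (n + 1) ↔ y ∈ sph n ∨ t = 0 ∨ t = 1 := by
  have _ := hy
  show ∑ i, susp (y, t) i ^ 2 = 1 ↔ ∑ i, y i ^ 2 = 1 ∨ t = 0 ∨ t = 1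
  rw [DG_sum_susp y ht]
  constructor
  · intro h
    have h1 : (t * (1 - t)) * (1 - ∑ i, y i ^ 2) = 0 := by linarith
    rcases mul_eq_zero.1 h1 with h2 | h2
    · rcases mul_eq_zero.1 h2 with h3 | h3
      · exact Or.inr (Or.inl h3)
      · exact Or.inr (Or.inr (by linarith))
    · exact Or.inl (by linarith)
  · rintro (h | h | h)
    · rw [h]; ring
    · rw [h]; ring
    · rw [h]; ring

theorem susp_zero {n : ℕ} (y y' : Fin n → ℝ) : susp (y, 0) = susp (y', 0) := by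
  simp [susp]

theorem susp_one {n : ℕ} (y y' : Fin n → ℝ) : susp (y, 1) = susp (y', 1) := by
  simp [susp]

theorem susp_inj {n : ℕ} {y y' : Fin n → ℝ} {t t' : ℝ} (ht : t ∈ Set.Ioo (0 : ℝ) 1)
    (ht' : t' ∈ uI) (h : susp (y, t) = susp (y', t')) : y = y' ∧ t = t' := by
  have _ := ht'
  have h0 := congrFun h 0
  rw [DG_susp_zero, DG_susp_zero] at h0
  have htt : t = t' := by
    simp only at h0
    linarith
  subst htt
  refine ⟨?_, rfl⟩
  funext i
  have h1 := congrFun h i.succ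
  rw [DG_susp_succ, DG_susp_succ] at h1
  have h2 : 0 < 2 * Real.sqrt (t * (1 - t)) := by
    have : 0 < t * (1 - t) := mul_pos ht.1 (sub_pos.2 ht.2)
    positivity
  exact mul_left_cancel₀ h2.ne' h1

theorem hemi_susp {n : ℕ} (ε : Bool) {y : Fin n → ℝ} {t : ℝ} (hy : y ∈ closedDisc n)
    (ht : t ∈ uI) : hemi ε (susp (y, t)) = susp (hemi ε y, t) := by
  have h0 : 0 ≤ 1 - ∑ i, y i ^ 2 := sub_nonneg.2 hy
  have h1 : DG_last ε (susp (y, t)) = 2 * Real.sqrt (t * (1 - t)) * DG_last ε y := by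
    have h2 : Real.sqrt (1 - ∑ i, susp (y, t) i ^ 2) =
        2 * Real.sqrt (t * (1 - t)) * Real.sqrt (1 - ∑ i, y i ^ 2) := by
      rw [DG_sum_susp y ht, sub_sub_cancel, Real.sqrt_mul (by have := DG_tt ht; linarith),
        Real.sqrt_mul (by norm_num), show (4 : ℝ) = 2 ^ 2 by norm_num,
        Real.sqrt_sq (by norm_num)]
    cases ε
    · simp only [DG_last, Bool.false_eq_true, if_false]
      rw [h2]; ring
    · simp only [DG_last, if_true]
      rw [h2]
  funext i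
  refine Fin.lastCases ?_ (fun i => ?_) i
  · rw [DG_hemi_last, h1, ← Fin.succ_last, DG_susp_succ]
    simp only
    rw [DG_hemi_last]
  · rw [DG_hemi_castSucc]
    refine Fin.cases ?_ (fun i => ?_) i
    · rw [DG_susp_zero, Fin.castSucc_zero, DG_susp_zero]
    · rw [DG_susp_succ, ← Fin.succ_castSucc, DG_susp_succ]
      simp only
      rw [DG_hemi_castSucc]

/-- dimension `0`: `hemi false`, `hemi true` of the point are the two ends of the suspension -/
theorem hemi_zero (y x : Fin 0 → ℝ) :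
    hemi false x = susp (y, 0) ∧ hemi true x = susp (y, 1) := by
  constructor
  · funext i
    have hi : i = Fin.last 0 := Subsingleton.elim (α := Fin 1) _ _
    rw [hi, DG_hemi_last]
    have : susp (y, 0) (Fin.last 0) = 2 * (0 : ℝ) - 1 := rfl
    rw [this]
    simp [DG_last]
  · funext i
    have hi : i = Fin.last 0 := Subsingleton.elim (α := Fin 1) _ _
    rw [hi, DG_hemi_last]
    have : susp (y, 1) (Fin.last 0) = 2 * (1 : ℝ) - 1 := rfl
    rw [this]
    simp [DG_last]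
    norm_num

theorem DG_susp_fiber {n : ℕ} {Q : Type*} (Γ : (Fin n → ℝ) × ℝ → Q)
    (h0 : ∀ y ∈ closedDisc n, ∀ y' ∈ closedDisc n, Γ (y, 0) = Γ (y', 0))
    (h1 : ∀ y ∈ closedDisc n, ∀ y' ∈ closedDisc n, Γ (y, 1) = Γ (y', 1))
    {y y' : Fin n → ℝ} {t t' : ℝ} (hy : y ∈ closedDisc n) (hy' : y' ∈ closedDisc n)
    (ht : t ∈ uI) (ht' : t' ∈ uI) (h : susp (y, t) = susp (y', t')) : Γ (y, t) = Γ (y', t') := by
  have h2 := congrFun h 0
  rw [DG_susp_zero, DG_susp_zero] at h2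
  have htt : t = t' := by
    simp only at h2
    linarith
  subst htt
  by_cases hc0 : t = 0
  · subst hc0; exact h0 y hy y' hy'
  by_cases hc1 : t = 1
  · subst hc1; exact h1 y hy y' hy'
  have hio : t ∈ Set.Ioo (0 : ℝ) 1 :=
    ⟨lt_of_le_of_ne ht.1 (Ne.symm hc0), lt_of_le_of_ne ht.2 hc1⟩
  rw [(susp_inj hio ht' h).1]

theorem DG_isCompact_uI : IsCompact uI := isCompact_Icc

/-- maps from the suspension (quotient map of compact Hausdorff spaces), with parameters -/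
theorem susp_desc {n : ℕ} (Γ : (Fin n → ℝ) × ℝ × ℝ → X)
    (hΓ : ContinuousOn Γ (closedDisc n ×ˢ uI ×ˢ uI))
    (h0 : ∀ y ∈ closedDisc n, ∀ y' ∈ closedDisc n, ∀ r ∈ uI, Γ (y, 0, r) = Γ (y', 0, r))
    (h1 : ∀ y ∈ closedDisc n, ∀ y' ∈ closedDisc n, ∀ r ∈ uI, Γ (y, 1, r) = Γ (y', 1, r)) :
    ∃ g : (Fin (n + 1) → ℝ) × ℝ → X, ContinuousOn g (closedDisc (n + 1) ×ˢ uI) ∧
      ∀ y ∈ closedDisc n, ∀ t ∈ uI, ∀ r ∈ uI, g (susp (y, t), r) = Γ (y, t, r) := by
  obtain ⟨g, hg, hg2⟩ := DG_desc_compact (K := closedDisc n ×ˢ uI ×ˢ uI)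
    ((isCompact_closedDisc n).prod (DG_isCompact_uI.prod DG_isCompact_uI))
    (L := closedDisc (n + 1) ×ˢ uI) (q := fun z => (susp (z.1, z.2.1), z.2.2))
    (((continuous_susp n).comp (by fun_prop)).prodMk (by fun_prop)).continuousOn
    (by rintro ⟨y, t, r⟩ ⟨hy, ht, hr⟩; exact ⟨susp_mem hy ht, hr⟩)
    (by
      rintro ⟨z, r⟩ ⟨hz, hr⟩
      obtain ⟨y, hy, t, ht, rfl⟩ := exists_susp hz
      exact ⟨(y, t, r), ⟨hy, ht, hr⟩, rfl⟩) Γ hΓ
    (by
      rintro ⟨y, t, r⟩ ⟨hy, ht, hr⟩ ⟨y', t', r'⟩ ⟨hy', ht', hr'⟩ h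
      obtain ⟨h3, h4⟩ := Prod.mk.inj h
      simp only at h3 h4
      subst h4
      exact DG_susp_fiber (fun z => Γ (z.1, z.2, r)) (fun y hy y' hy' => h0 y hy y' hy' r hr)
        (fun y hy y' hy' => h1 y hy y' hy' r hr) hy hy' ht ht' h3)
  exact ⟨g, hg, fun y hy t ht r hr => hg2 (y, t, r) ⟨hy, ht, hr⟩⟩

theorem susp_desc' {n : ℕ} (Γ : (Fin n → ℝ) × ℝ → X)
    (hΓ : ContinuousOn Γ (closedDisc n ×ˢ uI))
    (h0 : ∀ y ∈ closedDisc n, ∀ y' ∈ closedDisc n, Γ (y, 0) = Γ (y', 0))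
    (h1 : ∀ y ∈ closedDisc n, ∀ y' ∈ closedDisc n, Γ (y, 1) = Γ (y', 1)) :
    ∃ g : (Fin (n + 1) → ℝ) → X, ContinuousOn g (closedDisc (n + 1)) ∧
      ∀ y ∈ closedDisc n, ∀ t ∈ uI, g (susp (y, t)) = Γ (y, t) := by
  obtain ⟨g, hg, hg2⟩ := DG_desc_compact (K := closedDisc n ×ˢ uI)
    ((isCompact_closedDisc n).prod DG_isCompact_uI)
    (L := closedDisc (n + 1)) (q := susp) (continuous_susp n).continuousOn
    (by rintro ⟨y, t⟩ ⟨hy, ht⟩; exact susp_mem hy ht)
    (by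
      intro z hz
      obtain ⟨y, hy, t, ht, rfl⟩ := exists_susp hz
      exact ⟨(y, t), ⟨hy, ht⟩, rfl⟩) Γ hΓ
    (by
      rintro ⟨y, t⟩ ⟨hy, ht⟩ ⟨y', t'⟩ ⟨hy', ht'⟩ h
      exact DG_susp_fiber Γ h0 h1 hy hy' ht ht' h)
  exact ⟨g, hg, fun y hy t ht => hg2 (y, t) ⟨hy, ht⟩⟩

end Vale.Agent.P259
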