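import Vale.Agent.Lib.P259.EGlobQA
/-!
# P259, module F3: every disc in `QW W` with algebraic boundary is homotopic to a cell of `W`
-/
namespace Vale.Agent.P259
open CategoryTheory Set Topology



/-- If the points of two `0`-cells are joined by a path in `QW W`, there is a `1`-cell between them
(in the form of a point of `QW (hom W x y)`): the set of `b : QW W` such that the fibre of
`X ⟶ QW W` over `Iic b` is nonempty is an upper set and a lower set. -/
theorem nonempty_hom_of_path {C : Type} [Category.{0} C] (𝒮 : SuspData C) {W : PSh C}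
    (K : SuspClass 𝒮) (hW : K.Gp W) (x y : W.obj 𝒮.pt) (γ : ℝ → QW W) (hγ : ContinuousOn γ uI)
    (hγ0 : γ 0 = QW.point 𝒮 x) (hγ1 : γ 1 = QW.point 𝒮 y) :
    Nonempty (QW (𝒮.hom W x y)) := by
  classical
  set S : Set (QW W) := {b | ∃ u : (bimX 𝒮 W x).P, (evX 𝒮 W x).pr u ≤ b} with hS
  have hup : ∀ b₁ b₀ : QW W, b₁ ≤ b₀ → b₁ ∈ S → b₀ ∈ S := by
    rintro b₁ b₀ h ⟨u, hu⟩
    exact ⟨u, hu.trans h⟩
  have hlow : ∀ b₁ b₀ : QW W, b₁ ≤ b₀ → b₀ ∈ S → b₁ ∈ S := by
    rintro b₁ b₀ h ⟨u, hu⟩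
    obtain ⟨H, -, -, -, hH, -⟩ := compress_X K hW x b₁ b₀ h 0 (fun _ => u) continuousOn_const
      (fun _ _ => hu) (by
        rintro z ⟨-, i, -⟩
        exact i.elim0)
    have h0c : (fun i => i.elim0 : Fin 0 → ℝ) ∈ cube 0 := ⟨fun i => i.elim0, fun i => i.elim0⟩
    exact ⟨_, hH _ h0c⟩
  have hopen : IsOpen S := by
    rw [Topology.IsLowerSet.isOpen_iff_isLowerSet]
    exact fun b₀ b₁ h hb => hlow _ _ h hb
  have hopen' : IsOpen Sᶜ := by
    rw [Topology.IsLowerSet.isOpen_iff_isLowerSet]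
    exact fun b₀ b₁ h hb hb' => hb (hup _ _ h hb')
  have hx : QW.point 𝒮 x ∈ S := by
    obtain ⟨d, z, hz⟩ := (S5.wcontr_D 𝒮 (W := W) x).1
    refine ⟨d, le_of_eq ?_⟩
    rw [← hz]
    exact QW.ext rfl (heq_of_eq z.k)
  have hpre : _root_.IsPreconnected (γ '' uI) := isPreconnected_Icc.image γ hγ
  have h0I : (0 : ℝ) ∈ uI := ⟨le_rfl, zero_le_one⟩
  have h1I : (1 : ℝ) ∈ uI := ⟨zero_le_one, le_rfl⟩
  have hy : QW.point 𝒮 y ∈ S := by
    by_contra hcon
    obtain ⟨z, -, hz1, hz2⟩ := hpre S Sᶜ hopen hopen' (fun z _ => em (z ∈ S))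
      ⟨_, ⟨0, h0I, rfl⟩, by rw [hγ0]; exact hx⟩ ⟨_, ⟨1, h1I, rfl⟩, by rw [hγ1]; exact hcon⟩
    exact hz2 hz1
  obtain ⟨u, hu⟩ := hy
  have hu' : (evX 𝒮 W x).pr u ∈ Iic (QW.point 𝒮 y) := hu
  rw [Iic_point] at hu'
  have hne : Nonempty (modV 𝒮 W x 𝒮.pt y).P :=
    ⟨(S5.e1iso 𝒮 x y).symm ⟨u, hu'⟩⟩
  have hprM : IsWE (prM 𝒮 W x 𝒮.pt y).pr₂ := isWE_prM K x 𝒮.pt y
  obtain ⟨z⟩ := hprM.2.1 hne
  exact ⟨(evM 𝒮 W x 𝒮.pt y y (S5.hy 𝒮 y)).pr z⟩

/-- the suspension of a homotopy relative to the sphere, composed with a homotopy `H` -/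
theorem hRel_susp {C : Type} [Category.{0} C] (𝒮 : SuspData C) {W : PSh C} {x y : W.obj 𝒮.pt}
    {n : ℕ} (c : (Fin n → ℝ) → QW (𝒮.hom W x y)) (c' γ : (Fin (n + 1) → ℝ) → QW W)
    (hc : ∀ z ∈ closedDisc n, ∀ t ∈ uI, c' (susp (z, t)) = sMap 𝒮 x y (c z, t))
    (a' : (Fin n → ℝ) → QW (𝒮.hom W x y)) (H : (Fin n → ℝ) × ℝ × ℝ → QW W)
    (hH : ContinuousOn H (closedDisc n ×ˢ uI ×ˢ uI))
    (hH0 : ∀ z ∈ closedDisc n, ∀ t ∈ uI, H (z, t, 0) = sMap 𝒮 x y (a' z, t))
    (hH1 : ∀ z ∈ closedDisc n, ∀ t ∈ uI, H (z, t, 1) = γ (susp (z, t)))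
    (hHx : ∀ z ∈ closedDisc n, ∀ r ∈ uI, H (z, 0, r) = QW.point 𝒮 x)
    (hHy : ∀ z ∈ closedDisc n, ∀ r ∈ uI, H (z, 1, r) = QW.point 𝒮 y)
    (hHs : ∀ z ∈ sph n, ∀ t ∈ uI, ∀ r ∈ uI, H (z, t, r) = γ (susp (z, t)))
    (hw : HRel c a') : HRel c' γ := by
  have h0I : (0 : ℝ) ∈ uI := ⟨le_rfl, zero_le_one⟩
  have h1I : (1 : ℝ) ∈ uI := ⟨zero_le_one, le_rfl⟩
  obtain ⟨K, hK, hK0, hK1, hKs⟩ := hw
  -- the suspended homotopy
  obtain ⟨g₁, hg₁, hg₁'⟩ := susp_desc (n := n)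
    (fun z => sMap 𝒮 x y (K (z.1, z.2.2), z.2.1))
    (by
      refine (continuous_sMap 𝒮 x y).comp_continuousOn ?_
      refine ContinuousOn.prodMk ?_ (by fun_prop)
      exact hK.comp (by fun_prop) (fun z hz => ⟨hz.1, hz.2.2⟩))
    (fun z _ z' _ r _ => by
      change sMap 𝒮 x y (K (z, r), 0) = sMap 𝒮 x y (K (z', r), 0)
      rw [sMap_zero, sMap_zero])
    (fun z _ z' _ r _ => by
      change sMap 𝒮 x y (K (z, r), 1) = sMap 𝒮 x y (K (z', r), 1)
      rw [sMap_one, sMap_one])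
  obtain ⟨g₂, hg₂, hg₂'⟩ := susp_desc (n := n) H hH
    (fun z hz z' hz' r hr => (hHx z hz r hr).trans (hHx z' hz' r hr).symm)
    (fun z hz z' hz' r hr => (hHy z hz r hr).trans (hHy z' hz' r hr).symm)
  have e1 : HRel c' (fun z => g₁ (z, 1)) := by
    refine ⟨g₁, hg₁, ?_, fun _ _ => rfl, ?_⟩
    · intro z hz
      obtain ⟨z', hz', t, ht, rfl⟩ := exists_susp hz
      rw [hg₁' z' hz' t ht 0 h0I, hc z' hz' t ht]
      change sMap 𝒮 x y (K (z', 0), t) = _
      rw [hK0 z' hz']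
    · intro z hz r hr
      obtain ⟨z', hz', t, ht, rfl⟩ := exists_susp (sph_subset _ hz)
      change g₁ (susp (z', t), r) = c' (susp (z', t))
      rw [hg₁' z' hz' t ht r hr, hc z' hz' t ht]
      change sMap 𝒮 x y (K (z', r), t) = _
      rcases (susp_mem_sph_iff hz' ht).1 hz with h | h | h
      · rw [hKs z' h r hr]
      · subst h
        rw [sMap_zero, sMap_zero]
      · subst h
        rw [sMap_one, sMap_one]
  have e2 : HRel (fun z => g₂ (z, 0)) γ := by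
    refine ⟨g₂, hg₂, fun _ _ => rfl, ?_, ?_⟩
    · intro z hz
      obtain ⟨z', hz', t, ht, rfl⟩ := exists_susp hz
      rw [hg₂' z' hz' t ht 1 h1I, hH1 z' hz' t ht]
    · intro z hz r hr
      obtain ⟨z', hz', t, ht, rfl⟩ := exists_susp (sph_subset _ hz)
      change g₂ (susp (z', t), r) = g₂ (susp (z', t), 0)
      rw [hg₂' z' hz' t ht r hr, hg₂' z' hz' t ht 0 h0I]
      rcases (susp_mem_sph_iff hz' ht).1 hz with h | h | h
      · rw [hHs z' h t ht r hr, hHs z' h t ht 0 h0I]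
      · subst h
        rw [hHx z' hz' r hr, hHx z' hz' 0 h0I]
      · subst h
        rw [hHy z' hz' r hr, hHy z' hz' 0 h0I]
  have e3 : EqOn (fun z => g₁ (z, 1)) (fun z => g₂ (z, 0)) (closedDisc (n + 1)) := by
    intro z hz
    obtain ⟨z', hz', t, ht, rfl⟩ := exists_susp hz
    change g₁ (susp (z', t), 1) = g₂ (susp (z', t), 0)
    rw [hg₁' z' hz' t ht 1 h1I, hg₂' z' hz' t ht 0 h0I, hH0 z' hz' t ht]
    change sMap 𝒮 x y (K (z', 1), t) = _
    rw [hK1 z' hz']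
  exact HRel.trans e1 (HRel.congr e2 e3.symm (fun _ _ => rfl))

namespace Coherator
variable {C : Coherator}



/-- the end vertices of a cell of dimension `n + 2` are those of its faces -/
theorem res_bd_ends (W : PSh C.C.Cat) {n : ℕ} (w : W.obj ⟨.D (n + 2)⟩) (ε δ : Bool) :
    W.res (C.C.jm (bd₀ (Nat.succ_pos (n + 1)) ε)) w =
      W.res (C.C.jm (bd₀ (Nat.succ_pos n) ε))
        (W.res (C.C.jm (bd₀ (Nat.lt_succ_self (n + 1)) δ)) w) := by
  rw [← W.res_comp, C.C.jm_bd_bd]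

theorem ParP.ends {W : PSh C.C.Cat} : ∀ {n : ℕ} {a b : W.obj ⟨.D (n + 1)⟩}, ParP W a b →
    ∀ ε : Bool, W.res (C.C.jm (bd₀ (Nat.succ_pos n) ε)) a =
      W.res (C.C.jm (bd₀ (Nat.succ_pos n) ε)) b
  | 0, _, _, h, ε => h ε
  | n + 1, a, b, h, ε => by
    rw [res_bd_ends W a ε ε, res_bd_ends W b ε ε]
    exact congrArg _ (h ε)

theorem ParP.hom {W : PSh C.C.Cat} {x y : W.obj ⟨.D 0⟩} : ∀ {n : ℕ}
    (a b : (C.suspData.hom W x y).obj ⟨.D n⟩), ParP W (n := n + 1) a.1 b.1 →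
    ParP (C.suspData.hom W x y) a b
  | 0, _, _, _ => trivial
  | n + 1, a, b, h => by
    intro ε
    apply Subtype.ext
    rw [suspData_res_bd, suspData_res_bd]
    exact h ε

/-- Induction on `n`, for all `W`.  Put `x, y` = the end `0`-cells of `a` and `b`.  Write
`Γ (z, t) = γ (susp (z, t))` and `A : sph n → QW (hom W x y)` glued from
`cellMap (n-1) (hom W x y) a`, `cellMap (n-1) (hom W x y) b` on the hemispheres (`glue_hemi'`,
`cellMap_hemi`, `hemi_susp`, `cellMap_susp`; for `n = 0` the sphere is empty).  `theoremS_disc` gives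
`a'` extending `A`; by induction (or `eglobQ₀` for `n = 0`) `a'` is homotopic relative to the sphere
to `cellMap n (hom W x y) w'`; then `w = w'` (as a cell of `W` of dimension `n + 1`) works: apply
`sMap` to the homotopy, compose with `H`, and descend along `susp` (`susp_desc`). -/
theorem eglobQ (n : ℕ) (W : PSh C.C.Cat) (hW : GpP C.C W) (a b : W.obj ⟨.D n⟩) (hab : ParP W a b)
    (γ : (Fin (n + 1) → ℝ) → QW W) (hγ : ContinuousOn γ (closedDisc (n + 1)))
    (h0 : ∀ z ∈ closedDisc n, γ (hemi false z) = cellMap n W a z)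
    (h1 : ∀ z ∈ closedDisc n, γ (hemi true z) = cellMap n W b z) :
    ∃ w : W.obj ⟨.D (n + 1)⟩, W.res (C.C.jm (bd₀ (Nat.lt_succ_self n) false)) w = a ∧
      W.res (C.C.jm (bd₀ (Nat.lt_succ_self n) true)) w = b ∧
      HRel (cellMap (n + 1) W w) γ := by
  have h0I : (0 : ℝ) ∈ uI := ⟨le_rfl, zero_le_one⟩
  have h1I : (1 : ℝ) ∈ uI := ⟨zero_le_one, le_rfl⟩
  have hcs : ∀ (n : ℕ) (W : PSh C.C.Cat) (γ : (Fin (n + 1) → ℝ) → QW W),
      ContinuousOn γ (closedDisc (n + 1)) →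
      ContinuousOn (fun z : (Fin n → ℝ) × ℝ => γ (susp z)) (closedDisc n ×ˢ uI) :=
    fun n W γ hγ => hγ.comp (continuous_susp n).continuousOn (fun z hz => susp_mem hz.1 hz.2)
  induction n generalizing W with
  | zero =>
    have hall : ∀ z : Fin 0 → ℝ, z ∈ closedDisc 0 := fun z => by
      change ∑ i, z i ^ 2 ≤ 1
      simp
    have hnone : ∀ z : Fin 0 → ℝ, z ∉ sph 0 := fun z hz => by
      have h : ∑ i, z i ^ 2 = 1 := hz
      simp at h
    have hz0 : ∀ z : Fin 0 → ℝ, γ (susp (z, 0)) = QW.point C.suspData a := by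
      intro z
      rw [← (hemi_zero z z).1, h0 z (hall z)]
      rfl
    have hz1 : ∀ z : Fin 0 → ℝ, γ (susp (z, 1)) = QW.point C.suspData b := by
      intro z
      rw [← (hemi_zero z z).2, h1 z (hall z)]
      rfl
    obtain ⟨q⟩ := nonempty_hom_of_path C.suspData C.suspClass hW a b
      (fun t => γ (susp ((fun i => i.elim0 : Fin 0 → ℝ), t)))
      ((hcs 0 W γ hγ).comp (by fun_prop) (fun t ht => ⟨hall _, ht⟩)) (hz0 _) (hz1 _)
    obtain ⟨a', H, ha', -, hH, hH0, hH1, hHx, hHy, hHs⟩ := theoremS_disc C.suspData C.suspClass hW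
      a b 0 (fun _ => q) continuousOn_const (fun z => γ (susp z)) (hcs 0 W γ hγ)
      (fun z _ => hz0 z) (fun z _ => hz1 z) (fun z hz => absurd hz (hnone z))
    obtain ⟨w, hw⟩ := eglobQ₀ (C.suspData.hom W a b) (a' (fun i => i.elim0))
    have hw' : HRel (cellMap 0 (C.suspData.hom W a b) w) a' :=
      hw.congr (fun _ _ => rfl) (fun z _ => congrArg a' (Subsingleton.elim _ _))
    refine ⟨w.1, ?_, ?_, ?_⟩
    rotate_left 2
    · exact hRel_susp C.suspData (cellMap 0 (C.suspData.hom W a b) w) (cellMap 1 W w.1) γ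
        (fun z hz t ht => cellMap_susp w.1 a b w.2.1 w.2.2 hz ht) a' H hH hH0 hH1 hHx hHy hHs hw'
    · have := w.2.1
      change W.res (C.fst ⟨Obj.sus (.D 0)⟩) w.1 = a at this
      rw [suspData_fst_D] at this
      exact this
    · have := w.2.2
      change W.res (C.lst ⟨Obj.sus (.D 0)⟩) w.1 = b at this
      rw [suspData_lst_D] at this
      exact this
  | succ m ih =>
    have hzd : (0 : Fin m → ℝ) ∈ closedDisc m := by
      change ∑ i, (0 : Fin m → ℝ) i ^ 2 ≤ 1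
      simp
    -- the end vertices
    have hfa : W.res (C.suspData.fst ⟨.D (m + 1)⟩) a = W.res (C.C.jm (bd₀ (Nat.succ_pos m) false)) a :=
      congrArg (fun k => W.res k a) (C.suspData_fst_D m)
    have hla : W.res (C.suspData.lst ⟨.D (m + 1)⟩) a = W.res (C.C.jm (bd₀ (Nat.succ_pos m) true)) a :=
      congrArg (fun k => W.res k a) (C.suspData_lst_D m)
    have hfb : W.res (C.suspData.fst ⟨.D (m + 1)⟩) b = W.res (C.C.jm (bd₀ (Nat.succ_pos m) false)) b :=
      congrArg (fun k => W.res k b) (C.suspData_fst_D m)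
    have hlb : W.res (C.suspData.lst ⟨.D (m + 1)⟩) b = W.res (C.C.jm (bd₀ (Nat.succ_pos m) true)) b :=
      congrArg (fun k => W.res k b) (C.suspData_lst_D m)
    obtain ⟨x, hx⟩ : ∃ x : W.obj ⟨.D 0⟩, x = W.res (C.suspData.fst ⟨.D (m + 1)⟩) a := ⟨_, rfl⟩
    obtain ⟨y, hy⟩ : ∃ y : W.obj ⟨.D 0⟩, y = W.res (C.suspData.lst ⟨.D (m + 1)⟩) a := ⟨_, rfl⟩
    have hxb : W.res (C.suspData.fst ⟨.D (m + 1)⟩) b = x := by
      rw [hx, hfa, hfb, hab.ends false]
    have hyb : W.res (C.suspData.lst ⟨.D (m + 1)⟩) b = y := by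
      rw [hy, hla, hlb, hab.ends true]
    let ca : (C.suspData.hom W x y).obj ⟨.D m⟩ := ⟨a, hx.symm, hy.symm⟩
    let cb : (C.suspData.hom W x y).obj ⟨.D m⟩ := ⟨b, hxb, hyb⟩
    have hpar : ParP (C.suspData.hom W x y) ca cb := ParP.hom ca cb hab
    have hsa : ∀ z ∈ closedDisc m, ∀ t ∈ uI, cellMap (m + 1) W a (susp (z, t)) =
        sMap C.suspData x y (cellMap m (C.suspData.hom W x y) ca z, t) := fun z hz t ht =>
      cellMap_susp a x y hx.symm hy.symm hz ht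
    have hsb : ∀ z ∈ closedDisc m, ∀ t ∈ uI, cellMap (m + 1) W b (susp (z, t)) =
        sMap C.suspData x y (cellMap m (C.suspData.hom W x y) cb z, t) := fun z hz t ht =>
      cellMap_susp b x y hxb hyb hz ht
    -- the map on the sphere
    have hagree : ∀ z ∈ sph m, cellMap m (C.suspData.hom W x y) ca z =
        cellMap m (C.suspData.hom W x y) cb z := by
      intro z hz
      rcases m with _ | k
      · have h : ∑ i, z i ^ 2 = 1 := hz
        simp at h
      · obtain ⟨ε, z', hz', rfl⟩ := exists_hemi hz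
        rw [cellMap_hemi k _ ca ε hz', cellMap_hemi k _ cb ε hz', hpar ε]
    obtain ⟨A, hA, hA'⟩ := glue_hemi' (n := m)
      (fun ε => cellMap m (C.suspData.hom W x y) (if ε then cb else ca))
      (fun ε => continuousOn_cellMap m _ _) (fun z hz => hagree z hz)
    have hA0 : ∀ z ∈ closedDisc m, A (hemi false z) = cellMap m (C.suspData.hom W x y) ca z :=
      fun z hz => hA' false z hz
    have hA1 : ∀ z ∈ closedDisc m, A (hemi true z) = cellMap m (C.suspData.hom W x y) cb z :=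
      fun z hz => hA' true z hz
    have hΓA : ∀ z ∈ sph (m + 1), ∀ t ∈ uI, γ (susp (z, t)) = sMap C.suspData x y (A z, t) := by
      intro z hz t ht
      obtain ⟨ε, z', hz', rfl⟩ := exists_hemi hz
      rw [← hemi_susp ε hz' ht]
      cases ε
      · exact ((h0 _ (susp_mem hz' ht)).trans (hsa z' hz' t ht)).trans
          (congrArg (fun q => sMap C.suspData x y (q, t)) (hA0 z' hz').symm)
      · exact ((h1 _ (susp_mem hz' ht)).trans (hsb z' hz' t ht)).trans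
          (congrArg (fun q => sMap C.suspData x y (q, t)) (hA1 z' hz').symm)
    have hΓ0 : ∀ z : Fin (m + 1) → ℝ, γ (susp (z, 0)) = QW.point C.suspData x := by
      intro z
      rw [susp_zero z (hemi false 0)]
      exact (hΓA _ (hemi_mem false hzd) 0 h0I).trans (sMap_zero C.suspData x y _)
    have hΓ1 : ∀ z : Fin (m + 1) → ℝ, γ (susp (z, 1)) = QW.point C.suspData y := by
      intro z
      rw [susp_one z (hemi false 0)]
      exact (hΓA _ (hemi_mem false hzd) 1 h1I).trans (sMap_one C.suspData x y _)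
    obtain ⟨a', H, ha', haA, hH, hH0, hH1, hHx, hHy, hHs⟩ := theoremS_disc C.suspData C.suspClass hW
      x y (m + 1) A hA (fun z => γ (susp z)) (hcs (m + 1) W γ hγ)
      (fun z _ => hΓ0 z) (fun z _ => hΓ1 z) hΓA
    obtain ⟨w, hw0, hw1, hw⟩ := ih (C.suspData.hom W x y) (C.gp_hom W x y hW) ca cb hpar a' ha'
      (fun z hz => (haA (hemi_mem false hz)).trans (hA0 z hz))
      (fun z hz => (haA (hemi_mem true hz)).trans (hA1 z hz))
    refine ⟨w.1, ?_, ?_, ?_⟩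
    · have := congrArg Subtype.val hw0
      rw [suspData_res_bd] at this
      exact this
    · have := congrArg Subtype.val hw1
      rw [suspData_res_bd] at this
      exact this
    · exact hRel_susp C.suspData (cellMap (m + 1) (C.suspData.hom W x y) w)
        (cellMap (m + 2) W w.1) γ
        (fun z hz t ht => cellMap_susp w.1 x y w.2.1 w.2.2 hz ht) a' H hH hH0 hH1 hHx hHy hHs hw

end Coherator
end Vale.Agent.P259
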