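import Vale.Agent.Lib.P259.T3Slab
namespace Vale.Agent.P259
open Set Topology
variable {X Y Z B : Type*} [TopologicalSpace X] [TopologicalSpace Y] [TopologicalSpace Z]

theorem Cell.cl_nonempty {n : ℕ} (e : Cell n) : ∃ x, x ∈ e.cl :=
  ⟨fun i => e.k i, fun i => ⟨fun _ => ⟨le_refl _, by linarith⟩, fun _ => rfl⟩⟩

section
variable [Preorder B] [TopologicalSpace B] [Topology.IsLowerSet B]

/-- weak lifting over `[0,N]`, with the homotopy in the base -/
theorem weak_lift (p : X → B) (hp : Continuous p) (x0 y0 : B)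
    (hy0 : Iic y0 = {y0})
    (h2 : ∀ b₁ b₀ : B, b₁ ≤ b₀ → ∀ n, Compress n (p ⁻¹' Iic b₁) (p ⁻¹' Iic b₀))
    {n N : ℕ} (hN : 0 < N) (Γ : (Fin n → ℝ) × ℝ → B)
    (hΓ : ContinuousOn Γ (KN n N ×ˢ Icc (0 : ℝ) N)) (σ τ : Cell n → ℕ → B)
    (hσ : ∀ e ∈ Cell.K n N, ∀ k < N, ∀ x ∈ e.cl, ∀ t ∈ Set.Icc (k : ℝ) (k + 1), Γ (x, t) ≤ σ e k)
    (hτ : ∀ e ∈ Cell.K n N, ∀ k ≤ N, ∀ x ∈ e.cl, Γ (x, (k : ℝ)) ≤ τ e k)
    (mono : ∀ e ∈ Cell.K n N, ∀ e' : Cell n, e'.cl ⊆ e.cl → ∀ k,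
        (k < N → σ e' k ≤ σ e k) ∧ (k ≤ N → τ e' k ≤ τ e k))
    (hτσ : ∀ e ∈ Cell.K n N, ∀ k < N, τ e k ≤ σ e k ∧ τ e (k + 1) ≤ σ e k)
    (hΓ0 : ∀ x ∈ KN n N, Γ (x, 0) = x0) (hΓ1 : ∀ x ∈ KN n N, Γ (x, (N : ℝ)) = y0)
    (g0 : (Fin n → ℝ) → X) (hg0 : ContinuousOn g0 (KN n N)) (hg0p : ∀ x ∈ KN n N, p (g0 x) = x0)
    (φ : (Fin n → ℝ) × ℝ → X) (hφ : ContinuousOn φ (BN n N ×ˢ Icc (0 : ℝ) N))
    (hφ0 : ∀ x ∈ BN n N, φ (x, 0) = g0 x)
    (hφp : ∀ x ∈ BN n N, ∀ t ∈ Icc (0 : ℝ) N, p (φ (x, t)) = Γ (x, t)) :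
    ∃ (g : (Fin n → ℝ) × ℝ → X) (M : (Fin n → ℝ) × ℝ × ℝ → B),
      ContinuousOn g (KN n N ×ˢ Icc (0 : ℝ) N) ∧
      ContinuousOn M (KN n N ×ˢ Icc (0 : ℝ) N ×ˢ uI) ∧
      (∀ x ∈ KN n N, g (x, 0) = g0 x) ∧
      (∀ x ∈ BN n N, ∀ t ∈ Icc (0 : ℝ) N, g (x, t) = φ (x, t)) ∧
      (∀ x ∈ KN n N, p (g (x, (N : ℝ))) = y0) ∧
      (∀ x ∈ KN n N, ∀ t ∈ Icc (0 : ℝ) N, M (x, t, 0) = p (g (x, t))) ∧
      (∀ x ∈ KN n N, ∀ t ∈ Icc (0 : ℝ) N, M (x, t, 1) = Γ (x, t)) ∧
      (∀ x ∈ BN n N, ∀ t ∈ Icc (0 : ℝ) N, ∀ w ∈ uI, M (x, t, w) = Γ (x, t)) ∧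
      (∀ x ∈ KN n N, ∀ w ∈ uI, M (x, 0, w) = x0) ∧
      (∀ x ∈ KN n N, ∀ w ∈ uI, M (x, (N : ℝ), w) = y0) := by
  classical
  have hBK : BN n N ⊆ KN n N := fun x hx => hx.1
  have hLK : ∀ e ∈ Cell.L n N, e ∈ Cell.K n N := fun e he => he.1
  have hmem : ∀ x ∈ KN n N, ∃ e ∈ Cell.K n N, x ∈ e.cl := by
    intro x hx
    rw [KN_eq] at hx
    simp only [mem_iUnion, exists_prop] at hx
    exact hx
  have hLB : ∀ e ∈ Cell.L n N, ∀ x ∈ e.cl, x ∈ BN n N := by
    intro e he x hx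
    rw [BN_eq]
    exact mem_biUnion he hx
  set τ' : Cell n → ℕ → B := fun e k => if k = 0 then x0 else if k = N then y0 else τ e k with hτ'd
  have hτ'0 : ∀ e, τ' e 0 = x0 := fun e => by simp only [hτ'd, if_true]
  have hτ'N : ∀ e, τ' e N = y0 := fun e => by
    simp only [hτ'd, if_true, hN.ne', if_false]
  have hτ' : ∀ e ∈ Cell.K n N, ∀ k ≤ N, ∀ x ∈ e.cl, Γ (x, (k : ℝ)) ≤ τ' e k := by
    intro e he k hk x hx
    by_cases h0 : k = 0
    · subst h0
      rw [hτ'0, Nat.cast_zero, hΓ0 x (cl_subset_KN he hx)]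
    · by_cases h1 : k = N
      · subst h1
        rw [hτ'N, hΓ1 x (cl_subset_KN he hx)]
      · simp only [hτ'd, h0, h1, if_false]
        exact hτ e he k hk x hx
  have monoτ' : ∀ e ∈ Cell.K n N, ∀ e' : Cell n, e'.cl ⊆ e.cl → ∀ k ≤ N, τ' e' k ≤ τ' e k := by
    intro e he e' h' k hk
    simp only [hτ'd]
    split_ifs with h3 h4
    · exact le_refl _
    · exact le_refl _
    · exact (mono e he e' h' k).2 hk
  have hτ'σ : ∀ e ∈ Cell.K n N, ∀ k < N, τ' e k ≤ σ e k := by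
    intro e he k hk
    by_cases h0 : k = 0
    · subst h0
      obtain ⟨x, hx⟩ := e.cl_nonempty
      have := hσ e he 0 hk x hx 0 ⟨by simp, by simp⟩
      rwa [hΓ0 x (cl_subset_KN he hx), ← hτ'0 e] at this
    · have h1 : k ≠ N := hk.ne
      simp only [hτ'd, h0, h1, if_false]
      exact (hτσ e he k hk).1
  have hτ'σ' : ∀ e ∈ Cell.K n N, ∀ k < N, τ' e (k + 1) ≤ σ e k := by
    intro e he k hk
    by_cases h1 : k + 1 = N
    · obtain ⟨x, hx⟩ := e.cl_nonempty
      have := hσ e he k hk x hx N ⟨by exact_mod_cast hk.le, by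
        rw [← h1]
        push_cast
        exact le_refl _⟩
      rw [hΓ1 x (cl_subset_KN he hx)] at this
      rw [h1, hτ'N]
      exact this
    · simp only [hτ'd, h1, Nat.succ_ne_zero, if_false]
      exact (hτσ e he k hk).2
  have main : ∀ k : ℕ, k ≤ N → ∃ (g : (Fin n → ℝ) × ℝ → X) (M : (Fin n → ℝ) × ℝ × ℝ → B),
      ContinuousOn g (KN n N ×ˢ Icc (0 : ℝ) k) ∧
      ContinuousOn M (KN n N ×ˢ Icc (0 : ℝ) k ×ˢ uI) ∧
      (∀ x ∈ KN n N, g (x, 0) = g0 x) ∧
      (∀ x ∈ BN n N, ∀ t ∈ Icc (0 : ℝ) k, g (x, t) = φ (x, t)) ∧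
      (∀ e ∈ Cell.K n N, ∀ x ∈ e.cl, p (g (x, (k : ℝ))) ≤ τ' e k) ∧
      (∀ x ∈ KN n N, ∀ t ∈ Icc (0 : ℝ) k, M (x, t, 0) = p (g (x, t))) ∧
      (∀ x ∈ KN n N, ∀ t ∈ Icc (0 : ℝ) k, M (x, t, 1) = Γ (x, t)) ∧
      (∀ x ∈ BN n N, ∀ t ∈ Icc (0 : ℝ) k, ∀ w ∈ uI, M (x, t, w) = Γ (x, t)) ∧
      (∀ x ∈ KN n N, ∀ w ∈ uI, M (x, 0, w) = x0) ∧
      (∀ e ∈ Cell.K n N, ∀ x ∈ e.cl, ∀ w ∈ uI, M (x, (k : ℝ), w) ≤ τ' e k) := by
    intro k
    induction k with
    | zero =>
      intro _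
      have ht0 : ∀ t ∈ Icc (0 : ℝ) ((0 : ℕ) : ℝ), t = 0 := by
        intro t ht
        rw [Nat.cast_zero] at ht
        exact le_antisymm ht.2 ht.1
      refine ⟨fun z => g0 z.1, fun _ => x0, hg0.comp continuousOn_fst fun z hz => hz.1,
        continuousOn_const, fun _ _ => rfl, ?_, ?_, ?_, ?_, ?_, fun _ _ _ _ => rfl, ?_⟩
      · intro x hx t ht
        rw [ht0 t ht, hφ0 x hx]
      · intro e he x hx
        rw [hτ'0]
        exact (hg0p x (cl_subset_KN he hx)).le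
      · intro x hx t ht
        exact (hg0p x hx).symm
      · intro x hx t ht
        rw [ht0 t ht, hΓ0 x hx]
      · intro x hx t ht w hw
        rw [ht0 t ht, hΓ0 x (hBK hx)]
      · intro e he x hx w hw
        rw [hτ'0]
    | succ k ih =>
      intro hk1
      have hk : k < N := hk1
      have hkN : (k : ℝ) + 1 ≤ N := by exact_mod_cast hk1
      have hk0 : (0 : ℝ) ≤ k := Nat.cast_nonneg k
      obtain ⟨g, M, hg, hM, hg_0, hgφ, hgτ, hM0, hM1, hMB, hMx, hMτ⟩ := ih hk.le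
      have hkk : (k : ℝ) ∈ Icc (0 : ℝ) k := ⟨hk0, le_refl _⟩
      have hshift : ∀ r ∈ uI, (k : ℝ) + r ∈ Icc (0 : ℝ) N := fun r hr =>
        ⟨by linarith [hr.1], by linarith [hr.2]⟩
      have hshift' : ∀ r ∈ uI, (k : ℝ) + r ∈ Icc (k : ℝ) (k + 1) := fun r hr =>
        ⟨by linarith [hr.1], by linarith [hr.2]⟩
      -- the lift over the slab
      obtain ⟨G, hG, hGφ, hG0, hGσ, hGτ⟩ := slab_lift p h2 (n := n) (N := N) (fun e => σ e k)
        (fun e => τ' e (k + 1)) (fun e he => hτ'σ' e he k hk)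
        (fun e he e' h' => ⟨(mono e he e' h' k).1 hk, monoτ' e he e' h' (k + 1) hk1⟩)
        (fun x => g (x, (k : ℝ))) (hg.comp (by fun_prop) fun x hx => ⟨hx, hkk⟩)
        (fun e he x hx => (hgτ e he x hx).trans (hτ'σ e he k hk))
        (fun z => φ (z.1, (k : ℝ) + z.2))
        (hφ.comp (by fun_prop) fun z hz => ⟨hz.1, hshift _ hz.2⟩)
        (fun x hx => by
          simp only [add_zero]
          exact (hgφ x hx k hkk).symm)
        (fun e he x hx r hr => by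
          have hxB := hLB e he x hx
          simp only
          rw [hφp x hxB _ (hshift r hr)]
          exact hσ e (hLK e he) k hk x hx _ (hshift' r hr))
        (fun e he x hx => by
          have hxB := hLB e he x hx
          simp only
          rw [hφp x hxB _ (hshift 1 uI_one)]
          have := hτ' e (hLK e he) (k + 1) hk1 x hx
          push_cast at this
          exact this)
      have hpG : ContinuousOn (fun z : (Fin n → ℝ) × ℝ => p (G z)) (KN n N ×ˢ uI) :=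
        hp.comp_continuousOn hG
      have hQ : ContinuousOn (fun z : (Fin n → ℝ) × ℝ => Γ (z.1, (k : ℝ) + z.2)) (KN n N ×ˢ uI) :=
        hΓ.comp (by fun_prop) fun z hz => ⟨hz.1, hshift _ hz.2⟩
      have hPQ : ∀ x ∈ BN n N, ∀ r ∈ uI, p (G (x, r)) = Γ (x, (k : ℝ) + r) := by
        intro x hx r hr
        rw [hGφ (⟨hx, hr⟩ : (x, r) ∈ BN n N ×ˢ uI)]
        exact hφp x hx _ (hshift r hr)
      -- the homotopy at the level `k + 1`
      obtain ⟨m1, hm1, hm1B, hm10, hm11, hm1τ⟩ := level_homotopy (n := n) (N := N)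
        (fun e => τ' e (k + 1)) (fun e he e' h' => monoτ' e he e' h' (k + 1) hk1)
        (fun x => p (G (x, 1))) (fun x => Γ (x, (k : ℝ) + 1))
        (hpG.comp (by fun_prop) fun x hx => ⟨hx, uI_one⟩)
        (hQ.comp (g := fun z : (Fin n → ℝ) × ℝ => Γ (z.1, (k : ℝ) + z.2))
          (f := fun x : Fin n → ℝ => (x, (1 : ℝ))) (by fun_prop) fun x hx => ⟨hx, uI_one⟩)
        hGτ
        (fun e he x hx => by
          have := hτ' e he (k + 1) hk1 x hx
          push_cast at this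
          exact this)
        (fun x hx => hPQ x hx 1 uI_one)
      -- the homotopy over the slab
      obtain ⟨M', hM', hM'B, hM'0, hM'1, hM'm0, hM'm1⟩ := slab_homotopy (n := n) (N := N)
        (fun e => σ e k) (fun e he e' h' => (mono e he e' h' k).1 hk)
        (fun z => p (G z)) (fun z => Γ (z.1, (k : ℝ) + z.2)) (fun z => M (z.1, (k : ℝ), z.2)) m1
        hpG hQ (hM.comp (by fun_prop) fun z hz => ⟨hz.1, hkk, hz.2⟩) hm1
        hGσ (fun e he x hx r hr => hσ e he k hk x hx _ (hshift' r hr))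
        (fun e he x hx r hr => (hMτ e he x hx r hr).trans (hτ'σ e he k hk))
        (fun e he x hx r hr => (hm1τ e he x hx r hr).trans (hτ'σ' e he k hk))
        (fun x hx => by
          simp only
          rw [hM0 x hx _ hkk, hG0 x hx])
        (fun x hx => by
          simp only [add_zero]
          exact hM1 x hx _ hkk)
        hm10 hm11 hPQ
        (fun x hx w hw => by
          simp only [add_zero]
          exact hMB x hx _ hkk w hw)
        hm1B
      have hIcc : Icc (0 : ℝ) ((k + 1 : ℕ) : ℝ) = Icc (0 : ℝ) k ∪ Icc (k : ℝ) (k + 1) := by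
        push_cast
        rw [Icc_union_Icc_eq_Icc hk0 (by linarith)]
      have hsub : ∀ t ∈ Icc (k : ℝ) (k + 1), t - k ∈ uI := fun t ht =>
        ⟨by linarith [ht.1], by linarith [ht.2]⟩
      set g' : (Fin n → ℝ) × ℝ → X := fun z => if z.2 ≤ k then g z else G (z.1, z.2 - k) with hg'
      set M'' : (Fin n → ℝ) × ℝ × ℝ → B := fun z =>
        if z.2.1 ≤ k then M z else M' (z.1, z.2.1 - k, z.2.2) with hM''
      have g'l : ∀ x, ∀ t ≤ (k : ℝ), g' (x, t) = g (x, t) := by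
        intro x t ht
        simp only [hg', ht, if_true]
      have g'r : ∀ x ∈ KN n N, ∀ t, (k : ℝ) ≤ t → g' (x, t) = G (x, t - k) := by
        intro x hx t ht
        simp only [hg']
        split_ifs with h
        · have : t = k := le_antisymm h ht
          subst this
          rw [sub_self, hG0 x hx]
        · rfl
      have M'l : ∀ x, ∀ t ≤ (k : ℝ), ∀ w, M'' (x, t, w) = M (x, t, w) := by
        intro x t ht w
        simp only [hM'', ht, if_true]
      have M'r : ∀ x ∈ KN n N, ∀ t, (k : ℝ) ≤ t → ∀ w ∈ uI, M'' (x, t, w) = M' (x, t - k, w) := by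
        intro x hx t ht w hw
        simp only [hM'']
        split_ifs with h
        · have : t = k := le_antisymm h ht
          subst this
          rw [sub_self, hM'm0 x hx w hw]
        · rfl
      refine ⟨g', M'', ?_, ?_, ?_, ?_, ?_, ?_, ?_, ?_, ?_, ?_⟩
      · rw [hIcc, prod_union]
        refine ContinuousOn.union_of_isClosed ?_ ?_ ((KN_closed n N).prod isClosed_Icc)
          ((KN_closed n N).prod isClosed_Icc)
        · refine hg.congr ?_
          rintro ⟨x, t⟩ ⟨hx, ht⟩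
          exact g'l x t ht.2
        · have : ContinuousOn (fun z : (Fin n → ℝ) × ℝ => G (z.1, z.2 - k))
              (KN n N ×ˢ Icc (k : ℝ) (k + 1)) :=
            hG.comp (by fun_prop) fun z hz => ⟨hz.1, hsub _ hz.2⟩
          refine this.congr ?_
          rintro ⟨x, t⟩ ⟨hx, ht⟩
          exact g'r x hx t ht.1
      · rw [hIcc, union_prod, prod_union]
        refine ContinuousOn.union_of_isClosed ?_ ?_
          ((KN_closed n N).prod (isClosed_Icc.prod uI_closed))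
          ((KN_closed n N).prod (isClosed_Icc.prod uI_closed))
        · refine hM.congr ?_
          rintro ⟨x, t, w⟩ ⟨hx, ht, hw⟩
          exact M'l x t ht.2 w
        · have : ContinuousOn (fun z : (Fin n → ℝ) × ℝ × ℝ => M' (z.1, z.2.1 - k, z.2.2))
              (KN n N ×ˢ Icc (k : ℝ) (k + 1) ×ˢ uI) :=
            hM'.comp (by fun_prop) fun z hz => ⟨hz.1, hsub _ hz.2.1, hz.2.2⟩
          refine this.congr ?_
          rintro ⟨x, t, w⟩ ⟨hx, ht, hw⟩
          exact M'r x hx t ht.1 w hw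
      · intro x hx
        rw [g'l x 0 hk0, hg_0 x hx]
      · intro x hx t ht
        rw [hIcc] at ht
        rcases ht with ht | ht
        · rw [g'l x t ht.2, hgφ x hx t ht]
        · rw [g'r x (hBK hx) t ht.1, hGφ (⟨hx, hsub t ht⟩ : (x, t - k) ∈ BN n N ×ˢ uI)]
          simp only [add_sub_cancel]
      · intro e he x hx
        rw [g'r x (cl_subset_KN he hx) _ (by push_cast; linarith)]
        have : ((k + 1 : ℕ) : ℝ) - k = 1 := by
          push_cast
          ring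
        rw [this]
        exact hGτ e he x hx
      · intro x hx t ht
        rw [hIcc] at ht
        rcases ht with ht | ht
        · rw [g'l x t ht.2, M'l x t ht.2, hM0 x hx t ht]
        · rw [g'r x hx t ht.1, M'r x hx t ht.1 0 uI_zero, hM'0 x hx _ (hsub t ht)]
      · intro x hx t ht
        rw [hIcc] at ht
        rcases ht with ht | ht
        · rw [M'l x t ht.2, hM1 x hx t ht]
        · rw [M'r x hx t ht.1 1 uI_one, hM'1 x hx _ (hsub t ht)]
          simp only [add_sub_cancel]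
      · intro x hx t ht w hw
        rw [hIcc] at ht
        rcases ht with ht | ht
        · rw [M'l x t ht.2, hMB x hx t ht w hw]
        · rw [M'r x (hBK hx) t ht.1 w hw, hM'B x hx _ (hsub t ht) w hw]
          simp only [add_sub_cancel]
      · intro x hx w hw
        rw [M'l x 0 hk0, hMx x hx w hw]
      · intro e he x hx w hw
        have hxK := cl_subset_KN he hx
        rw [M'r x hxK _ (by push_cast; linarith) w hw]
        have : ((k + 1 : ℕ) : ℝ) - k = 1 := by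
          push_cast
          ring
        rw [this, hM'm1 x hxK w hw]
        exact hm1τ e he x hx w hw
  obtain ⟨g, M, hg, hM, hg_0, hgφ, hgτ, hM0, hM1, hMB, hMx, hMτ⟩ := main N le_rfl
  refine ⟨g, M, hg, hM, hg_0, hgφ, ?_, hM0, hM1, hMB, hMx, ?_⟩
  · intro x hx
    obtain ⟨e, he, hxe⟩ := hmem x hx
    have := hgτ e he x hxe
    rw [hτ'N] at this
    have h' : p (g (x, (N : ℝ))) ∈ Iic y0 := this
    rw [hy0] at h'
    exact h'
  · intro x hx w hw
    obtain ⟨e, he, hxe⟩ := hmem x hx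
    have := hMτ e he x hxe w hw
    rw [hτ'N] at this
    have h' : M (x, (N : ℝ), w) ∈ Iic y0 := this
    rw [hy0] at h'
    exact h'

end

end Vale.Agent.P259
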