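import Vale.Agent.Lib.P259.T3Aux
namespace Vale.Agent.P259
open Set Topology
variable {X Y Z B : Type*} [TopologicalSpace X] [TopologicalSpace Y] [TopologicalSpace Z]

/-- appending a coordinate -/
def incP (n : ℕ) (z : (Fin n → ℝ) × ℝ) : Fin (n + 1) → ℝ := Fin.snoc (α := fun _ => ℝ) z.1 z.2
/-- splitting off the last coordinate -/
def prP (n : ℕ) (y : Fin (n + 1) → ℝ) : (Fin n → ℝ) × ℝ := (fun i => y i.castSucc, y (Fin.last n))

theorem incP_cont (n : ℕ) : Continuous (incP n) := by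
  refine continuous_pi fun i => ?_
  refine Fin.lastCases ?_ (fun j => ?_) i
  · simp only [incP, Fin.snoc_last]
    exact continuous_snd
  · simp only [incP, Fin.snoc_castSucc]
    exact (continuous_apply j).comp continuous_fst

theorem prP_cont (n : ℕ) : Continuous (prP n) := by
  unfold prP
  fun_prop

theorem prP_incP (n : ℕ) (z : (Fin n → ℝ) × ℝ) : prP n (incP n z) = z := by
  simp [prP, incP]

theorem incP_prP (n : ℕ) (y : Fin (n + 1) → ℝ) : incP n (prP n y) = y := by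
  funext i
  refine Fin.lastCases ?_ (fun j => ?_) i
  · simp [prP, incP]
  · simp [prP, incP]

theorem mem_cube_iff3 {n : ℕ} {x : Fin n → ℝ} : x ∈ cube n ↔ ∀ i, 0 ≤ x i ∧ x i ≤ 1 := by
  simp only [cube, mem_Icc, Pi.le_def, Pi.zero_apply, Pi.one_apply, forall_and]

theorem incP_mem_cube {n : ℕ} (z : (Fin n → ℝ) × ℝ) :
    incP n z ∈ cube (n + 1) ↔ z.1 ∈ cube n ∧ z.2 ∈ uI := by
  rw [mem_cube_iff3, mem_cube_iff3, Fin.forall_fin_succ']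
  simp only [incP, Fin.snoc_last, Fin.snoc_castSucc, uI, mem_Icc]

theorem incP_mem_bdry {n : ℕ} (z : (Fin n → ℝ) × ℝ) :
    incP n z ∈ bdry (n + 1) ↔ (z.1 ∈ cube n ∧ (z.2 = 0 ∨ z.2 = 1)) ∨ (z.1 ∈ bdry n ∧ z.2 ∈ uI) := by
  unfold bdry
  simp only [mem_ofPred_eq]
  rw [incP_mem_cube, Fin.exists_fin_succ']
  simp only [incP, Fin.snoc_last, Fin.snoc_castSucc]
  constructor
  · rintro ⟨⟨h1, h2⟩, h3 | h3⟩
    · exact Or.inr ⟨⟨h1, h3⟩, h2⟩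
    · exact Or.inl ⟨h1, h3⟩
  · rintro (⟨h1, h2⟩ | ⟨⟨h1, h2⟩, h3⟩)
    · refine ⟨⟨h1, ?_⟩, Or.inr h2⟩
      rcases h2 with h2 | h2
      · rw [h2]
        exact uI_zero
      · rw [h2]
        exact uI_one
    · exact ⟨⟨h1, h3⟩, Or.inl h2⟩

/-- the square lemma for a cube -/
theorem square_cube (m : ℕ) (U V H : (Fin m → ℝ) × ℝ → Y)
    (hU : ContinuousOn U (cube m ×ˢ uI)) (hV : ContinuousOn V (cube m ×ˢ uI))
    (hH : ContinuousOn H (cube m ×ˢ uI))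
    (hH0 : ∀ x ∈ cube m, H (x, 0) = U (x, 0)) (hH1 : ∀ x ∈ cube m, H (x, 1) = V (x, 0))
    (hUV : ∀ x ∈ bdry m, ∀ r ∈ uI, U (x, r) = V (x, r))
    (hHU : ∀ x ∈ bdry m, ∀ r ∈ uI, H (x, r) = U (x, 0)) :
    ∃ W : (Fin m → ℝ) × ℝ → Y, ContinuousOn W (cube m ×ˢ uI) ∧
      (∀ x ∈ cube m, W (x, 0) = U (x, 1)) ∧ (∀ x ∈ cube m, W (x, 1) = V (x, 1)) ∧
      (∀ x ∈ bdry m, ∀ r ∈ uI, W (x, r) = U (x, 1)) := by
  classical
  set F : (Fin m → ℝ) × ℝ × ℝ → Y := fun z =>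
    if z.2.1 = 1 then V (z.1, z.2.2) else if z.2.2 = 0 then H (z.1, z.2.1) else U (z.1, z.2.2)
    with hF
  have v1 : ∀ x ∈ cube m, ∀ s ∈ uI, F (x, s, 0) = H (x, s) := by
    intro x hx s hs
    simp only [hF, if_true]
    split_ifs with h
    · subst h
      exact (hH1 x hx).symm
    · rfl
  have v2 : ∀ x ∈ cube m, ∀ r ∈ uI, F (x, 0, r) = U (x, r) := by
    intro x hx r hr
    simp only [hF, zero_ne_one, if_false]
    split_ifs with h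
    · subst h
      exact hH0 x hx
    · rfl
  have v3 : ∀ x ∈ cube m, ∀ r ∈ uI, F (x, 1, r) = V (x, r) := by
    intro x hx r hr
    simp only [hF, if_true]
  have v4 : ∀ x ∈ bdry m, ∀ s ∈ uI, ∀ r ∈ uI, F (x, s, r) = U (x, r) := by
    intro x hx s hs r hr
    simp only [hF]
    split_ifs with h h'
    · exact (hUV x hx r hr).symm
    · subst h'
      exact hHU x hx s hs
    · rfl
  have d1 : IsClosed (cube m ×ˢ uI ×ˢ ({0} : Set ℝ)) :=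
    (cube_closed m).prod (uI_closed.prod isClosed_singleton)
  have d3 : IsClosed (cube m ×ˢ ({0} : Set ℝ) ×ˢ uI) :=
    (cube_closed m).prod (isClosed_singleton.prod uI_closed)
  have d4 : IsClosed (cube m ×ˢ ({1} : Set ℝ) ×ˢ uI) :=
    (cube_closed m).prod (isClosed_singleton.prod uI_closed)
  have d5 : IsClosed (bdry m ×ˢ uI ×ˢ uI) := (bdry_closed m).prod (uI_closed.prod uI_closed)
  have s2 : cube m ×ˢ ({0, 1} : Set ℝ) ×ˢ uI =
      cube m ×ˢ ({0} : Set ℝ) ×ˢ uI ∪ cube m ×ˢ ({1} : Set ℝ) ×ˢ uI := by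
    rw [← prod_union, ← union_prod]
    rfl
  obtain ⟨G, hG, hGF, -⟩ := hep_prism m F (by
    rw [s2]
    refine ContinuousOn.union_of_isClosed (ContinuousOn.union_of_isClosed ?_
      (ContinuousOn.union_of_isClosed ?_ ?_ d3 d4) d1 (d3.union d4)) ?_ (d1.union (d3.union d4)) d5
    · have : ContinuousOn (fun z : (Fin m → ℝ) × ℝ × ℝ => H (z.1, z.2.1))
          (cube m ×ˢ uI ×ˢ ({0} : Set ℝ)) := hH.comp (by fun_prop) fun z hz => ⟨hz.1, hz.2.1⟩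
      refine this.congr ?_
      rintro ⟨x, s, r⟩ ⟨hx, hs, hr⟩
      have hr' : r = 0 := hr
      subst hr'
      exact v1 x hx s hs
    · have : ContinuousOn (fun z : (Fin m → ℝ) × ℝ × ℝ => U (z.1, z.2.2))
          (cube m ×ˢ ({0} : Set ℝ) ×ˢ uI) := hU.comp (by fun_prop) fun z hz => ⟨hz.1, hz.2.2⟩
      refine this.congr ?_
      rintro ⟨x, s, r⟩ ⟨hx, hs, hr⟩
      have hs' : s = 0 := hs
      subst hs'
      exact v2 x hx r hr
    · have : ContinuousOn (fun z : (Fin m → ℝ) × ℝ × ℝ => V (z.1, z.2.2))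
          (cube m ×ˢ ({1} : Set ℝ) ×ˢ uI) := hV.comp (by fun_prop) fun z hz => ⟨hz.1, hz.2.2⟩
      refine this.congr ?_
      rintro ⟨x, s, r⟩ ⟨hx, hs, hr⟩
      have hs' : s = 1 := hs
      subst hs'
      exact v3 x hx r hr
    · have : ContinuousOn (fun z : (Fin m → ℝ) × ℝ × ℝ => U (z.1, z.2.2))
          (bdry m ×ˢ uI ×ˢ uI) :=
        hU.comp (by fun_prop) fun z hz => ⟨bdry_subset m hz.1, hz.2.2⟩
      refine this.congr ?_
      rintro ⟨x, s, r⟩ ⟨hx, hs, hr⟩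
      exact v4 x hx s hs r hr)
  have e1 : ∀ x ∈ cube m, ∀ s, s = 0 ∨ s = 1 → G (x, s, 1) = F (x, s, 1) := by
    intro x hx s hs
    exact hGF (Or.inl (Or.inr ⟨hx, hs, uI_one⟩))
  refine ⟨fun z => G (z.1, z.2, 1), hG.comp (by fun_prop) fun z hz => ⟨hz.1, hz.2, uI_one⟩,
    ?_, ?_, ?_⟩
  · intro x hx
    simp only
    rw [e1 x hx 0 (Or.inl rfl), v2 x hx 1 uI_one]
  · intro x hx
    simp only
    rw [e1 x hx 1 (Or.inr rfl), v3 x hx 1 uI_one]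
  · intro x hx r hr
    have hm : ((x, r, (1 : ℝ)) : (Fin m → ℝ) × ℝ × ℝ) ∈ cube m ×ˢ uI ×ˢ ({0} : Set ℝ) ∪
        cube m ×ˢ ({0, 1} : Set ℝ) ×ˢ uI ∪ bdry m ×ˢ uI ×ˢ uI := Or.inr ⟨hx, hr, uI_one⟩
    simp only
    rw [hGF hm, v4 x hx r hr 1 uI_one]

/-- the square lemma for a prism -/
theorem square_prism (n : ℕ) (U V H : (Fin n → ℝ) × ℝ × ℝ → Y)
    (hU : ContinuousOn U (cube n ×ˢ uI ×ˢ uI)) (hV : ContinuousOn V (cube n ×ˢ uI ×ˢ uI))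
    (hH : ContinuousOn H (cube n ×ˢ uI ×ˢ uI))
    (hH0 : ∀ x ∈ cube n, ∀ t ∈ uI, H (x, t, 0) = U (x, t, 0))
    (hH1 : ∀ x ∈ cube n, ∀ t ∈ uI, H (x, t, 1) = V (x, t, 0))
    (hUV : ∀ x t, (x ∈ cube n ∧ (t = 0 ∨ t = 1)) ∨ (x ∈ bdry n ∧ t ∈ uI) →
      ∀ r ∈ uI, U (x, t, r) = V (x, t, r))
    (hHU : ∀ x t, (x ∈ cube n ∧ (t = 0 ∨ t = 1)) ∨ (x ∈ bdry n ∧ t ∈ uI) →
      ∀ r ∈ uI, H (x, t, r) = U (x, t, 0)) :
    ∃ W : (Fin n → ℝ) × ℝ × ℝ → Y, ContinuousOn W (cube n ×ˢ uI ×ˢ uI) ∧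
      (∀ x ∈ cube n, ∀ t ∈ uI, W (x, t, 0) = U (x, t, 1)) ∧
      (∀ x ∈ cube n, ∀ t ∈ uI, W (x, t, 1) = V (x, t, 1)) ∧
      (∀ x t, (x ∈ cube n ∧ (t = 0 ∨ t = 1)) ∨ (x ∈ bdry n ∧ t ∈ uI) →
        ∀ r ∈ uI, W (x, t, r) = U (x, t, 1)) := by
  have pm : ∀ y ∈ cube (n + 1), (prP n y).1 ∈ cube n ∧ (prP n y).2 ∈ uI := by
    intro y hy
    rw [← incP_mem_cube, incP_prP]
    exact hy
  have pb : ∀ y ∈ bdry (n + 1), ((prP n y).1 ∈ cube n ∧ ((prP n y).2 = 0 ∨ (prP n y).2 = 1)) ∨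
      ((prP n y).1 ∈ bdry n ∧ (prP n y).2 ∈ uI) := by
    intro y hy
    rw [← incP_mem_bdry, incP_prP]
    exact hy
  have hpc := prP_cont n
  have cc : ∀ T : (Fin n → ℝ) × ℝ × ℝ → Y, ContinuousOn T (cube n ×ˢ uI ×ˢ uI) →
      ContinuousOn (fun z : (Fin (n + 1) → ℝ) × ℝ => T ((prP n z.1).1, (prP n z.1).2, z.2))
        (cube (n + 1) ×ˢ uI) := by
    intro T hT
    refine hT.comp (by fun_prop) ?_
    rintro ⟨y, r⟩ ⟨hy, hr⟩
    exact ⟨(pm y hy).1, (pm y hy).2, hr⟩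
  obtain ⟨W, hW, hW0, hW1, hWb⟩ := square_cube (n + 1)
    (fun z => U ((prP n z.1).1, (prP n z.1).2, z.2)) (fun z => V ((prP n z.1).1, (prP n z.1).2, z.2))
    (fun z => H ((prP n z.1).1, (prP n z.1).2, z.2)) (cc U hU) (cc V hV) (cc H hH)
    (fun y hy => hH0 _ (pm y hy).1 _ (pm y hy).2) (fun y hy => hH1 _ (pm y hy).1 _ (pm y hy).2)
    (fun y hy r hr => hUV _ _ (pb y hy) r hr) (fun y hy r hr => hHU _ _ (pb y hy) r hr)
  have hic := incP_cont n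
  refine ⟨fun z => W (incP n (z.1, z.2.1), z.2.2), hW.comp (by fun_prop) ?_, ?_, ?_, ?_⟩
  · rintro ⟨x, t, r⟩ ⟨hx, ht, hr⟩
    exact ⟨(incP_mem_cube (x, t)).2 ⟨hx, ht⟩, hr⟩
  · intro x hx t ht
    have := hW0 _ ((incP_mem_cube (x, t)).2 ⟨hx, ht⟩)
    simp only [prP_incP] at this ⊢
    exact this
  · intro x hx t ht
    have := hW1 _ ((incP_mem_cube (x, t)).2 ⟨hx, ht⟩)
    simp only [prP_incP] at this ⊢
    exact this
  · intro x t h r hr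
    have := hWb _ ((incP_mem_bdry (x, t)).2 h) r hr
    simp only [prP_incP] at this ⊢
    exact this

end Vale.Agent.P259
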