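import Vale.Agent.Lib.P259.Charts
import Vale.Agent.Lib.P259.Approx
import Vale.Agent.Lib.P259.TwoOfThree
import Vale.Agent.Lib.P259.T3Lift
import Vale.Agent.Lib.P259.T3Square
namespace Vale.Agent.P259
open Set Topology
variable {X Y Z B : Type*} [TopologicalSpace X] [TopologicalSpace Y] [TopologicalSpace Z]

theorem scale_mem_cube {n N : ℕ} (hN : 0 < N) {x : Fin n → ℝ} (hx : x ∈ KN n N) :
    (fun i => x i / N) ∈ cube n := by
  have hN' : (0 : ℝ) < N := by exact_mod_cast hN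
  rw [mem_cube_iff3]
  intro i
  exact ⟨div_nonneg (hx.1 i) hN'.le, (div_le_one hN').2 (hx.2 i)⟩

theorem scale_mem_bdry {n N : ℕ} (hN : 0 < N) {x : Fin n → ℝ} (hx : x ∈ BN n N) :
    (fun i => x i / N) ∈ bdry n := by
  have hN' : (0 : ℝ) < N := by exact_mod_cast hN
  obtain ⟨i, hi⟩ := hx.2
  refine ⟨scale_mem_cube hN hx.1, i, ?_⟩
  rcases hi with hi | hi
  · left
    simp only [hi, zero_div]
  · right
    simp only [hi, div_self hN'.ne']

theorem unscale_mem_KN {n N : ℕ} (hN : 0 < N) {x : Fin n → ℝ} (hx : x ∈ cube n) :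
    (fun i => (N : ℝ) * x i) ∈ KN n N := by
  have hN' : (0 : ℝ) < N := by exact_mod_cast hN
  rw [mem_cube_iff3] at hx
  refine ⟨fun i => ?_, fun i => ?_⟩
  · exact mul_nonneg hN'.le (hx i).1
  · have := mul_le_mul_of_nonneg_left (hx i).2 hN'.le
    simpa using this

theorem unscale_mem_BN {n N : ℕ} (hN : 0 < N) {x : Fin n → ℝ} (hx : x ∈ bdry n) :
    (fun i => (N : ℝ) * x i) ∈ BN n N := by
  obtain ⟨i, hi⟩ := hx.2
  refine ⟨unscale_mem_KN hN hx.1, i, ?_⟩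
  rcases hi with hi | hi
  · left
    simp only [hi, mul_zero]
  · right
    simp only [hi, mul_one]

theorem scale_unscale {n N : ℕ} (hN : 0 < N) (x : Fin n → ℝ) :
    (fun i => (N : ℝ) * x i / N) = x := by
  have hN' : (0 : ℝ) < N := by exact_mod_cast hN
  funext i
  field_simp

section
variable [Preorder B] [TopologicalSpace B] [Topology.IsLowerSet B]

/-- weak lifting over the unit interval -/
theorem weak_lift_unit (p : X → B) (hp : Continuous p) (x0 y0 : B) (hy0 : Iic y0 = {y0})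
    (h2 : ∀ b₁ b₀ : B, b₁ ≤ b₀ → ∀ n, Compress n (p ⁻¹' Iic b₁) (p ⁻¹' Iic b₀))
    {n : ℕ} (γ : (Fin n → ℝ) × ℝ → B) (hγ : ContinuousOn γ (cube n ×ˢ uI))
    (hγ0 : ∀ x ∈ cube n, γ (x, 0) = x0) (hγ1 : ∀ x ∈ cube n, γ (x, 1) = y0)
    (g0 : (Fin n → ℝ) → X) (hg0 : ContinuousOn g0 (cube n)) (hg0p : ∀ x ∈ cube n, p (g0 x) = x0)
    (φ : (Fin n → ℝ) × ℝ → X) (hφ : ContinuousOn φ (bdry n ×ˢ uI))
    (hφ0 : ∀ x ∈ bdry n, φ (x, 0) = g0 x)
    (hφp : ∀ x ∈ bdry n, ∀ t ∈ uI, p (φ (x, t)) = γ (x, t)) :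
    ∃ (g : (Fin n → ℝ) × ℝ → X) (M : (Fin n → ℝ) × ℝ × ℝ → B),
      ContinuousOn g (cube n ×ˢ uI) ∧ ContinuousOn M (cube n ×ˢ uI ×ˢ uI) ∧
      (∀ x ∈ cube n, g (x, 0) = g0 x) ∧
      (∀ x ∈ bdry n, ∀ t ∈ uI, g (x, t) = φ (x, t)) ∧
      (∀ x ∈ cube n, p (g (x, 1)) = y0) ∧
      (∀ x ∈ cube n, ∀ t ∈ uI, M (x, t, 0) = p (g (x, t))) ∧
      (∀ x ∈ cube n, ∀ t ∈ uI, M (x, t, 1) = γ (x, t)) ∧
      (∀ x ∈ bdry n, ∀ t ∈ uI, ∀ w ∈ uI, M (x, t, w) = γ (x, t)) ∧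
      (∀ x ∈ cube n, ∀ w ∈ uI, M (x, 0, w) = x0) ∧
      (∀ x ∈ cube n, ∀ w ∈ uI, M (x, 1, w) = y0) := by
  obtain ⟨N, σ, τ, hN, hσ, hτ, mono, hτσ⟩ := approx_prism γ hγ
  have hN' : (0 : ℝ) < N := by exact_mod_cast hN
  have hts : ∀ t ∈ Icc (0 : ℝ) N, t / N ∈ uI := fun t ht =>
    ⟨div_nonneg ht.1 hN'.le, (div_le_one hN').2 ht.2⟩
  have htu : ∀ t ∈ uI, (N : ℝ) * t ∈ Icc (0 : ℝ) N := fun t ht =>
    ⟨mul_nonneg hN'.le ht.1, by
      have := mul_le_mul_of_nonneg_left ht.2 hN'.le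
      simpa using this⟩
  obtain ⟨g, M, hg, hM, h0, hφg, h1, hM0, hM1, hMB, hMx, hMy⟩ := weak_lift p hp x0 y0 hy0 h2 hN
    (fun z => γ (fun i => z.1 i / N, z.2 / N))
    (hγ.comp (by fun_prop) fun z hz => ⟨scale_mem_cube hN hz.1, hts _ hz.2⟩) σ τ
    hσ hτ mono hτσ
    (fun x hx => by
      simp only [zero_div]
      exact hγ0 _ (scale_mem_cube hN hx))
    (fun x hx => by
      simp only [div_self hN'.ne']
      exact hγ1 _ (scale_mem_cube hN hx))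
    (fun x => g0 (fun i => x i / N)) (hg0.comp (by fun_prop) fun x hx => scale_mem_cube hN hx)
    (fun x hx => hg0p _ (scale_mem_cube hN hx))
    (fun z => φ (fun i => z.1 i / N, z.2 / N))
    (hφ.comp (by fun_prop) fun z hz => ⟨scale_mem_bdry hN hz.1, hts _ hz.2⟩)
    (fun x hx => by
      simp only [zero_div]
      exact hφ0 _ (scale_mem_bdry hN hx))
    (fun x hx t ht => hφp _ (scale_mem_bdry hN hx) _ (hts t ht))
  have hNt : ∀ t : ℝ, (N : ℝ) * t / N = t := fun t => by field_simp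
  refine ⟨fun z => g (fun i => N * z.1 i, N * z.2), fun z => M (fun i => N * z.1 i, N * z.2.1, z.2.2),
    hg.comp (by fun_prop) fun z hz => ⟨unscale_mem_KN hN hz.1, htu _ hz.2⟩,
    hM.comp (by fun_prop) fun z hz => ⟨unscale_mem_KN hN hz.1, htu _ hz.2.1, hz.2.2⟩,
    ?_, ?_, ?_, ?_, ?_, ?_, ?_, ?_⟩
  · intro x hx
    have := h0 _ (unscale_mem_KN hN hx)
    simp only [mul_zero]
    simp only [scale_unscale hN] at this
    exact this
  · intro x hx t ht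
    have := hφg _ (unscale_mem_BN hN hx) _ (htu t ht)
    simp only [hNt] at this
    exact this
  · intro x hx
    have := h1 _ (unscale_mem_KN hN hx)
    simp only [mul_one]
    exact this
  · intro x hx t ht
    exact hM0 _ (unscale_mem_KN hN hx) _ (htu t ht)
  · intro x hx t ht
    have := hM1 _ (unscale_mem_KN hN hx) _ (htu t ht)
    simp only [hNt] at this
    exact this
  · intro x hx t ht w hw
    have := hMB _ (unscale_mem_BN hN hx) _ (htu t ht) w hw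
    simp only [hNt] at this
    exact this
  · intro x hx w hw
    have := hMx _ (unscale_mem_KN hN hx) w hw
    simp only [mul_zero]
    exact this
  · intro x hx w hw
    have := hMy _ (unscale_mem_KN hN hx) w hw
    simp only [mul_one]
    exact this

omit [Preorder B] [Topology.IsLowerSet B] in
/-- Concatenation of homotopies on the prism. -/
theorem concat_prism (n : ℕ) (H K : (Fin n → ℝ) × ℝ × ℝ → B)
    (hH : ContinuousOn H (cube n ×ˢ uI ×ˢ uI)) (hK : ContinuousOn K (cube n ×ˢ uI ×ˢ uI))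
    (hHK : ∀ x ∈ cube n, ∀ t ∈ uI, H (x, t, 1) = K (x, t, 0)) :
    ∃ L : (Fin n → ℝ) × ℝ × ℝ → B, ContinuousOn L (cube n ×ˢ uI ×ˢ uI) ∧
      (∀ x ∈ cube n, ∀ t ∈ uI, L (x, t, 0) = H (x, t, 0)) ∧
      (∀ x ∈ cube n, ∀ t ∈ uI, L (x, t, 1) = K (x, t, 1)) ∧
      (∀ x ∈ cube n, ∀ t ∈ uI, ∀ b : B, (∀ r ∈ uI, H (x, t, r) = b) → (∀ r ∈ uI, K (x, t, r) = b) →
        ∀ r ∈ uI, L (x, t, r) = b) := by
  classical
  have hs : uI = Icc (0 : ℝ) (1 / 2) ∪ Icc (1 / 2 : ℝ) 1 := by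
    rw [Icc_union_Icc_eq_Icc (by norm_num) (by norm_num)]
    rfl
  have h1 : ∀ r ∈ Icc (0 : ℝ) (1 / 2), 2 * r ∈ uI := fun r hr =>
    ⟨by linarith [hr.1], by linarith [hr.2]⟩
  have h2 : ∀ r ∈ Icc (1 / 2 : ℝ) 1, 2 * r - 1 ∈ uI := fun r hr =>
    ⟨by linarith [hr.1], by linarith [hr.2]⟩
  set L : (Fin n → ℝ) × ℝ × ℝ → B := fun z =>
    if z.2.2 ≤ 1 / 2 then H (z.1, z.2.1, 2 * z.2.2) else K (z.1, z.2.1, 2 * z.2.2 - 1) with hL
  have l1 : ∀ x t r, r ≤ 1 / 2 → L (x, t, r) = H (x, t, 2 * r) := by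
    intro x t r hr
    simp only [hL, hr, if_true]
  have l2 : ∀ x ∈ cube n, ∀ t ∈ uI, ∀ r, 1 / 2 ≤ r → L (x, t, r) = K (x, t, 2 * r - 1) := by
    intro x hx t ht r hr
    simp only [hL]
    split_ifs with h
    · have : r = 1 / 2 := le_antisymm h hr
      subst this
      norm_num
      exact hHK x hx t ht
    · rfl
  refine ⟨L, ?_, ?_, ?_, ?_⟩
  · have : cube n ×ˢ uI ×ˢ uI =
        cube n ×ˢ uI ×ˢ Icc (0 : ℝ) (1 / 2) ∪ cube n ×ˢ uI ×ˢ Icc (1 / 2 : ℝ) 1 := by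
      rw [← prod_union, ← prod_union, ← hs]
    rw [this]
    refine ContinuousOn.union_of_isClosed ?_ ?_
      ((cube_closed n).prod (uI_closed.prod isClosed_Icc))
      ((cube_closed n).prod (uI_closed.prod isClosed_Icc))
    · have : ContinuousOn (fun z : (Fin n → ℝ) × ℝ × ℝ => H (z.1, z.2.1, 2 * z.2.2))
          (cube n ×ˢ uI ×ˢ Icc (0 : ℝ) (1 / 2)) :=
        hH.comp (by fun_prop) fun z hz => ⟨hz.1, hz.2.1, h1 _ hz.2.2⟩
      refine this.congr ?_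
      rintro ⟨x, t, r⟩ ⟨hx, ht, hr⟩
      exact l1 x t r hr.2
    · have : ContinuousOn (fun z : (Fin n → ℝ) × ℝ × ℝ => K (z.1, z.2.1, 2 * z.2.2 - 1))
          (cube n ×ˢ uI ×ˢ Icc (1 / 2 : ℝ) 1) :=
        hK.comp (by fun_prop) fun z hz => ⟨hz.1, hz.2.1, h2 _ hz.2.2⟩
      refine this.congr ?_
      rintro ⟨x, t, r⟩ ⟨hx, ht, hr⟩
      exact l2 x hx t ht r hr.1
  · intro x hx t ht
    rw [l1 x t 0 (by norm_num)]
    norm_num
  · intro x hx t ht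
    rw [l2 x hx t ht 1 (by norm_num)]
    norm_num
  · intro x hx t ht b hb1 hb2 r hr
    rw [hs] at hr
    rcases hr with hr | hr
    · rw [l1 x t r hr.2]
      exact hb1 _ (h1 r hr)
    · rw [l2 x hx t ht r hr.1]
      exact hb2 _ (h2 r hr)

/-- the core of `sabs`, when the boundary datum factors through `q` -/
theorem sabs_core (p : X → B) (hp : Continuous p) (x0 y0 : B) (hy0 : Iic y0 = {y0})
    (h1 : WContr (univ : Set X))
    (h2 : ∀ b₁ b₀ : B, b₁ ≤ b₀ → ∀ n, Compress n (p ⁻¹' Iic b₁) (p ⁻¹' Iic b₀))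
    {Q Zt : Type*} [TopologicalSpace Q] [TopologicalSpace Zt]
    (q : Zt → Q)
    (s : Q × ℝ → B)
    (δ : Zt × ℝ → X) (hδ : ContinuousOn δ (univ ×ˢ uI)) (hδs : ∀ z, ∀ t ∈ uI, p (δ (z, t)) = s (q z, t))
    (D : Set X) (hD : WContr D) (hDp : ∀ d ∈ D, p d = x0) (hδ0 : ∀ z, δ (z, 0) ∈ D)
    (j : Zt → {x : X // p x = y0}) (hj : IsWE j) (hδ1 : ∀ z, δ (z, 1) = (j z : X))
    (n : ℕ) (z : (Fin n → ℝ) → Zt) (hz : ContinuousOn z (bdry n))
    (γ : (Fin n → ℝ) × ℝ → B) (hγ : ContinuousOn γ (cube n ×ˢ uI))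
    (hγ0 : ∀ x ∈ cube n, γ (x, 0) = x0) (hγ1 : ∀ x ∈ cube n, γ (x, 1) = y0)
    (hγa : ∀ x ∈ bdry n, ∀ t ∈ uI, γ (x, t) = s (q (z x), t)) :
    ∃ (z' : (Fin n → ℝ) → Zt) (H : (Fin n → ℝ) × ℝ × ℝ → B),
      ContinuousOn z' (cube n) ∧ EqOn z' z (bdry n) ∧ ContinuousOn H (cube n ×ˢ uI ×ˢ uI) ∧
      (∀ x ∈ cube n, ∀ t ∈ uI, H (x, t, 0) = s (q (z' x), t)) ∧
      (∀ x ∈ cube n, ∀ t ∈ uI, H (x, t, 1) = γ (x, t)) ∧
      (∀ x ∈ cube n, ∀ r ∈ uI, H (x, 0, r) = x0) ∧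
      (∀ x ∈ cube n, ∀ r ∈ uI, H (x, 1, r) = y0) ∧
      (∀ x ∈ bdry n, ∀ t ∈ uI, ∀ r ∈ uI, H (x, t, r) = γ (x, t)) := by
  classical
  have hsub := bdry_subset n
  have hcc := cube_closed n
  have hbc := bdry_closed n
  -- step 1: extend the initial values inside `D`
  obtain ⟨g0, hg0, hg0D, hg0e⟩ := hD.2 n (fun x => δ (z x, 0))
    (hδ.comp (by fun_prop) fun x hx => ⟨mem_univ _, uI_zero⟩) (fun x hx => hδ0 _)
  -- step 2, 3: weak lifting
  have hφ : ContinuousOn (fun w : (Fin n → ℝ) × ℝ => δ (z w.1, w.2)) (bdry n ×ˢ uI) := by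
    refine hδ.comp ?_ fun w hw => ⟨mem_univ _, hw.2⟩
    exact (hz.comp continuousOn_fst fun w hw => hw.1).prodMk continuousOn_snd
  obtain ⟨g, M, hg, hM, hg_0, hgφ, hg_1, hM0, hM1, hMB, hMx, hMy⟩ := weak_lift_unit p hp x0 y0 hy0
    h2 γ hγ hγ0 hγ1 g0 hg0 (fun x hx => hDp _ (hg0D hx)) (fun w => δ (z w.1, w.2)) hφ
    (fun x hx => (hg0e hx).symm)
    (fun x hx t ht => by
      simp only
      rw [hδs _ t ht, hγa x hx t ht])
  -- step 4: use that `j` is a weak equivalence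
  have h0c : (0 : Fin n → ℝ) ∈ cube n := mem_cube_iff3.2 fun i => ⟨le_refl _, by simp⟩
  have hyex : p (g (0, 1)) = y0 := hg_1 0 h0c
  set bb : (Fin n → ℝ) → {x : X // p x = y0} := fun x =>
    if h : p (g (x, 1)) = y0 then ⟨g (x, 1), h⟩ else ⟨g (0, 1), hyex⟩ with hbb
  have hbbv : ∀ x ∈ cube n, (bb x : X) = g (x, 1) := by
    intro x hx
    simp only [hbb, hg_1 x hx, dif_pos]
  have hbbc : ContinuousOn bb (cube n) := by
    have hind : Topology.IsInducing (Subtype.val : {x : X // p x = y0} → X) := ⟨rfl⟩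
    rw [hind.continuousOn_iff]
    have : ContinuousOn (fun x => g (x, 1)) (cube n) :=
      hg.comp (by fun_prop) fun x hx => ⟨hx, uI_one⟩
    exact this.congr fun x hx => hbbv x hx
  obtain ⟨z', H4, hz', hz'z, hH4, hH40, hH41, hH4b⟩ := hj.2.2 n z bb hz hbbc (by
    intro x hx
    apply Subtype.ext
    rw [hbbv x (hsub hx), hgφ x hx 1 uI_one, hδ1])
  have hz'z' : ∀ x ∈ bdry n, z' x = z x := fun x hx => hz'z hx
  -- step 5: the homotopy in `X`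
  have hu : ContinuousOn (fun w : (Fin n → ℝ) × ℝ => δ (z' w.1, w.2)) (cube n ×ˢ uI) := by
    refine hδ.comp ?_ fun w hw => ⟨mem_univ _, hw.2⟩
    exact (hz'.comp continuousOn_fst fun w hw => hw.1).prodMk continuousOn_snd
  have s1 : cube n ×ˢ ({0, 1} : Set ℝ) = cube n ×ˢ ({0} : Set ℝ) ∪ cube n ×ˢ ({1} : Set ℝ) := by
    rw [← prod_union]
    rfl
  obtain ⟨K0, hK0, hK0D, hK0e⟩ := (hD.2 (n + 1)).prism
    (fun w : (Fin n → ℝ) × ℝ => if w.2 = 1 then g0 w.1 else δ (z' w.1, 0))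
    (by
      rw [s1]
      refine ContinuousOn.union_of_isClosed (ContinuousOn.union_of_isClosed ?_ ?_
        (hcc.prod isClosed_singleton) (hcc.prod isClosed_singleton)) ?_
        ((hcc.prod isClosed_singleton).union (hcc.prod isClosed_singleton)) (hbc.prod uI_closed)
      · have : ContinuousOn (fun w : (Fin n → ℝ) × ℝ => δ (z' w.1, 0)) (cube n ×ˢ ({0} : Set ℝ)) :=
          hu.comp (g := fun w : (Fin n → ℝ) × ℝ => δ (z' w.1, w.2))
            (f := fun w : (Fin n → ℝ) × ℝ => (w.1, (0 : ℝ))) (by fun_prop)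
            fun w hw => ⟨hw.1, uI_zero⟩
        refine this.congr ?_
        rintro ⟨x, r⟩ ⟨hx, hr⟩
        have hr' : r = 0 := hr
        subst hr'
        simp only [zero_ne_one, if_false]
      · have : ContinuousOn (fun w : (Fin n → ℝ) × ℝ => g0 w.1) (cube n ×ˢ ({1} : Set ℝ)) :=
          hg0.comp continuousOn_fst fun w hw => hw.1
        refine this.congr ?_
        rintro ⟨x, r⟩ ⟨hx, hr⟩
        have hr' : r = 1 := hr
        subst hr'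
        simp only [if_true]
      · have : ContinuousOn (fun w : (Fin n → ℝ) × ℝ => δ (z' w.1, 0)) (bdry n ×ˢ uI) :=
          hu.comp (g := fun w : (Fin n → ℝ) × ℝ => δ (z' w.1, w.2))
            (f := fun w : (Fin n → ℝ) × ℝ => (w.1, (0 : ℝ))) (by fun_prop)
            fun w hw => ⟨hsub hw.1, uI_zero⟩
        refine this.congr ?_
        rintro ⟨x, r⟩ ⟨hx, hr⟩
        have hx' : x ∈ bdry n := hx
        simp only
        split_ifs with h
        · rw [hg0e hx', hz'z' x hx']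
        · rfl)
    (by
      rintro ⟨x, r⟩ hw
      simp only
      split_ifs with h
      · rcases hw with hw | hw
        · exact hg0D hw.1
        · exact hg0D (hsub hw.1)
      · exact hδ0 _)
  have hK00 : ∀ x ∈ cube n, K0 (x, 0) = δ (z' x, 0) := by
    intro x hx
    have hm : ((x, (0 : ℝ)) : (Fin n → ℝ) × ℝ) ∈ cube n ×ˢ ({0, 1} : Set ℝ) ∪ bdry n ×ˢ uI :=
      Or.inl ⟨hx, Or.inl rfl⟩
    rw [hK0e hm]
    simp only [zero_ne_one, if_false]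
  have hK01 : ∀ x ∈ cube n, K0 (x, 1) = g0 x := by
    intro x hx
    have hm : ((x, (1 : ℝ)) : (Fin n → ℝ) × ℝ) ∈ cube n ×ˢ ({0, 1} : Set ℝ) ∪ bdry n ×ˢ uI :=
      Or.inl ⟨hx, Or.inr rfl⟩
    rw [hK0e hm]
    simp only [if_true]
  have hK0b : ∀ x ∈ bdry n, ∀ r ∈ uI, K0 (x, r) = δ (z x, 0) := by
    intro x hx r hr
    have hm : ((x, r) : (Fin n → ℝ) × ℝ) ∈ cube n ×ˢ ({0, 1} : Set ℝ) ∪ bdry n ×ˢ uI :=
      Or.inr ⟨hx, hr⟩
    rw [hK0e hm]
    simp only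
    split_ifs with h
    · exact hg0e hx
    · rw [hz'z' x hx]
  set F : (Fin n → ℝ) × ℝ × ℝ → X := fun w =>
    if w.2.2 = 0 then δ (z' w.1, w.2.1) else if w.2.2 = 1 then g (w.1, w.2.1) else
      if w.2.1 = 0 then K0 (w.1, w.2.2) else if w.2.1 = 1 then (H4 (w.1, w.2.2) : X) else
        δ (z w.1, w.2.1) with hF
  have v1 : ∀ x ∈ cube n, ∀ t ∈ uI, F (x, t, 0) = δ (z' x, t) := by
    intro x hx t ht
    simp only [hF, if_true]
  have v2 : ∀ x ∈ cube n, ∀ t ∈ uI, F (x, t, 1) = g (x, t) := by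
    intro x hx t ht
    simp only [hF, one_ne_zero, if_false, if_true]
  have v3 : ∀ x ∈ cube n, ∀ r ∈ uI, F (x, 0, r) = K0 (x, r) := by
    intro x hx r hr
    simp only [hF]
    by_cases h0 : r = 0
    · subst h0
      simp only [if_true]
      exact (hK00 x hx).symm
    · by_cases h1 : r = 1
      · subst h1
        simp only [one_ne_zero, if_false, if_true]
        rw [hK01 x hx, hg_0 x hx]
      · simp only [h0, h1, if_false, if_true]
  have v4 : ∀ x ∈ cube n, ∀ r ∈ uI, F (x, 1, r) = (H4 (x, r) : X) := by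
    intro x hx r hr
    simp only [hF]
    by_cases h0 : r = 0
    · subst h0
      simp only [if_true]
      rw [hH40 x hx, hδ1]
    · by_cases h1 : r = 1
      · subst h1
        simp only [one_ne_zero, if_false, if_true]
        rw [hH41 x hx, hbbv x hx]
      · simp only [h0, h1, one_ne_zero, if_false, if_true]
  have v5 : ∀ x ∈ bdry n, ∀ t ∈ uI, ∀ r ∈ uI, F (x, t, r) = δ (z x, t) := by
    intro x hx t ht r hr
    simp only [hF]
    by_cases h0 : r = 0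
    · subst h0
      simp only [if_true]
      rw [hz'z' x hx]
    · by_cases h1 : r = 1
      · subst h1
        simp only [one_ne_zero, if_false, if_true]
        exact hgφ x hx t ht
      · by_cases h2 : t = 0
        · subst h2
          simp only [h0, h1, if_false, if_true]
          exact hK0b x hx r hr
        · by_cases h3 : t = 1
          · subst h3
            simp only [h0, h1, one_ne_zero, if_false, if_true]
            rw [hH4b x hx r hr, hbbv x (hsub hx), hgφ x hx 1 uI_one]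
          · simp only [h0, h1, h2, h3, if_false]
  have d1 : IsClosed (cube n ×ˢ uI ×ˢ ({0} : Set ℝ)) := hcc.prod (uI_closed.prod isClosed_singleton)
  have d2 : IsClosed (cube n ×ˢ uI ×ˢ ({1} : Set ℝ)) := hcc.prod (uI_closed.prod isClosed_singleton)
  have d3 : IsClosed (cube n ×ˢ ({0} : Set ℝ) ×ˢ uI) := hcc.prod (isClosed_singleton.prod uI_closed)
  have d4 : IsClosed (cube n ×ˢ ({1} : Set ℝ) ×ˢ uI) := hcc.prod (isClosed_singleton.prod uI_closed)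
  have d5 : IsClosed (bdry n ×ˢ uI ×ˢ uI) := hbc.prod (uI_closed.prod uI_closed)
  have e1 : cube n ×ˢ uI ×ˢ ({0, 1} : Set ℝ) =
      cube n ×ˢ uI ×ˢ ({0} : Set ℝ) ∪ cube n ×ˢ uI ×ˢ ({1} : Set ℝ) := by
    rw [← prod_union, ← prod_union]
    rfl
  have e2 : cube n ×ˢ ({0, 1} : Set ℝ) ×ˢ uI =
      cube n ×ˢ ({0} : Set ℝ) ×ˢ uI ∪ cube n ×ˢ ({1} : Set ℝ) ×ˢ uI := by
    rw [← prod_union, ← union_prod]
    rfl
  obtain ⟨G, hG, -, hGF⟩ := (h1.2 (n + 2)).prism2 F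
    (by
      rw [e1, e2]
      refine ContinuousOn.union_of_isClosed (ContinuousOn.union_of_isClosed
        (ContinuousOn.union_of_isClosed ?_ ?_ d1 d2) (ContinuousOn.union_of_isClosed ?_ ?_ d3 d4)
        (d1.union d2) (d3.union d4)) ?_ ((d1.union d2).union (d3.union d4)) d5
      · have : ContinuousOn (fun w : (Fin n → ℝ) × ℝ × ℝ => δ (z' w.1, w.2.1))
            (cube n ×ˢ uI ×ˢ ({0} : Set ℝ)) :=
          hu.comp (g := fun w : (Fin n → ℝ) × ℝ => δ (z' w.1, w.2))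
            (f := fun w : (Fin n → ℝ) × ℝ × ℝ => (w.1, w.2.1)) (by fun_prop)
            fun w hw => ⟨hw.1, hw.2.1⟩
        refine this.congr ?_
        rintro ⟨x, t, r⟩ ⟨hx, ht, hr⟩
        have hr' : r = 0 := hr
        subst hr'
        exact v1 x hx t ht
      · have : ContinuousOn (fun w : (Fin n → ℝ) × ℝ × ℝ => g (w.1, w.2.1))
            (cube n ×ˢ uI ×ˢ ({1} : Set ℝ)) :=
          hg.comp (by fun_prop) fun w hw => ⟨hw.1, hw.2.1⟩
        refine this.congr ?_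
        rintro ⟨x, t, r⟩ ⟨hx, ht, hr⟩
        have hr' : r = 1 := hr
        subst hr'
        exact v2 x hx t ht
      · have : ContinuousOn (fun w : (Fin n → ℝ) × ℝ × ℝ => K0 (w.1, w.2.2))
            (cube n ×ˢ ({0} : Set ℝ) ×ˢ uI) :=
          hK0.comp (by fun_prop) fun w hw => ⟨hw.1, hw.2.2⟩
        refine this.congr ?_
        rintro ⟨x, t, r⟩ ⟨hx, ht, hr⟩
        have ht' : t = 0 := ht
        subst ht'
        exact v3 x hx r hr
      · have : ContinuousOn (fun w : (Fin n → ℝ) × ℝ × ℝ => (H4 (w.1, w.2.2) : X))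
            (cube n ×ˢ ({1} : Set ℝ) ×ˢ uI) :=
          (continuous_subtype_val.comp_continuousOn hH4).comp
            (f := fun w : (Fin n → ℝ) × ℝ × ℝ => (w.1, w.2.2)) (by fun_prop)
            fun w hw => ⟨hw.1, hw.2.2⟩
        refine this.congr ?_
        rintro ⟨x, t, r⟩ ⟨hx, ht, hr⟩
        have ht' : t = 1 := ht
        subst ht'
        exact v4 x hx r hr
      · have : ContinuousOn (fun w : (Fin n → ℝ) × ℝ × ℝ => δ (z w.1, w.2.1))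
            (bdry n ×ˢ uI ×ˢ uI) :=
          hφ.comp (g := fun w : (Fin n → ℝ) × ℝ => δ (z w.1, w.2))
            (f := fun w : (Fin n → ℝ) × ℝ × ℝ => (w.1, w.2.1)) (by fun_prop)
            fun w hw => ⟨hw.1, hw.2.1⟩
        refine this.congr ?_
        rintro ⟨x, t, r⟩ ⟨hx, ht, hr⟩
        exact v5 x hx t ht r hr)
    (fun _ _ => mem_univ _)
  have w1 : ∀ x ∈ cube n, ∀ t ∈ uI, G (x, t, 0) = δ (z' x, t) := by
    intro x hx t ht
    have hm : ((x, t, (0 : ℝ)) : (Fin n → ℝ) × ℝ × ℝ) ∈ cube n ×ˢ uI ×ˢ ({0, 1} : Set ℝ) ∪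
        cube n ×ˢ ({0, 1} : Set ℝ) ×ˢ uI ∪ bdry n ×ˢ uI ×ˢ uI := Or.inl (Or.inl ⟨hx, ht, Or.inl rfl⟩)
    rw [hGF hm, v1 x hx t ht]
  have w2 : ∀ x ∈ cube n, ∀ t ∈ uI, G (x, t, 1) = g (x, t) := by
    intro x hx t ht
    have hm : ((x, t, (1 : ℝ)) : (Fin n → ℝ) × ℝ × ℝ) ∈ cube n ×ˢ uI ×ˢ ({0, 1} : Set ℝ) ∪
        cube n ×ˢ ({0, 1} : Set ℝ) ×ˢ uI ∪ bdry n ×ˢ uI ×ˢ uI := Or.inl (Or.inl ⟨hx, ht, Or.inr rfl⟩)
    rw [hGF hm, v2 x hx t ht]
  have w3 : ∀ x ∈ cube n, ∀ r ∈ uI, G (x, 0, r) = K0 (x, r) := by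
    intro x hx r hr
    have hm : ((x, (0 : ℝ), r) : (Fin n → ℝ) × ℝ × ℝ) ∈ cube n ×ˢ uI ×ˢ ({0, 1} : Set ℝ) ∪
        cube n ×ˢ ({0, 1} : Set ℝ) ×ˢ uI ∪ bdry n ×ˢ uI ×ˢ uI := Or.inl (Or.inr ⟨hx, Or.inl rfl, hr⟩)
    rw [hGF hm, v3 x hx r hr]
  have w4 : ∀ x ∈ cube n, ∀ r ∈ uI, G (x, 1, r) = (H4 (x, r) : X) := by
    intro x hx r hr
    have hm : ((x, (1 : ℝ), r) : (Fin n → ℝ) × ℝ × ℝ) ∈ cube n ×ˢ uI ×ˢ ({0, 1} : Set ℝ) ∪
        cube n ×ˢ ({0, 1} : Set ℝ) ×ˢ uI ∪ bdry n ×ˢ uI ×ˢ uI := Or.inl (Or.inr ⟨hx, Or.inr rfl, hr⟩)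
    rw [hGF hm, v4 x hx r hr]
  have w5 : ∀ x ∈ bdry n, ∀ t ∈ uI, ∀ r ∈ uI, G (x, t, r) = δ (z x, t) := by
    intro x hx t ht r hr
    have hm : ((x, t, r) : (Fin n → ℝ) × ℝ × ℝ) ∈ cube n ×ˢ uI ×ˢ ({0, 1} : Set ℝ) ∪
        cube n ×ˢ ({0, 1} : Set ℝ) ×ˢ uI ∪ bdry n ×ˢ uI ×ˢ uI := Or.inr ⟨hx, ht, hr⟩
    rw [hGF hm, v5 x hx t ht r hr]
  -- concatenate
  obtain ⟨L, hL, hL0, hL1, hLc⟩ := concat_prism n (fun w => p (G w)) M
    (hp.comp_continuousOn hG) hM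
    (fun x hx t ht => by
      rw [w2 x hx t ht, hM0 x hx t ht])
  refine ⟨z', L, hz', hz'z, hL, ?_, ?_, ?_, ?_, ?_⟩
  · intro x hx t ht
    rw [hL0 x hx t ht]
    rw [w1 x hx t ht, hδs _ t ht]
  · intro x hx t ht
    rw [hL1 x hx t ht, hM1 x hx t ht]
  · intro x hx r hr
    refine hLc x hx 0 uI_zero x0 ?_ (hMx x hx) r hr
    intro r hr
    rw [w3 x hx r hr]
    exact hDp _ (hK0D (⟨hx, hr⟩ : (x, r) ∈ cube n ×ˢ uI))
  · intro x hx r hr
    refine hLc x hx 1 uI_one y0 ?_ (hMy x hx) r hr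
    intro r hr
    rw [w4 x hx r hr]
    exact (H4 (x, r)).2
  · intro x hx t ht r hr
    refine hLc x (hsub hx) t ht (γ (x, t)) ?_ (hMB x hx t ht) r hr
    intro r hr
    rw [w5 x hx t ht r hr, hδs _ t ht, hγa x hx t ht]

/-! ## T3 : weak lifting along maps that are locally constant up to weak equivalence (T3.lean) -/

theorem sabs (p : X → B) (hp : Continuous p) (x0 y0 : B) (hx0 : Iic x0 = {x0}) (hy0 : Iic y0 = {y0})
    (h1 : WContr (univ : Set X))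
    (h2 : ∀ b₁ b₀ : B, b₁ ≤ b₀ → ∀ n, Compress n (p ⁻¹' Iic b₁) (p ⁻¹' Iic b₀))
    {Q Zt : Type*} [TopologicalSpace Q] [TopologicalSpace Zt]
    (q : Zt → Q) (hq : IsWE q)
    (s : Q × ℝ → B) (hs : ContinuousOn s (univ ×ˢ uI)) (hs0 : ∀ v, s (v, 0) = x0)
    (hs1 : ∀ v, s (v, 1) = y0)
    (δ : Zt × ℝ → X) (hδ : ContinuousOn δ (univ ×ˢ uI)) (hδs : ∀ z, ∀ t ∈ uI, p (δ (z, t)) = s (q z, t))
    (D : Set X) (hD : WContr D) (hDp : ∀ d ∈ D, p d = x0) (hδ0 : ∀ z, δ (z, 0) ∈ D)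
    (j : Zt → {x : X // p x = y0}) (hj : IsWE j) (hδ1 : ∀ z, δ (z, 1) = (j z : X))
    (n : ℕ) (a : (Fin n → ℝ) → Q) (ha : ContinuousOn a (bdry n))
    (γ : (Fin n → ℝ) × ℝ → B) (hγ : ContinuousOn γ (cube n ×ˢ uI))
    (hγ0 : ∀ x ∈ cube n, γ (x, 0) = x0) (hγ1 : ∀ x ∈ cube n, γ (x, 1) = y0)
    (hγa : ∀ x ∈ bdry n, ∀ t ∈ uI, γ (x, t) = s (a x, t)) :
    ∃ (a' : (Fin n → ℝ) → Q) (H : (Fin n → ℝ) × ℝ × ℝ → B),
      ContinuousOn a' (cube n) ∧ EqOn a' a (bdry n) ∧ ContinuousOn H (cube n ×ˢ uI ×ˢ uI) ∧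
      (∀ x ∈ cube n, ∀ t ∈ uI, H (x, t, 0) = s (a' x, t)) ∧
      (∀ x ∈ cube n, ∀ t ∈ uI, H (x, t, 1) = γ (x, t)) ∧
      (∀ x ∈ cube n, ∀ r ∈ uI, H (x, 0, r) = x0) ∧
      (∀ x ∈ cube n, ∀ r ∈ uI, H (x, 1, r) = y0) ∧
      (∀ x ∈ bdry n, ∀ t ∈ uI, ∀ r ∈ uI, H (x, t, r) = γ (x, t)) := by
  classical
  have hsub := bdry_subset n
  have hcc := cube_closed n
  have hbc := bdry_closed n
  obtain ⟨z, h, hz, hh, hh0, hh1⟩ := we_lift_bdry hq a ha
  have hflip : ∀ r ∈ uI, (1 : ℝ) - r ∈ uI := fun r hr => ⟨by linarith [hr.2], by linarith [hr.1]⟩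
  -- change `γ` so that its boundary values factor through `q`
  set F : (Fin n → ℝ) × ℝ × ℝ → B := fun w =>
    if w.2.1 = 0 then x0 else if w.2.1 = 1 then y0 else if w.2.2 = 0 then γ (w.1, w.2.1) else
      s (h (w.1, 1 - w.2.2), w.2.1) with hF
  have v1 : ∀ x ∈ cube n, ∀ t ∈ uI, F (x, t, 0) = γ (x, t) := by
    intro x hx t ht
    simp only [hF]
    split_ifs with h3 h4
    · subst h3
      exact (hγ0 x hx).symm
    · subst h4
      exact (hγ1 x hx).symm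
    · rfl
  have v2 : ∀ x r, F (x, 0, r) = x0 := by
    intro x r
    simp only [hF, if_true]
  have v3 : ∀ x r, F (x, 1, r) = y0 := by
    intro x r
    simp only [hF, one_ne_zero, if_false, if_true]
  have v4 : ∀ x ∈ bdry n, ∀ t ∈ uI, ∀ r ∈ uI, F (x, t, r) = s (h (x, 1 - r), t) := by
    intro x hx t ht r hr
    simp only [hF]
    split_ifs with h3 h4 h5
    · subst h3
      exact (hs0 _).symm
    · subst h4
      exact (hs1 _).symm
    · subst h5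
      rw [sub_zero, hh1 x hx]
      exact hγa x hx t ht
    · rfl
  have d1 : IsClosed (cube n ×ˢ uI ×ˢ ({0} : Set ℝ)) := hcc.prod (uI_closed.prod isClosed_singleton)
  have d3 : IsClosed (cube n ×ˢ ({0} : Set ℝ) ×ˢ uI) := hcc.prod (isClosed_singleton.prod uI_closed)
  have d4 : IsClosed (cube n ×ˢ ({1} : Set ℝ) ×ˢ uI) := hcc.prod (isClosed_singleton.prod uI_closed)
  have d5 : IsClosed (bdry n ×ˢ uI ×ˢ uI) := hbc.prod (uI_closed.prod uI_closed)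
  have e2 : cube n ×ˢ ({0, 1} : Set ℝ) ×ˢ uI =
      cube n ×ˢ ({0} : Set ℝ) ×ˢ uI ∪ cube n ×ˢ ({1} : Set ℝ) ×ˢ uI := by
    rw [← prod_union, ← union_prod]
    rfl
  obtain ⟨G, hG, hGF, -⟩ := hep_prism n F (by
    rw [e2]
    refine ContinuousOn.union_of_isClosed (ContinuousOn.union_of_isClosed ?_
      (ContinuousOn.union_of_isClosed ?_ ?_ d3 d4) d1 (d3.union d4)) ?_ (d1.union (d3.union d4)) d5
    · have : ContinuousOn (fun w : (Fin n → ℝ) × ℝ × ℝ => γ (w.1, w.2.1))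
          (cube n ×ˢ uI ×ˢ ({0} : Set ℝ)) := hγ.comp (by fun_prop) fun w hw => ⟨hw.1, hw.2.1⟩
      refine this.congr ?_
      rintro ⟨x, t, r⟩ ⟨hx, ht, hr⟩
      have hr' : r = 0 := hr
      subst hr'
      exact v1 x hx t ht
    · refine (continuousOn_const (c := x0)).congr ?_
      rintro ⟨x, t, r⟩ ⟨hx, ht, hr⟩
      have ht' : t = 0 := ht
      subst ht'
      exact v2 x r
    · refine (continuousOn_const (c := y0)).congr ?_
      rintro ⟨x, t, r⟩ ⟨hx, ht, hr⟩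
      have ht' : t = 1 := ht
      subst ht'
      exact v3 x r
    · have : ContinuousOn (fun w : (Fin n → ℝ) × ℝ × ℝ => s (h (w.1, 1 - w.2.2), w.2.1))
          (bdry n ×ˢ uI ×ˢ uI) := by
        refine hs.comp ?_ fun w hw => ⟨mem_univ _, hw.2.1⟩
        refine ContinuousOn.prodMk ?_ (by fun_prop)
        exact hh.comp (by fun_prop) fun w hw => ⟨hw.1, hflip _ hw.2.2⟩
      refine this.congr ?_
      rintro ⟨x, t, r⟩ ⟨hx, ht, hr⟩
      exact v4 x hx t ht r hr)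
  have g1 : ∀ x ∈ cube n, ∀ t ∈ uI, G (x, t, 0) = γ (x, t) := by
    intro x hx t ht
    have hm : ((x, t, (0 : ℝ)) : (Fin n → ℝ) × ℝ × ℝ) ∈ cube n ×ˢ uI ×ˢ ({0} : Set ℝ) ∪
        cube n ×ˢ ({0, 1} : Set ℝ) ×ˢ uI ∪ bdry n ×ˢ uI ×ˢ uI := Or.inl (Or.inl ⟨hx, ht, rfl⟩)
    rw [hGF hm, v1 x hx t ht]
  have g2 : ∀ x ∈ cube n, ∀ r ∈ uI, G (x, 0, r) = x0 := by
    intro x hx r hr
    have hm : ((x, (0 : ℝ), r) : (Fin n → ℝ) × ℝ × ℝ) ∈ cube n ×ˢ uI ×ˢ ({0} : Set ℝ) ∪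
        cube n ×ˢ ({0, 1} : Set ℝ) ×ˢ uI ∪ bdry n ×ˢ uI ×ˢ uI := Or.inl (Or.inr ⟨hx, Or.inl rfl, hr⟩)
    rw [hGF hm, v2 x r]
  have g3 : ∀ x ∈ cube n, ∀ r ∈ uI, G (x, 1, r) = y0 := by
    intro x hx r hr
    have hm : ((x, (1 : ℝ), r) : (Fin n → ℝ) × ℝ × ℝ) ∈ cube n ×ˢ uI ×ˢ ({0} : Set ℝ) ∪
        cube n ×ˢ ({0, 1} : Set ℝ) ×ˢ uI ∪ bdry n ×ˢ uI ×ˢ uI := Or.inl (Or.inr ⟨hx, Or.inr rfl, hr⟩)
    rw [hGF hm, v3 x r]
  have g4 : ∀ x ∈ bdry n, ∀ t ∈ uI, ∀ r ∈ uI, G (x, t, r) = s (h (x, 1 - r), t) := by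
    intro x hx t ht r hr
    have hm : ((x, t, r) : (Fin n → ℝ) × ℝ × ℝ) ∈ cube n ×ˢ uI ×ˢ ({0} : Set ℝ) ∪
        cube n ×ˢ ({0, 1} : Set ℝ) ×ˢ uI ∪ bdry n ×ˢ uI ×ˢ uI := Or.inr ⟨hx, ht, hr⟩
    rw [hGF hm, v4 x hx t ht r hr]
  -- solve the problem for the new data
  obtain ⟨z', H', hz', hz'z, hH', hH'0, hH'1, hH'x, hH'y, hH'b⟩ := sabs_core p hp x0 y0 hy0 h1 h2 q s
    δ hδ hδs D hD hDp hδ0 j hj hδ1 n z hz (fun w => G (w.1, w.2, 1))
    (hG.comp (by fun_prop) fun w hw => ⟨hw.1, hw.2, uI_one⟩)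
    (fun x hx => g2 x hx 1 uI_one) (fun x hx => g3 x hx 1 uI_one)
    (fun x hx t ht => by
      simp only
      rw [g4 x hx t ht 1 uI_one, sub_self, hh0 x hx])
  -- extend the homotopy `h`
  obtain ⟨G2, hG2, hG2e, -⟩ := hep n
    (fun w : (Fin n → ℝ) × ℝ => if w.2 = 0 then q (z' w.1) else h w)
    (by
      refine ContinuousOn.union_of_isClosed ?_ ?_ (hcc.prod isClosed_singleton) (hbc.prod uI_closed)
      · have : ContinuousOn (fun w : (Fin n → ℝ) × ℝ => q (z' w.1)) (cube n ×ˢ ({0} : Set ℝ)) :=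
          hq.1.comp_continuousOn (hz'.comp continuousOn_fst fun w hw => hw.1)
        refine this.congr ?_
        rintro ⟨x, r⟩ ⟨hx, hr⟩
        have hr' : r = 0 := hr
        subst hr'
        simp only [if_true]
      · refine hh.congr ?_
        rintro ⟨x, r⟩ ⟨hx, hr⟩
        have hx' : x ∈ bdry n := hx
        simp only
        split_ifs with h3
        · subst h3
          rw [hh0 x hx', hz'z hx']
        · rfl)
  have k0 : ∀ x ∈ cube n, G2 (x, 0) = q (z' x) := by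
    intro x hx
    have hm : ((x, (0 : ℝ)) : (Fin n → ℝ) × ℝ) ∈ cube n ×ˢ ({0} : Set ℝ) ∪ bdry n ×ˢ uI :=
      Or.inl ⟨hx, rfl⟩
    rw [hG2e hm]
    simp only [if_true]
  have kb : ∀ x ∈ bdry n, ∀ r ∈ uI, G2 (x, r) = h (x, r) := by
    intro x hx r hr
    have hm : ((x, r) : (Fin n → ℝ) × ℝ) ∈ cube n ×ˢ ({0} : Set ℝ) ∪ bdry n ×ˢ uI :=
      Or.inr ⟨hx, hr⟩
    rw [hG2e hm]
    simp only
    split_ifs with h3
    · subst h3
      rw [hh0 x hx, hz'z hx]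
    · rfl
  -- the square lemma
  obtain ⟨W, hW, hW0, hW1, hWb⟩ := square_prism n (fun w => s (G2 (w.1, w.2.2), w.2.1))
    (fun w => G (w.1, w.2.1, 1 - w.2.2)) H'
    (by
      refine hs.comp ?_ fun w hw => ⟨mem_univ _, hw.2.1⟩
      refine ContinuousOn.prodMk ?_ (by fun_prop)
      exact hG2.comp (by fun_prop) fun w hw => ⟨hw.1, hw.2.2⟩)
    (hG.comp (by fun_prop) fun w hw => ⟨hw.1, hw.2.1, hflip _ hw.2.2⟩) hH'
    (fun x hx t ht => by
      simp only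
      rw [hH'0 x hx t ht, k0 x hx])
    (fun x hx t ht => by
      simp only
      rw [hH'1 x hx t ht, sub_zero])
    (by
      rintro x t (⟨hx, rfl | rfl⟩ | ⟨hx, ht⟩) r hr
      · simp only
        rw [hs0, g2 x hx _ (hflip r hr)]
      · simp only
        rw [hs1, g3 x hx _ (hflip r hr)]
      · simp only
        rw [g4 x hx t ht _ (hflip r hr), sub_sub_cancel, kb x hx r hr])
    (by
      rintro x t (⟨hx, rfl | rfl⟩ | ⟨hx, ht⟩) r hr
      · simp only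
        rw [hs0, hH'x x hx r hr]
      · simp only
        rw [hs1, hH'y x hx r hr]
      · simp only
        rw [hH'b x hx t ht r hr, g4 x hx t ht 1 uI_one, sub_self, kb x hx 0 uI_zero])
  refine ⟨fun x => G2 (x, 1), W, hG2.comp (by fun_prop) fun x hx => ⟨hx, uI_one⟩, ?_, hW,
    hW0, ?_, ?_, ?_, ?_⟩
  · intro x hx
    simp only
    rw [kb x hx 1 uI_one, hh1 x hx]
  · intro x hx t ht
    rw [hW1 x hx t ht]
    simp only
    rw [sub_self, g1 x hx t ht]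
  · intro x hx r hr
    rw [hWb x 0 (Or.inl ⟨hx, Or.inl rfl⟩) r hr]
    exact hs0 _
  · intro x hx r hr
    rw [hWb x 1 (Or.inl ⟨hx, Or.inr rfl⟩) r hr]
    exact hs1 _
  · intro x hx t ht r hr
    rw [hWb x t (Or.inr ⟨hx, ht⟩) r hr]
    simp only
    rw [kb x hx 1 uI_one, hh1 x hx, hγa x hx t ht]
end

end Vale.Agent.P259
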