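import Vale.Agent.Lib.P259.S3
import Vale.Agent.Lib.P259.S4
import Vale.Agent.Lib.P259.T3
/-!
# P259, module S5: the comparison `QW (hom W x y) ⟶ Path (QW W)` is a weak equivalence
-/
namespace Vale.Agent.P259
open CategoryTheory Set Topology

variable {C : Type} [Category.{0} C] (𝒮 : SuspData C) {W V : PSh C}

namespace S5

/-- the one-sided module of base points over `x` -/
def mod0 (x : W.obj 𝒮.pt) : CoM W where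
  H S := 𝒮.pt ⟶ S
  post s f := s ≫ f
  post_id s := Category.comp_id s
  post_comp s f g := (Category.assoc s f g).symm
  K s w := W.res s w = x
  K_post s f w := by rw [W.res_comp]

theorem wcontr_mod0 (x : W.obj 𝒮.pt) : WContr (univ : Set (mod0 𝒮 x).P) :=
  CoM.wcontr_of_universal (mod0 𝒮 x) 𝒮.pt (𝟙 𝒮.pt) x (W.res_id x)
    (fun _ ψ _ h => ⟨ψ, Category.id_comp ψ, h⟩)
    (fun _ f g h => (Category.id_comp f).symm.trans (h.trans (Category.id_comp g)))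

/-- inclusion of `(mod0 x).P` in `X` -/
def e0 (x : W.obj 𝒮.pt) (z : (mod0 𝒮 x).P) : (bimX 𝒮 W x).P where
  v := Ch.vtx 0 𝒮.pt
  ζ := z.ζ
  ψ := (z.ψ, z.ψ)
  w := z.w
  k := z.k

theorem e0_le_iff (x : W.obj 𝒮.pt) (a b : (mod0 𝒮 x).P) : e0 𝒮 x a ≤ e0 𝒮 x b ↔ a ≤ b := by
  constructor
  · rintro ⟨hv, hζ, h1, h2⟩
    refine ⟨hζ, ?_, h2⟩
    exact congrArg Prod.snd h1
  · rintro ⟨hζ, h1, h2⟩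
    refine ⟨le_refl _, hζ, ?_, h2⟩
    refine Prod.ext ?_ h1
    change Ch.topHom (le_refl (Ch.vtx 0 𝒮.pt)) ≫ (b.ψ ≫ Ch.botHom hζ) = a.ψ
    rw [Ch.topHom_refl]
    exact (Category.id_comp _).trans h1

/-- order embedding version of `e0`, as an isomorphism onto its range -/
noncomputable def e0iso (x : W.obj 𝒮.pt) : (mod0 𝒮 x).P ≃o (range (e0 𝒮 (W := W) x)) :=
  RelIso.ofSurjective (OrderEmbedding.ofMapLEIff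
    (fun z => (⟨e0 𝒮 x z, mem_range_self z⟩ : range (e0 𝒮 (W := W) x)))
    (fun a b => e0_le_iff 𝒮 x a b)) (by
      rintro ⟨_, z, rfl⟩
      exact ⟨z, rfl⟩)

theorem wcontr_D (x : W.obj 𝒮.pt) : WContr (range (e0 𝒮 (W := W) x)) := by
  rw [wcontr_subtype]
  exact (isWE_of_orderIso (e0iso 𝒮 x)).wcontr_iff.1 (wcontr_mod0 𝒮 x)

/-- the fibre of `X` over the point `y` -/
def e1 (x y : W.obj 𝒮.pt) (z : (modV 𝒮 W x 𝒮.pt y).P) : (bimX 𝒮 W x).P where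
  v := Ch.vtx 0 𝒮.pt
  ζ := z.ζ
  ψ := z.ψ
  w := z.w
  k := z.k.1

theorem pr_e1 (x y : W.obj 𝒮.pt) (z : (modV 𝒮 W x 𝒮.pt y).P) :
    (evX 𝒮 W x).pr (e1 𝒮 x y z) = QW.point 𝒮 y := by
  obtain ⟨k1, k2⟩ := z.k
  exact QW.ext rfl (heq_of_eq k2)

theorem e1_le_iff (x y : W.obj 𝒮.pt) (a b : (modV 𝒮 W x 𝒮.pt y).P) :
    e1 𝒮 x y a ≤ e1 𝒮 x y b ↔ a ≤ b := by
  constructor
  · rintro ⟨hv, hζ, h1, h2⟩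
    refine ⟨hζ, ?_, h2⟩
    have h3 : Ch.topHom hv = 𝟙 _ := Ch.topHom_refl (Ch.vtx 0 𝒮.pt)
    rw [h3] at h1
    exact ((bimX 𝒮 W x).pre_id _).symm.trans h1
  · rintro ⟨hζ, h1, h2⟩
    refine ⟨le_refl _, hζ, ?_, h2⟩
    have h3 : Ch.topHom (le_refl (Ch.vtx 0 𝒮.pt)) = 𝟙 _ := Ch.topHom_refl (Ch.vtx 0 𝒮.pt)
    change (bimX 𝒮 W x).pre (Ch.topHom (le_refl (Ch.vtx 0 𝒮.pt))) _ = _
    rw [h3]
    exact ((bimX 𝒮 W x).pre_id _).trans h1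

/-- the fibre over the point `y`, as an order isomorphism -/
noncomputable def e1iso (x y : W.obj 𝒮.pt) :
    (modV 𝒮 W x 𝒮.pt y).P ≃o {d : (bimX 𝒮 W x).P // (evX 𝒮 W x).pr d = QW.point 𝒮 y} :=
  RelIso.ofSurjective (OrderEmbedding.ofMapLEIff
    (fun z => (⟨e1 𝒮 x y z, pr_e1 𝒮 x y z⟩ :
      {d : (bimX 𝒮 W x).P // (evX 𝒮 W x).pr d = QW.point 𝒮 y}))
    (fun a b => e1_le_iff 𝒮 x y a b)) (by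
      rintro ⟨⟨v, ζ, ψ, w, k⟩, hd⟩
      have h1 : v = Ch.vtx 0 𝒮.pt := congrArg QW.σ hd
      subst h1
      have h2 : W.res ((bimX 𝒮 W x).post ψ ζ.mm).1 w = y := by
        have h3 := (QW.mk.injEq _ _ _ _).mp hd
        exact eq_of_heq h3.2
      exact ⟨⟨ζ, ψ, w, ⟨k, h2⟩⟩, rfl⟩)

section delta
variable (x y : W.obj 𝒮.pt)

/-- the suspended chain -/
noncomputable def sch (v : Ch C) : Ch C := Ch.map 𝒮.sus Ch.rho Ch.rho_strictMono v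

theorem k_x (z : (bimM 𝒮 W x 𝒮.pt y).P) :
    W.res ((𝒮.fst (𝒮.sus.obj z.v.top) ≫ z.ψ.1.1) ≫ z.ζ.mm) z.w = x := by
  obtain ⟨k1, -⟩ := z.k
  have k1' : W.res (𝒮.fst (𝒮.sus.obj z.v.top) ≫ (z.ψ.1.1 ≫ z.ζ.mm)) z.w = x := k1
  rw [Category.assoc]
  exact k1'

/-- first map -/
noncomputable def d0 (z : (bimM 𝒮 W x 𝒮.pt y).P) : (bimX 𝒮 W x).P where
  v := Ch.vtx 0 𝒮.pt
  ζ := z.ζ
  ψ := (𝒮.fst (𝒮.sus.obj z.v.top) ≫ z.ψ.1.1, 𝒮.fst (𝒮.sus.obj z.v.top) ≫ z.ψ.1.1)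
  w := z.w
  k := k_x 𝒮 x y z

/-- second map -/
noncomputable def d1 (z : (bimM 𝒮 W x 𝒮.pt y).P) : (bimX 𝒮 W x).P where
  v := Ch.cons (Ch.map 𝒮.sus Ch.rho Ch.rho_strictMono z.v) 0 (Ch.rho_pos _) 𝒮.pt
    (𝒮.fst (𝒮.sus.obj z.v.bot))
  ζ := z.ζ
  ψ := (z.ψ.1.1, 𝒮.fst (𝒮.sus.obj z.v.top) ≫ z.ψ.1.1)
  w := z.w
  k := k_x 𝒮 x y z

/-- third map -/
noncomputable def d2 (z : (bimM 𝒮 W x 𝒮.pt y).P) : (bimX 𝒮 W x).P where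
  v := Ch.map 𝒮.sus Ch.rho Ch.rho_strictMono z.v
  ζ := z.ζ
  ψ := (z.ψ.1.1, 𝒮.fst (𝒮.sus.obj z.v.top) ≫ z.ψ.1.1)
  w := z.w
  k := k_x 𝒮 x y z

/-- fourth map -/
noncomputable def d3 (z : (bimM 𝒮 W x 𝒮.pt y).P) : (bimX 𝒮 W x).P where
  v := Ch.cons (Ch.map 𝒮.sus Ch.rho Ch.rho_strictMono z.v) 0 (Ch.rho_pos _) 𝒮.pt
    (𝒮.lst (𝒮.sus.obj z.v.bot))
  ζ := z.ζ
  ψ := (z.ψ.1.1, 𝒮.fst (𝒮.sus.obj z.v.top) ≫ z.ψ.1.1)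
  w := z.w
  k := k_x 𝒮 x y z

/-- fifth map -/
noncomputable def d4 (z : (bimM 𝒮 W x 𝒮.pt y).P) : (bimX 𝒮 W x).P where
  v := Ch.vtx 0 𝒮.pt
  ζ := z.ζ
  ψ := (z.ψ.1.2, 𝒮.fst (𝒮.sus.obj z.v.top) ≫ z.ψ.1.1)
  w := z.w
  k := k_x 𝒮 x y z

/-- the relation between two elements -/
theorem rel (a b : (bimM 𝒮 W x 𝒮.pt y).P) (hab : a ≤ b) :
    ∃ (hv : a.v ≤ b.v) (hζ : a.ζ ≤ b.ζ),
      𝒮.sus.map (Ch.topHom hv) ≫ (b.ψ.1.1 ≫ Ch.botHom hζ) = a.ψ.1.1 ∧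
      b.ψ.1.2 ≫ Ch.botHom hζ = a.ψ.1.2 ∧ W.res (Ch.topHom hζ) b.w = a.w ∧
      (𝒮.fst (𝒮.sus.obj b.v.top) ≫ b.ψ.1.1) ≫ Ch.botHom hζ =
        𝒮.fst (𝒮.sus.obj a.v.top) ≫ a.ψ.1.1 := by
  obtain ⟨hv, hζ, h1, h2⟩ := hab
  have h3 : 𝒮.sus.map (Ch.topHom hv) ≫ (b.ψ.1.1 ≫ Ch.botHom hζ) = a.ψ.1.1 :=
    congrArg (fun t => t.1.1) h1
  have h4 : b.ψ.1.2 ≫ Ch.botHom hζ = a.ψ.1.2 := congrArg (fun t => t.1.2) h1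
  refine ⟨hv, hζ, h3, h4, h2, ?_⟩
  rw [← h3, ← Category.assoc, 𝒮.fst_sus, Category.assoc]

theorem lst_eq (z : (bimM 𝒮 W x 𝒮.pt y).P) :
    𝒮.lst (𝒮.sus.obj z.v.top) ≫ z.ψ.1.1 = z.ψ.1.2 :=
  z.ψ.2.trans ((congrArg (fun t => t ≫ z.ψ.1.2) 𝒮.fst_pt).trans (Category.id_comp _))

theorem d0_mono : Monotone (d0 𝒮 x y) := by
  intro a b hab
  obtain ⟨hv, hζ, h1, h2, h3, h4⟩ := rel 𝒮 x y a b hab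
  refine ⟨le_refl _, hζ, ?_, h3⟩
  change (bimX 𝒮 W x).pre (Ch.topHom (le_refl (Ch.vtx 0 𝒮.pt))) _ = _
  rw [Ch.topHom_refl]
  exact ((bimX 𝒮 W x).pre_id _).trans (Prod.ext h4 h4)

theorem d4_mono : Monotone (d4 𝒮 x y) := by
  intro a b hab
  obtain ⟨hv, hζ, h1, h2, h3, h4⟩ := rel 𝒮 x y a b hab
  refine ⟨le_refl _, hζ, ?_, h3⟩
  change (bimX 𝒮 W x).pre (Ch.topHom (le_refl (Ch.vtx 0 𝒮.pt))) _ = _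
  rw [Ch.topHom_refl]
  exact ((bimX 𝒮 W x).pre_id _).trans (Prod.ext h2 h4)

theorem d2_mono : Monotone (d2 𝒮 x y) := by
  intro a b hab
  obtain ⟨hv, hζ, h1, h2, h3, h4⟩ := rel 𝒮 x y a b hab
  refine ⟨Ch.map_mono 𝒮.sus Ch.rho Ch.rho_strictMono hv, hζ, ?_, h3⟩
  refine Prod.ext ?_ h4
  change Ch.topHom (Ch.map_mono 𝒮.sus Ch.rho Ch.rho_strictMono hv) ≫ (b.ψ.1.1 ≫ Ch.botHom hζ) = _
  rw [Ch.topHom_map_mono]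
  exact h1

theorem d1_mono : Monotone (d1 𝒮 x y) := by
  intro a b hab
  obtain ⟨hv, hζ, h1, h2, h3, h4⟩ := rel 𝒮 x y a b hab
  have hb : 𝒮.fst (𝒮.sus.obj a.v.bot) = 𝒮.fst (𝒮.sus.obj b.v.bot) ≫
      Ch.botHom (Ch.map_mono 𝒮.sus Ch.rho Ch.rho_strictMono hv) := by
    rw [Ch.botHom_map_mono 𝒮.sus Ch.rho Ch.rho_strictMono hv]
    exact (𝒮.fst_sus _).symm
  obtain ⟨h', h5, h6⟩ := Ch.cons_le_cons' (Ch.map_mono 𝒮.sus Ch.rho Ch.rho_strictMono hv) 0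
    (Ch.rho_pos _) (Ch.rho_pos _) 𝒮.pt (𝒮.fst (𝒮.sus.obj b.v.bot)) (𝒮.fst (𝒮.sus.obj a.v.bot)) hb
  refine ⟨h', hζ, ?_, h3⟩
  refine Prod.ext ?_ h4
  change Ch.topHom h' ≫ (b.ψ.1.1 ≫ Ch.botHom hζ) = _
  rw [h5, Ch.topHom_map_mono]
  exact h1

theorem d3_mono : Monotone (d3 𝒮 x y) := by
  intro a b hab
  obtain ⟨hv, hζ, h1, h2, h3, h4⟩ := rel 𝒮 x y a b hab
  have hb : 𝒮.lst (𝒮.sus.obj a.v.bot) = 𝒮.lst (𝒮.sus.obj b.v.bot) ≫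
      Ch.botHom (Ch.map_mono 𝒮.sus Ch.rho Ch.rho_strictMono hv) := by
    rw [Ch.botHom_map_mono 𝒮.sus Ch.rho Ch.rho_strictMono hv]
    exact (𝒮.lst_sus _).symm
  obtain ⟨h', h5, h6⟩ := Ch.cons_le_cons' (Ch.map_mono 𝒮.sus Ch.rho Ch.rho_strictMono hv) 0
    (Ch.rho_pos _) (Ch.rho_pos _) 𝒮.pt (𝒮.lst (𝒮.sus.obj b.v.bot)) (𝒮.lst (𝒮.sus.obj a.v.bot)) hb
  refine ⟨h', hζ, ?_, h3⟩
  refine Prod.ext ?_ h4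
  change Ch.topHom h' ≫ (b.ψ.1.1 ≫ Ch.botHom hζ) = _
  rw [h5, Ch.topHom_map_mono]
  exact h1

theorem post_refl (z : (bimM 𝒮 W x 𝒮.pt y).P) {S : C} (f : S ⟶ z.ζ.bot) :
    f ≫ Ch.botHom (le_refl z.ζ) = f := by
  rw [Ch.botHom_refl]
  exact Category.comp_id f

theorem d01 (z : (bimM 𝒮 W x 𝒮.pt y).P) : d0 𝒮 x y z ≤ d1 𝒮 x y z := by
  refine ⟨Ch.vtx_le_cons (Ch.map 𝒮.sus Ch.rho Ch.rho_strictMono z.v) 0 (Ch.rho_pos _) 𝒮.pt (𝒮.fst (𝒮.sus.obj z.v.bot)), le_refl _, ?_, ?_⟩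
  · refine Prod.ext ?_ (post_refl 𝒮 x y z _)
    change Ch.topHom (Ch.vtx_le_cons (Ch.map 𝒮.sus Ch.rho Ch.rho_strictMono z.v) 0 (Ch.rho_pos _) 𝒮.pt (𝒮.fst (𝒮.sus.obj z.v.bot))) ≫
      (z.ψ.1.1 ≫ Ch.botHom (le_refl z.ζ)) = 𝒮.fst (𝒮.sus.obj z.v.top) ≫ z.ψ.1.1
    exact congrArg₂ (fun s t => s ≫ t) ((Ch.topHom_vtx_le_cons _ _ _ _ _).trans
      ((congrArg (fun t => 𝒮.fst (𝒮.sus.obj z.v.bot) ≫ t)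
        (Ch.map_mm 𝒮.sus Ch.rho Ch.rho_strictMono z.v)).trans (𝒮.fst_sus z.v.mm)))
      (post_refl 𝒮 x y z _)
  · change W.res (Ch.topHom (le_refl z.ζ)) z.w = z.w
    rw [Ch.topHom_refl]
    exact W.res_id z.w

theorem d43 (z : (bimM 𝒮 W x 𝒮.pt y).P) : d4 𝒮 x y z ≤ d3 𝒮 x y z := by
  refine ⟨Ch.vtx_le_cons (Ch.map 𝒮.sus Ch.rho Ch.rho_strictMono z.v) 0 (Ch.rho_pos _) 𝒮.pt (𝒮.lst (𝒮.sus.obj z.v.bot)), le_refl _, ?_, ?_⟩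
  · refine Prod.ext ?_ (post_refl 𝒮 x y z _)
    change Ch.topHom (Ch.vtx_le_cons (Ch.map 𝒮.sus Ch.rho Ch.rho_strictMono z.v) 0 (Ch.rho_pos _) 𝒮.pt (𝒮.lst (𝒮.sus.obj z.v.bot))) ≫
      (z.ψ.1.1 ≫ Ch.botHom (le_refl z.ζ)) = z.ψ.1.2
    exact (congrArg₂ (fun s t => s ≫ t) ((Ch.topHom_vtx_le_cons _ _ _ _ _).trans
      ((congrArg (fun t => 𝒮.lst (𝒮.sus.obj z.v.bot) ≫ t)
        (Ch.map_mm 𝒮.sus Ch.rho Ch.rho_strictMono z.v)).trans (𝒮.lst_sus z.v.mm)))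
      (post_refl 𝒮 x y z _)).trans (lst_eq 𝒮 x y z)
  · change W.res (Ch.topHom (le_refl z.ζ)) z.w = z.w
    rw [Ch.topHom_refl]
    exact W.res_id z.w

theorem d21 (z : (bimM 𝒮 W x 𝒮.pt y).P) : d2 𝒮 x y z ≤ d1 𝒮 x y z := by
  refine ⟨Ch.le_cons (Ch.map 𝒮.sus Ch.rho Ch.rho_strictMono z.v) 0 (Ch.rho_pos _) 𝒮.pt (𝒮.fst (𝒮.sus.obj z.v.bot)), le_refl _, ?_, ?_⟩
  · refine Prod.ext ?_ (post_refl 𝒮 x y z _)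
    change Ch.topHom (Ch.le_cons (Ch.map 𝒮.sus Ch.rho Ch.rho_strictMono z.v) 0 (Ch.rho_pos _) 𝒮.pt (𝒮.fst (𝒮.sus.obj z.v.bot))) ≫
      (z.ψ.1.1 ≫ Ch.botHom (le_refl z.ζ)) = z.ψ.1.1
    exact (congrArg₂ (fun s t => s ≫ t) (Ch.topHom_le_cons _ _ _ _ _)
      (post_refl 𝒮 x y z _)).trans (Category.id_comp _)
  · change W.res (Ch.topHom (le_refl z.ζ)) z.w = z.w
    rw [Ch.topHom_refl]
    exact W.res_id z.w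

theorem d23 (z : (bimM 𝒮 W x 𝒮.pt y).P) : d2 𝒮 x y z ≤ d3 𝒮 x y z := by
  refine ⟨Ch.le_cons (Ch.map 𝒮.sus Ch.rho Ch.rho_strictMono z.v) 0 (Ch.rho_pos _) 𝒮.pt (𝒮.lst (𝒮.sus.obj z.v.bot)), le_refl _, ?_, ?_⟩
  · refine Prod.ext ?_ (post_refl 𝒮 x y z _)
    change Ch.topHom (Ch.le_cons (Ch.map 𝒮.sus Ch.rho Ch.rho_strictMono z.v) 0 (Ch.rho_pos _) 𝒮.pt (𝒮.lst (𝒮.sus.obj z.v.bot))) ≫
      (z.ψ.1.1 ≫ Ch.botHom (le_refl z.ζ)) = z.ψ.1.1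
    exact (congrArg₂ (fun s t => s ≫ t) (Ch.topHom_le_cons _ _ _ _ _)
      (post_refl 𝒮 x y z _)).trans (Category.id_comp _)
  · change W.res (Ch.topHom (le_refl z.ζ)) z.w = z.w
    rw [Ch.topHom_refl]
    exact W.res_id z.w

theorem hy : W.res (𝒮.fst 𝒮.pt) y = y := by
  rw [𝒮.fst_pt]
  exact W.res_id y

theorem pr_d0 (z : (bimM 𝒮 W x 𝒮.pt y).P) : (evX 𝒮 W x).pr (d0 𝒮 x y z) = QW.point 𝒮 x :=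
  QW.ext rfl (heq_of_eq (k_x 𝒮 x y z))

theorem pr_d1 (z : (bimM 𝒮 W x 𝒮.pt y).P) : (evX 𝒮 W x).pr (d1 𝒮 x y z) =
    QW.suspFst 𝒮 ((evM 𝒮 W x 𝒮.pt y y (hy 𝒮 y)).pr z) := rfl

theorem pr_d2 (z : (bimM 𝒮 W x 𝒮.pt y).P) : (evX 𝒮 W x).pr (d2 𝒮 x y z) =
    QW.susp 𝒮 ((evM 𝒮 W x 𝒮.pt y y (hy 𝒮 y)).pr z) := rfl

theorem pr_d3 (z : (bimM 𝒮 W x 𝒮.pt y).P) : (evX 𝒮 W x).pr (d3 𝒮 x y z) =
    QW.suspLst 𝒮 ((evM 𝒮 W x 𝒮.pt y y (hy 𝒮 y)).pr z) := rfl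

theorem d4_eq (z : (bimM 𝒮 W x 𝒮.pt y).P) :
    d4 𝒮 x y z = e1 𝒮 x y ((prM 𝒮 W x 𝒮.pt y).pr₂ z) := rfl

theorem pr_d4 (z : (bimM 𝒮 W x 𝒮.pt y).P) : (evX 𝒮 W x).pr (d4 𝒮 x y z) = QW.point 𝒮 y := by
  rw [d4_eq]
  exact pr_e1 𝒮 x y _

theorem d0_mem (z : (bimM 𝒮 W x 𝒮.pt y).P) : d0 𝒮 x y z ∈ range (e0 𝒮 (W := W) x) :=
  ⟨⟨z.ζ, 𝒮.fst (𝒮.sus.obj z.v.top) ≫ z.ψ.1.1, z.w, k_x 𝒮 x y z⟩, rfl⟩

end delta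

end S5

open S5 in
/-- Theorem S (apply `sabs` to `X = (bimX 𝒮 W x).P`, `p = (evX 𝒮 W x).pr`, `Zt = (bimM x pt y).P`,
`q = (evM ..).pr`, `D = {(vtx 0 pt, ζ ; χ = s ; w)}`). -/
theorem theoremS (K : SuspClass 𝒮) (hW : K.Gp W) (x y : W.obj 𝒮.pt)
    (n : ℕ) (a : (Fin n → ℝ) → QW (𝒮.hom W x y)) (ha : ContinuousOn a (bdry n))
    (γ : (Fin n → ℝ) × ℝ → QW W) (hγ : ContinuousOn γ (cube n ×ˢ uI))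
    (hγ0 : ∀ z ∈ cube n, γ (z, 0) = QW.point 𝒮 x) (hγ1 : ∀ z ∈ cube n, γ (z, 1) = QW.point 𝒮 y)
    (hγa : ∀ z ∈ bdry n, ∀ t ∈ uI, γ (z, t) = sMap 𝒮 x y (a z, t)) :
    ∃ (a' : (Fin n → ℝ) → QW (𝒮.hom W x y)) (H : (Fin n → ℝ) × ℝ × ℝ → QW W),
      ContinuousOn a' (cube n) ∧ EqOn a' a (bdry n) ∧ ContinuousOn H (cube n ×ˢ uI ×ˢ uI) ∧
      (∀ z ∈ cube n, ∀ t ∈ uI, H (z, t, 0) = sMap 𝒮 x y (a' z, t)) ∧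
      (∀ z ∈ cube n, ∀ t ∈ uI, H (z, t, 1) = γ (z, t)) ∧
      (∀ z ∈ cube n, ∀ r ∈ uI, H (z, 0, r) = QW.point 𝒮 x) ∧
      (∀ z ∈ cube n, ∀ r ∈ uI, H (z, 1, r) = QW.point 𝒮 y) ∧
      (∀ z ∈ bdry n, ∀ t ∈ uI, ∀ r ∈ uI, H (z, t, r) = γ (z, t)) := by
  have hp : Continuous (evX 𝒮 W x).pr :=
    Topology.IsLowerSet.monotone_iff_continuous.1 (evX 𝒮 W x).pr_mono
  have hLS : Topology.IsLowerSet {d : (bimX 𝒮 W x).P // (evX 𝒮 W x).pr d = QW.point 𝒮 y} :=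
    isLowerSet_subtype {d : (bimX 𝒮 W x).P | (evX 𝒮 W x).pr d = QW.point 𝒮 y}
  have hprM : IsWE (prM 𝒮 W x 𝒮.pt y).pr₂ := by
    first
      | exact isWE_prM K x 𝒮.pt y
      | exact isWE_prM x 𝒮.pt y
  refine sabs (evX 𝒮 W x).pr hp (QW.point 𝒮 x) (QW.point 𝒮 y) (Iic_point 𝒮 x) (Iic_point 𝒮 y)
    (wcontr_X 𝒮 W x) (fun b₁ b₀ h n => compress_X K hW x b₁ b₀ h n)
    (evM 𝒮 W x 𝒮.pt y y (hy 𝒮 y)).pr (isWE_evM W K hW x 𝒮.pt y y (hy 𝒮 y))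
    (sMap 𝒮 x y) (continuous_sMap 𝒮 x y).continuousOn (sMap_zero 𝒮 x y) (sMap_one 𝒮 x y)
    (fence (d0 𝒮 x y) (d1 𝒮 x y) (d2 𝒮 x y) (d3 𝒮 x y) (d4 𝒮 x y))
    (continuous_fence _ _ _ _ _ (d0_mono 𝒮 x y) (d1_mono 𝒮 x y) (d2_mono 𝒮 x y) (d3_mono 𝒮 x y)
      (d4_mono 𝒮 x y) (d01 𝒮 x y) (d21 𝒮 x y) (d23 𝒮 x y) (d43 𝒮 x y)).continuousOn
    ?_ (range (e0 𝒮 (W := W) x)) (wcontr_D 𝒮 x) ?_ ?_
    (fun z => (e1iso 𝒮 x y) ((prM 𝒮 W x 𝒮.pt y).pr₂ z))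
    ((isWE_of_orderIso (e1iso 𝒮 x y)).comp hprM) ?_ n a ha γ hγ hγ0 hγ1 hγa
  · intro z t ht
    unfold sMap fence
    simp only
    split_ifs
    · exact pr_d0 𝒮 x y z
    · rfl
    · rfl
    · rfl
    · exact pr_d4 𝒮 x y z
  · rintro _ ⟨d, rfl⟩
    exact QW.ext rfl (heq_of_eq d.k)
  · intro z
    have : fence (d0 𝒮 x y) (d1 𝒮 x y) (d2 𝒮 x y) (d3 𝒮 x y) (d4 𝒮 x y) (z, 0) = d0 𝒮 x y z := by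
      unfold fence
      simp only
      rw [if_pos (by norm_num)]
    rw [this]
    exact d0_mem 𝒮 x y z
  · intro z
    have : fence (d0 𝒮 x y) (d1 𝒮 x y) (d2 𝒮 x y) (d3 𝒮 x y) (d4 𝒮 x y) (z, 1) = d4 𝒮 x y z := by
      unfold fence
      simp only
      norm_num
    rw [this]
    rfl

end Vale.Agent.P259
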