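import Vale.Agent.Lib.P259.CellMap
import Vale.Agent.Lib.P259.S5
/-!
# P259, module F3, part A: the disc version of theorem S, and dimension `0`
-/
namespace Vale.Agent.P259
open CategoryTheory Set Topology

/-- disc version of `theoremS` (transport along `exists_disc_homeo`) -/
theorem theoremS_disc {C : Type} [Category.{0} C] (𝒮 : SuspData C) {W : PSh C} (K : SuspClass 𝒮)
    (hW : K.Gp W) (x y : W.obj 𝒮.pt)
    (n : ℕ) (a : (Fin n → ℝ) → QW (𝒮.hom W x y)) (ha : ContinuousOn a (sph n))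
    (γ : (Fin n → ℝ) × ℝ → QW W) (hγ : ContinuousOn γ (closedDisc n ×ˢ uI))
    (hγ0 : ∀ z ∈ closedDisc n, γ (z, 0) = QW.point 𝒮 x)
    (hγ1 : ∀ z ∈ closedDisc n, γ (z, 1) = QW.point 𝒮 y)
    (hγa : ∀ z ∈ sph n, ∀ t ∈ uI, γ (z, t) = sMap 𝒮 x y (a z, t)) :
    ∃ (a' : (Fin n → ℝ) → QW (𝒮.hom W x y)) (H : (Fin n → ℝ) × ℝ × ℝ → QW W),
      ContinuousOn a' (closedDisc n) ∧ EqOn a' a (sph n) ∧
      ContinuousOn H (closedDisc n ×ˢ uI ×ˢ uI) ∧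
      (∀ z ∈ closedDisc n, ∀ t ∈ uI, H (z, t, 0) = sMap 𝒮 x y (a' z, t)) ∧
      (∀ z ∈ closedDisc n, ∀ t ∈ uI, H (z, t, 1) = γ (z, t)) ∧
      (∀ z ∈ closedDisc n, ∀ r ∈ uI, H (z, 0, r) = QW.point 𝒮 x) ∧
      (∀ z ∈ closedDisc n, ∀ r ∈ uI, H (z, 1, r) = QW.point 𝒮 y) ∧
      (∀ z ∈ sph n, ∀ t ∈ uI, ∀ r ∈ uI, H (z, t, r) = γ (z, t)) := by
  obtain ⟨a', H, h1, h2, h3, h4, h5, h6, h7, h8⟩ := theoremS 𝒮 K hW x y n
    (fun z => a (dh n z)) (ha.comp (dh n).continuous.continuousOn (fun x hx => dh_bdry.2 hx))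
    (fun z => γ (dh n z.1, z.2))
    (hγ.comp (by fun_prop) (fun z hz => ⟨dh_cube.2 hz.1, hz.2⟩))
    (fun z hz => hγ0 _ (dh_cube.2 hz)) (fun z hz => hγ1 _ (dh_cube.2 hz))
    (fun z hz t ht => hγa _ (dh_bdry.2 hz) t ht)
  refine ⟨fun z => a' ((dh n).symm z), fun z => H ((dh n).symm z.1, z.2),
    h1.comp (dh n).symm.continuous.continuousOn (fun x hx => dh_symm_cube.2 hx), ?_,
    h3.comp (by fun_prop) (fun z hz => ⟨dh_symm_cube.2 hz.1, hz.2⟩), ?_, ?_, ?_, ?_, ?_⟩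
  · intro z hz
    have := h2 (dh_symm_bdry.2 hz)
    simpa using this
  · intro z hz t ht
    exact h4 _ (dh_symm_cube.2 hz) t ht
  · intro z hz t ht
    have := h5 _ (dh_symm_cube.2 hz) t ht
    simpa using this
  · intro z hz r hr
    exact h6 _ (dh_symm_cube.2 hz) r hr
  · intro z hz r hr
    exact h7 _ (dh_symm_cube.2 hz) r hr
  · intro z hz t ht r hr
    have := h8 _ (dh_symm_bdry.2 hz) t ht r hr
    simpa using this

/-- an element is below the one obtained by adding an initial object to its chain -/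
theorem QW.eq_le_cons {C : Type} [Category.{0} C] {W : PSh C} (p : QW W) (q : ℚ)
    (hq : q < p.σ.ib) (c : C) (f : c ⟶ p.σ.bot) :
    p ≤ (⟨p.σ.cons q hq c f, p.w⟩ : QW W) := by
  refine ⟨p.σ.le_cons q hq c f, ?_⟩
  have h1 := Ch.topHom_le_cons p.σ q hq c f
  exact (congrArg (fun g : p.σ.top ⟶ p.σ.top => W.res g p.w) h1).trans (W.res_id _)

/-- the added vertex is below the element obtained by adding an initial object -/
theorem QW.eq_vtx_le_cons {C : Type} [Category.{0} C] {W : PSh C} (p : QW W) (q : ℚ)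
    (hq : q < p.σ.ib) (c : C) (f : c ⟶ p.σ.bot) :
    (⟨Ch.vtx q c, W.res (f ≫ p.σ.mm) p.w⟩ : QW W) ≤ (⟨p.σ.cons q hq c f, p.w⟩ : QW W) := by
  refine ⟨p.σ.vtx_le_cons q hq c f, ?_⟩
  have h1 := Ch.topHom_vtx_le_cons p.σ q hq c f
  exact congrArg (fun g : c ⟶ p.σ.top => W.res g p.w) h1

/-- every element is joined by a fence to a standard point -/
theorem QW.exists_fence {C : Type} [Category.{0} C] (𝒮 : SuspData C) {W : PSh C} (p : QW W) :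
    ∃ (v : W.obj 𝒮.pt) (f₁ f₂ f₃ : QW W), QW.point 𝒮 v ≤ f₁ ∧ f₂ ≤ f₁ ∧ f₂ ≤ f₃ ∧ p ≤ f₃ := by
  obtain ⟨q, hq⟩ : ∃ q : ℚ, q < min p.σ.ib 0 := exists_lt _
  have hq1 : q < p.σ.ib := hq.trans_le (min_le_left _ _)
  have hq2 : q < 0 := hq.trans_le (min_le_right _ _)
  set v : W.obj 𝒮.pt := W.res (𝒮.fst p.σ.bot ≫ p.σ.mm) p.w with hv
  have hq2' : q < (QW.point 𝒮 v : QW W).σ.ib := hq2
  refine ⟨v, ⟨(QW.point 𝒮 v : QW W).σ.cons q hq2' 𝒮.pt (𝟙 _), (QW.point 𝒮 v : QW W).w⟩,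
    ⟨Ch.vtx q 𝒮.pt, v⟩, ⟨p.σ.cons q hq1 𝒮.pt (𝒮.fst p.σ.bot), p.w⟩,
    QW.eq_le_cons _ _ _ _ _, ?_, QW.eq_vtx_le_cons _ _ _ _ _, QW.eq_le_cons _ _ _ _ _⟩
  have h := QW.eq_vtx_le_cons (QW.point 𝒮 v : QW W) q hq2' 𝒮.pt (𝟙 _)
  have e : W.res ((𝟙 𝒮.pt) ≫ (Ch.vtx (0 : ℚ) 𝒮.pt).mm) v = v := by
    have h1 : (Ch.vtx (0 : ℚ) 𝒮.pt).mm = 𝟙 𝒮.pt := Ch.vtx_mm _ _
    have h2 : (𝟙 𝒮.pt) ≫ (Ch.vtx (0 : ℚ) 𝒮.pt).mm = 𝟙 𝒮.pt :=
      (congrArg (fun g : 𝒮.pt ⟶ 𝒮.pt => (𝟙 𝒮.pt) ≫ g) h1).trans (Category.id_comp _)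
    exact (congrArg (fun g : 𝒮.pt ⟶ 𝒮.pt => W.res g v) h2).trans (W.res_id _)
  have e' : (⟨Ch.vtx q 𝒮.pt, W.res ((𝟙 𝒮.pt) ≫ (Ch.vtx (0 : ℚ) 𝒮.pt).mm) v⟩ : QW W) =
      ⟨Ch.vtx q 𝒮.pt, v⟩ := congrArg (fun u : W.obj 𝒮.pt => (⟨Ch.vtx q 𝒮.pt, u⟩ : QW W)) e
  exact (le_of_eq e'.symm).trans h

namespace Coherator
variable {C : Coherator}

/-- dimension `0`: every point of `QW W` is connected to the point of a `0`-cell
(`(σ, w) ≥ (first object of σ, ..) ≤ cons .. ≥ vtx q pt`, then change the label `q` to `0`). -/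
theorem eglobQ₀ (W : PSh C.C.Cat) (p : QW W) :
    ∃ w : W.obj ⟨.D 0⟩, HRel (n := 0) (cellMap 0 W w) (fun _ => p) := by
  obtain ⟨v, f₁, f₂, f₃, h01, h21, h23, h43⟩ := QW.exists_fence C.suspData p
  have hc : Continuous (fence (A := QW W) (fun _ => QW.point C.suspData v) (fun _ => f₁)
      (fun _ => f₂) (fun _ => f₃) (fun _ => p)) :=
    continuous_fence _ _ _ _ _ (fun _ _ _ => le_rfl) (fun _ _ _ => le_rfl)
      (fun _ _ _ => le_rfl) (fun _ _ _ => le_rfl) (fun _ _ _ => le_rfl)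
      (fun _ => h01) (fun _ => h21) (fun _ => h23) (fun _ => h43)
  refine ⟨v, fun z => fence (A := QW W) (fun _ => QW.point C.suspData v) (fun _ => f₁)
    (fun _ => f₂) (fun _ => f₃) (fun _ => p) (p, z.2), ?_, ?_, ?_, ?_⟩
  · exact (hc.comp (by fun_prop : Continuous fun z : (Fin 0 → ℝ) × ℝ => (p, z.2))).continuousOn
  · intro x _
    have h : (0 : ℝ) < 1 / 3 := by norm_num
    have e : fence (A := QW W) (fun _ => QW.point C.suspData v) (fun _ => f₁)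
        (fun _ => f₂) (fun _ => f₃) (fun _ => p) (p, 0) = QW.point C.suspData v := by
      simp only [fence]
      rw [if_pos h]
    exact e
  · intro x _
    simp only [fence]
    rw [if_neg (by norm_num), if_neg (by norm_num), if_neg (by norm_num), if_neg (by norm_num)]
  · intro x hx
    exfalso
    have : ∑ i : Fin 0, x i ^ 2 = 1 := hx
    simp at this

end Coherator
end Vale.Agent.P259
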