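import Vale.Agent.Lib.P259.Theta
import Vale.Agent.Lib.P259.EGlobQ
/-!
# P259, module F5b: every disc in `TW D W` with algebraic boundary is homotopic to a cell of `W`
-/
namespace Vale.Agent.P259
open CategoryTheory Set Topology

variable {C : Coherator} (D : DiscFunctor C.C)

/-- dimension `0` (lift along the weak equivalence `t` from `eglobQ₀`, `exists_compare`) -/
theorem eglobT₀ (W : PSh C.C.Cat) (p : TW D W) :
    ∃ w : W.obj ⟨.D 0⟩, HRel (n := 0) (tcell D 0 W w) (fun _ => p) := by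
  obtain ⟨w, hw⟩ := Coherator.eglobQ₀ W (TW.t p)
  obtain ⟨h, hc, h0, h1, -⟩ := exists_compare D
  refine ⟨w, ?_⟩
  have hcmp : HRel (n := 0) (Coherator.cellMap 0 W w) (fun x => TW.t (tcell D 0 W w x)) :=
    ⟨h 0 W w, hc 0 W w, h0 0 W w, h1 0 W w, fun x hx => (GF_not_mem_sph_zero hx).elim⟩
  exact IsWE.hRel_of_map (TW.isWE_t (D := D) (W := W)) (continuousOn_tcell D 0 W w)
    continuousOn_const (fun x hx => (GF_not_mem_sph_zero hx).elim) (hcmp.symm.trans hw)

/-- the comparison homotopies of parallel cells agree on the boundary -/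
theorem compare_par {h : ∀ (n : ℕ) (W : PSh C.C.Cat) (_ : W.obj ⟨.D n⟩),
      (Fin n → ℝ) × ℝ → QW W}
    (hh : ∀ n W (w : W.obj ⟨.D (n + 1)⟩) ε, ∀ x ∈ closedDisc n, ∀ t ∈ uI,
      h (n + 1) W w (hemi ε x, t) =
        h n W (W.res (C.C.jm (bd₀ (Nat.lt_succ_self n) ε)) w) (x, t))
    (n : ℕ) (W : PSh C.C.Cat) (a b : W.obj ⟨.D n⟩) (hab : Coherator.ParP W a b)
    {x : Fin n → ℝ} (hx : x ∈ sph n) {t : ℝ} (ht : t ∈ uI) :
    h n W a (x, t) = h n W b (x, t) := by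
  cases n with
  | zero => exact (GF_not_mem_sph_zero hx).elim
  | succ m =>
    obtain ⟨ε, y, hy, rfl⟩ := exists_hemi hx
    rw [hh m W a ε y hy t ht, hh m W b ε y hy t ht, hab ε]

/-- Let `k` be the comparison homotopy on the sphere (`exists_compare`): there is `γ'` with
`HOver k γ' (t ∘ γ)` (`exists_HOver'`), `eglobQ` gives `w` with `HRel (cellMap w) γ'`, hence
`HOver k (cellMap w) (t ∘ γ)`; also `HOver k (cellMap w) (t ∘ tcell w)`; by uniqueness
`HRel (t ∘ tcell w) (t ∘ γ)`, and `IsWE.hRel_of_map`, `TW.isWE_t` give the result. -/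
theorem eglobT (n : ℕ) (W : PSh C.C.Cat) (hW : GpP C.C W) (a b : W.obj ⟨.D n⟩)
    (hab : Coherator.ParP W a b)
    (γ : (Fin (n + 1) → ℝ) → TW D W) (hγ : ContinuousOn γ (closedDisc (n + 1)))
    (h0 : ∀ z ∈ closedDisc n, γ (hemi false z) = tcell D n W a z)
    (h1 : ∀ z ∈ closedDisc n, γ (hemi true z) = tcell D n W b z) :
    ∃ w : W.obj ⟨.D (n + 1)⟩, W.res (C.C.jm (bd₀ (Nat.lt_succ_self n) false)) w = a ∧
      W.res (C.C.jm (bd₀ (Nat.lt_succ_self n) true)) w = b ∧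
      HRel (tcell D (n + 1) W w) γ := by
  obtain ⟨h, hc, hc0, hc1, hh⟩ := exists_compare D
  -- the boundary cells
  set c : Bool → W.obj ⟨.D n⟩ := fun ε => if ε then b else a with hcdef
  have hγc : ∀ ε, ∀ z ∈ closedDisc n, γ (hemi ε z) = tcell D n W (c ε) z := by
    intro ε z hz
    cases ε
    · exact h0 z hz
    · exact h1 z hz
  -- the side walls
  obtain ⟨k, hk, hkk⟩ := glue_hemi (n := n) (P := ℝ) uI (fun ε z => h n W (c ε) z)
    (fun ε => hc n W (c ε)) (fun x hx t ht => compare_par hh n W a b hab hx ht)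
  have htγ : ContinuousOn (fun z => TW.t (γ z)) (closedDisc (n + 1)) :=
    TW.continuous_t.comp_continuousOn hγ
  obtain ⟨γ', hγ'⟩ := exists_HOver' k (fun z => TW.t (γ z)) htγ hk (by
    intro z hz
    obtain ⟨ε, x, hx, rfl⟩ := exists_hemi hz
    rw [hkk ε x hx 1 tt_one_mem, hγc ε x hx]
    exact hc1 n W (c ε) x hx)
  have hγ'c : ∀ ε, ∀ z ∈ closedDisc n, γ' (hemi ε z) = Coherator.cellMap n W (c ε) z := by
    intro ε z hz
    obtain ⟨H, -, H0, -, Hs⟩ := hγ'
    have hz' := hemi_mem ε hz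
    rw [← H0 _ (sph_subset _ hz'), Hs _ hz' 0 tt_zero_mem, hkk ε z hz 0 tt_zero_mem]
    exact hc0 n W (c ε) z hz
  obtain ⟨w, hwa, hwb, hwγ⟩ := Coherator.eglobQ n W hW a b hab γ' hγ'.continuousOn_left
    (fun z hz => hγ'c false z hz) (fun z hz => hγ'c true z hz)
  have hwc : ∀ ε, W.res (C.C.jm (bd₀ (Nat.lt_succ_self n) ε)) w = c ε := by
    intro ε
    cases ε
    · exact hwa
    · exact hwb
  refine ⟨w, hwa, hwb, ?_⟩
  have hO1 : HOver k (Coherator.cellMap (n + 1) W w) (fun z => TW.t (γ z)) :=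
    hwγ.trans_HOver hγ'
  have hO2 : HOver k (Coherator.cellMap (n + 1) W w)
      (fun z => TW.t (tcell D (n + 1) W w z)) := by
    refine ⟨h (n + 1) W w, hc (n + 1) W w, hc0 (n + 1) W w, hc1 (n + 1) W w, ?_⟩
    intro z hz t ht
    obtain ⟨ε, x, hx, rfl⟩ := exists_hemi hz
    rw [hh n W w ε x hx t ht, hwc ε, hkk ε x hx t ht]
  have heq : EqOn (tcell D (n + 1) W w) γ (sph (n + 1)) := by
    intro z hz
    obtain ⟨ε, x, hx, rfl⟩ := exists_hemi hz
    rw [tcell_hemi D n W w ε hx, hwc ε, hγc ε x hx]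
  exact IsWE.hRel_of_map (TW.isWE_t (D := D) (W := W)) (continuousOn_tcell D (n + 1) W w)
    hγ heq (hO2.unique hO1)

end Vale.Agent.P259
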