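import Vale.Agent.Lib.P259.WPrime
import Vale.Agent.Lib.P259.Deform

/-!
# P259, module G7: the value at time zero is a trivial fibration onto the fundamental
infinity-groupoid
-/

namespace Vale.Agent.P259

open CategoryTheory Limits Topology Set Opposite

namespace DiscFunctor

variable {E : GlobExt} (D : DiscFunctor E) {Y : Top'}

/-- continuous maps as elements of `Π_∞ Y` -/
def piEl {S : Obj} (f : C(D.sp S, Y.toTop)) : (D.Pi.obj Y).obj.obj (op ⟨S⟩) :=
  (ConcreteCategory.ofHom f : D.F.obj ⟨S⟩ ⟶ Y)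

variable {D}

/-- elements of `Π_∞ Y` as continuous maps -/
def piVal {S : Obj} (u : (D.Pi.obj Y).obj.obj (op ⟨S⟩)) : C(D.sp S, Y.toTop) :=
  (show D.F.obj ⟨S⟩ ⟶ Y from u).hom.hom

theorem piVal_piEl {S : Obj} (f : C(D.sp S, Y.toTop)) : piVal (D.piEl f) = f := rfl

theorem piVal_injective {S : Obj} {u v : (D.Pi.obj Y).obj.obj (op ⟨S⟩)}
    (h : ∀ x, piVal u x = piVal v x) : u = v :=
  ConcreteCategory.hom_ext (show D.F.obj ⟨S⟩ ⟶ Y from u) (show D.F.obj ⟨S⟩ ⟶ Y from v) h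

theorem piVal_act {S T : Obj} (φ : E.Hom S T) (u : (D.Pi.obj Y).obj.obj (op ⟨T⟩)) (x : D.sp S) :
    piVal (GlobExt.act (D.Pi.obj Y).obj φ u) x = piVal u (D.mp φ x) := rfl

theorem piVal_map {Y' : Top'} (f : Y ⟶ Y') {S : Obj} (u : (D.Pi.obj Y).obj.obj (op ⟨S⟩))
    (x : D.sp S) : piVal ((D.Pi.map f).hom.app (op ⟨S⟩) u) x = f.hom.hom (piVal u x) := rfl

end DiscFunctor

open DiscFunctor

namespace QData

variable {C : Coherator} {D : DiscFunctor C.C} {𝒬 : QData C D}

namespace GFam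

/-- the inclusion of the end `t = 0` -/
def zeroI (X : Type) [TopologicalSpace X] : C(X, X × unitInterval) :=
  ⟨fun x => (x, 0), by fun_prop⟩

section
variable {W : C.C.Gpd} {Z : Type} [TopologicalSpace Z] {G : GFam 𝒬 W Z}

/-- the value at time zero -/
noncomputable def El.start {S : Obj} (p : G.El S) : C(D.sp S, Z) :=
  p.K.comp ((𝒬.iD S).comp (zeroI (D.sp S)))

theorem El.start_apply {S : Obj} (p : G.El S) (x : D.sp S) :
    p.start x = p.K (𝒬.iD S (x, 0)) := rfl

theorem El.start_res (M : 𝒬.CylFun) {S T : Obj} (φ : C.C.Hom S T) (p : G.El T) (x : D.sp S) :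
    (El.res M φ p).start x = p.start (D.mp φ x) := by
  change p.K (M.mm φ (𝒬.iD S (x, 0))) = p.K (𝒬.iD T (D.mp φ x, 0))
  rw [M.mm_iD]

end

variable (M : 𝒬.CylFun) {W : C.C.Gpd} {Y : Top'} (G : GFam 𝒬 W Y.toTop)

/-- the value at time zero, as a morphism of infinity-groupoids -/
noncomputable def endz : G.gpd M ⟶ D.Pi.obj Y := ObjectProperty.homMk
  { app := fun R => TypeCat.ofHom fun p : G.El R.unop.obj => D.piEl (S := R.unop.obj) p.start
    naturality := fun R T φ => by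
      ext p
      apply piVal_injective (S := T.unop.obj)
      intro x
      exact El.start_res M (S := T.unop.obj) (T := R.unop.obj) φ.unop p x }

theorem piVal_endz {S : Obj} (p : G.El S) :
    piVal ((G.endz M).hom.app (op ⟨S⟩) p) = p.start := rfl

/-- every point is joined to the point of a `0`-cell -/
def Surj₀ : Prop := ∀ (z : Y.toTop) (x : D.sp (.D 0)), ∃ w : Coherator.cells W.obj 0,
  Joined (G.g w (𝒬.h (.D 0) x)) z

/-- every disc whose boundary comes from cells comes from a cell up to homotopy -/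
def Surj : Prop := ∀ (n : ℕ) (u v : Coherator.cells W.obj n) (z : C(D.sp (.D (n + 1)), Y.toTop)),
  (∀ x, z (D.bdp n false x) = G.g u (𝒬.h (.D n) x)) →
  (∀ x, z (D.bdp n true x) = G.g v (𝒬.h (.D n) x)) →
  Coherator.ParCells W.obj u v →
  ∃ w : Coherator.cells W.obj (n + 1), Coherator.bdCell W.obj false w = u ∧
    Coherator.bdCell W.obj true w = v ∧
    ContinuousMap.HomotopicRel z ((G.g w).comp (𝒬.h (.D (n + 1)))) (D.bdSet n)

variable {G}

theorem exists_start (hs : G.Surj₀) (v : Coherator.cells (D.Pi.obj Y).obj 0) :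
    ∃ w : G.El (.D 0), D.piEl w.start = v := by
  have := D.subsingleton_sp₀
  obtain ⟨x₀⟩ : Nonempty (D.sp (.D 0)) := ⟨(D.homeo 0).symm ⟨0, by simp [closedDisc]⟩⟩
  obtain ⟨w, ⟨p⟩⟩ := hs (piVal v x₀) x₀
  obtain ⟨K, hK1, hK2⟩ := 𝒬.cyl_desc (p.symm.toContinuousMap.comp ContinuousMap.snd) (G.g w) (by
    intro x
    rw [Subsingleton.elim x x₀]
    exact p.symm.target)
  refine ⟨⟨w, K, hK2⟩, ?_⟩
  apply piVal_injective
  intro x
  rw [Subsingleton.elim x x₀]
  exact (hK1 x₀ 0).trans p.symm.source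

theorem Par.cells {n : ℕ} {a b : G.El (.D n)} (h : El.Par M a b) :
    Coherator.ParCells W.obj a.w b.w := by
  cases n with
  | zero => trivial
  | succ m => exact fun ε => congrArg (fun z : G.El (.D m) => z.w) (h ε)

theorem endz_lift (hs : G.Surj) (n : ℕ) (a b : G.El (.D n)) (hab : El.Par M a b)
    (v : Coherator.cells (D.Pi.obj Y).obj (n + 1))
    (h0 : Coherator.bdCell (D.Pi.obj Y).obj false v = D.piEl a.start)
    (h1 : Coherator.bdCell (D.Pi.obj Y).obj true v = D.piEl b.start) :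
    ∃ w : G.El (.D (n + 1)), El.res M (C.C.J (bd₀ (Nat.lt_succ_self n) false)) w = a ∧
      El.res M (C.C.J (bd₀ (Nat.lt_succ_self n) true)) w = b ∧ D.piEl w.start = v := by
  have hv : ∀ ε x, piVal v (D.bdp n ε x) = (El.pair a b ε).K (𝒬.iD (.D n) (x, 0)) := by
    intro ε x
    cases ε
    · exact congrArg (fun z => piVal z x) h0
    · exact congrArg (fun z => piVal z x) h1
  obtain ⟨H, hH0, hHw⟩ := D.exists_hep₀ n (fun ε => (El.pair a b ε).K.comp (𝒬.iD (.D n)))
    (El.walls M a b hab) (piVal v) hv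
  have e1 : ∀ ε x, H (D.bdp n ε x, 1) = G.g (El.pair a b ε).w (𝒬.h (.D n) x) := by
    intro ε x
    rw [hHw]
    change (El.pair a b ε).K (𝒬.iD (.D n) (x, 1)) = _
    rw [𝒬.iD_one, (El.pair a b ε).hK]
  obtain ⟨w, hw0, hw1, hw⟩ := hs n a.w b.w (H.comp (oneI _)) (e1 false) (e1 true)
    (Par.cells M hab)
  obtain ⟨H', hH'0, hH'1, hH'w⟩ := D.exists_adjust n H ((G.g w).comp (𝒬.h (.D (n + 1)))) hw
  obtain ⟨r, hr1, hr2, -, hr3⟩ := G.exists_el M a b w hw0 hw1 H' hH'1 (by
    intro ε x t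
    rw [hH'w, hHw]
    rfl)
  refine ⟨r, hr1, hr2, ?_⟩
  apply piVal_injective
  intro x
  change r.K (𝒬.iD _ (x, 0)) = _
  rw [hr3, hH'0, hH0]

variable (G)

theorem isTF_endz (hs₀ : G.Surj₀) (hs : G.Surj) : Coherator.IsTF (G.endz M).hom where
  surj v := exists_start hs₀ v
  lift₀ a b v h0 h1 := endz_lift M hs 0 a b trivial v h0 h1
  lift n a b hab v h0 h1 := endz_lift M hs (n + 1) a b hab v h0 h1

theorem weq_endz (hs₀ : G.Surj₀) (hs : G.Surj) : C.weq (G.endz M) :=
  Coherator.weq_of_isTF _ (G.isTF_endz M hs₀ hs)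

end GFam

end QData

end Vale.Agent.P259
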