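import Vale.Agent.Lib.P259.DiscTool
/-!
# P259, module D2: `Π_∞` preserves and reflects weak equivalences
-/
namespace Vale.Agent.P259
open CategoryTheory Set Topology

section cubes

/-- the embedding of Mathlib's cube in `Fin n → ℝ` -/
def cemb {n : ℕ} (y : Fin n → unitInterval) : Fin n → ℝ := fun i => (y i : ℝ)

/-- the projection onto Mathlib's cube -/
noncomputable def cproj {n : ℕ} (x : Fin n → ℝ) : Fin n → unitInterval :=
  fun i => Set.projIcc 0 1 zero_le_one (x i)

lemma continuous_cemb (n : ℕ) : Continuous (cemb : (Fin n → unitInterval) → _) := by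
  unfold cemb
  fun_prop

lemma continuous_cproj (n : ℕ) : Continuous (cproj : (Fin n → ℝ) → _) := by
  unfold cproj
  refine continuous_pi fun i => ?_
  exact continuous_projIcc.comp (continuous_apply i)

lemma cproj_cemb {n : ℕ} (y : Fin n → unitInterval) : cproj (cemb y) = y := by
  funext i
  exact Set.projIcc_val zero_le_one (y i)

lemma cemb_cproj {n : ℕ} {x : Fin n → ℝ} (hx : x ∈ cube n) : cemb (cproj x) = x := by
  funext i
  unfold cemb cproj
  rw [Set.projIcc_of_mem zero_le_one (mem_cube.1 hx i)]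

lemma cemb_mem {n : ℕ} (y : Fin n → unitInterval) : cemb y ∈ cube n :=
  mem_cube.2 fun i => (y i).2

lemma cemb_mem_bdry {n : ℕ} {y : Fin n → unitInterval} :
    cemb y ∈ bdry n ↔ y ∈ Cube.boundary (Fin n) := by
  constructor
  · rintro ⟨-, i, hi⟩
    refine ⟨i, ?_⟩
    rcases hi with hi | hi
    · exact Or.inl (Subtype.ext hi)
    · exact Or.inr (Subtype.ext hi)
  · rintro ⟨i, hi⟩
    refine ⟨cemb_mem y, i, ?_⟩
    rcases hi with hi | hi
    · left; simp [cemb, hi]
    · right; simp [cemb, hi]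

lemma cproj_mem_boundary {n : ℕ} {x : Fin n → ℝ} (hx : x ∈ bdry n) :
    cproj x ∈ Cube.boundary (Fin n) := by
  rw [← cemb_mem_bdry, cemb_cproj (bdry_subset n hx)]
  exact hx

lemma joined_of_continuousOn {Y : Type*} [TopologicalSpace Y] {γ : ℝ → Y}
    (hγ : ContinuousOn γ uI) : Joined (γ 0) (γ 1) := by
  refine ⟨⟨⟨fun t : unitInterval => γ t, ?_⟩, ?_, ?_⟩⟩
  · exact hγ.comp_continuous continuous_subtype_val fun t => t.2
  · simp
  · simp

end cubes

/-- The pair (Mathlib's cube, boundary) is homeomorphic to (disc, sphere). -/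
lemma exists_cubeDisc (m : ℕ) : ∃ Φ : (Fin m → unitInterval) ≃ₜ closedDisc m,
    ∀ y, ((Φ y : Fin m → ℝ) ∈ sph m ↔ y ∈ Cube.boundary (Fin m)) := by
  obtain ⟨h, h1, h2⟩ := exists_disc_homeo m
  have hmem : ∀ x, h x ∈ closedDisc m ↔ x ∈ cube m := by
    intro x
    rw [← h1, h.injective.mem_set_image]
  have hbd : ∀ x, h x ∈ sph m ↔ x ∈ bdry m := by
    intro x
    rw [← h2, h.injective.mem_set_image]
  refine ⟨{ toFun := fun y => ⟨h (cemb y), (hmem _).2 (cemb_mem y)⟩
            invFun := fun z => cproj (h.symm (z : Fin m → ℝ))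
            left_inv := fun y => ?_
            right_inv := fun z => ?_
            continuous_toFun := ?_
            continuous_invFun := ?_ }, ?_⟩
  · simp only [h.symm_apply_apply, cproj_cemb]
  · have hz : h.symm (z : Fin m → ℝ) ∈ cube m := by
      rw [← hmem, h.apply_symm_apply]
      exact z.2
    apply Subtype.ext
    simp only [cemb_cproj hz, h.apply_symm_apply]
  · exact (h.continuous.comp (continuous_cemb m)).subtype_mk _
  · exact (continuous_cproj m).comp (h.symm.continuous.comp continuous_subtype_val)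
  · intro y
    exact (hbd _).trans cemb_mem_bdry

section theta

/-- the parametrization of the disc by segments between the two hemispheres -/
noncomputable def theta {m : ℕ} (z : (Fin m → ℝ) × ℝ) : Fin (m + 1) → ℝ :=
  Fin.snoc z.1 ((2 * z.2 - 1) * Real.sqrt (1 - ∑ i, z.1 i ^ 2))

lemma continuous_theta (m : ℕ) : Continuous (theta : (Fin m → ℝ) × ℝ → _) := by
  unfold theta
  refine (continuous_snoc m).comp (continuous_fst.prodMk ?_)
  fun_prop

lemma theta_zero {m : ℕ} (y : Fin m → ℝ) : theta (y, 0) = hemi false y := by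
  unfold theta hemi
  simp

lemma theta_one {m : ℕ} (y : Fin m → ℝ) : theta (y, 1) = hemi true y := by
  unfold theta hemi
  norm_num

lemma theta_sph {m : ℕ} {y : Fin m → ℝ} (hy : y ∈ sph m) (t : ℝ) :
    theta (y, t) = hemi false y := by
  have hy' : ∑ i, y i ^ 2 = 1 := hy
  unfold theta hemi
  simp [hy']

lemma sum_snoc {m : ℕ} (y : Fin m → ℝ) (s : ℝ) :
    ∑ i, (Fin.snoc y s : Fin (m + 1) → ℝ) i ^ 2 = (∑ i, y i ^ 2) + s ^ 2 := by
  rw [Fin.sum_univ_castSucc]
  simp only [Fin.snoc_castSucc, Fin.snoc_last]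

lemma theta_mem {m : ℕ} {y : Fin m → ℝ} {t : ℝ} (hy : y ∈ closedDisc m) (ht : t ∈ uI) :
    theta (y, t) ∈ closedDisc (m + 1) := by
  have hy' : ∑ i, y i ^ 2 ≤ 1 := hy
  have h1 : 0 ≤ t := ht.1
  have h2 : t ≤ 1 := ht.2
  change ∑ i, (theta (y, t)) i ^ 2 ≤ 1
  unfold theta
  rw [sum_snoc, mul_pow, Real.sq_sqrt (by simp only; linarith)]
  simp only
  have h3 : (2 * t - 1) ^ 2 ≤ 1 := by nlinarith
  have h4 : 0 ≤ 1 - ∑ i, y i ^ 2 := by linarith
  nlinarith [mul_le_mul_of_nonneg_right h3 h4]

lemma exists_theta {m : ℕ} {z : Fin (m + 1) → ℝ} (hz : z ∈ closedDisc (m + 1)) :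
    ∃ y ∈ closedDisc m, ∃ t ∈ uI, theta (y, t) = z := by
  have hz' : ∑ i, z i ^ 2 ≤ 1 := hz
  set y : Fin m → ℝ := fun i => z i.castSucc with hy
  set s : ℝ := z (Fin.last m) with hs
  have hsn : (Fin.snoc y s : Fin (m + 1) → ℝ) = z := Fin.snoc_init_self z
  rw [← hsn, sum_snoc] at hz'
  have hyD : ∑ i, y i ^ 2 ≤ 1 := by nlinarith [sq_nonneg s]
  set r := Real.sqrt (1 - ∑ i, y i ^ 2) with hr
  have hr0 : 0 ≤ r := Real.sqrt_nonneg _
  have hr2 : r ^ 2 = 1 - ∑ i, y i ^ 2 := Real.sq_sqrt (by linarith)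
  have hsr : s ^ 2 ≤ r ^ 2 := by rw [hr2]; linarith
  have habs := abs_le_of_sq_le_sq' hsr hr0
  rcases hr0.eq_or_lt with h0 | h0
  · have hs0 : s = 0 := by
      rw [← h0] at habs
      linarith [habs.1, habs.2]
    refine ⟨y, hyD, 0, ⟨le_rfl, zero_le_one⟩, ?_⟩
    rw [← hsn]
    unfold theta
    simp only
    rw [← hr, ← h0, hs0, mul_zero]
  · refine ⟨y, hyD, (s / r + 1) / 2, ⟨?_, ?_⟩, ?_⟩
    · have : -1 ≤ s / r := by rw [le_div_iff₀ h0]; linarith [habs.1]
      linarith
    · have : s / r ≤ 1 := by rw [div_le_iff₀ h0]; linarith [habs.2]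
      linarith
    · rw [← hsn]
      unfold theta
      simp only
      rw [← hr]
      congr 1
      field_simp
      ring

lemma theta_inj {m : ℕ} {y y' : Fin m → ℝ} {t t' : ℝ} (hy : y ∈ closedDisc m)
    (h : theta (y, t) = theta (y', t')) : y = y' ∧ (t = t' ∨ y ∈ sph m) := by
  unfold theta at h
  simp only at h
  have h1 : y = y' := by
    funext i
    have := congrFun h i.castSucc
    simpa using this
  refine ⟨h1, ?_⟩
  subst h1
  have h2 := congrFun h (Fin.last m)
  simp only [Fin.snoc_last] at h2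
  have hy' : ∑ i, y i ^ 2 ≤ 1 := hy
  rcases eq_or_ne (Real.sqrt (1 - ∑ i, y i ^ 2)) 0 with h0 | h0
  · right
    rw [Real.sqrt_eq_zero (by linarith)] at h0
    change ∑ i, y i ^ 2 = 1
    linarith
  · left
    have := mul_right_cancel₀ h0 h2
    linarith

/-- the parametrization as a continuous map of subspaces -/
noncomputable def thetaC (m : ℕ) : C(closedDisc m × unitInterval, closedDisc (m + 1)) where
  toFun z := ⟨theta ((z.1 : Fin m → ℝ), (z.2 : ℝ)), theta_mem z.1.2 z.2.2⟩
  continuous_toFun := by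
    refine Continuous.subtype_mk ((continuous_theta m).comp ?_) _
    fun_prop

lemma isQuotientMap_thetaC (m : ℕ) : IsQuotientMap (thetaC m) := by
  have : CompactSpace (closedDisc m) := isCompact_iff_compactSpace.1 (isCompact_closedDisc m)
  refine (thetaC m).continuous.isClosedMap.isQuotientMap (thetaC m).continuous ?_
  intro z
  obtain ⟨y, hy, t, ht, h⟩ := exists_theta z.2
  exact ⟨(⟨y, hy⟩, ⟨t, ht⟩), Subtype.ext h⟩

/-- the hemisphere inclusions as continuous maps -/
noncomputable def hemiC {m : ℕ} (ε : Bool) : C(closedDisc m, closedDisc (m + 1)) where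
  toFun z := ⟨hemi ε (z : Fin m → ℝ), sph_subset _ (hemi_mem ε z.2)⟩
  continuous_toFun := ((continuous_hemi m ε).comp continuous_subtype_val).subtype_mk _

lemma exists_cell_iff {X : Type*} [TopologicalSpace X] {m : ℕ} (u v : C(closedDisc m, X)) :
    (∃ w : C(closedDisc (m + 1), X), w.comp (hemiC false) = u ∧ w.comp (hemiC true) = v) ↔
      u.HomotopicRel v {z : closedDisc m | (z : Fin m → ℝ) ∈ sph m} := by
  constructor
  · rintro ⟨w, hu, hv⟩
    refine ⟨⟨⟨⟨fun z => w (thetaC m (z.2, z.1)), by fun_prop⟩, ?_, ?_⟩, ?_⟩⟩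
    · intro y
      rw [← hu]
      refine congrArg w (Subtype.ext ?_)
      exact theta_zero _
    · intro y
      rw [← hv]
      refine congrArg w (Subtype.ext ?_)
      exact theta_one _
    · intro t y hy
      refine Eq.trans ?_ (ContinuousMap.congr_fun hu y)
      refine congrArg w (Subtype.ext ?_)
      exact theta_sph hy _
  · rintro ⟨K⟩
    set g : C(closedDisc m × unitInterval, X) :=
      ⟨fun z => K (z.2, z.1), by fun_prop⟩ with hg
    have hfac : Function.FactorsThrough g (thetaC m) := by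
      rintro ⟨y, t⟩ ⟨y', t'⟩ h
      have h' : theta ((y : Fin m → ℝ), (t : ℝ)) = theta ((y' : Fin m → ℝ), (t' : ℝ)) :=
        congrArg Subtype.val h
      obtain ⟨h1, h2⟩ := theta_inj y.2 h'
      have h1' : y = y' := Subtype.ext h1
      subst h1'
      rcases h2 with h2 | h2
      · rw [Subtype.ext h2]
      · change K (t, y) = K (t', y)
        rw [K.eq_fst t h2, K.eq_fst t' h2]
    refine ⟨(isQuotientMap_thetaC m).lift g hfac, ?_, ?_⟩
    · ext y
      have h1 : hemiC false y = thetaC m (y, 0) := Subtype.ext (theta_zero _).symm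
      have h2 := ContinuousMap.congr_fun ((isQuotientMap_thetaC m).lift_comp g hfac) (y, 0)
      simp only [ContinuousMap.comp_apply] at h2 ⊢
      rw [h1, h2]
      exact K.apply_zero y
    · ext y
      have h1 : hemiC true y = thetaC m (y, 1) := Subtype.ext (theta_one _).symm
      have h2 := ContinuousMap.congr_fun ((isQuotientMap_thetaC m).lift_comp g hfac) (y, 1)
      simp only [ContinuousMap.comp_apply] at h2 ⊢
      rw [h1, h2]
      exact K.apply_one y

end theta

section cellsPi

open Coherator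

variable {C : Coherator} (D : DiscFunctor C.C) {Y : Top'}

/-- cells of `Π_∞ Y` as maps from discs -/
noncomputable def toMap {n : ℕ} (u : cells (D.presheaf Y) n) : C(closedDisc n, Y) :=
  ContinuousMap.comp (show (D.F.obj ⟨.D n⟩ ⟶ Y) from u).hom.hom
    ⟨(D.homeo n).symm, (D.homeo n).symm.continuous⟩

/-- maps from discs as cells of `Π_∞ Y` -/
noncomputable def ofMap {n : ℕ} (v : C(closedDisc n, Y)) : cells (D.presheaf Y) n :=
  (ConcreteCategory.ofHom (v.comp ⟨D.homeo n, (D.homeo n).continuous⟩) : D.F.obj ⟨.D n⟩ ⟶ Y)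

lemma toMap_ofMap {n : ℕ} (v : C(closedDisc n, Y)) : toMap D (ofMap D v) = v := by
  ext x
  exact congrArg v ((D.homeo n).apply_symm_apply x)

lemma ofMap_toMap {n : ℕ} (u : cells (D.presheaf Y) n) : ofMap D (toMap D u) = u := by
  refine ConcreteCategory.hom_ext (C := Top') (X := D.F.obj ⟨.D n⟩) (Y := Y) _ _ fun x => ?_
  exact congrArg (show (D.F.obj ⟨.D n⟩ ⟶ Y) from u).hom.hom ((D.homeo n).symm_apply_apply x)

/-- cells of `Π_∞ Y` are maps from discs -/
noncomputable def cellEquiv (n : ℕ) : cells (D.presheaf Y) n ≃ C(closedDisc n, Y) where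
  toFun := toMap D
  invFun := ofMap D
  left_inv := ofMap_toMap D
  right_inv := toMap_ofMap D

lemma toMap_bd {n : ℕ} (ε : Bool) (u : cells (D.presheaf Y) (n + 1)) :
    toMap D (bdCell (D.presheaf Y) ε u) = (toMap D u).comp (hemiC ε) := by
  ext x
  refine congrArg (show (D.F.obj ⟨.D (n + 1)⟩ ⟶ Y) from u).hom.hom ?_
  refine (D.homeo (n + 1)).injective ?_
  refine Eq.trans (Subtype.ext ?_) ((D.homeo (n + 1)).apply_symm_apply _).symm
  refine (D.hemi n ε _).trans ?_
  exact congrArg (fun z : closedDisc n => hemi ε (z : Fin n → ℝ))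
    ((D.homeo n).apply_symm_apply x)

/-- the point of the `0`-disc -/
def pt0 : closedDisc 0 := ⟨0, by simp [closedDisc]⟩

/-- the point of `Y` defined by a `0`-cell -/
noncomputable def val (x : cells (D.presheaf Y) 0) : Y := toMap D x pt0

lemma toMap_zero (x : cells (D.presheaf Y) 0) (z : closedDisc 0) : toMap D x z = val D x :=
  congrArg (toMap D x) (Subtype.ext (Subsingleton.elim _ _))

lemma toMap_idCell (x : cells (D.presheaf Y) 0) (n : ℕ) (z : closedDisc n) :
    toMap D (idCell (D.presheaf Y) x n) z = val D x := by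
  induction n with
  | zero => exact toMap_zero D x z
  | succ n ih =>
    refine Eq.trans ?_ (ih ((D.homeo n) ((D.F.map (X := ⟨.D (n + 1)⟩) (Y := ⟨.D n⟩)
      (C.unit n)).hom.hom ((D.homeo (n + 1)).symm z))))
    refine congrArg (show (D.F.obj ⟨.D n⟩ ⟶ Y) from (idCell (D.presheaf Y) x n)).hom.hom ?_
    exact ((D.homeo n).symm_apply_apply _).symm

lemma loops_iff {n : ℕ} (x : cells (D.presheaf Y) 0) (u : cells (D.presheaf Y) (n + 1)) :
    (∀ ε : Bool, bdCell (D.presheaf Y) ε u = idCell (D.presheaf Y) x n) ↔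
      ∀ z : closedDisc (n + 1), (z : Fin (n + 1) → ℝ) ∈ sph (n + 1) → toMap D u z = val D x := by
  constructor
  · intro h z hz
    obtain ⟨ε, y, hy, e⟩ := exists_hemi hz
    have hz' : z = hemiC ε ⟨y, hy⟩ := Subtype.ext e.symm
    rw [hz']
    have h1 := ContinuousMap.congr_fun (toMap_bd D ε u) ⟨y, hy⟩
    exact h1.symm.trans ((congrArg (fun w => toMap D w ⟨y, hy⟩) (h ε)).trans
      (toMap_idCell D x n _))
  · intro h ε
    apply (cellEquiv D n).injective
    ext z
    change toMap D _ z = toMap D _ z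
    rw [toMap_bd, toMap_idCell]
    exact h _ (hemi_mem ε z.2)

/-- loops in `Π_∞ Y` are generalized loops -/
noncomputable def loopEquiv {n : ℕ} (Φ : (Fin (n + 1) → unitInterval) ≃ₜ closedDisc (n + 1))
    (hΦ : ∀ y, ((Φ y : Fin (n + 1) → ℝ) ∈ sph (n + 1) ↔ y ∈ Cube.boundary (Fin (n + 1))))
    (x : cells (D.presheaf Y) 0) :
    Loops (D.presheaf Y) x n ≃ GenLoop (Fin (n + 1)) Y (val D x) where
  toFun u := ⟨(toMap D u.1).comp ⟨Φ, Φ.continuous⟩, fun y hy =>
    (loops_iff D x u.1).1 u.2 _ ((hΦ y).2 hy)⟩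
  invFun p := ⟨ofMap D (p.1.comp ⟨Φ.symm, Φ.symm.continuous⟩), (loops_iff D x _).2 (fun z hz => by
    rw [toMap_ofMap]
    exact p.2 _ ((hΦ _).1 (by
      change ((Φ (Φ.symm z) : closedDisc (n + 1)) : Fin (n + 1) → ℝ) ∈ sph (n + 1)
      rwa [Φ.apply_symm_apply])))⟩
  left_inv u := by
    apply Subtype.ext
    apply (cellEquiv D (n + 1)).injective
    change toMap D (ofMap D _) = toMap D u.1
    rw [toMap_ofMap]
    ext z
    exact congrArg (toMap D u.1) (Φ.apply_symm_apply z)
  right_inv p := by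
    apply Subtype.ext
    change (toMap D (ofMap D _)).comp _ = p.1
    rw [toMap_ofMap]
    ext y
    exact congrArg p.1 (Φ.symm_apply_apply y)

lemma homotopicRel_precomp {A B Z : Type*} [TopologicalSpace A] [TopologicalSpace B]
    [TopologicalSpace Z] {u v : C(B, Z)} {S : Set B} (h : u.HomotopicRel v S) (φ : C(A, B))
    {T : Set A} (hT : ∀ a ∈ T, φ a ∈ S) : (u.comp φ).HomotopicRel (v.comp φ) T := by
  obtain ⟨K⟩ := h
  refine ⟨⟨⟨⟨fun z => K (z.1, φ z.2), by fun_prop⟩, ?_, ?_⟩, ?_⟩⟩
  · intro a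
    exact K.apply_zero _
  · intro a
    exact K.apply_one _
  · intro t a ha
    exact K.eq_fst t (hT a ha)

lemma exists_cells_iff {n : ℕ} (u v : cells (D.presheaf Y) n) :
    (∃ w : cells (D.presheaf Y) (n + 1), bdCell (D.presheaf Y) false w = u ∧
      bdCell (D.presheaf Y) true w = v) ↔
      (toMap D u).HomotopicRel (toMap D v) {z : closedDisc n | (z : Fin n → ℝ) ∈ sph n} := by
  rw [← exists_cell_iff]
  constructor
  · rintro ⟨w, rfl, rfl⟩
    exact ⟨toMap D w, (toMap_bd D false w).symm, (toMap_bd D true w).symm⟩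
  · rintro ⟨w, h1, h2⟩
    refine ⟨ofMap D w, (cellEquiv D n).injective ?_, (cellEquiv D n).injective ?_⟩
    · change toMap D _ = toMap D _
      rw [toMap_bd, toMap_ofMap, h1]
    · change toMap D _ = toMap D _
      rw [toMap_bd, toMap_ofMap, h2]

lemma relLoops_iff {n : ℕ} (Φ : (Fin (n + 1) → unitInterval) ≃ₜ closedDisc (n + 1))
    (hΦ : ∀ y, ((Φ y : Fin (n + 1) → ℝ) ∈ sph (n + 1) ↔ y ∈ Cube.boundary (Fin (n + 1))))
    (x : cells (D.presheaf Y) 0) (u v : Loops (D.presheaf Y) x n) :
    relLoops (D.presheaf Y) x n u v ↔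
      GenLoop.Homotopic (loopEquiv D Φ hΦ x u) (loopEquiv D Φ hΦ x v) := by
  refine (exists_cells_iff D u.1 v.1).trans ⟨fun h => ?_, fun h => ?_⟩
  · exact homotopicRel_precomp h ⟨Φ, Φ.continuous⟩ fun y hy => (hΦ y).2 hy
  · have h2 := homotopicRel_precomp (T := {z : closedDisc (n + 1) |
      (z : Fin (n + 1) → ℝ) ∈ sph (n + 1)}) h ⟨Φ.symm, Φ.symm.continuous⟩ fun z hz =>
      (hΦ _).1 (by
        change ((Φ (Φ.symm z) : closedDisc (n + 1)) : Fin (n + 1) → ℝ) ∈ sph (n + 1)
        rwa [Φ.apply_symm_apply])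
    have e : ∀ w : Loops (D.presheaf Y) x n,
        ((loopEquiv D Φ hΦ x w).1).comp ⟨Φ.symm, Φ.symm.continuous⟩ = toMap D w.1 := by
      intro w
      ext z
      exact congrArg (toMap D w.1) (Φ.apply_symm_apply z)
    rw [e u, e v] at h2
    exact h2

/-- comparison of homotopy groups -/
noncomputable def piEquiv {n : ℕ} (Φ : (Fin (n + 1) → unitInterval) ≃ₜ closedDisc (n + 1))
    (hΦ : ∀ y, ((Φ y : Fin (n + 1) → ℝ) ∈ sph (n + 1) ↔ y ∈ Cube.boundary (Fin (n + 1))))
    (x : cells (D.presheaf Y) 0) :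
    pi (D.presheaf Y) x n ≃ HomotopyGroup (Fin (n + 1)) Y (val D x) :=
  Quot.congr (loopEquiv D Φ hΦ x) (relLoops_iff D Φ hΦ x)

lemma rel₀_iff (u v : cells (D.presheaf Y) 0) :
    rel₀ (D.presheaf Y) u v ↔ Joined (val D u) (val D v) := by
  refine (exists_cells_iff D u v).trans ⟨?_, ?_⟩
  · rintro ⟨K⟩
    refine ⟨⟨⟨fun t => K (t, pt0), by fun_prop⟩, ?_, ?_⟩⟩
    · exact K.apply_zero pt0
    · exact K.apply_one pt0
  · rintro ⟨γ⟩
    refine ⟨⟨⟨⟨fun z => γ z.1, by fun_prop⟩, ?_, ?_⟩, ?_⟩⟩
    · intro z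
      exact γ.source.trans (toMap_zero D u z).symm
    · intro z
      exact γ.target.trans (toMap_zero D v z).symm
    · intro t z hz
      exfalso
      have hz' : ∑ i : Fin 0, (z : Fin 0 → ℝ) i ^ 2 = 1 := hz
      simp at hz'

/-- `0`-cells are points -/
noncomputable def valEquiv : cells (D.presheaf Y) 0 ≃ Y where
  toFun := val D
  invFun y := ofMap D (ContinuousMap.const _ y)
  left_inv u := by
    apply (cellEquiv D 0).injective
    change toMap D (ofMap D _) = toMap D u
    rw [toMap_ofMap]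
    ext z
    exact (toMap_zero D u z).symm
  right_inv y := by
    change toMap D (ofMap D _) pt0 = y
    rw [toMap_ofMap]
    rfl

/-- comparison of path components -/
noncomputable def pi₀Equiv : pi₀ (D.presheaf Y) ≃ ZerothHomotopy Y :=
  Quot.congr (valEquiv D) (rel₀_iff D)

/-- For every disc functor, `Π_∞ f` is a weak equivalence iff `f` is a weak homotopy equivalence. -/
theorem weq_Pi_iff {C : Coherator} (D : DiscFunctor C.C) {X Y : Top'} (f : X ⟶ Y) :
    C.weq (D.Pi.map f) ↔ whe f := by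
  have h0 : Function.Bijective (pi₀Map (W := D.presheaf X) (V := D.presheaf Y) (D.Pi.map f).hom) ↔
      Function.Bijective (zerothMap f.hom.hom) := by
    have hsq : (pi₀Equiv D (Y := Y)) ∘ (pi₀Map (W := D.presheaf X) (V := D.presheaf Y)
        (D.Pi.map f).hom) = (zerothMap f.hom.hom) ∘ (pi₀Equiv D (Y := X)) := by
      funext q
      induction q using Quot.ind
      rfl
    rw [← (pi₀Equiv D (Y := Y)).comp_bijective, hsq, Equiv.bijective_comp]
  have h1 : ∀ (x : cells (D.presheaf X) 0) (n : ℕ),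
      Function.Bijective (piMap (W := D.presheaf X) (V := D.presheaf Y) (D.Pi.map f).hom x n) ↔
      Function.Bijective (homotopyGroupMap f.hom.hom (n + 1) (val D x)) := by
    intro x n
    obtain ⟨Φ, hΦ⟩ := exists_cubeDisc (n + 1)
    have hsq : (piEquiv D (Y := Y) Φ hΦ _) ∘ (piMap (W := D.presheaf X) (V := D.presheaf Y)
        (D.Pi.map f).hom x n) =
        (homotopyGroupMap f.hom.hom (n + 1) (val D x)) ∘ (piEquiv D (Y := X) Φ hΦ x) := by
      funext q
      induction q using Quot.ind
      rfl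
    rw [← (piEquiv D (Y := Y) Φ hΦ _).comp_bijective, hsq]
    exact Equiv.bijective_comp (piEquiv D (Y := X) Φ hΦ x) _
  constructor
  · rintro ⟨ha, hb⟩
    refine ⟨h0.1 ha, fun n x0 => ?_⟩
    obtain ⟨x, rfl⟩ := (valEquiv D (Y := X)).surjective x0
    exact (h1 x n).1 (hb x n)
  · rintro ⟨ha, hb⟩
    exact ⟨h0.2 ha, fun x n => (h1 x n).2 (hb n (val D x))⟩

end cellsPi

/-- A weak equivalence in the sense of cubes is a weak homotopy equivalence. -/
theorem IsWE.isWhe {X Y : Type} [TopologicalSpace X] [TopologicalSpace Y] (f : C(X, Y))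
    (hf : IsWE f) : IsWhe f := by
  have hne := hf.2.1
  have h1I : (1 : ℝ) ∈ uI := ⟨zero_le_one, le_rfl⟩
  have h0I : (0 : ℝ) ∈ uI := ⟨le_rfl, zero_le_one⟩
  refine ⟨⟨?_, ?_⟩, ?_⟩
  · -- injectivity on path components
    rintro ⟨x⟩ ⟨x'⟩ h
    obtain ⟨γ⟩ : Joined (f x) (f x') := Quotient.exact h
    have hP : bdry 1 ⊆ {z : Fin 1 → ℝ | z 0 = 0} ∪ {z : Fin 1 → ℝ | z 0 = 1} := by
      rintro z ⟨-, i, hi⟩
      have : i = 0 := Subsingleton.elim _ _
      subst this
      exact hi
    have hc0 : IsClosed {z : Fin 1 → ℝ | z 0 = 0} :=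
      isClosed_eq (continuous_apply 0) continuous_const
    have hc1 : IsClosed {z : Fin 1 → ℝ | z 0 = 1} :=
      isClosed_eq (continuous_apply 0) continuous_const
    classical
    obtain ⟨a', H, ha'c, ha'e, -⟩ := hf.2.2 1 (fun z => if z 0 = 0 then x else x')
      (fun z => γ (cproj z 0)) (by
        refine ContinuousOn.mono (ContinuousOn.union_of_isClosed ?_ ?_ hc0 hc1) hP
        · refine (continuousOn_const (c := x)).congr fun z hz => ?_
          exact if_pos hz
        · refine (continuousOn_const (c := x')).congr fun z hz => ?_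
          have hz' : z 0 = 1 := hz
          simp [hz']) (by
        refine Continuous.continuousOn ?_
        exact γ.continuous.comp ((continuous_apply 0).comp (continuous_cproj 1))) (by
        intro z hz
        rcases hP hz with hz | hz
        · have hz' : z 0 = 0 := hz
          simp [cproj, hz']
        · have hz' : z 0 = 1 := hz
          simp [cproj, hz'])
    have hJ := joined_of_continuousOn (γ := fun t => a' (fun _ => t)) (by
      refine ha'c.comp (by fun_prop) fun t ht => ?_
      exact mem_cube.2 fun _ => ht)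
    have e0 : a' (fun _ => (0:ℝ)) = x := by
      rw [ha'e ⟨mem_cube.2 fun _ => h0I, 0, Or.inl rfl⟩]
      simp
    have e1 : a' (fun _ => (1:ℝ)) = x' := by
      rw [ha'e ⟨mem_cube.2 fun _ => h1I, 0, Or.inr rfl⟩]
      simp
    rw [e0, e1] at hJ
    exact Quotient.sound hJ
  · -- surjectivity on path components
    rintro ⟨y0⟩
    obtain ⟨x1⟩ := hne ⟨y0⟩
    obtain ⟨a', H, -, -, hH, hH0, hH1, -⟩ := hf.2.2 0 (fun _ => x1) (fun _ => y0)
      continuousOn_const continuousOn_const (by rintro z ⟨-, i, -⟩; exact i.elim0)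
    have hz : (0 : Fin 0 → ℝ) ∈ cube 0 := mem_cube.2 fun i => i.elim0
    refine ⟨Quotient.mk _ (a' 0), Quotient.sound ?_⟩
    have hJ := joined_of_continuousOn (γ := fun t => H (0, t)) (by
      refine hH.comp (by fun_prop) fun t ht => ?_
      exact ⟨hz, ht⟩)
    rw [hH0 _ hz, hH1 _ hz] at hJ
    exact hJ
  · intro n x
    constructor
    · rintro ⟨p⟩ ⟨p'⟩ h
      obtain ⟨K⟩ : GenLoop.Homotopic (genLoopMap f (n + 1) x p) (genLoopMap f (n + 1) x p') :=
        Quotient.exact h
      classical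
      -- the map on the boundary of the cube of dimension `n + 2`
      set ini : (Fin (n + 1 + 1) → ℝ) → (Fin (n + 1) → ℝ) := fun z i => z i.castSucc with hini
      set lst : (Fin (n + 1 + 1) → ℝ) → ℝ := fun z => z (Fin.last (n + 1)) with hlst
      have hic : Continuous ini := by rw [hini]; fun_prop
      have hlc : Continuous lst := by rw [hlst]; fun_prop
      have hsn : ∀ z : Fin (n + 1 + 1) → ℝ, (Fin.snoc (ini z) (lst z) : Fin (n + 1 + 1) → ℝ) = z :=
        fun z => Fin.snoc_init_self z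
      set a : (Fin (n + 1 + 1) → ℝ) → X := fun z =>
        if lst z = 0 then p.1 (cproj (ini z)) else
          if lst z = 1 then p'.1 (cproj (ini z)) else x with ha
      have hP : bdry (n + 1 + 1) ⊆ (bdry (n + 1 + 1) ∩ {z | lst z = 0}) ∪
          ((bdry (n + 1 + 1) ∩ {z | lst z = 1}) ∪ {z | ini z ∈ bdry (n + 1)}) := by
        intro z hz
        have hz2 := hz
        rw [← hsn z, snoc_mem_bdry] at hz2
        rcases hz2 with ⟨h1, h2 | h2⟩ | ⟨h1, h2⟩
        · exact Or.inl ⟨hz, h2⟩
        · exact Or.inr (Or.inl ⟨hz, h2⟩)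
        · exact Or.inr (Or.inr h1)
      have hab : ∀ z, ini z ∈ bdry (n + 1) → a z = x := by
        intro z hz
        simp only [ha]
        split_ifs
        · exact p.2 _ (cproj_mem_boundary hz)
        · exact p'.2 _ (cproj_mem_boundary hz)
        · rfl
      have ha0 : ∀ z, lst z = 0 → a z = p.1 (cproj (ini z)) := fun z hz => if_pos hz
      have ha1 : ∀ z, lst z = 1 → a z = p'.1 (cproj (ini z)) := by
        intro z hz
        simp [ha, hz]
      obtain ⟨a', H, ha'c, ha'e, -⟩ := hf.2.2 (n + 1 + 1) a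
        (fun z => K (Set.projIcc 0 1 zero_le_one (lst z), cproj (ini z))) (by
          refine ContinuousOn.mono (ContinuousOn.union_of_isClosed ?_
            (ContinuousOn.union_of_isClosed ?_ ?_ ?_ ?_) ?_ ?_) hP
          · refine ContinuousOn.congr (f := fun z => p.1 (cproj (ini z))) ?_ fun z hz => ha0 z hz.2
            exact (p.1.continuous.comp ((continuous_cproj _).comp hic)).continuousOn
          · refine ContinuousOn.congr (f := fun z => p'.1 (cproj (ini z))) ?_ fun z hz => ha1 z hz.2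
            exact (p'.1.continuous.comp ((continuous_cproj _).comp hic)).continuousOn
          · exact (continuousOn_const (c := x)).congr fun z hz => hab z hz
          · exact (isClosed_bdry _).inter (isClosed_eq hlc continuous_const)
          · exact (isClosed_bdry _).preimage hic
          · exact (isClosed_bdry _).inter (isClosed_eq hlc continuous_const)
          · exact ((isClosed_bdry _).inter (isClosed_eq hlc continuous_const)).union
              ((isClosed_bdry _).preimage hic)) (by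
          refine Continuous.continuousOn (K.continuous.comp ?_)
          exact (continuous_projIcc.comp hlc).prodMk ((continuous_cproj _).comp hic)) (by
          intro z hz
          rcases hP hz with ⟨-, h0⟩ | ⟨-, h1⟩ | hb
          · have h0' : lst z = 0 := h0
            rw [ha0 z h0', h0', Set.projIcc_left]
            exact (K.apply_zero _).symm
          · have h1' : lst z = 1 := h1
            rw [ha1 z h1', h1', Set.projIcc_right]
            exact (K.apply_one _).symm
          · have hb' : ini z ∈ bdry (n + 1) := hb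
            rw [hab z hb', K.eq_fst _ (cproj_mem_boundary hb')]
            exact ((genLoopMap f (n + 1) x p).2 _ (cproj_mem_boundary hb')).symm)
      refine Quotient.sound ⟨⟨⟨⟨fun z => a' (Fin.snoc (cemb z.2) (z.1 : ℝ)), ?_⟩, ?_, ?_⟩, ?_⟩⟩
      · refine ha'c.comp_continuous ((continuous_snoc (n + 1)).comp
          (((continuous_cemb _).comp continuous_snd).prodMk
            (continuous_subtype_val.comp continuous_fst))) fun z => ?_
        exact snoc_mem_cube.2 ⟨cemb_mem _, z.1.2⟩
      · intro y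
        simp only
        have hm : (Fin.snoc (cemb y) ((0 : unitInterval) : ℝ) : Fin (n + 1 + 1) → ℝ) ∈
            bdry (n + 1 + 1) := snoc_mem_bdry.2 (Or.inl ⟨cemb_mem _, Or.inl rfl⟩)
        rw [ha'e hm, ha0 _ (by simp [hlst])]
        have : ini (Fin.snoc (cemb y) ((0 : unitInterval) : ℝ)) = cemb y := by
          funext i; simp [hini]
        rw [this, cproj_cemb]
      · intro y
        simp only
        have hm : (Fin.snoc (cemb y) ((1 : unitInterval) : ℝ) : Fin (n + 1 + 1) → ℝ) ∈
            bdry (n + 1 + 1) := snoc_mem_bdry.2 (Or.inl ⟨cemb_mem _, Or.inr rfl⟩)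
        rw [ha'e hm, ha1 _ (by simp [hlst])]
        have : ini (Fin.snoc (cemb y) ((1 : unitInterval) : ℝ)) = cemb y := by
          funext i; simp [hini]
        rw [this, cproj_cemb]
      · intro t y hy
        simp only [ContinuousMap.coe_mk]
        have hm : (Fin.snoc (cemb y) (t : ℝ) : Fin (n + 1 + 1) → ℝ) ∈
            bdry (n + 1 + 1) := snoc_mem_bdry.2 (Or.inr ⟨cemb_mem_bdry.2 hy, t.2⟩)
        rw [ha'e hm, hab]
        · exact (p.2 y hy).symm
        · have : ini (Fin.snoc (cemb y) (t : ℝ)) = cemb y := by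
            funext i; simp [hini]
          rw [this]
          exact cemb_mem_bdry.2 hy
    · rintro ⟨q⟩
      obtain ⟨a', H, ha'c, ha'e, hH, hH0, hH1, hHb⟩ := hf.2.2 (n + 1) (fun _ => x)
        (fun z => q.1 (cproj z)) continuousOn_const
        (q.1.continuous.comp (continuous_cproj _)).continuousOn
        (fun z hz => (q.2 _ (cproj_mem_boundary hz)).symm)
      refine ⟨Quotient.mk _ ⟨⟨fun y => a' (cemb y), ?_⟩, ?_⟩, Quotient.sound
        ⟨⟨⟨⟨fun z => H (cemb z.2, (z.1 : ℝ)), ?_⟩, ?_, ?_⟩, ?_⟩⟩⟩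
      · exact ha'c.comp_continuous (continuous_cemb _) cemb_mem
      · intro y hy
        exact ha'e (cemb_mem_bdry.2 hy)
      · exact hH.comp_continuous (((continuous_cemb _).comp continuous_snd).prodMk
          (continuous_subtype_val.comp continuous_fst)) fun z => ⟨cemb_mem _, z.1.2⟩
      · intro y
        exact hH0 _ (cemb_mem y)
      · intro y
        refine (hH1 _ (cemb_mem y)).trans ?_
        rw [cproj_cemb]
      · intro t y hy
        refine (hHb _ (cemb_mem_bdry.2 hy) t t.2).trans ?_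
        rw [cproj_cemb, q.2 y hy]
        exact ((genLoopMap f (n + 1) x ⟨⟨fun y => a' (cemb y), _⟩, _⟩).2 y hy).symm

end Vale.Agent.P259
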