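import Vale.Agent.Lib.P259.EndZero
import Vale.Agent.Lib.P259.PiWeq

/-!
# P259, module G8: the evaluation maps and the functor `Q` (weak equivalences)
-/

namespace Vale.Agent.P259

open CategoryTheory Limits Topology Set Opposite DiscFunctor

namespace QData

variable {C : Coherator} {D : DiscFunctor C.C} {𝒬 : QData C D}

namespace GFam

/-- composition of a family with a continuous map -/
def post {W : C.C.Gpd} {Z Z' : Type} [TopologicalSpace Z] [TopologicalSpace Z']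
    (G : GFam 𝒬 W Z) (f : C(Z, Z')) : GFam 𝒬 W Z' where
  g w := f.comp (G.g w)
  nat φ w q := congrArg f (G.nat φ w q)

variable (M : 𝒬.CylFun) {W V : C.C.Gpd}

/-- morphisms of families -/
structure FHom {Z Z' : Type} [TopologicalSpace Z] [TopologicalSpace Z']
    (G : GFam 𝒬 W Z) (G' : GFam 𝒬 V Z') where
  /-- the morphism of infinity-groupoids -/
  f : W ⟶ V
  /-- the map of spaces -/
  c : C(Z, Z')
  comm : ∀ {S : Obj} (w : W.obj.obj (op ⟨S⟩)) (q : 𝒬.QS S),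
    G'.g (f.hom.app (op ⟨S⟩) w) q = c (G.g w q)

variable {Z Z' : Type} [TopologicalSpace Z] [TopologicalSpace Z']
    {G : GFam 𝒬 W Z} {G' : GFam 𝒬 V Z'}

/-- action on elements -/
noncomputable def FHom.el (φ : FHom G G') {S : Obj} (p : G.El S) : G'.El S :=
  ⟨φ.f.hom.app (op ⟨S⟩) p.w, φ.c.comp p.K, fun q => by
    rw [φ.comm, ContinuousMap.comp_apply, p.hK]⟩

theorem FHom.el_res (φ : FHom G G') {S T : Obj} (k : C.C.Hom S T) (p : G.El T) :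
    φ.el (El.res M k p) = El.res M k (φ.el p) :=
  El.ext (Coherator.act_nat φ.f.hom k p.w).symm rfl

/-- the induced morphism of infinity-groupoids -/
noncomputable def FHom.mor (φ : FHom G G') : G.gpd M ⟶ G'.gpd M := ObjectProperty.homMk
  { app := fun R => TypeCat.ofHom fun p : G.El R.unop.obj => φ.el p
    naturality := fun R T k => by
      ext p
      exact φ.el_res M (S := T.unop.obj) (T := R.unop.obj) k.unop p }

theorem FHom.mor_pr (φ : FHom G G') : φ.mor M ≫ G'.pr M = G.pr M ≫ φ.f := by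
  apply ObjectProperty.hom_ext
  ext R p
  rfl

theorem FHom.weq_mor (φ : FHom G G') (h : C.weq φ.f) : C.weq (φ.mor M) := by
  apply Coherator.weq_of_comp_right _ (G'.pr M) (G'.weq_pr M)
  rw [φ.mor_pr]
  exact Coherator.weq_comp _ _ (G.weq_pr M) h

end GFam

variable (𝒬)

/-- the family of an infinity-groupoid `W`, with values in `Q W` -/
def fam (W : C.C.Gpd) : GFam 𝒬 W (𝒬.Q.obj W).toTop where
  g w := 𝒬.qmap (C.yo W w)
  nat φ w q := by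
    rw [← C.rm_yo, 𝒬.qmap_comp]
    rfl

theorem fam_surj₀ (W : C.C.Gpd) : (𝒬.fam W).Surj₀ := by
  intro z x
  obtain ⟨u, hu⟩ := 𝒬.surj₀ W z x
  refine ⟨u, ?_⟩
  rw [← 𝒬.qmap_yo_h] at hu
  exact hu

theorem fam_surj (W : C.C.Gpd) : (𝒬.fam W).Surj := by
  intro n u v z h0 h1 huv
  obtain ⟨w, hw0, hw1, hw⟩ := 𝒬.surj W n u v z
    (fun x => (h0 x).trans (𝒬.qmap_yo_h W u x)) (fun x => (h1 x).trans (𝒬.qmap_yo_h W v x)) huv
  refine ⟨w, hw0, hw1, ?_⟩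
  have e : ((𝒬.fam W).g w).comp (𝒬.h (.D (n + 1))) = 𝒬.η W (n + 1) w := by
    ext x
    exact 𝒬.qmap_yo_h W w x
  rw [e]
  exact hw

variable (M : 𝒬.CylFun)

/-- functoriality of `fam` -/
def famMap {W V : C.C.Gpd} (f : W ⟶ V) : GFam.FHom (𝒬.fam W) (𝒬.fam V) where
  f := f
  c := 𝒬.qmap f
  comm {S} w q := by
    change 𝒬.qmap (C.yo V (f.hom.app (op ⟨S⟩) w)) q = 𝒬.qmap f (𝒬.qmap (C.yo W w) q)
    rw [← 𝒬.qmap_comp, C.yo_comp]

variable {𝒬}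

/-- the functor of elements -/
noncomputable def PP : C.C.Gpd ⥤ C.C.Gpd where
  obj W := (𝒬.fam W).gpd M
  map f := (𝒬.famMap f).mor M
  map_id W := by
    apply ObjectProperty.hom_ext
    ext R p
    exact GFam.El.ext (S := R.unop.obj) rfl (ContinuousMap.ext fun y => 𝒬.qmap_id W _)
  map_comp {W V U} f g := by
    apply ObjectProperty.hom_ext
    ext R p
    exact GFam.El.ext (S := R.unop.obj) rfl (ContinuousMap.ext fun y => 𝒬.qmap_comp f g _)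

/-- the projection `PP ⟶ 𝟭` -/
noncomputable def pOne : PP M ⟶ 𝟭 C.C.Gpd where
  app W := (𝒬.fam W).pr M
  naturality _ _ f := (𝒬.famMap f).mor_pr M

/-- the natural transformation `PP ⟶ Q ⋙ Π_∞` -/
noncomputable def pTwo : PP M ⟶ 𝒬.Q ⋙ D.Pi where
  app W := (𝒬.fam W).endz M
  naturality _ _ _ := by
    apply ObjectProperty.hom_ext
    ext R p
    rfl

theorem weq_pOne (W : C.C.Gpd) : C.weq ((pOne M).app W) := (𝒬.fam W).weq_pr M

theorem weq_pTwo (W : C.C.Gpd) : C.weq ((pTwo M).app W) :=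
  (𝒬.fam W).weq_endz M (𝒬.fam_surj₀ W) (𝒬.fam_surj W)

theorem pTwo_surj (W : C.C.Gpd) (v : Coherator.cells (D.Pi.obj (𝒬.Q.obj W)).obj 0) :
    ∃ w : Coherator.cells ((PP M).obj W).obj 0, Coherator.onCells ((pTwo M).app W).hom w = v :=
  ((𝒬.fam W).isTF_endz M (𝒬.fam_surj₀ W) (𝒬.fam_surj W)).surj v

include M in
/-- `Q` preserves weak equivalences -/
theorem whe_Q {W V : C.C.Gpd} (f : W ⟶ V) (hf : C.weq f) : whe (𝒬.Q.map f) := by
  rw [← weq_Pi_iff D]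
  apply Coherator.weq_of_comp_left ((pTwo M).app W) _ (weq_pTwo M W) (pTwo_surj M W)
  have h := (pTwo M).naturality f
  change (PP M).map f ≫ (pTwo M).app V = (pTwo M).app W ≫ D.Pi.map (𝒬.Q.map f) at h
  rw [← h]
  exact Coherator.weq_comp _ _ ((𝒬.famMap f).weq_mor M hf) (weq_pTwo M V)

/-! ### evaluation -/

variable (𝒬)

/-- the identity of `D(S)` as an element of `Π_∞ (D S)` -/
def idEl (D : DiscFunctor C.C) (S : Obj) : (D.Pi.obj (D.F.obj ⟨S⟩)).obj.obj (op ⟨S⟩) :=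
  𝟙 (D.F.obj ⟨S⟩)

/-- evaluation, as a continuous map -/
def evc (Y : Top') : C((𝒬.Q.obj (D.Pi.obj Y)).toTop, Y.toTop) := (𝒬.ev.app Y).hom.hom

theorem evc_nat {Y Y' : Top'} (f : Y ⟶ Y') (q : (𝒬.Q.obj (D.Pi.obj Y)).toTop) :
    𝒬.evc Y' (𝒬.qmap (D.Pi.map f) q) = f.hom.hom (𝒬.evc Y q) :=
  ConcreteCategory.congr_hom (𝒬.ev.naturality f) q

/-- the evaluation `Q(S) ⟶ D(S)` -/
def evS (S : Obj) : C(𝒬.QS S, D.sp S) :=
  (𝒬.evc (D.F.obj ⟨S⟩)).comp (𝒬.qmap (C.yo _ (idEl D S)))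

theorem evc_yo {Y : Top'} {S : Obj} (w : (D.Pi.obj Y).obj.obj (op ⟨S⟩)) (q : 𝒬.QS S) :
    𝒬.evc Y (𝒬.qmap (C.yo _ w) q) = piVal w (𝒬.evS S q) := by
  have e : C.yo (D.Pi.obj Y) w =
      C.yo _ (idEl D S) ≫ D.Pi.map (show D.F.obj ⟨S⟩ ⟶ Y from w) := by
    rw [C.yo_comp]
    exact congrArg (C.yo (D.Pi.obj Y)) (Category.id_comp (show D.F.obj ⟨S⟩ ⟶ Y from w)).symm
  rw [e, 𝒬.qmap_comp, 𝒬.evc_nat]
  rfl

theorem evS_nat {S T : Obj} (φ : C.C.Hom S T) (q : 𝒬.QS S) :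
    𝒬.evS T (𝒬.qm φ q) = D.mp φ (𝒬.evS S q) := by
  have h1 := 𝒬.evc_yo (GlobExt.act (D.Pi.obj (D.F.obj ⟨T⟩)).obj φ (idEl D T)) q
  rw [← C.rm_yo, 𝒬.qmap_comp] at h1
  exact h1

/-- the self-maps of the globes -/
noncomputable def ee (n : ℕ) : C(D.sp (.D n), D.sp (.D n)) := (𝒬.evS (.D n)).comp (𝒬.h (.D n))

theorem ee_bd (n : ℕ) (ε : Bool) (x : D.sp (.D n)) :
    𝒬.ee (n + 1) (D.bdp n ε x) = D.bdp n ε (𝒬.ee n x) := by
  change 𝒬.evS (.D (n + 1)) (𝒬.h (.D (n + 1)) (D.mp (C.C.J (bd₀ (Nat.lt_succ_self n) ε)) x)) = _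
  rw [← 𝒬.h_nat, 𝒬.evS_nat]
  rfl

/-- the family of evaluations -/
def evFam (Y : Top') : GFam 𝒬 (D.Pi.obj Y) Y.toTop := (𝒬.fam (D.Pi.obj Y)).post (𝒬.evc Y)

theorem evFam_h {Y : Top'} {n : ℕ} (w : (D.Pi.obj Y).obj.obj (op ⟨.D n⟩)) (x : D.sp (.D n)) :
    (𝒬.evFam Y).g w (𝒬.h (.D n) x) = piVal w (𝒬.ee n x) := 𝒬.evc_yo w _

theorem evFam_surj₀ (Y : Top') : (𝒬.evFam Y).Surj₀ := by
  intro z x
  refine ⟨D.piEl (ContinuousMap.const _ z), ?_⟩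
  rw [𝒬.evFam_h]
  exact Joined.refl z

theorem evFam_surj (Y : Top') : (𝒬.evFam Y).Surj := by
  intro n u v z h0 h1 huv
  obtain ⟨w, hw0, hw1, hw⟩ := D.exists_disc_of_deformation 𝒬.ee 𝒬.ee_bd n (piVal u) (piVal v)
    (by
      rintro m rfl ε x
      exact congrArg (fun y => piVal y x) (huv ε)) z
    (fun x => (h0 x).trans (𝒬.evFam_h u x)) (fun x => (h1 x).trans (𝒬.evFam_h v x))
  refine ⟨D.piEl w, piVal_injective hw0, piVal_injective hw1, ?_⟩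
  have e : ((𝒬.evFam Y).g (D.piEl w)).comp (𝒬.h (.D (n + 1))) = w.comp (𝒬.ee (n + 1)) := by
    ext x
    exact 𝒬.evFam_h (D.piEl w) x
  rw [e]
  exact hw

/-- the comparison of the two families on `Π_∞ Y` -/
def evHom (Y : Top') : GFam.FHom (𝒬.fam (D.Pi.obj Y)) (𝒬.evFam Y) where
  f := 𝟙 _
  c := 𝒬.evc Y
  comm _ _ := rfl

theorem weq_id (W : C.C.Gpd) : C.weq (𝟙 W) := by
  have h : Coherator.IsTF (𝟙 W : W ⟶ W).hom :=
    ⟨fun v => ⟨v, rfl⟩, fun a b v h0 h1 => ⟨v, h0, h1, rfl⟩,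
      fun n a b _ v h0 h1 => ⟨v, h0, h1, rfl⟩⟩
  exact Coherator.weq_of_isTF _ h

variable {𝒬}

include M in
/-- the evaluation maps are weak homotopy equivalences -/
theorem whe_ev (Y : Top') : whe (𝒬.ev.app Y) := by
  rw [← weq_Pi_iff D]
  apply Coherator.weq_of_comp_left ((pTwo M).app (D.Pi.obj Y)) _ (weq_pTwo M _) (pTwo_surj M _)
  have h : (𝒬.evHom Y).mor M ≫ (𝒬.evFam Y).endz M =
      (pTwo M).app (D.Pi.obj Y) ≫ D.Pi.map (𝒬.ev.app Y) := by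
    apply ObjectProperty.hom_ext
    ext R p
    rfl
  rw [← h]
  exact Coherator.weq_comp _ _ ((𝒬.evHom Y).weq_mor M (weq_id _))
    ((𝒬.evFam Y).weq_endz M (𝒬.evFam_surj₀ Y) (𝒬.evFam_surj Y))

end QData

end Vale.Agent.P259
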