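import Vale.Agent.Lib.P259.Rep
import Vale.Agent.Lib.P259.Lift
/-!
# P259, module N1: existence of coherators, free adjunction of lifts

Proof of `exists_free`: raw terms `Tm S T` generated by `base (e : E.Hom S T)`,
`lift p hp : Tm (.D (p.n + 1)) p.S`, `comp`, and `desc (f : Tm (.D i) X) (g : Tm ⟨k, t⟩ X) :
Tm ⟨i, .glue hi hk t⟩ X` (no compatibility required on raw terms).  A model is a globular extension
`F` under `E` with chosen lifts of the pairs of `A`; a raw term has at most one value in a model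
(relation `Ev`).  Two raw terms are equivalent if they have the same value in every model (a partial
equivalence relation), and `Hom S T` is the quotient of the terms which have a value in every model.
-/
namespace Vale.Agent.P259
open CategoryTheory

/-- two maps out of a globular sum agree if they agree on the two parts -/
theorem GlobExt.glue_ext (F : GlobExt) {i j k : ℕ} (hi : j < i) (hk : j < k) (t : Tab k) {X : Obj}
    {c c' : F.Hom ⟨i, .glue hi hk t⟩ X}
    (h1 : F.comp (F.J (inl₀ hi hk t)) c = F.comp (F.J (inl₀ hi hk t)) c')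
    (h2 : F.comp (F.J (inr₀ hi hk t)) c = F.comp (F.J (inr₀ hi hk t)) c') : c = c' := by
  have hsq : F.comp (F.J (bd₀ hi true)) (F.J (inl₀ hi hk t)) =
      F.comp (F.comp (F.J (bd₀ hk false)) (F.J (first₀ t))) (F.J (inr₀ hi hk t)) := by
    rw [← F.J_comp, ← F.J_comp, ← F.J_comp]
    exact congrArg F.J (real_isPushout hi hk t).w
  have hc : F.comp (F.J (bd₀ hi true)) (F.comp (F.J (inl₀ hi hk t)) c) =
      F.comp (F.comp (F.J (bd₀ hk false)) (F.J (first₀ t))) (F.comp (F.J (inr₀ hi hk t)) c) := by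
    rw [← F.assoc, hsq, F.assoc]
  obtain ⟨d, -, hd⟩ := F.glue hi hk t X _ _ hc
  rw [hd c ⟨rfl, rfl⟩, hd c' ⟨h1.symm, h2.symm⟩]

namespace FreeExt

variable (E : GlobExt) (A : Set E.Pair)

/-- raw terms -/
inductive Tm : Obj → Obj → Type
  | base {S T : Obj} (e : E.Hom S T) : Tm S T
  | lift (p : E.Pair) (hp : p ∈ A) : Tm (.D (p.n + 1)) p.S
  | comp {S T U : Obj} (x : Tm S T) (y : Tm T U) : Tm S U
  | desc {i j k : ℕ} (hi : j < i) (hk : j < k) (t : Tab k) {X : Obj} (f : Tm (.D i) X)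
      (g : Tm ⟨k, t⟩ X) : Tm ⟨i, .glue hi hk t⟩ X

/-- a globular extension under `E` with lifts of the pairs of `A` -/
structure Model where
  F : GlobExt
  G : E.Mor F
  l : ∀ p ∈ A, F.Hom (.D (p.n + 1)) p.S
  hl : ∀ p (hp : p ∈ A), F.IsLift (G.map p.f) (G.map p.g) (l p hp)

variable {E A}

/-- `c` is the value of the raw term in the model -/
def Model.Ev (m : Model E A) : ∀ {S T : Obj}, Tm E A S T → m.F.Hom S T → Prop
  | _, _, .base e, c => c = m.G.map e
  | _, _, .lift p hp, c => c = m.l p hp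
  | _, _, .comp x y, c => ∃ a b, m.Ev x a ∧ m.Ev y b ∧ c = m.F.comp a b
  | _, _, .desc hi hk t f g, c =>
    m.Ev f (m.F.comp (m.F.J (inl₀ hi hk t)) c) ∧ m.Ev g (m.F.comp (m.F.J (inr₀ hi hk t)) c)

theorem Model.Ev.unique (m : Model E A) {S T : Obj} {x : Tm E A S T} :
    ∀ {c c' : m.F.Hom S T}, m.Ev x c → m.Ev x c' → c = c' := by
  induction x with
  | base e => intro c c' h h'; exact h.trans h'.symm
  | lift p hp => intro c c' h h'; exact h.trans h'.symm
  | comp x y ihx ihy =>
    rintro c c' ⟨a, b, ha, hb, h⟩ ⟨a', b', ha', hb', h'⟩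
    rw [h, h', ihx ha ha', ihy hb hb']
  | desc hi hk t f g ihf ihg =>
    rintro c c' ⟨h1, h2⟩ ⟨h1', h2'⟩
    exact m.F.glue_ext hi hk t (ihf h1 h1') (ihg h2 h2')

/-- equivalence of raw terms: same value in all models -/
def Rel {S T : Obj} (x y : Tm E A S T) : Prop := ∀ m : Model E A, ∃ c, m.Ev x c ∧ m.Ev y c

/-- well formed terms -/
def Wf (E : GlobExt) (A : Set E.Pair) (S T : Obj) : Type := {x : Tm E A S T // Rel x x}

/-- the setoid on well formed terms -/
instance setoid (S T : Obj) : Setoid (Wf E A S T) where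
  r x y := Rel x.1 y.1
  iseqv := by
    refine ⟨fun x => x.2, fun {x y} h m => ?_, fun {x y z} h h' m => ?_⟩
    · obtain ⟨c, h1, h2⟩ := h m
      exact ⟨c, h2, h1⟩
    · obtain ⟨c, h1, h2⟩ := h m
      obtain ⟨c', h1', h2'⟩ := h' m
      have := Model.Ev.unique m h2 h1'
      subst this
      exact ⟨c, h1, h2'⟩

/-- morphisms of the free extension -/
def Hm (E : GlobExt) (A : Set E.Pair) (S T : Obj) : Type := Quotient (setoid (E := E) (A := A) S T)

/-- the class of a well formed term -/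
def cls {S T : Obj} (x : Tm E A S T) (hx : Rel x x) : Hm E A S T := Quotient.mk _ ⟨x, hx⟩

theorem Hm.exists_rep {S T : Obj} (a : Hm E A S T) : ∃ (x : Tm E A S T) (hx : Rel x x),
    cls x hx = a := by
  obtain ⟨x, hx⟩ := Quotient.exists_rep a
  exact ⟨x.1, x.2, hx⟩

/-- the value in a model -/
noncomputable def Model.val (m : Model E A) {S T : Obj} : Hm E A S T → m.F.Hom S T :=
  Quotient.lift (fun x => (x.2 m).choose) (by
    intro x y h
    obtain ⟨c, h1, h2⟩ := h m
    exact (Model.Ev.unique m (x.2 m).choose_spec.1 h1).trans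
      (Model.Ev.unique m (y.2 m).choose_spec.1 h2).symm)

theorem Model.ev_val (m : Model E A) {S T : Obj} (x : Tm E A S T) (hx : Rel x x) :
    m.Ev x (m.val (cls x hx)) := (hx m).choose_spec.1

theorem Model.val_eq (m : Model E A) {S T : Obj} {x : Tm E A S T} (hx : Rel x x)
    {c : m.F.Hom S T} (h : m.Ev x c) : m.val (cls x hx) = c :=
  Model.Ev.unique m (m.ev_val x hx) h

theorem Hm.ext {S T : Obj} {a b : Hm E A S T} (h : ∀ m : Model E A, m.val a = m.val b) :
    a = b := by
  obtain ⟨x, hx, rfl⟩ := a.exists_rep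
  obtain ⟨y, hy, rfl⟩ := b.exists_rep
  refine Quotient.sound (fun m => ?_)
  refine ⟨m.val (cls x hx), m.ev_val x hx, ?_⟩
  rw [h m]
  exact m.ev_val y hy

theorem rel_base {S T : Obj} (e : E.Hom S T) : Rel (Tm.base e : Tm E A S T) (.base e) :=
  fun m => ⟨m.G.map e, rfl, rfl⟩

theorem rel_lift (p : E.Pair) (hp : p ∈ A) : Rel (Tm.lift p hp : Tm E A _ _) (.lift p hp) :=
  fun m => ⟨m.l p hp, rfl, rfl⟩

theorem rel_comp {S T U : Obj} {x x' : Tm E A S T} {y y' : Tm E A T U} (h : Rel x x')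
    (h' : Rel y y') : Rel (.comp x y) (.comp x' y') := fun m => by
  obtain ⟨c, h1, h2⟩ := h m
  obtain ⟨d, h3, h4⟩ := h' m
  exact ⟨m.F.comp c d, ⟨c, d, h1, h3, rfl⟩, ⟨c, d, h2, h4, rfl⟩⟩

/-- image of a morphism of `E` -/
def bs {S T : Obj} (e : E.Hom S T) : Hm E A S T := cls (.base e) (rel_base e)

/-- the adjoined lift -/
def lf (p : E.Pair) (hp : p ∈ A) : Hm E A (.D (p.n + 1)) p.S := cls (.lift p hp) (rel_lift p hp)

/-- composition -/
def cp {S T U : Obj} (a : Hm E A S T) (b : Hm E A T U) : Hm E A S U :=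
  Quotient.map₂ (fun x y => (⟨.comp x.1 y.1, rel_comp x.2 y.2⟩ : Wf E A S U))
    (fun _ _ h _ _ h' => rel_comp h h') a b

theorem Model.val_bs (m : Model E A) {S T : Obj} (e : E.Hom S T) :
    m.val (bs e : Hm E A S T) = m.G.map e := m.val_eq _ rfl

theorem Model.val_lf (m : Model E A) (p : E.Pair) (hp : p ∈ A) : m.val (lf p hp) = m.l p hp :=
  m.val_eq _ rfl

theorem cp_cls {S T U : Obj} (x : Tm E A S T) (hx : Rel x x) (y : Tm E A T U) (hy : Rel y y) :
    cp (cls x hx) (cls y hy) = cls (.comp x y) (rel_comp hx hy) := rfl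

theorem Model.val_cp (m : Model E A) {S T U : Obj} (a : Hm E A S T) (b : Hm E A T U) :
    m.val (cp a b) = m.F.comp (m.val a) (m.val b) := by
  obtain ⟨x, hx, rfl⟩ := a.exists_rep
  obtain ⟨y, hy, rfl⟩ := b.exists_rep
  rw [cp_cls]
  exact m.val_eq _ ⟨_, _, m.ev_val x hx, m.ev_val y hy, rfl⟩

variable (E A)

/-- the free extension -/
noncomputable def ext : GlobExt where
  Hom S T := Hm E A S T
  id S := bs (E.id S)
  comp a b := cp a b
  id_comp a := Hm.ext fun m => by rw [m.val_cp, m.val_bs, m.G.map_id, m.F.id_comp]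
  comp_id a := Hm.ext fun m => by rw [m.val_cp, m.val_bs, m.G.map_id, m.F.comp_id]
  assoc a b c := Hm.ext fun m => by
    rw [m.val_cp, m.val_cp, m.val_cp, m.val_cp, m.F.assoc]
  J f := bs (E.J f)
  J_id S := by rw [E.J_id]
  J_comp f g := Hm.ext fun m => by
    rw [m.val_cp, m.val_bs, m.val_bs, m.val_bs, E.J_comp, m.G.map_comp]
  glue {i j k} hi hk t X a b := by
    intro hc
    obtain ⟨x, hx, rfl⟩ := Hm.exists_rep a
    obtain ⟨y, hy, rfl⟩ := Hm.exists_rep b
    have hc' : ∀ m : Model E A, m.F.comp (m.F.J (bd₀ hi true)) (m.val (cls x hx)) =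
        m.F.comp (m.F.comp (m.F.J (bd₀ hk false)) (m.F.J (first₀ t))) (m.val (cls y hy)) := by
      intro m
      have := congrArg m.val hc
      rw [m.val_cp, m.val_cp, m.val_cp, m.val_bs, m.val_bs, m.val_bs, m.G.map_J, m.G.map_J,
        m.G.map_J] at this
      exact this
    have hd : Rel (Tm.desc hi hk t x y) (Tm.desc hi hk t x y) := by
      intro m
      obtain ⟨c, ⟨h1, h2⟩, -⟩ := m.F.glue hi hk t X _ _ (hc' m)
      have hev : m.Ev (Tm.desc hi hk t x y) c := by
        refine ⟨?_, ?_⟩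
        · rw [h1]; exact m.ev_val x hx
        · rw [h2]; exact m.ev_val y hy
      exact ⟨c, hev, hev⟩
    refine ⟨cls (Tm.desc hi hk t x y) hd, ⟨Hm.ext fun m => ?_, Hm.ext fun m => ?_⟩, ?_⟩
    · rw [m.val_cp, m.val_bs, m.G.map_J]
      exact (m.val_eq hx (m.ev_val _ hd).1).symm
    · rw [m.val_cp, m.val_bs, m.G.map_J]
      exact (m.val_eq hy (m.ev_val _ hd).2).symm
    · rintro h ⟨h1, h2⟩
      refine Hm.ext fun m => m.F.glue_ext hi hk t ?_ ?_
      · have := congrArg m.val h1
        rw [m.val_cp, m.val_bs, m.G.map_J] at this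
        rw [this]
        exact m.val_eq hx (m.ev_val _ hd).1
      · have := congrArg m.val h2
        rw [m.val_cp, m.val_bs, m.G.map_J] at this
        rw [this]
        exact m.val_eq hy (m.ev_val _ hd).2

/-- the morphism from `E` -/
noncomputable def st : E.Mor (ext E A) where
  map e := bs e
  map_id _ := rfl
  map_comp f g := Hm.ext fun m => by
    change m.val (bs (E.comp f g)) = m.val (cp (bs f) (bs g))
    rw [m.val_cp, m.val_bs, m.val_bs, m.val_bs, m.G.map_comp]
  map_J _ := rfl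

variable {E A}

/-- evaluation as a morphism -/
noncomputable def Model.mor (m : Model E A) : (ext E A).Mor m.F where
  map a := m.val a
  map_id S := by
    change m.val (bs (E.id S)) = _
    rw [m.val_bs, m.G.map_id]
  map_comp a b := m.val_cp a b
  map_J f := by
    change m.val (bs (E.J f)) = _
    rw [m.val_bs, m.G.map_J]

theorem Model.mor_unique (m : Model E A) (G' : (ext E A).Mor m.F)
    (h1 : ∀ (S T : Obj) (f : E.Hom S T), G'.map ((st E A).map f) = m.G.map f)
    (h2 : ∀ p (hp : p ∈ A), G'.map (S := .D (p.n + 1)) (T := p.S) (lf p hp) = m.l p hp) :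
    ∀ {S T : Obj} (x : Tm E A S T) (hx : Rel x x),
      G'.map (S := S) (T := T) (cls x hx) = m.val (cls x hx) := by
  intro S T x
  induction x with
  | base e =>
    intro hx
    exact (h1 _ _ e).trans (m.val_bs e).symm
  | lift p hp =>
    intro hx
    exact (h2 p hp).trans (m.val_lf p hp).symm
  | comp x y ihx ihy =>
    intro hx
    have hx1 : Rel x x := fun m => by
      obtain ⟨c, ⟨a, b, ha, hb, -⟩, -⟩ := hx m
      exact ⟨a, ha, ha⟩
    have hy1 : Rel y y := fun m => by
      obtain ⟨c, ⟨a, b, ha, hb, -⟩, -⟩ := hx m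
      exact ⟨b, hb, hb⟩
    have e : cls (.comp x y) hx = cp (cls x hx1) (cls y hy1) := rfl
    rw [e, m.val_cp, ← ihx hx1, ← ihy hy1]
    exact G'.map_comp (show (ext E A).Hom _ _ from cls x hx1)
      (show (ext E A).Hom _ _ from cls y hy1)
  | desc hi hk t f g ihf ihg =>
    intro hx
    have hf1 : Rel f f := fun m => by
      obtain ⟨c, ⟨h1, h2⟩, -⟩ := hx m
      exact ⟨_, h1, h1⟩
    have hg1 : Rel g g := fun m => by
      obtain ⟨c, ⟨h1, h2⟩, -⟩ := hx m
      exact ⟨_, h2, h2⟩
    have e1 : cp (bs (E.J (inl₀ hi hk t))) (cls (.desc hi hk t f g) hx) = cls f hf1 :=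
      Hm.ext fun m => by
        rw [m.val_cp, m.val_bs, m.G.map_J]
        exact (m.val_eq hf1 (m.ev_val _ hx).1).symm
    have e2 : cp (bs (E.J (inr₀ hi hk t))) (cls (.desc hi hk t f g) hx) = cls g hg1 :=
      Hm.ext fun m => by
        rw [m.val_cp, m.val_bs, m.G.map_J]
        exact (m.val_eq hg1 (m.ev_val _ hx).2).symm
    refine m.F.glue_ext hi hk t ?_ ?_
    · have k1 := congrArg m.val e1
      rw [m.val_cp, m.val_bs, m.G.map_J] at k1
      rw [k1, ← ihf hf1, ← e1]
      exact ((G'.map_comp _ _).trans (congrArg (fun u => m.F.comp u _) (G'.map_J _))).symm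
    · have k2 := congrArg m.val e2
      rw [m.val_cp, m.val_bs, m.G.map_J] at k2
      rw [k2, ← ihg hg1, ← e2]
      exact ((G'.map_comp _ _).trans (congrArg (fun u => m.F.comp u _) (G'.map_J _))).symm

end FreeExt

open FreeExt in
/-- universal adjunction of lifts to a set of parallel pairs -/
theorem exists_free (E : GlobExt) (A : Set E.Pair) (hA : ∀ p ∈ A, E.Parallel p.f p.g) :
    ∃ (E' : GlobExt) (st : E.Mor E') (lift : ∀ p ∈ A, E'.Hom (.D (p.n + 1)) p.S),
      (∀ p (hp : p ∈ A), E'.IsLift (st.map p.f) (st.map p.g) (lift p hp)) ∧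
      ∀ (F : GlobExt) (G : E.Mor F) (l : ∀ p ∈ A, F.Hom (.D (p.n + 1)) p.S),
        (∀ p (hp : p ∈ A), F.IsLift (G.map p.f) (G.map p.g) (l p hp)) →
        ∃! G' : E'.Mor F, (∀ (S T : Obj) (f : E.Hom S T), G'.map (st.map f) = G.map f) ∧
          ∀ p (hp : p ∈ A), G'.map (lift p hp) = l p hp := by
  have _ := hA
  refine ⟨ext E A, st E A, fun p hp => lf p hp, ?_, ?_⟩
  · intro p hp
    constructor
    · refine Hm.ext fun m => ?_
      change m.val (cp (bs (E.J _)) (lf p hp)) = m.val (bs p.f)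
      rw [m.val_cp, m.val_bs, m.val_lf, m.val_bs, m.G.map_J]
      exact (m.hl p hp).1
    · refine Hm.ext fun m => ?_
      change m.val (cp (bs (E.J _)) (lf p hp)) = m.val (bs p.g)
      rw [m.val_cp, m.val_bs, m.val_lf, m.val_bs, m.G.map_J]
      exact (m.hl p hp).2
  · intro F G l hl
    let m : Model E A := ⟨F, G, l, hl⟩
    refine ⟨m.mor, ⟨fun S T f => m.val_bs f, fun p hp => m.val_lf p hp⟩, ?_⟩
    rintro G' ⟨h1, h2⟩
    refine GlobExt.Mor.ext' fun S T a => ?_
    obtain ⟨x, hx, rfl⟩ := Hm.exists_rep a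
    exact m.mor_unique G' h1 h2 x hx

end Vale.Agent.P259
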