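import Vale.Agent.Lib.P259.DiscHtpy
/-!
# P259, module F1: families of maps of discs compatible with the hemispheres
-/
namespace Vale.Agent.P259
open Set Topology

/-- A coglobular space. -/
structure CGlob where
  X : ℕ → Type
  top : ∀ n, TopologicalSpace (X n)
  d : ∀ n : ℕ, Bool → X n → X (n + 1)
  cont : ∀ n ε, @Continuous _ _ (top n) (top (n + 1)) (d n ε)
  dd : ∀ n (ε ε' : Bool) (x : X n), d (n + 1) ε (d n ε' x) = d (n + 1) (!ε) (d n ε' x)

attribute [instance] CGlob.top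

/-- A family of maps of discs compatible with the hemispheres. -/
structure CGlob.Fam (G : CGlob) where
  f : ∀ n, (Fin n → ℝ) → G.X n
  cont : ∀ n, ContinuousOn (f n) (closedDisc n)
  hemi : ∀ n ε, ∀ x ∈ closedDisc n, f (n + 1) (hemi ε x) = G.d n ε (f n x)

/-- The sphere of dimension `-1` is empty. -/
theorem GF_not_mem_sph_zero {x : Fin 0 → ℝ} (hx : x ∈ sph 0) : False := by
  have h : ∑ i, x i ^ 2 = 1 := hx
  simp at h

/-- One stage of the construction of a family. -/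
structure CGlob.FStage (G : CGlob) (n : ℕ) where
  f : (Fin n → ℝ) → G.X n
  cont : ContinuousOn f (closedDisc n)
  side : ∀ x ∈ sph n, ∀ ε, G.d n ε (f x) = G.d n (!ε) (f x)

theorem CGlob.FStage.step (G : CGlob) (hG : ∀ n, WContr (univ : Set (G.X n))) {n : ℕ}
    (s : G.FStage n) : ∃ s' : G.FStage (n + 1), ∀ ε, ∀ x ∈ closedDisc n,
      s'.f (Vale.Agent.P259.hemi ε x) = G.d n ε (s.f x) := by
  obtain ⟨g, hg, hgf⟩ := glue_hemi' (n := n) (fun ε x => G.d n ε (s.f x))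
    (fun ε => (G.cont n ε).comp_continuousOn s.cont)
    (fun x hx => s.side x hx false)
  obtain ⟨f', hf', -, hfg⟩ := ((hG (n + 1)).2 (n + 1)).disc g hg (mapsTo_univ _ _)
  have key : ∀ ε, ∀ x ∈ closedDisc n, f' (Vale.Agent.P259.hemi ε x) = G.d n ε (s.f x) := by
    intro ε x hx
    rw [hfg (hemi_mem ε hx), hgf ε x hx]
  refine ⟨⟨f', hf', ?_⟩, key⟩
  intro z hz ε
  obtain ⟨ε', x, hx, rfl⟩ := exists_hemi hz
  rw [key ε' x hx]
  exact G.dd n ε ε' (s.f x)

theorem CGlob.FStage.base (G : CGlob) (hG : ∀ n, WContr (univ : Set (G.X n))) :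
    Nonempty (G.FStage 0) := by
  obtain ⟨a, -⟩ := (hG 0).1
  exact ⟨⟨fun _ => a, continuousOn_const, fun x hx => (GF_not_mem_sph_zero hx).elim⟩⟩

/-- Existence, by induction on `n` (`glue_hemi'`, `Ext.disc`). -/
theorem CGlob.exists_fam (G : CGlob) (hG : ∀ n, WContr (univ : Set (G.X n))) :
    Nonempty G.Fam := by
  obtain ⟨s₀⟩ := CGlob.FStage.base G hG
  choose st hst using fun n => @CGlob.FStage.step G hG n
  set S : ∀ n, G.FStage n := fun n => Nat.rec s₀ (fun n s => st n s) n with hS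
  refine ⟨⟨fun n => (S n).f, fun n => (S n).cont, ?_⟩⟩
  intro n ε x hx
  exact hst n (S n) ε x hx

/-- Filling a prism over the disc with prescribed ends and prescribed side walls. -/
theorem GF_prism {X : Type} [TopologicalSpace X] {n : ℕ} (hX : Ext (n + 1) (univ : Set X))
    (f₀ f₁ : (Fin n → ℝ) → X) (k : (Fin n → ℝ) × ℝ → X)
    (h₀ : ContinuousOn f₀ (closedDisc n)) (h₁ : ContinuousOn f₁ (closedDisc n))
    (hk : ContinuousOn k (sph n ×ˢ uI)) (hk₀ : ∀ x ∈ sph n, k (x, 0) = f₀ x)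
    (hk₁ : ∀ x ∈ sph n, k (x, 1) = f₁ x) :
    ∃ H : (Fin n → ℝ) × ℝ → X, ContinuousOn H (closedDisc n ×ˢ uI) ∧
      (∀ x ∈ closedDisc n, H (x, 0) = f₀ x) ∧ (∀ x ∈ closedDisc n, H (x, 1) = f₁ x) ∧
      (∀ x ∈ sph n, ∀ t ∈ uI, H (x, t) = k (x, t)) := by
  classical
  set F : (Fin n → ℝ) × ℝ → X := fun z =>
    if z.1 ∈ sph n then k z else if z.2 = 0 then f₀ z.1 else f₁ z.1 with hF
  have e0 : ∀ x, F (x, 0) = f₀ x := by
    intro x
    simp only [hF]
    split_ifs with h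
    · exact hk₀ x h
    · rfl
  have e1 : ∀ x, F (x, 1) = f₁ x := by
    intro x
    simp only [hF]
    split_ifs with h h'
    · exact hk₁ x h
    · exact absurd h' one_ne_zero
    · rfl
  have ek : ∀ x ∈ sph n, ∀ t, F (x, t) = k (x, t) := by
    intro x hx t
    simp only [hF, if_pos hx]
  have hFc : ContinuousOn F (closedDisc n ×ˢ {0, 1} ∪ sph n ×ˢ uI) := by
    refine DG_continuousOn_of_closed_cover (U := {z | z.1 ∈ sph n})
      (V := {z | z.2 = 0} ∪ {z | z.2 = 1})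
      ((dt_isClosed_sph n).preimage continuous_fst)
      ((isClosed_eq continuous_snd continuous_const).union
        (isClosed_eq continuous_snd continuous_const)) ?_ ?_ ?_
    · rintro ⟨x, t⟩ (⟨h1, h2⟩ | ⟨h1, h2⟩)
      · rcases h2 with h2 | h2
        · exact Or.inr (Or.inl h2)
        · exact Or.inr (Or.inr h2)
      · exact Or.inl h1
    · refine (hk.mono ?_).congr ?_
      · rintro ⟨x, t⟩ ⟨(⟨h1, h2⟩ | ⟨h1, h2⟩), h3⟩
        · refine ⟨h3, ?_⟩
          rcases h2 with h2 | h2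
          · have h2' : t = 0 := h2
            show t ∈ Icc (0 : ℝ) 1
            rw [h2']; exact ⟨le_refl _, zero_le_one⟩
          · have h2' : t = 1 := h2
            show t ∈ Icc (0 : ℝ) 1
            rw [h2']; exact ⟨zero_le_one, le_refl _⟩
        · exact ⟨h3, h2⟩
      · rintro ⟨x, t⟩ ⟨-, h3⟩
        exact ek x h3 t
    · refine DG_continuousOn_of_closed_cover (U := {z | z.2 = 0}) (V := {z | z.2 = 1})
        (isClosed_eq continuous_snd continuous_const)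
        (isClosed_eq continuous_snd continuous_const) (fun z hz => hz.2) ?_ ?_
      · refine (h₀.comp continuousOn_fst ?_).congr ?_
        · rintro ⟨x, t⟩ ⟨⟨(⟨h1, h2⟩ | ⟨h1, h2⟩), -⟩, -⟩
          · exact h1
          · exact sph_subset n h1
        · rintro ⟨x, t⟩ ⟨-, h3⟩
          have h3' : t = 0 := h3
          subst h3'
          exact e0 x
      · refine (h₁.comp continuousOn_fst ?_).congr ?_
        · rintro ⟨x, t⟩ ⟨⟨(⟨h1, h2⟩ | ⟨h1, h2⟩), -⟩, -⟩
          · exact h1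
          · exact sph_subset n h1
        · rintro ⟨x, t⟩ ⟨-, h3⟩
          have h3' : t = 1 := h3
          subst h3'
          exact e1 x
  obtain ⟨H, hH, -, hHF⟩ := hX.prism_disc F hFc (mapsTo_univ _ _)
  refine ⟨H, hH, fun x hx => ?_, fun x hx => ?_, fun x hx t ht => ?_⟩
  · rw [← e0 x]
    exact hHF (Or.inl ⟨hx, Or.inl rfl⟩)
  · rw [← e1 x]
    exact hHF (Or.inl ⟨hx, Or.inr rfl⟩)
  · rw [← ek x hx t]
    exact hHF (Or.inr ⟨hx, ht⟩)

/-- One stage of the construction of a homotopy. -/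
structure CGlob.HStage (G : CGlob) (θ θ' : G.Fam) (n : ℕ) where
  h : (Fin n → ℝ) × ℝ → G.X n
  cont : ContinuousOn h (closedDisc n ×ˢ uI)
  zero : ∀ x ∈ closedDisc n, h (x, 0) = θ.f n x
  one : ∀ x ∈ closedDisc n, h (x, 1) = θ'.f n x
  side : ∀ x ∈ sph n, ∀ t ∈ uI, ∀ ε, G.d n ε (h (x, t)) = G.d n (!ε) (h (x, t))

theorem CGlob.HStage.step (G : CGlob) (hG : ∀ n, WContr (univ : Set (G.X n))) (θ θ' : G.Fam)
    {n : ℕ} (s : G.HStage θ θ' n) : ∃ s' : G.HStage θ θ' (n + 1), ∀ ε, ∀ x ∈ closedDisc n,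
      ∀ t ∈ uI, s'.h (Vale.Agent.P259.hemi ε x, t) = G.d n ε (s.h (x, t)) := by
  have m0 : (0 : ℝ) ∈ uI := ⟨le_refl _, zero_le_one⟩
  have m1 : (1 : ℝ) ∈ uI := ⟨zero_le_one, le_refl _⟩
  obtain ⟨k, hk, hkf⟩ := glue_hemi (n := n) uI (fun ε z => G.d n ε (s.h z))
    (fun ε => (G.cont n ε).comp_continuousOn s.cont)
    (fun x hx t ht => s.side x hx t ht false)
  obtain ⟨H, hH, hH0, hH1, hHk⟩ := GF_prism ((hG (n + 1)).2 (n + 2)) (θ.f (n + 1)) (θ'.f (n + 1))
    k (θ.cont (n + 1)) (θ'.cont (n + 1)) hk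
    (by
      intro z hz
      obtain ⟨ε', x, hx, rfl⟩ := exists_hemi hz
      rw [hkf ε' x hx 0 m0, s.zero x hx, θ.hemi n ε' x hx])
    (by
      intro z hz
      obtain ⟨ε', x, hx, rfl⟩ := exists_hemi hz
      rw [hkf ε' x hx 1 m1, s.one x hx, θ'.hemi n ε' x hx])
  have key : ∀ ε, ∀ x ∈ closedDisc n, ∀ t ∈ uI,
      H (Vale.Agent.P259.hemi ε x, t) = G.d n ε (s.h (x, t)) := by
    intro ε x hx t ht
    rw [hHk _ (hemi_mem ε hx) t ht, hkf ε x hx t ht]
  refine ⟨⟨H, hH, hH0, hH1, ?_⟩, key⟩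
  intro z hz t ht ε
  obtain ⟨ε', x, hx, rfl⟩ := exists_hemi hz
  rw [key ε' x hx t ht]
  exact G.dd n ε ε' _

theorem CGlob.HStage.base (G : CGlob) (hG : ∀ n, WContr (univ : Set (G.X n))) (θ θ' : G.Fam) :
    Nonempty (G.HStage θ θ' 0) := by
  obtain ⟨a, -⟩ := (hG 0).1
  obtain ⟨H, hH, hH0, hH1, -⟩ := GF_prism ((hG 0).2 1) (θ.f 0) (θ'.f 0)
    (fun _ => a) (θ.cont 0) (θ'.cont 0) continuousOn_const
    (fun x hx => (GF_not_mem_sph_zero hx).elim) (fun x hx => (GF_not_mem_sph_zero hx).elim)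
  exact ⟨⟨H, hH, hH0, hH1, fun x hx => (GF_not_mem_sph_zero hx).elim⟩⟩

/-- Two families are homotopic through a homotopy compatible with the hemispheres
(`glue_hemi`, `Ext.prism_disc`). -/
theorem CGlob.exists_homotopy (G : CGlob) (hG : ∀ n, WContr (univ : Set (G.X n))) (θ θ' : G.Fam) :
    ∃ h : ∀ n, (Fin n → ℝ) × ℝ → G.X n, (∀ n, ContinuousOn (h n) (closedDisc n ×ˢ uI)) ∧
      (∀ n, ∀ x ∈ closedDisc n, h n (x, 0) = θ.f n x) ∧
      (∀ n, ∀ x ∈ closedDisc n, h n (x, 1) = θ'.f n x) ∧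
      (∀ n ε, ∀ x ∈ closedDisc n, ∀ t ∈ uI, h (n + 1) (Vale.Agent.P259.hemi ε x, t) =
        G.d n ε (h n (x, t))) := by
  obtain ⟨s₀⟩ := CGlob.HStage.base G hG θ θ'
  choose st hst using fun n => @CGlob.HStage.step G hG θ θ' n
  set S : ∀ n, G.HStage θ θ' n := fun n => Nat.rec s₀ (fun n s => st n s) n with hS
  refine ⟨fun n => (S n).h, fun n => (S n).cont, fun n => (S n).zero, fun n => (S n).one, ?_⟩
  intro n ε x hx t ht
  exact hst n (S n) ε x hx t ht

end Vale.Agent.P259
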