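import Vale.Agent.Lib.P259.Cube
namespace Vale.Agent.P259
open Set Topology
variable {X Y Z B : Type*} [TopologicalSpace X] [TopologicalSpace Y] [TopologicalSpace Z]

/-! ## TG : grid cells (file Grid.lean) -/

/-- A cell of the unit grid: corner `k`, set `F` of free directions. -/
structure Cell (n : ℕ) where
  k : Fin n → ℤ
  F : Finset (Fin n)

namespace Cell
variable {n : ℕ}

/-- the closed cell -/
def cl (e : Cell n) : Set (Fin n → ℝ) :=
  {x | ∀ i, (i ∈ e.F → (e.k i : ℝ) ≤ x i ∧ x i ≤ e.k i + 1) ∧ (i ∉ e.F → x i = e.k i)}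
/-- the open cell -/
def op (e : Cell n) : Set (Fin n → ℝ) :=
  {x | ∀ i, (i ∈ e.F → (e.k i : ℝ) < x i ∧ x i < e.k i + 1) ∧ (i ∉ e.F → x i = e.k i)}
/-- the boundary -/
def bd (e : Cell n) : Set (Fin n → ℝ) := e.cl \ e.op

theorem op_subset_cl (e : Cell n) : e.op ⊆ e.cl := by
  intro x hx i
  refine ⟨fun h => ⟨((hx i).1 h).1.le, ((hx i).1 h).2.le⟩, (hx i).2⟩

theorem ext' {e e' : Cell n} (hk : e.k = e'.k) (hF : e.F = e'.F) : e = e' := by
  cases e
  cases e'
  simp only at hk hF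
  rw [hk, hF]

/-- the open cell containing a given point -/
noncomputable def cellOf (x : Fin n → ℝ) : Cell n :=
  ⟨fun i => ⌊x i⌋, Finset.univ.filter (fun i => ((⌊x i⌋ : ℤ) : ℝ) ≠ x i)⟩

theorem mem_cellOf_F (x : Fin n → ℝ) (i : Fin n) :
    i ∈ (cellOf x).F ↔ ((⌊x i⌋ : ℤ) : ℝ) ≠ x i := by
  simp [cellOf]

theorem cellOf_k (x : Fin n → ℝ) (i : Fin n) : (cellOf x).k i = ⌊x i⌋ := rfl

theorem mem_op_cellOf (x : Fin n → ℝ) : x ∈ (cellOf x).op := by
  intro i
  rw [mem_cellOf_F, cellOf_k]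
  refine ⟨fun h => ⟨lt_of_le_of_ne (Int.floor_le _) h, Int.lt_floor_add_one _⟩, fun h => ?_⟩
  push Not at h
  exact h.symm

theorem eq_cellOf {e : Cell n} {x : Fin n → ℝ} (hx : x ∈ e.op) : e = cellOf x := by
  have hfl : ∀ i, ⌊x i⌋ = e.k i := by
    intro i
    rw [Int.floor_eq_iff]
    by_cases h : i ∈ e.F
    · exact ⟨((hx i).1 h).1.le, ((hx i).1 h).2⟩
    · rw [(hx i).2 h]
      exact ⟨le_rfl, by linarith⟩
  apply ext'
  · funext i
    rw [cellOf_k, hfl]
  · ext i
    rw [mem_cellOf_F, hfl]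
    constructor
    · intro h
      exact ((hx i).1 h).1.ne
    · intro h
      by_contra hcon
      exact h ((hx i).2 hcon).symm

theorem exists_unique_op (x : Fin n → ℝ) : ∃! e : Cell n, x ∈ e.op :=
  ⟨cellOf x, mem_op_cellOf x, fun _ h => eq_cellOf h⟩

theorem cl_subset_iff (e' e : Cell n) : e'.cl ⊆ e.cl ↔ ∀ i,
    (i ∈ e.F → ((i ∈ e'.F ∧ e'.k i = e.k i) ∨
      (i ∉ e'.F ∧ (e'.k i = e.k i ∨ e'.k i = e.k i + 1)))) ∧
    (i ∉ e.F → (i ∉ e'.F ∧ e'.k i = e.k i)) := by
  constructor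
  · intro h i
    have hlo : (fun i => (e'.k i : ℝ)) ∈ e.cl := by
      apply h
      intro j
      exact ⟨fun _ => ⟨le_rfl, by linarith⟩, fun _ => rfl⟩
    have hhi : (fun i => if i ∈ e'.F then (e'.k i : ℝ) + 1 else (e'.k i : ℝ)) ∈ e.cl := by
      apply h
      intro j
      refine ⟨fun hj => ?_, fun hj => ?_⟩
      · simp only [hj, if_true]
        exact ⟨by linarith, le_rfl⟩
      · simp only [hj, if_false]
    have h1 := hlo i
    have h2 := hhi i
    simp only at h1 h2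
    constructor
    · intro hi
      obtain ⟨a1, a2⟩ := h1.1 hi
      obtain ⟨b1, b2⟩ := h2.1 hi
      have a1' : e.k i ≤ e'.k i := by exact_mod_cast a1
      have a2' : e'.k i ≤ e.k i + 1 := by exact_mod_cast a2
      by_cases hi' : i ∈ e'.F
      · left
        simp only [hi', if_true] at b2
        have b2' : e'.k i + 1 ≤ e.k i + 1 := by exact_mod_cast b2
        exact ⟨hi', by omega⟩
      · right
        exact ⟨hi', by omega⟩
    · intro hi
      have a1 := h1.2 hi
      have b1 := h2.2 hi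
      have a1' : e'.k i = e.k i := by exact_mod_cast a1
      refine ⟨fun hi' => ?_, a1'⟩
      simp only [hi', if_true] at b1
      linarith
  · intro h x hx i
    obtain ⟨h1, h2⟩ := h i
    constructor
    · intro hi
      rcases h1 hi with ⟨hi', hk⟩ | ⟨hi', hk⟩
      · rw [← hk]
        exact (hx i).1 hi'
      · rw [(hx i).2 hi']
        rcases hk with hk | hk
        · rw [hk]
          exact ⟨le_rfl, by linarith⟩
        · rw [hk]
          push_cast
          exact ⟨by linarith, le_rfl⟩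
    · intro hi
      obtain ⟨hi', hk⟩ := h2 hi
      rw [(hx i).2 hi', hk]

theorem cl_antisymm {e e' : Cell n} (h : e.cl ⊆ e'.cl) (h' : e'.cl ⊆ e.cl) : e = e' := by
  rw [cl_subset_iff] at h h'
  apply ext'
  · funext i
    by_cases hi : i ∈ e.F
    · rcases (h' i).1 hi with ⟨-, hk⟩ | ⟨hi', -⟩
      · exact hk.symm
      · exact absurd hi ((h i).2 hi').1
    · exact ((h' i).2 hi).2.symm
  · ext i
    constructor
    · intro hi
      by_contra hcon
      exact ((h i).2 hcon).1 hi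
    · intro hi
      by_contra hcon
      exact ((h' i).2 hcon).1 hi

theorem F_subset_of_cl {e e' : Cell n} (h : e'.cl ⊆ e.cl) : e'.F ⊆ e.F := by
  rw [cl_subset_iff] at h
  intro i hi
  by_contra hcon
  exact ((h i).2 hcon).1 hi

theorem card_lt_of_cl {e e' : Cell n} (h : e'.cl ⊆ e.cl) (hne : e' ≠ e) :
    e'.F.card < e.F.card := by
  apply Finset.card_lt_card
  refine ⟨F_subset_of_cl h, fun hsub => hne ?_⟩
  have h' := (cl_subset_iff e' e).1 h
  apply ext'
  · funext i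
    by_cases hi : i ∈ e.F
    · rcases (h' i).1 hi with ⟨-, hk⟩ | ⟨hi', -⟩
      · exact hk
      · exact absurd (hsub hi) hi'
    · exact ((h' i).2 hi).2
  · exact Finset.Subset.antisymm (F_subset_of_cl h) hsub

theorem cellOf_cl_subset {e : Cell n} {x : Fin n → ℝ} (hx : x ∈ e.cl) :
    (cellOf x).cl ⊆ e.cl := by
  rw [cl_subset_iff]
  intro i
  rw [mem_cellOf_F, cellOf_k]
  constructor
  · intro hi
    obtain ⟨h1, h2⟩ := (hx i).1 hi
    have h3 : e.k i ≤ ⌊x i⌋ := Int.le_floor.2 h1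
    by_cases hint : ((⌊x i⌋ : ℤ) : ℝ) = x i
    · right
      refine ⟨not_not.2 hint, ?_⟩
      have h4 : ⌊x i⌋ ≤ e.k i + 1 := by
        have : ((⌊x i⌋ : ℤ) : ℝ) ≤ (e.k i : ℝ) + 1 := by rw [hint]; exact h2
        exact_mod_cast this
      omega
    · left
      refine ⟨hint, ?_⟩
      have h4 : ⌊x i⌋ < e.k i + 1 := by
        have : ((⌊x i⌋ : ℤ) : ℝ) < (e.k i : ℝ) + 1 :=
          lt_of_lt_of_le (lt_of_le_of_ne (Int.floor_le _) hint) h2
        exact_mod_cast this
      omega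
  · intro hi
    have h1 := (hx i).2 hi
    rw [h1, Int.floor_intCast]
    exact ⟨not_not.2 rfl, rfl⟩

theorem mem_cl_cellOf (x : Fin n → ℝ) : x ∈ (cellOf x).cl := op_subset_cl _ (mem_op_cellOf x)

theorem mem_bd_iff (e : Cell n) (x : Fin n → ℝ) :
    x ∈ e.bd ↔ ∃ e' : Cell n, e' ≠ e ∧ e'.cl ⊆ e.cl ∧ x ∈ e'.cl := by
  constructor
  · rintro ⟨h1, h2⟩
    refine ⟨cellOf x, ?_, cellOf_cl_subset h1, mem_cl_cellOf x⟩
    rintro rfl
    exact h2 (mem_op_cellOf x)
  · rintro ⟨e', hne, hsub, hx⟩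
    refine ⟨hsub hx, fun hop => hne ?_⟩
    have h1 := cellOf_cl_subset hx
    rw [← eq_cellOf hop] at h1
    exact cl_antisymm hsub h1

/-- cells of the cube `[0,N]^n` -/
def K (n : ℕ) (N : ℕ) : Set (Cell n) := {e | e.cl ⊆ Set.Icc 0 (fun _ => (N : ℝ))}
/-- cells of the boundary of the cube `[0,N]^n` -/
def L (n : ℕ) (N : ℕ) : Set (Cell n) :=
  {e | e ∈ K n N ∧ ∃ i, i ∉ e.F ∧ (e.k i = 0 ∨ e.k i = N)}

theorem cellOf_mem_K {N : ℕ} {x : Fin n → ℝ} (hx : x ∈ Set.Icc 0 (fun _ => (N : ℝ))) :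
    cellOf x ∈ K n N := by
  intro y hy
  have key : ∀ i, 0 ≤ y i ∧ y i ≤ N := by
    intro i
    have hx0 : 0 ≤ x i := hx.1 i
    have hxN : x i ≤ N := hx.2 i
    by_cases hi : i ∈ (cellOf x).F
    · obtain ⟨h1, h2⟩ := (hy i).1 hi
      rw [cellOf_k] at h1 h2
      rw [mem_cellOf_F] at hi
      have h3 : (0 : ℤ) ≤ ⌊x i⌋ := Int.floor_nonneg.2 hx0
      have h3' : (0 : ℝ) ≤ ((⌊x i⌋ : ℤ) : ℝ) := by exact_mod_cast h3
      have h4 : ((⌊x i⌋ : ℤ) : ℝ) < (N : ℝ) :=
        lt_of_lt_of_le (lt_of_le_of_ne (Int.floor_le _) hi) hxN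
      have h5 : ⌊x i⌋ < (N : ℤ) := by exact_mod_cast h4
      have h6 : ⌊x i⌋ + 1 ≤ (N : ℤ) := h5
      have h7 : ((⌊x i⌋ : ℤ) : ℝ) + 1 ≤ (N : ℝ) := by exact_mod_cast h6
      exact ⟨by linarith, by linarith⟩
    · have h1 := (hy i).2 hi
      rw [cellOf_k] at h1
      rw [mem_cellOf_F, not_not] at hi
      rw [h1, hi]
      exact ⟨hx0, hxN⟩
  exact ⟨fun i => (key i).1, fun i => (key i).2⟩

theorem mem_Icc_iff (N : ℕ) (x : Fin n → ℝ) :
    x ∈ Set.Icc 0 (fun _ => (N : ℝ)) ↔ ∃ e ∈ K n N, x ∈ e.cl := by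
  constructor
  · intro hx
    exact ⟨cellOf x, cellOf_mem_K hx, mem_cl_cellOf x⟩
  · rintro ⟨e, he, hx⟩
    exact he hx

theorem mem_bdry_iff (N : ℕ) (x : Fin n → ℝ) :
    (x ∈ Set.Icc 0 (fun _ => (N : ℝ)) ∧ ∃ i, x i = 0 ∨ x i = N) ↔ ∃ e ∈ L n N, x ∈ e.cl := by
  constructor
  · rintro ⟨hx, i, hi⟩
    refine ⟨cellOf x, ⟨cellOf_mem_K hx, i, ?_, ?_⟩, mem_cl_cellOf x⟩
    · rw [mem_cellOf_F, not_not]
      rcases hi with hi | hi
      · rw [hi]; simp
      · rw [hi]; simp
    · rw [cellOf_k]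
      rcases hi with hi | hi
      · left; rw [hi]; simp
      · right; rw [hi]; simp
  · rintro ⟨e, ⟨he, i, hi, hk⟩, hx⟩
    refine ⟨he hx, i, ?_⟩
    rw [(hx i).2 hi]
    rcases hk with hk | hk
    · left; rw [hk]; simp
    · right; rw [hk]; simp

theorem K_face {N : ℕ} {e e' : Cell n} (h : e ∈ K n N) (h' : e'.cl ⊆ e.cl) : e' ∈ K n N :=
  h'.trans h

theorem L_face {N : ℕ} {e e' : Cell n} (h : e ∈ L n N) (h' : e'.cl ⊆ e.cl) : e' ∈ L n N := by
  obtain ⟨hK, i, hi, hk⟩ := h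
  have h1 := ((cl_subset_iff e' e).1 h' i).2 hi
  refine ⟨K_face hK h', i, h1.1, ?_⟩
  rw [h1.2]
  exact hk

/-- Induction over cells, by dimension.  `T` is an arbitrary type (no topology), `S e f` a property
of the restriction of `f` to the closed cell `e`; `C` is a set of cells closed under faces, and `C₀`
a subset closed under faces on which the solution is already given. -/
theorem induction {T : Type*} (C C₀ : Set (Cell n))
    (hC : ∀ e ∈ C, ∀ e' : Cell n, e'.cl ⊆ e.cl → e' ∈ C)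
    (hC₀ : ∀ e ∈ C₀, ∀ e' : Cell n, e'.cl ⊆ e.cl → e' ∈ C₀)
    (S : Cell n → ((Fin n → ℝ) → T) → Prop)
    (loc : ∀ e f g, EqOn f g e.cl → S e f → S e g)
    (f₀ : (Fin n → ℝ) → T) (h₀ : ∀ e ∈ C₀, S e f₀)
    (ext : ∀ e ∈ C, e ∉ C₀ → ∀ f, (∀ e' : Cell n, e' ≠ e → e'.cl ⊆ e.cl → S e' f) →
      ∃ g, EqOn g f e.bd ∧ S e g) :
    ∃ g, (∀ e ∈ C, S e g) ∧ ∀ e ∈ C₀, EqOn g f₀ e.cl := by
  classical
  have key : ∀ d : ℕ, ∃ g, (∀ e ∈ C, e.F.card < d → S e g) ∧ ∀ e ∈ C₀, EqOn g f₀ e.cl := by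
    intro d
    induction d with
    | zero => exact ⟨f₀, fun e _ h => absurd h (Nat.not_lt_zero _), fun e _ => fun _ _ => rfl⟩
    | succ d ih =>
      obtain ⟨g, hg1, hg2⟩ := ih
      have hstep : ∀ e : Cell n, ∃ ge : (Fin n → ℝ) → T,
          (e ∈ C ∧ e ∉ C₀ ∧ e.F.card = d) → (EqOn ge g e.bd ∧ S e ge) := by
        intro e
        by_cases he : e ∈ C ∧ e ∉ C₀ ∧ e.F.card = d
        · obtain ⟨ge, hge⟩ := ext e he.1 he.2.1 g (by
            intro e' hne hsub
            apply hg1 e' (hC e he.1 e' hsub)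
            rw [← he.2.2]
            exact card_lt_of_cl hsub hne)
          exact ⟨ge, fun _ => hge⟩
        · exact ⟨g, fun h => absurd h he⟩
      choose G hG using hstep
      refine ⟨fun x => if cellOf x ∈ C ∧ cellOf x ∉ C₀ ∧ (cellOf x).F.card = d then
        G (cellOf x) x else g x, ?_, ?_⟩
      · intro e heC hed
        by_cases he : e ∉ C₀ ∧ e.F.card = d
        · -- new cell
          have hcond : e ∈ C ∧ e ∉ C₀ ∧ e.F.card = d := ⟨heC, he.1, he.2⟩
          obtain ⟨hG1, hG2⟩ := hG e hcond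
          apply loc e (G e) _ _ hG2
          intro x hx
          by_cases hxo : x ∈ e.op
          · have h1 : cellOf x = e := (eq_cellOf hxo).symm
            simp only [h1, if_pos hcond]
          · have hlt : (cellOf x).F.card < e.F.card := by
              apply card_lt_of_cl (cellOf_cl_subset hx)
              intro h
              apply hxo
              rw [← h]
              exact mem_op_cellOf x
            have h2 : ¬ (cellOf x ∈ C ∧ cellOf x ∉ C₀ ∧ (cellOf x).F.card = d) := by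
              rintro ⟨-, -, h3⟩
              omega
            simp only [if_neg h2]
            exact hG1 ⟨hx, hxo⟩
        · -- old cell
          have hSe : S e g := by
            by_cases he0 : e ∈ C₀
            · exact loc e f₀ g (fun x hx => (hg2 e he0 hx).symm) (h₀ e he0)
            · apply hg1 e heC
              have : e.F.card ≠ d := fun h => he ⟨he0, h⟩
              omega
          apply loc e g _ _ hSe
          intro x hx
          have hsub := cellOf_cl_subset hx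
          have h2 : ¬ (cellOf x ∈ C ∧ cellOf x ∉ C₀ ∧ (cellOf x).F.card = d) := by
            rintro ⟨-, h3, h4⟩
            by_cases he0 : e ∈ C₀
            · exact h3 (hC₀ e he0 _ hsub)
            · have h5 : (cellOf x).F.card ≤ e.F.card := Finset.card_le_card (F_subset_of_cl hsub)
              apply he
              exact ⟨he0, by omega⟩
          simp only [if_neg h2]
      · intro e he x hx
        have h2 : ¬ (cellOf x ∈ C ∧ cellOf x ∉ C₀ ∧ (cellOf x).F.card = d) := by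
          rintro ⟨-, h3, -⟩
          exact h3 (hC₀ e he _ (cellOf_cl_subset hx))
        simp only [if_neg h2]
        exact hg2 e he hx
  obtain ⟨g, hg1, hg2⟩ := key (n + 1)
  refine ⟨g, fun e he => hg1 e he ?_, hg2⟩
  have : e.F.card ≤ n := by
    have := Finset.card_le_univ e.F
    simpa using this
  omega

theorem K_finite (n N : ℕ) : (K n N).Finite := by
  have hfin : ((Set.pi Set.univ (fun _ : Fin n => Set.Icc (0 : ℤ) N)) ×ˢ
      (Set.univ : Set (Finset (Fin n)))).Finite :=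
    Set.Finite.prod (Set.Finite.pi (fun _ => Set.finite_Icc _ _)) Set.finite_univ
  have hinj : Function.Injective (fun e : Cell n => (e.k, e.F)) := by
    intro e e' h
    simp only [Prod.mk.injEq] at h
    exact ext' h.1 h.2
  apply (hfin.preimage (hinj.injOn)).subset
  intro e he
  simp only [Set.mem_preimage, Set.mem_prod, Set.mem_univ, and_true, Set.mem_pi, true_implies]
  intro i
  have hlo : (fun i => (e.k i : ℝ)) ∈ e.cl := by
    intro j
    exact ⟨fun _ => ⟨le_rfl, by linarith⟩, fun _ => rfl⟩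
  have h1 := he hlo
  have h2 : (0 : ℝ) ≤ e.k i := h1.1 i
  have h3 : (e.k i : ℝ) ≤ N := h1.2 i
  exact ⟨by exact_mod_cast h2, by exact_mod_cast h3⟩

theorem isClosed_cl (e : Cell n) : IsClosed e.cl := by
  have h : e.cl = ⋂ i, {x : Fin n → ℝ | (i ∈ e.F → (e.k i : ℝ) ≤ x i ∧ x i ≤ e.k i + 1) ∧
      (i ∉ e.F → x i = e.k i)} := by
    ext x
    simp [cl]
  rw [h]
  apply isClosed_iInter
  intro i
  by_cases hi : i ∈ e.F
  · have h2 : {x : Fin n → ℝ | (i ∈ e.F → (e.k i : ℝ) ≤ x i ∧ x i ≤ e.k i + 1) ∧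
      (i ∉ e.F → x i = e.k i)} =
        {x : Fin n → ℝ | (e.k i : ℝ) ≤ x i} ∩ {x : Fin n → ℝ | x i ≤ (e.k i : ℝ) + 1} := by
      ext x
      simp [hi]
    rw [h2]
    exact (isClosed_le continuous_const (continuous_apply i)).inter
      (isClosed_le (continuous_apply i) continuous_const)
  · have h2 : {x : Fin n → ℝ | (i ∈ e.F → (e.k i : ℝ) ≤ x i ∧ x i ≤ e.k i + 1) ∧
      (i ∉ e.F → x i = e.k i)} = {x : Fin n → ℝ | x i = (e.k i : ℝ)} := by
      ext x
      simp [hi]
    rw [h2]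
    exact isClosed_eq (continuous_apply i) continuous_const

/-- gluing of continuity over the cells of a finite complex, with a parameter space -/
theorem continuousOn_of_cells {P : Type*} [TopologicalSpace P] (N : ℕ) (C : Set (Cell n))
    (hC : C ⊆ K n N) (D : Set P) (f : (Fin n → ℝ) × P → X)
    (h : ∀ e ∈ C, ContinuousOn f (e.cl ×ˢ D)) :
    ContinuousOn f ((⋃ e ∈ C, e.cl) ×ˢ D) := by
  have hfin : C.Finite := (K_finite n N).subset hC
  have hset : (⋃ e ∈ C, e.cl) ×ˢ D = ⋃ e ∈ C, (e.cl ×ˢ D) := by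
    ext ⟨x, p⟩
    simp only [Set.mem_prod, Set.mem_iUnion]
    constructor
    · rintro ⟨⟨e, he, hx⟩, hp⟩
      exact ⟨e, he, hx, hp⟩
    · rintro ⟨e, he, hx, hp⟩
      exact ⟨⟨e, he, hx⟩, hp⟩
  rintro ⟨x, p⟩ hxp
  rw [hset]
  unfold ContinuousWithinAt
  rw [nhdsWithin_biUnion hfin]
  simp only [Filter.tendsto_iSup]
  intro e he
  by_cases hx : x ∈ e.cl
  · exact h e he (x, p) ⟨hx, hxp.2⟩
  · have hnot : (x, p) ∉ closure (e.cl ×ˢ D) := by
      rw [closure_prod_eq]
      rintro ⟨h1, -⟩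
      rw [(isClosed_cl e).closure_eq] at h1
      exact hx h1
    exact continuousWithinAt_of_notMem_closure hnot

theorem continuousOn_of_cells' (N : ℕ) (C : Set (Cell n))
    (hC : C ⊆ K n N) (f : (Fin n → ℝ) → X) (h : ∀ e ∈ C, ContinuousOn f e.cl) :
    ContinuousOn f (⋃ e ∈ C, e.cl) := by
  have h1 := continuousOn_of_cells N C hC (Set.univ : Set Unit) (fun z => f z.1)
    (fun e he => (h e he).comp continuous_fst.continuousOn (fun z hz => hz.1))
  have h2 : ContinuousOn (fun x : Fin n → ℝ => (x, ())) (⋃ e ∈ C, e.cl) :=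
    (Continuous.prodMk continuous_id continuous_const).continuousOn
  exact h1.comp h2 (fun x hx => ⟨hx, Set.mem_univ _⟩)

theorem card_le (e : Cell n) : e.F.card ≤ n := by
  have := Finset.card_le_univ e.F
  simpa using this

theorem card_lt_of_mem_L {N : ℕ} {e : Cell n} (h : e ∈ L n N) : e.F.card < n := by
  obtain ⟨-, i, hi, -⟩ := h
  have := Finset.card_lt_univ_of_notMem hi
  simpa using this

end Cell

end Vale.Agent.P259
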