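import Vale.Agent.Lib.P259.Sigma
/-!
# P259, module N3: truncations of globular sums

`tr m` replaces every dimension `i > m` by `m` (source inclusion) and forgets a summand glued along a
globe of dimension `≥ m`.
-/
namespace Vale.Agent.P259
open CategoryTheory Limits Opposite

/-- every globe of a pushout of globular sets lies in one of the two summands -/
theorem globe_cases {A B C D : GSet} {f : A ⟶ B} {g : A ⟶ C} {h : B ⟶ D} {k : C ⟶ D}
    (sq : IsPushout f g h k) {l : ℕ} (c : yoneda.obj (Globe.mk l) ⟶ D) :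
    (∃ a : yoneda.obj (Globe.mk l) ⟶ B, a ≫ h = c) ∨
      ∃ b : yoneda.obj (Globe.mk l) ⟶ C, b ≫ k = c := by
  have sq := sq.map ((evaluation Globeᵒᵖ Type).obj (op (Globe.mk l)))
  rcases Types.eq_or_eq_of_isPushout sq (yonedaEquiv c) with ⟨a, ha⟩ | ⟨b, hb⟩
  · left
    refine ⟨yonedaEquiv.symm a, ?_⟩
    apply yonedaEquiv.injective
    rw [← ha, yonedaEquiv_comp, Equiv.apply_symm_apply]
    rfl
  · right
    refine ⟨yonedaEquiv.symm b, ?_⟩
    apply yonedaEquiv.injective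
    rw [← hb, yonedaEquiv_comp, Equiv.apply_symm_apply]
    rfl

/-- every globe of a glued globular sum lies in one of the two summands -/
theorem disk_glue_cases {i j k l : ℕ} (hi : j < i) (hk : j < k) (t : Tab k)
    (c : Θ₀Hom (.D l) ⟨i, .glue hi hk t⟩) :
    (∃ a : Θ₀Hom (.D l) (.D i), (a ≫ inl₀ hi hk t : (Obj.D l).real ⟶ _) = c) ∨
      ∃ b : Θ₀Hom (.D l) ⟨k, t⟩, (b ≫ inr₀ hi hk t : (Obj.D l).real ⟶ _) = c :=
  globe_cases (real_isPushout hi hk t) c

/-- maps of `Θ₀` between globes -/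
theorem disk_disk_cases {l i : ℕ} (h : l < i) (c : Θ₀Hom (.D l) (.D i)) :
    ∃ ε, c = bd₀ h ε := by
  obtain ⟨f, rfl⟩ := (yonedaEquiv (X := Globe.mk l) (F := disk i)).symm.surjective c
  change GlobeHom l i at f
  cases f with
  | id => exact absurd h (lt_irrefl _)
  | bd h' ε =>
    refine ⟨ε, ?_⟩
    apply yonedaEquiv.injective
    rw [Equiv.apply_symm_apply]
    rfl

/-- iterated degeneracies -/
theorem GlobExt.exists_dg (E : GlobExt) (deg : ∀ k : ℕ, E.Hom (.D (k + 1)) (.D k))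
    (hdeg : ∀ k ε, E.comp (E.J (bd₀ (Nat.lt_succ_self k) ε)) (deg k) = E.id _) {m i : ℕ}
    (h : m < i) : ∃ d : (⟨.D i⟩ : E.Cat) ⟶ ⟨.D m⟩, ∀ ε, E.jm (bd₀ h ε) ≫ d = 𝟙 _ := by
  induction i with
  | zero => exact absurd h (Nat.not_lt_zero m)
  | succ i ih =>
    rcases Nat.lt_or_ge m i with h' | h'
    · obtain ⟨d, hd⟩ := ih h'
      refine ⟨E.up (deg i) ≫ d, fun ε => ?_⟩
      have e : E.jm (bd₀ (Nat.lt_succ_self i) false) ≫ E.up (deg i) = 𝟙 _ := hdeg i false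
      rw [← E.jm_bd_bd h' (Nat.lt_succ_self i) ε false, Category.assoc, ← Category.assoc _ _ d, e,
        Category.id_comp, hd]
    · obtain rfl : m = i := by omega
      exact ⟨E.up (deg m), fun ε => hdeg m ε⟩

/-- truncation of a globe -/
theorem disc_trunc (m i p : ℕ) (hp : p = min i m) : ∃ s : Θ₀Hom (.D p) (.D i),
    (∀ l (h' : l < p) (h : l < i) ε, (bd₀ h' ε ≫ s : (Obj.D l).real ⟶ _) = bd₀ h ε) ∧
    (∀ k < m, ∀ c : Θ₀Hom (.D k) (.D i), ∃ c' : Θ₀Hom (.D k) (.D p), c' ≫ s = c) ∧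
    ∀ (E : GlobExt) (deg : ∀ k : ℕ, E.Hom (.D (k + 1)) (.D k)),
      (∀ k ε, E.comp (E.J (bd₀ (Nat.lt_succ_self k) ε)) (deg k) = E.id _) →
      ∃ r : (⟨.D i⟩ : E.Cat) ⟶ ⟨.D p⟩, E.jm s ≫ r = 𝟙 _ ∧
        ∀ l (h' : l < p) (h : l < i) ε, E.jm (bd₀ h ε) ≫ r = E.jm (bd₀ h' ε) := by
  rcases Nat.lt_or_ge m i with hm | hm
  · obtain rfl : p = m := by omega
    refine ⟨bd₀ hm false, fun l h' h ε => bd₀_bd₀ h' hm ε false, fun k hk c => ?_, ?_⟩
    · obtain ⟨ε, rfl⟩ := disk_disk_cases (hk.trans hm) c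
      exact ⟨bd₀ hk ε, bd₀_bd₀ hk hm ε false⟩
    · intro E deg hdeg
      obtain ⟨d, hd⟩ := E.exists_dg deg hdeg hm
      refine ⟨d, hd false, fun l h' h ε => ?_⟩
      rw [← E.jm_bd_bd h' hm ε false, Category.assoc, hd, Category.comp_id]
  · obtain rfl : p = i := by omega
    refine ⟨𝟙 (Obj.D p).real, fun l h' h ε => Category.comp_id _,
      fun k hk c => ⟨c, Category.comp_id _⟩, ?_⟩
    intro E deg hdeg
    exact ⟨𝟙 _, (Category.comp_id _).trans (E.jm_id _), fun l h' h ε => Category.comp_id _⟩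

/-- cells of dimension less than `j` of the two summands of `D_i ⨿_{D_j} t` -/
theorem bd_inl_le {i j k l : ℕ} (hi : j < i) (hk : j < k) (t : Tab k) (hl : l < j) (ε : Bool) :
    (bd₀ (hl.trans hi) ε ≫ inl₀ hi hk t : (Obj.D l).real ⟶ _) =
      bd₀ (hl.trans hk) ε ≫ first₀ t ≫ inr₀ hi hk t := by
  rw [← bd₀_bd₀ hl hi ε true, ← bd₀_bd₀ hl hk ε false, Category.assoc, bd₀_inl₀, Category.assoc]

/-- truncation data for a table -/
structure TrData (m : ℕ) {i i' : ℕ} (t : Tab i) (t' : Tab i') (s : Θ₀Hom ⟨i', t'⟩ ⟨i, t⟩) :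
    Prop where
  hi : i' = min i m
  dim : t'.dim ≤ m
  compat : ∀ l (h' : l < i') (h : l < i) ε,
    (bd₀ h' ε ≫ first₀ t' ≫ s : (Obj.D l).real ⟶ _) = bd₀ h ε ≫ first₀ t
  fac : ∀ k < m, ∀ c : Θ₀Hom (.D k) ⟨i, t⟩, ∃ c' : Θ₀Hom (.D k) ⟨i', t'⟩, c' ≫ s = c
  retr : ∀ (E : GlobExt) (deg : ∀ k : ℕ, E.Hom (.D (k + 1)) (.D k)),
    (∀ k ε, E.comp (E.J (bd₀ (Nat.lt_succ_self k) ε)) (deg k) = E.id _) →
    ∃ r : (⟨⟨i, t⟩⟩ : E.Cat) ⟶ ⟨⟨i', t'⟩⟩, E.jm s ≫ r = 𝟙 _

theorem exists_trData (m : ℕ) {i : ℕ} (t : Tab i) :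
    ∃ (i' : ℕ) (t' : Tab i') (s : Θ₀Hom ⟨i', t'⟩ ⟨i, t⟩), TrData m t t' s := by
  induction t with
  | disc i =>
    obtain ⟨s, h1, h2, h3⟩ := disc_trunc m i (min i m) rfl
    refine ⟨min i m, .disc _, s, rfl, min_le_right i m, ?_, h2, ?_⟩
    · intro l h' h ε
      exact (congrArg (fun z => bd₀ h' ε ≫ z) (Category.id_comp s)).trans
        ((h1 l h' h ε).trans (Category.comp_id _).symm)
    · intro E deg hdeg
      obtain ⟨r, hr, -⟩ := h3 E deg hdeg
      exact ⟨r, hr⟩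
  | @glue i j k hi hk t ih =>
    obtain ⟨q, t', u, hu⟩ := ih
    have hq := hu.hi
    rcases Nat.lt_or_ge j m with hj | hj
    · obtain ⟨p, hp⟩ : ∃ p, p = min i m := ⟨_, rfl⟩
      obtain ⟨s, h1, h2, h3⟩ := disc_trunc m i p hp
      have hjp : j < p := by omega
      have hjq : j < q := by omega
      have w : (bd₀ hjp true ≫ s ≫ inl₀ hi hk t : (Obj.D j).real ⟶ _) =
          (bd₀ hjq false ≫ first₀ t') ≫ u ≫ inr₀ hi hk t := by
        rw [← Category.assoc, h1 j hjp hi, bd₀_inl₀, Category.assoc, ← Category.assoc _ _ (inr₀ _ _ _),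
          ← hu.compat j hjq hk false]
        simp only [Category.assoc]
      let a := (real_isPushout hjp hjq t').desc (s ≫ inl₀ hi hk t) (u ≫ inr₀ hi hk t) w
      have ha1 : (inl₀ hjp hjq t' ≫ a : (Obj.D p).real ⟶ _) = s ≫ inl₀ hi hk t :=
        IsPushout.inl_desc _ _ _ _
      have ha2 : (inr₀ hjp hjq t' ≫ a : (Obj.mk q t').real ⟶ _) = u ≫ inr₀ hi hk t :=
        IsPushout.inr_desc _ _ _ _
      refine ⟨p, .glue hjp hjq t', a, hp, ?_, ?_, ?_, ?_⟩
      · exact max_le (by omega) hu.dim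
      · intro l h' h ε
        rw [first₀_glue, ha1, first₀_glue, ← Category.assoc, h1 l h' h]
      · intro l hl c
        rcases disk_glue_cases hi hk t c with ⟨b, rfl⟩ | ⟨b, rfl⟩
        · obtain ⟨c', rfl⟩ := h2 l hl b
          exact ⟨(c' ≫ inl₀ hjp hjq t' : (Obj.D l).real ⟶ _), by
            rw [Category.assoc, ha1, Category.assoc]⟩
        · obtain ⟨c', rfl⟩ := hu.fac l hl b
          exact ⟨(c' ≫ inr₀ hjp hjq t' : (Obj.D l).real ⟶ _), by
            rw [Category.assoc, ha2, Category.assoc]⟩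
      · intro E deg hdeg
        obtain ⟨r, hr1, hr2⟩ := h3 E deg hdeg
        obtain ⟨v, hv⟩ := hu.retr E deg hdeg
        have sq := E.jm_isPushout hi hk t
        have sq' := E.jm_isPushout hjp hjq t'
        have e : E.jm (bd₀ hk false) ≫ E.jm (first₀ t) =
            E.jm (bd₀ hjq false) ≫ E.jm (first₀ t') ≫ E.jm u := by
          rw [← E.jm_comp (S := .D j) (T := .D k) (U := ⟨k, t⟩), ← hu.compat j hjq hk false,
            E.jm_comp (S := .D j) (T := .D q) (U := ⟨k, t⟩),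
            E.jm_comp (S := .D q) (T := ⟨q, t'⟩) (U := ⟨k, t⟩)]
        have w' : E.jm (bd₀ hi true) ≫ r ≫ E.jm (inl₀ hjp hjq t') =
            (E.jm (bd₀ hk false) ≫ E.jm (first₀ t)) ≫ v ≫ E.jm (inr₀ hjp hjq t') := by
          rw [← Category.assoc, hr2 j hjp hi, e, E.jm_bd_inl]
          simp only [Category.assoc]
          rw [← Category.assoc _ v, hv, Category.id_comp]
        refine ⟨sq.desc (r ≫ E.jm (inl₀ hjp hjq t')) (v ≫ E.jm (inr₀ hjp hjq t')) w', ?_⟩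
        apply sq'.hom_ext
        · rw [← Category.assoc, ← E.jm_comp (S := .D p) (T := ⟨p, .glue hjp hjq t'⟩)
            (U := ⟨i, .glue hi hk t⟩), ha1, E.jm_comp (S := .D p) (T := .D i)
            (U := ⟨i, .glue hi hk t⟩), Category.assoc, sq.inl_desc, ← Category.assoc, hr1,
            Category.id_comp, Category.comp_id]
        · rw [← Category.assoc, ← E.jm_comp (S := ⟨q, t'⟩) (T := ⟨p, .glue hjp hjq t'⟩)
            (U := ⟨i, .glue hi hk t⟩), ha2, E.jm_comp (S := ⟨q, t'⟩) (T := ⟨k, t⟩)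
            (U := ⟨i, .glue hi hk t⟩), Category.assoc, sq.inr_desc, ← Category.assoc, hv,
            Category.id_comp, Category.comp_id]
    · have hqm : q = m := by omega
      refine ⟨q, t', (u ≫ inr₀ hi hk t : (Obj.mk q t').real ⟶ _), by omega, hu.dim, ?_, ?_, ?_⟩
      · intro l h' h ε
        have hlj : l < j := by omega
        have hlk : l < k := by omega
        have e : (bd₀ h ε ≫ inl₀ hi hk t : (Obj.D l).real ⟶ _) =
            bd₀ hlk ε ≫ first₀ t ≫ inr₀ hi hk t := bd_inl_le hi hk t hlj ε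
        rw [first₀_glue, e, ← Category.assoc (bd₀ hlk ε), ← hu.compat l h' hlk ε]
        simp only [Category.assoc]
      · intro l hl c
        have key : ∀ b : Θ₀Hom (.D l) ⟨k, t⟩, ∃ c' : Θ₀Hom (.D l) ⟨q, t'⟩,
            (c' ≫ u ≫ inr₀ hi hk t : (Obj.D l).real ⟶ _) = b ≫ inr₀ hi hk t := by
          intro b
          obtain ⟨c', rfl⟩ := hu.fac l hl b
          exact ⟨c', (Category.assoc _ _ _).symm⟩
        rcases disk_glue_cases hi hk t c with ⟨b, rfl⟩ | ⟨b, rfl⟩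
        · have hlj : l < j := by omega
          obtain ⟨ε, rfl⟩ := disk_disk_cases (hlj.trans hi) b
          obtain ⟨c', hc'⟩ := key (bd₀ (hlj.trans hk) ε ≫ first₀ t : (Obj.D l).real ⟶ _)
          refine ⟨c', hc'.trans ((Category.assoc _ _ _).trans (bd_inl_le hi hk t hlj ε).symm)⟩
        · exact key b
      · intro E deg hdeg
        obtain ⟨v, hv⟩ := hu.retr E deg hdeg
        obtain ⟨d, hd⟩ := E.exists_dg deg hdeg hi
        have sq := E.jm_isPushout hi hk t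
        have w' : E.jm (bd₀ hi true) ≫ d ≫ E.jm (bd₀ hk false) ≫ E.jm (first₀ t) ≫ v =
            (E.jm (bd₀ hk false) ≫ E.jm (first₀ t)) ≫ v := by
          rw [← Category.assoc, hd, Category.id_comp, Category.assoc]
        refine ⟨sq.desc (d ≫ E.jm (bd₀ hk false) ≫ E.jm (first₀ t) ≫ v) v w', ?_⟩
        rw [E.jm_comp (S := ⟨q, t'⟩) (T := ⟨k, t⟩) (U := ⟨i, .glue hi hk t⟩), Category.assoc,
          sq.inr_desc, hv]

/-- For `n` and a globular sum `S` there are a globular sum `S'` of dimension `≤ n + 1` and an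
inclusion `s : S' ⟶ S` in `Θ₀` through which all globes `D_k ⟶ S`, `k ≤ n`, factor, and which has a
retraction in every globular extension with degeneracies `D_{k+1} ⟶ D_k`. -/
theorem exists_trunc (n : ℕ) (S : Obj) : ∃ (S' : Obj) (s : Θ₀Hom S' S), S'.tab.dim ≤ n + 1 ∧
    (∀ k ≤ n, ∀ c : Θ₀Hom (.D k) S, ∃ c' : Θ₀Hom (.D k) S', c' ≫ s = c) ∧
    ∀ (E : GlobExt) (deg : ∀ k : ℕ, E.Hom (.D (k + 1)) (.D k)),
      (∀ k ε, E.comp (E.J (bd₀ (Nat.lt_succ_self k) ε)) (deg k) = E.id _) →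
      ∃ r : E.Hom S S', E.comp (E.J s) r = E.id S' := by
  obtain ⟨i, t⟩ := S
  obtain ⟨i', t', s, h⟩ := exists_trData (n + 1) t
  exact ⟨⟨i', t'⟩, s, h.dim, fun k hk c => h.fac k (Nat.lt_succ_of_le hk) c, h.retr⟩

end Vale.Agent.P259
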