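import Vale.Agent.Lib.P259.FreeExt
import Vale.Agent.Lib.P259.ColimExt
import Vale.Agent.Lib.P259.Trunc
/-!
# P259, module N4: existence of coherators
-/
namespace Vale.Agent.P259
open CategoryTheory Limits Opposite

/-! ### globes of glued sums -/

theorem yon_lift {l : ℕ} {F G : GSet} (α : F ⟶ G) (c : yoneda.obj (Globe.mk l) ⟶ G)
    (x : F.obj (op (Globe.mk l)))
    (hx : (ConcreteCategory.hom (((evaluation Globeᵒᵖ Type).obj (op (Globe.mk l))).map α)) x =
      yonedaEquiv c) :
    ∃ c' : yoneda.obj (Globe.mk l) ⟶ F, c' ≫ α = c := by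
  refine ⟨yonedaEquiv.symm x, ?_⟩
  apply yonedaEquiv.injective
  rw [yonedaEquiv_comp, Equiv.apply_symm_apply]
  exact hx

/-- a globe of a glued sum lies in one of the two parts -/
theorem globe_glue {i j k l : ℕ} (hi : j < i) (hk : j < k) (t : Tab k)
    (c : Θ₀Hom (.D l) ⟨i, .glue hi hk t⟩) :
    (∃ c' : Θ₀Hom (.D l) (.D i), (c' ≫ inl₀ hi hk t : (Obj.D l).real ⟶ _) = c) ∨
      ∃ c' : Θ₀Hom (.D l) ⟨k, t⟩, (c' ≫ inr₀ hi hk t : (Obj.D l).real ⟶ _) = c := by
  have h := (real_isPushout hi hk t).map ((evaluation Globeᵒᵖ Type).obj (op (Globe.mk l)))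
  have h2 := Types.eq_or_eq_of_isPushout h (yonedaEquiv c)
  rcases h2 with ⟨x, hx⟩ | ⟨x, hx⟩
  · exact Or.inl (yon_lift (inl₀ hi hk t) c x hx)
  · exact Or.inr (yon_lift (inr₀ hi hk t) c x hx)

/-- a globe of dimension at most `m` of `D_{m+1}` factors through the boundary -/
theorem globe_bd {k m : ℕ} (hkm : k ≤ m) (c : Θ₀Hom (.D k) (.D (m + 1))) :
    ∃ (ε : Bool) (c' : Θ₀Hom (.D k) (.D m)),
      (c' ≫ bd₀ (Nat.lt_succ_self m) ε : (Obj.D k).real ⟶ (Obj.D (m + 1)).real) = c := by
  obtain ⟨f, rfl⟩ : ∃ f : Globe.mk k ⟶ Globe.mk (m + 1), gl₀ f = c :=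
    ⟨yoneda.preimage (X := Globe.mk k) (Y := Globe.mk (m + 1)) c, yoneda.map_preimage _⟩
  have : ∃ (h : k < m + 1) (ε : Bool), f = gbd h ε := by
    have aux : ∀ (a b : ℕ) (f : GlobeHom a b), a < b → ∃ (h : a < b) (ε : Bool), f = .bd h ε := by
      intro a b f hab
      cases f with
      | id => exact absurd hab (lt_irrefl _)
      | bd h ε => exact ⟨h, ε, rfl⟩
    exact aux k (m + 1) f (by omega)
  obtain ⟨h, ε, rfl⟩ := this
  rcases Nat.lt_or_eq_of_le hkm with h1 | rfl
  · exact ⟨true, gl₀ (gbd h1 ε), (gl₀_comp (gbd h1 ε) (gbd (Nat.lt_succ_self m) true)).symm⟩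
  · exact ⟨ε, 𝟙 (Obj.D k).real, Category.id_comp _⟩

/-! ### generated maps -/

/-- The maps into `S` generated by the `Θ₀` maps under precomposition with maps between globular
sums of dimension `≤ n` and under glueing. -/
inductive Gn (E : GlobExt) (n : ℕ) (S : Obj) : (T : Obj) → E.Hom T S → Prop
  | base {T : Obj} (hT : T.tab.dim ≤ n) (c : Θ₀Hom T S) : Gn E n S T (E.J c)
  | pre {T' T : Obj} (hT' : T'.tab.dim ≤ n) (k : E.Hom T' T) {x : E.Hom T S} :
      Gn E n S T x → Gn E n S T' (E.comp k x)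
  | glue {i j k : ℕ} (hi : j < i) (hk : j < k) (t : Tab k) (h : E.Hom ⟨i, .glue hi hk t⟩ S)
      (hT : Tab.dim (.glue hi hk t) ≤ n) :
      Gn E n S (.D i) (E.comp (E.J (inl₀ hi hk t)) h) →
      Gn E n S ⟨k, t⟩ (E.comp (E.J (inr₀ hi hk t)) h) → Gn E n S ⟨i, .glue hi hk t⟩ h

/-- the maps all of whose `Θ₀` restrictions are generated -/
def GlobExt.Gen (E : GlobExt) {R S : Obj} (ψ : E.Hom R S) : Prop :=
  ∀ (n : ℕ) (T : Obj) (c : Θ₀Hom T R), T.tab.dim ≤ n → Gn E n S T (E.comp (E.J c) ψ)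

theorem Gn.comp {E : GlobExt} {n : ℕ} {R S T : Obj} {x : E.Hom T R} (hx : Gn E n R T x)
    {ψ : E.Hom R S} (hψ : E.Gen ψ) : Gn E n S T (E.comp x ψ) := by
  induction hx with
  | base hT c => exact hψ n _ c hT
  | pre hT' k _ ih =>
    rw [E.assoc]
    exact Gn.pre hT' k ih
  | glue hi hk t h hT _ _ ih1 ih2 =>
    refine Gn.glue hi hk t _ hT ?_ ?_
    · rw [← E.assoc]; exact ih1
    · rw [← E.assoc]; exact ih2

theorem GlobExt.gen_of_globes {E : GlobExt} {R S : Obj} {ψ : E.Hom R S}
    (h : ∀ (n k : ℕ) (_ : k ≤ n) (c : Θ₀Hom (.D k) R), Gn E n S (.D k) (E.comp (E.J c) ψ)) :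
    E.Gen ψ := by
  intro n T c hT
  obtain ⟨i, t⟩ := T
  induction t with
  | disc i => exact h n i hT c
  | @glue i j k hi hk t ih =>
    have hT' : max i t.dim ≤ n := hT
    refine Gn.glue hi hk t _ hT ?_ ?_
    · rw [← E.assoc, ← E.J_comp]
      exact h n i (le_trans (le_max_left _ _) hT') _
    · rw [← E.assoc, ← E.J_comp]
      exact ih _ (le_trans (le_max_right _ _) hT')

theorem GlobExt.gen_J {E : GlobExt} {R S : Obj} (c₀ : Θ₀Hom R S) : E.Gen (E.J c₀) := by
  intro n T c hT
  rw [← E.J_comp]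
  exact Gn.base hT _

theorem GlobExt.gen_id {E : GlobExt} (R : Obj) : E.Gen (E.id R) := by
  rw [← E.J_id]
  exact E.gen_J _

theorem GlobExt.gen_comp {E : GlobExt} {Q R S : Obj} {φ : E.Hom Q R} {ψ : E.Hom R S}
    (hφ : E.Gen φ) (hψ : E.Gen ψ) : E.Gen (E.comp φ ψ) := by
  intro n T c hT
  rw [← E.assoc]
  exact (hφ n T c hT).comp hψ

theorem GlobExt.gen_glue {E : GlobExt} {i j k : ℕ} (hi : j < i) (hk : j < k) (t : Tab k) {S : Obj}
    {h : E.Hom ⟨i, .glue hi hk t⟩ S} (h1 : E.Gen (E.comp (E.J (inl₀ hi hk t)) h))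
    (h2 : E.Gen (E.comp (E.J (inr₀ hi hk t)) h)) : E.Gen h := by
  apply E.gen_of_globes
  intro n l hl c
  rcases globe_glue hi hk t c with ⟨c', rfl⟩ | ⟨c', rfl⟩
  · rw [E.J_comp c' (inl₀ hi hk t), E.assoc]
    exact h1 n _ c' hl
  · rw [E.J_comp c' (inr₀ hi hk t), E.assoc]
    exact h2 n _ c' hl

theorem GlobExt.gen_lift {E : GlobExt} {m : ℕ} {S : Obj} {h : E.Hom (.D (m + 1)) S}
    (hS : S.tab.dim ≤ m + 1)
    (hb : ∀ ε, E.Gen (E.comp (E.J (bd₀ (Nat.lt_succ_self m) ε)) h)) : E.Gen h := by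
  apply E.gen_of_globes
  intro n k hk c
  rcases Nat.lt_or_ge m n with hmn | hmn
  · have h1 : Gn E n S S (E.J (𝟙 S.real)) := Gn.base (by omega) _
    have h2 := Gn.pre (T' := .D k) hk (E.comp (E.J c) h) h1
    rwa [E.J_id, E.comp_id] at h2
  · obtain ⟨ε, c', rfl⟩ := globe_bd (le_trans hk hmn) c
    rw [E.J_comp c' (bd₀ (Nat.lt_succ_self m) ε), E.assoc]
    exact hb ε n _ c' hk

/-- the globular extension of the maps satisfying `Gen` -/
noncomputable def GlobExt.genSub (E : GlobExt) : GlobExt where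
  Hom R S := {ψ : E.Hom R S // E.Gen ψ}
  id S := ⟨E.id S, E.gen_id S⟩
  comp f g := ⟨E.comp f.1 g.1, E.gen_comp f.2 g.2⟩
  id_comp f := Subtype.ext (E.id_comp _)
  comp_id f := Subtype.ext (E.comp_id _)
  assoc f g h := Subtype.ext (E.assoc _ _ _)
  J f := ⟨E.J f, E.gen_J f⟩
  J_id S := Subtype.ext (E.J_id S)
  J_comp f g := Subtype.ext (E.J_comp f g)
  glue hi hk t X f g hfg := by
    obtain ⟨h, ⟨h1, h2⟩, h3⟩ := E.glue hi hk t X f.1 g.1 (congrArg Subtype.val hfg)
    refine ⟨⟨h, E.gen_glue hi hk t (by rw [h1]; exact f.2) (by rw [h2]; exact g.2)⟩,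
      ⟨Subtype.ext h1, Subtype.ext h2⟩, ?_⟩
    rintro h' ⟨h1', h2'⟩
    exact Subtype.ext (h3 h'.1 ⟨congrArg Subtype.val h1', congrArg Subtype.val h2'⟩)

/-- the inclusion of `genSub` -/
noncomputable def GlobExt.genSubIncl (E : GlobExt) : E.genSub.Mor E where
  map f := f.1
  map_id _ := rfl
  map_comp _ _ := rfl
  map_J _ := rfl

/-! ### the canonical tower -/

/-- all parallel pairs `D_n ⇉ S` with `dim S ≤ n + 1` -/
def canonA (E : GlobExt) : Set E.Pair :=
  {p | E.Parallel p.f p.g ∧ p.S.tab.dim ≤ p.n + 1}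

/-- the next stage -/
noncomputable def nextE (E : GlobExt) : GlobExt :=
  (exists_free E (canonA E) fun _ hp => hp.1).choose

/-- the transition functor -/
noncomputable def nextSt (E : GlobExt) : E.Mor (nextE E) :=
  (exists_free E (canonA E) fun _ hp => hp.1).choose_spec.choose

/-- the adjoined lifts -/
noncomputable def nextLift (E : GlobExt) :
    ∀ p ∈ canonA E, (nextE E).Hom (.D (p.n + 1)) p.S :=
  (exists_free E (canonA E) fun _ hp => hp.1).choose_spec.choose_spec.choose

theorem nextIsLift (E : GlobExt) (p : E.Pair) (hp : p ∈ canonA E) :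
    (nextE E).IsLift ((nextSt E).map p.f) ((nextSt E).map p.g) (nextLift E p hp) :=
  (exists_free E (canonA E) fun _ hp => hp.1).choose_spec.choose_spec.choose_spec.1 p hp

theorem nextUniv (E : GlobExt) (F : GlobExt) (G : E.Mor F)
    (l : ∀ p ∈ canonA E, F.Hom (.D (p.n + 1)) p.S)
    (hl : ∀ p (hp : p ∈ canonA E), F.IsLift (G.map p.f) (G.map p.g) (l p hp)) :
    ∃! G' : (nextE E).Mor F, (∀ (S T : Obj) (f : E.Hom S T),
      G'.map ((nextSt E).map f) = G.map f) ∧
      ∀ p (hp : p ∈ canonA E), G'.map (nextLift E p hp) = l p hp :=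
  (exists_free E (canonA E) fun _ hp => hp.1).choose_spec.choose_spec.choose_spec.2 F G l hl

/-- the stages -/
noncomputable def tower : ℕ → GlobExt
  | 0 => theta₀
  | k + 1 => nextE (tower k)

/-- the transition functors -/
noncomputable def tstep (k : ℕ) : (tower k).Mor (tower (k + 1)) := nextSt (tower k)

/-- the adjoined lifts -/
noncomputable def tlift (k : ℕ) :
    ∀ p ∈ canonA (tower k), (tower (k + 1)).Hom (.D (p.n + 1)) p.S := nextLift (tower k)

theorem tisLift (k : ℕ) (p : (tower k).Pair) (hp : p ∈ canonA (tower k)) :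
    (tower (k + 1)).IsLift ((tstep k).map p.f) ((tstep k).map p.g) (tlift k p hp) :=
  nextIsLift (tower k) p hp

theorem tuniv (k : ℕ) (F : GlobExt) (G : (tower k).Mor F)
    (l : ∀ p ∈ canonA (tower k), F.Hom (.D (p.n + 1)) p.S)
    (hl : ∀ p (hp : p ∈ canonA (tower k)), F.IsLift (G.map p.f) (G.map p.g) (l p hp)) :
    ∃! G' : (tower (k + 1)).Mor F, (∀ (S T : Obj) (f : (tower k).Hom S T),
      G'.map ((tstep k).map f) = G.map f) ∧
      ∀ p (hp : p ∈ canonA (tower k)), G'.map (tlift k p hp) = l p hp :=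
  nextUniv (tower k) F G l hl

/-- the colimit -/
noncomputable def tC : GlobExt := (exists_colim tower tstep).choose

/-- the functors from the stages -/
noncomputable def tincl : ∀ k, (tower k).Mor tC := (exists_colim tower tstep).choose_spec.choose

theorem tincl_step (k : ℕ) {S T : Obj} (f : (tower k).Hom S T) :
    (tincl (k + 1)).map ((tstep k).map f) = (tincl k).map f :=
  (exists_colim tower tstep).choose_spec.choose_spec.1 k S T f

theorem tincl_surj {S T : Obj} (f : tC.Hom S T) :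
    ∃ k, ∃ g : (tower k).Hom S T, (tincl k).map g = f :=
  (exists_colim tower tstep).choose_spec.choose_spec.2.1 S T f

theorem tincl_eq (k : ℕ) {S T : Obj} {f g : (tower k).Hom S T}
    (h : (tincl k).map f = (tincl k).map g) :
    ∃ d, (GlobExt.Mor.iter tower tstep k d).map f = (GlobExt.Mor.iter tower tstep k d).map g :=
  (exists_colim tower tstep).choose_spec.choose_spec.2.2.1 k S T f g h

theorem tcolim (F : GlobExt) (G : ∀ k, (tower k).Mor F)
    (h : ∀ k (S T : Obj) (f : (tower k).Hom S T), (G (k + 1)).map ((tstep k).map f) = (G k).map f) :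
    ∃! G' : tC.Mor F, ∀ k (S T : Obj) (f : (tower k).Hom S T),
      G'.map ((tincl k).map f) = (G k).map f :=
  (exists_colim tower tstep).choose_spec.choose_spec.2.2.2 F G h

theorem tincl_iter (k d : ℕ) {S T : Obj} (f : (tower k).Hom S T) :
    (tincl (k + d)).map ((GlobExt.Mor.iter tower tstep k d).map f) = (tincl k).map f := by
  induction d with
  | zero => rfl
  | succ d ih =>
    exact (tincl_step (k + d) _).trans ih

theorem tincl_surj_ge {S T : Obj} (f : tC.Hom S T) :
    ∃ k₀, ∀ k, k₀ ≤ k → ∃ g : (tower k).Hom S T, (tincl k).map g = f := by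
  obtain ⟨k, g, hg⟩ := tincl_surj f
  refine ⟨k, fun l hl => ?_⟩
  obtain ⟨d, rfl⟩ := Nat.exists_eq_add_of_le hl
  exact ⟨_, (tincl_iter k d g).trans hg⟩

theorem iter_eq_mono (k : ℕ) {S T : Obj} {f g : (tower k).Hom S T} {d : ℕ}
    (h : (GlobExt.Mor.iter tower tstep k d).map f = (GlobExt.Mor.iter tower tstep k d).map g)
    (e : ℕ) :
    (GlobExt.Mor.iter tower tstep k (d + e)).map f =
      (GlobExt.Mor.iter tower tstep k (d + e)).map g := by
  induction e with
  | zero => exact h
  | succ e ih => exact congrArg (tstep (k + (d + e))).map ih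

theorem iter_eq_ge (k : ℕ) {S T : Obj} {f g : (tower k).Hom S T} {d d' : ℕ}
    (h : (GlobExt.Mor.iter tower tstep k d).map f = (GlobExt.Mor.iter tower tstep k d).map g)
    (hd : d ≤ d') :
    (GlobExt.Mor.iter tower tstep k d').map f =
      (GlobExt.Mor.iter tower tstep k d').map g := by
  obtain ⟨e, rfl⟩ := Nat.exists_eq_add_of_le hd
  exact iter_eq_mono k h e

/-- all maps of the colimit satisfy `Gen` -/
theorem tC_gen {R S : Obj} (f : tC.Hom R S) : tC.Gen f := by
  obtain ⟨k, g, rfl⟩ := tincl_surj f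
  induction k generalizing R S with
  | zero =>
    have : (tincl 0).map g = tC.J g := (tincl 0).map_J (S := R) (T := S) g
    rw [this]
    exact tC.gen_J _
  | succ k ih =>
    let G : (tower k).Mor tC.genSub :=
      { map := fun f => ⟨(tincl k).map f, ih f⟩
        map_id := fun S => Subtype.ext ((tincl k).map_id S)
        map_comp := fun f g => Subtype.ext ((tincl k).map_comp f g)
        map_J := fun f => Subtype.ext ((tincl k).map_J f) }
    have hlift : ∀ p (hp : p ∈ canonA (tower k)),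
        tC.IsLift ((tincl k).map p.f) ((tincl k).map p.g) ((tincl (k + 1)).map (tlift k p hp)) := by
      intro p hp
      have := GlobExt.Mor.isLift (tincl (k + 1)) (tisLift k p hp)
      rwa [tincl_step, tincl_step] at this
    let l : ∀ p ∈ canonA (tower k), tC.genSub.Hom (.D (p.n + 1)) p.S := fun p hp =>
      ⟨(tincl (k + 1)).map (tlift k p hp), by
        refine tC.gen_lift hp.2 ?_
        rintro (_ | _)
        · rw [(hlift p hp).1]; exact ih _
        · rw [(hlift p hp).2]; exact ih _⟩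
    obtain ⟨G', ⟨hG1, hG2⟩, -⟩ := tuniv k tC.genSub G l (fun p hp =>
      ⟨Subtype.ext (hlift p hp).1, Subtype.ext (hlift p hp).2⟩)
    obtain ⟨D, -, hD⟩ := tuniv k tC (tincl k) (fun p hp => (tincl (k + 1)).map (tlift k p hp)) hlift
    have e1 : G'.trans tC.genSubIncl = D := hD _ ⟨fun S T f => by
      rw [GlobExt.Mor.trans_map, hG1]; rfl, fun p hp => by
      rw [GlobExt.Mor.trans_map, hG2]; rfl⟩
    have e2 : tincl (k + 1) = D := hD _ ⟨fun S T f => tincl_step k f, fun p hp => rfl⟩
    rw [e2, ← e1]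
    exact (G'.map g).2

/-- lifts for targets of small dimension -/
theorem tC_lift_small {n : ℕ} {S : Obj} (hS : S.tab.dim ≤ n + 1) (f g : tC.Hom (.D n) S)
    (hfg : tC.Parallel f g) : ∃ h, tC.IsLift f g h := by
  obtain ⟨k₁, h₁⟩ := tincl_surj_ge f
  obtain ⟨k₂, h₂⟩ := tincl_surj_ge g
  obtain ⟨f', rfl⟩ := h₁ (max k₁ k₂) (le_max_left _ _)
  obtain ⟨g', rfl⟩ := h₂ (max k₁ k₂) (le_max_right _ _)
  generalize max k₁ k₂ = K at f' g' hfg
  have hpar : ∃ d, (tower (K + d)).Parallel ((GlobExt.Mor.iter tower tstep K d).map f')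
      ((GlobExt.Mor.iter tower tstep K d).map g') := by
    cases n with
    | zero => exact ⟨0, trivial⟩
    | succ n =>
      have h : ∀ ε : Bool, ∃ d, (GlobExt.Mor.iter tower tstep K d).map
          ((tower K).comp ((tower K).J (bd₀ (Nat.lt_succ_self n) ε)) f') =
          (GlobExt.Mor.iter tower tstep K d).map
          ((tower K).comp ((tower K).J (bd₀ (Nat.lt_succ_self n) ε)) g') := by
        intro ε
        apply tincl_eq
        rw [(tincl K).map_comp, (tincl K).map_comp, (tincl K).map_J]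
        exact hfg ε
      choose d hd using h
      refine ⟨max (d false) (d true), fun ε => ?_⟩
      have h2 := iter_eq_ge K (hd ε) (show d ε ≤ max (d false) (d true) by
        cases ε
        · exact le_max_left _ _
        · exact le_max_right _ _)
      rwa [GlobExt.Mor.map_comp, GlobExt.Mor.map_comp, GlobExt.Mor.map_J] at h2
  obtain ⟨d, hd⟩ := hpar
  have hA : (⟨n, S, (GlobExt.Mor.iter tower tstep K d).map f',
      (GlobExt.Mor.iter tower tstep K d).map g'⟩ : (tower (K + d)).Pair) ∈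
      canonA (tower (K + d)) := ⟨hd, hS⟩
  have h3 := GlobExt.Mor.isLift (tincl (K + d + 1)) (tisLift (K + d) _ hA)
  rw [tincl_step, tincl_step, tincl_iter, tincl_iter] at h3
  exact ⟨_, h3⟩

/-- degeneracies -/
theorem tC_deg (k : ℕ) : ∃ h : tC.Hom (.D (k + 1)) (.D k), tC.IsLift (tC.id _) (tC.id _) h :=
  tC_lift_small (show (Tab.disc k).dim ≤ k + 1 from Nat.le_succ k) _ _
    (by cases k <;> simp [GlobExt.Parallel])

theorem Gn.fix {E : GlobExt} {n : ℕ} {S S' : Obj} (s : Θ₀Hom S' S) (r : E.Hom S S')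
    (hr : E.comp (E.J s) r = E.id S')
    (hs : ∀ k ≤ n, ∀ c : Θ₀Hom (.D k) S, ∃ c' : Θ₀Hom (.D k) S', c' ≫ s = c)
    {T : Obj} {x : E.Hom T S} (hx : Gn E n S T x) :
    E.comp x (E.comp r (E.J s)) = x := by
  induction hx with
  | @base T hT c =>
    obtain ⟨i, t⟩ := T
    induction t with
    | disc i =>
      obtain ⟨c', rfl⟩ := hs i hT c
      rw [E.J_comp c' s, E.assoc, ← E.assoc (E.J s) r, hr, E.id_comp]
    | @glue i j k hi hk t ih =>
      have hT' : max i t.dim ≤ n := hT
      apply E.glue_ext hi hk t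
      · rw [← E.assoc, ← E.J_comp]
        obtain ⟨c', hc'⟩ := hs i (le_trans (le_max_left _ _) hT') (inl₀ hi hk t ≫ c)
        rw [← hc', E.J_comp c' s, E.assoc, ← E.assoc (E.J s) r, hr, E.id_comp]
      · rw [← E.assoc, ← E.J_comp]
        exact ih (le_trans (le_max_right _ _) hT') (inr₀ hi hk t ≫ c)
  | pre hT' k _ ih => rw [E.assoc, ih]
  | glue hi hk t h hT _ _ ih1 ih2 =>
    apply E.glue_ext hi hk t
    · rw [← E.assoc, ih1]
    · rw [← E.assoc, ih2]

/-- lifts for all targets -/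
theorem tC_lift (n : ℕ) (S : Obj) (f g : tC.Hom (.D n) S) (hfg : tC.Parallel f g) :
    ∃ h, tC.IsLift f g h := by
  obtain ⟨S', s, hS', hs, hr⟩ := exists_trunc n S
  obtain ⟨r, hr⟩ := hr tC (fun k => (tC_deg k).choose) (fun k ε => by
    cases ε
    · exact (tC_deg k).choose_spec.1
    · exact (tC_deg k).choose_spec.2)
  have fix : ∀ f : tC.Hom (.D n) S, tC.comp f (tC.comp r (tC.J s)) = f := by
    intro f
    have h1 := tC_gen f n (.D n) (𝟙 _) le_rfl
    rw [tC.J_id, tC.id_comp] at h1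
    exact h1.fix s r hr hs
  have hpar : tC.Parallel (tC.comp f r) (tC.comp g r) := by
    cases n with
    | zero => trivial
    | succ n =>
      intro ε
      rw [← tC.assoc, ← tC.assoc, hfg ε]
  obtain ⟨h, h1, h2⟩ := tC_lift_small hS' _ _ hpar
  refine ⟨tC.comp h (tC.J s), ?_, ?_⟩
  · rw [← tC.assoc, h1, tC.assoc, fix]
  · rw [← tC.assoc, h2, tC.assoc, fix]

/-- The canonical tower: `E 0 = Θ₀`, `A k` = all parallel pairs `D_n ⇉ S` of `E k` with
`dim S ≤ n + 1`.  Pairs with `dim S ≤ n + 1` in the colimit come from a stage and are parallel at a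
later stage, so they have lifts.  For general `S`: take `s : S' ⟶ S` and `r` from `exists_trunc`
(degeneracies are lifts of `(id, id)`, `dim D_k ≤ k + 1`); every `f : D_n ⟶ S` of the colimit
factors through `s`, i.e. `f r s = f`, by the generation argument: let `G n S` be the smallest family
of maps `T ⟶ S`, `dim T ≤ n`, containing the `Θ₀` maps, closed under precomposition with all maps
between globular sums of dimension `≤ n` and under `desc` (glueing); the maps `φ : R ⟶ S` such that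
`φ ∘ c ∈ G n S` for all `n` and all `Θ₀` maps `c : T ⟶ R`, `dim T ≤ n`, contain `Θ₀`, are closed under
composition and `desc`, and contain the adjoined lifts `h : D_{m+1} ⟶ S`, `dim S ≤ m + 1` (for
`n ≥ m + 1` because `h = id_S ∘ h`, for `n ≤ m` because every globe of dimension `≤ m` of `D_{m+1}`
factors through the source or the target), hence are all maps; and all maps of `G n S` satisfy
`f r s = f`.  Then `f r` and `g r` are parallel `D_n ⇉ S'`, a lift composed with `s` is a lift of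
`(f, g)`. -/
theorem nonempty_coherator : Nonempty Coherator :=
  ⟨{ E := tower
     zero := fun _ _ => Function.bijective_id
     step := tstep
     A := fun k => canonA (tower k)
     A_parallel := fun _ _ hp => hp.1
     A_dim := fun _ _ hp => hp.2
     lift := tlift
     isLift := tisLift
     universal := tuniv
     C := tC
     incl := tincl
     incl_step := fun k _ _ f => tincl_step k f
     colimit := tcolim
     exists_lift := tC_lift }⟩

end Vale.Agent.P259
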