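import Vale.Agent.Lib.P259.DiscContr

/-!
# P259, module A4a: the interface between the topological part and the final assembly
-/

namespace Vale.Agent.P259

open CategoryTheory Limits Topology Set Opposite

namespace Coherator

variable (C : Coherator)

/-- the representable presheaf is an infinity-groupoid -/
theorem isGpd_yoneda (S : C.C.Cat) : C.C.IsGpd (yoneda.obj S) := by
  intro i j k hi hk t a b h
  obtain ⟨w, ⟨h1, h2⟩, h3⟩ := C.C.glue hi hk t S.obj a b (Eq.trans h (C.C.assoc _ _ _).symm)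
  exact ⟨w, ⟨h1, h2⟩, h3⟩

/-- the representable infinity-groupoids, as a functor -/
def repG : C.C.Cat ⥤ C.C.Gpd := ObjectProperty.lift _ yoneda C.isGpd_yoneda

variable {C}

/-- parallel cells -/
def ParCells (W : C.C.Catᵒᵖ ⥤ Type) : {n : ℕ} → cells W n → cells W n → Prop
  | 0, _, _ => True
  | _ + 1, u, v => ∀ ε : Bool, bdCell W ε u = bdCell W ε v

end Coherator

/-- The data produced by the topological part, for a coherator and a disc functor: a functor `Q` to
spaces with maps `η W n w : D(D_n) ⟶ Q W` for every `n`-cell `w` of `W`, compatible with boundaries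
and natural, such that discs in `Q W` whose boundary comes from cells come from cells up to
homotopy, and an evaluation map `Q (Π Y) ⟶ Y`. -/
structure QData (C : Coherator) (D : DiscFunctor C.C) where
  Q : C.C.Gpd ⥤ Top'
  η : ∀ (W : C.C.Gpd) (n : ℕ), Coherator.cells W.obj n → C(D.sp (.D n), (Q.obj W).toTop)
  η_bd : ∀ (W : C.C.Gpd) (n : ℕ) (ε : Bool) (u : Coherator.cells W.obj (n + 1)) (x : D.sp (.D n)),
    η W (n + 1) u (D.mp (C.C.J (bd₀ (Nat.lt_succ_self n) ε)) x) =
      η W n (Coherator.bdCell W.obj ε u) x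
  η_nat : ∀ {W V : C.C.Gpd} (f : W ⟶ V) (n : ℕ) (u : Coherator.cells W.obj n) (x : D.sp (.D n)),
    (Q.map f).hom.hom (η W n u x) = η V n (Coherator.onCells f.hom u) x
  surj₀ : ∀ (W : C.C.Gpd) (q : (Q.obj W).toTop) (x : D.sp (.D 0)),
    ∃ u : Coherator.cells W.obj 0, Joined (η W 0 u x) q
  surj : ∀ (W : C.C.Gpd) (n : ℕ) (u v : Coherator.cells W.obj n)
    (z : C(D.sp (.D (n + 1)), (Q.obj W).toTop)),
    (∀ x, z (D.mp (C.C.J (bd₀ (Nat.lt_succ_self n) false)) x) = η W n u x) →
    (∀ x, z (D.mp (C.C.J (bd₀ (Nat.lt_succ_self n) true)) x) = η W n v x) →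
    Coherator.ParCells W.obj u v →
    ∃ w : Coherator.cells W.obj (n + 1), Coherator.bdCell W.obj false w = u ∧
      Coherator.bdCell W.obj true w = v ∧
      ContinuousMap.HomotopicRel z (η W (n + 1) w)
        {x | (D.homeo (n + 1) x : Fin (n + 1) → ℝ) ∈ sph (n + 1)}
  wc : ∀ S : C.C.Cat, WContr (univ : Set (Q.obj (C.repG.obj S)).toTop)
  ev : D.Pi ⋙ Q ⟶ 𝟭 Top'

end Vale.Agent.P259
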