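import Vale.Agent.Lib.P259.EGlobT
import Vale.Agent.Lib.P259.QData
/-!
# P259, module F6: the instance of `QData`
-/
namespace Vale.Agent.P259
open CategoryTheory Set Topology Opposite

variable {C : Coherator} (D : DiscFunctor C.C)

/-- the morphism of presheaves of a morphism of infinity-groupoids -/
def qHom {W V : C.C.Gpd} (f : W ⟶ V) : (PSh.ofFunctor W.obj).Hom (PSh.ofFunctor V.obj) where
  app {S} w := f.hom.app (op S) w
  nat {_ _} g w := ConcreteCategory.congr_hom (f.hom.naturality g.op) w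

/-- cells of `Π_∞ Y` as continuous maps -/
def qPi (Y : Top') : (PSh.ofFunctor (D.presheaf Y)).Hom (PiP D Y.toTop) where
  app {S} u := (show (D.F.obj S ⟶ Y) from u).hom.hom
  nat {_ _} _ _ := rfl

theorem gpP_ofFunctor (W : C.C.Gpd) : GpP C.C (PSh.ofFunctor W.obj) := by
  intro i j k hi hk t a b h
  exact W.property hi hk t a b h

theorem parP_ofFunctor (W : C.C.Gpd) {n : ℕ} {u v : Coherator.cells W.obj n}
    (h : Coherator.ParCells W.obj u v) :
    Coherator.ParP (PSh.ofFunctor W.obj) (n := n) u v := by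
  cases n with
  | zero => exact trivial
  | succ n => exact h

/-- the map of discs of a cell -/
noncomputable def qEta (W : C.C.Gpd) (n : ℕ) (w : Coherator.cells W.obj n) :
    C(D.sp (.D n), TW D (PSh.ofFunctor W.obj)) :=
  ⟨fun d => tcell D n (PSh.ofFunctor W.obj) w (D.homeo n d), by
    have h := (continuousOn_tcell D n (PSh.ofFunctor W.obj) w).comp_continuous
      (continuous_subtype_val.comp (D.homeo n).continuous) (fun d => (D.homeo n d).2)
    exact h⟩

theorem qEta_apply (W : C.C.Gpd) (n : ℕ) (w : Coherator.cells W.obj n) (d : D.sp (.D n)) :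
    qEta D W n w d = tcell D n (PSh.ofFunctor W.obj) w (D.homeo n d) := rfl

theorem qEta_pt (W : C.C.Gpd) (n : ℕ) (w : Coherator.cells W.obj n) {x : Fin n → ℝ}
    (hx : x ∈ closedDisc n) :
    qEta D W n w (D.pt n x) = tcell D n (PSh.ofFunctor W.obj) w x := by
  rw [qEta_apply, D.homeo_pt hx]

theorem qEta_bd (W : C.C.Gpd) (n : ℕ) (ε : Bool) (u : Coherator.cells W.obj (n + 1))
    (x : D.sp (.D n)) :
    qEta D W (n + 1) u (D.mp (C.C.J (bd₀ (Nat.lt_succ_self n) ε)) x) =
      qEta D W n (Coherator.bdCell W.obj ε u) x := by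
  rw [qEta_apply, qEta_apply, D.hemi_mp]
  exact tcell_hemi D n (PSh.ofFunctor W.obj) u ε (D.homeo n x).2

theorem homotopicRel_of_hRel {X : Type} [TopologicalSpace X] {n : ℕ}
    {a b : C(D.sp (.D n), X)} {f g : (Fin n → ℝ) → X} (h : HRel f g)
    (ha : ∀ d, g (D.homeo n d) = a d) (hb : ∀ d, f (D.homeo n d) = b d) :
    ContinuousMap.HomotopicRel a b {x | (D.homeo n x : Fin n → ℝ) ∈ sph n} := by
  obtain ⟨H, hH, h0, h1, hs⟩ := h
  have hmem : ∀ q : unitInterval × D.sp (.D n),
      (((D.homeo n q.2 : Fin n → ℝ), 1 - (q.1 : ℝ)) : (Fin n → ℝ) × ℝ) ∈ closedDisc n ×ˢ uI := by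
    intro q
    refine ⟨(D.homeo n q.2).2, ?_⟩
    have h1 := q.1.2
    change (0 : ℝ) ≤ 1 - (q.1 : ℝ) ∧ 1 - (q.1 : ℝ) ≤ 1
    exact ⟨by linarith [h1.2], by linarith [h1.1]⟩
  have hc : Continuous fun q : unitInterval × D.sp (.D n) =>
      H ((D.homeo n q.2 : Fin n → ℝ), 1 - (q.1 : ℝ)) := by
    refine hH.comp_continuous ?_ hmem
    exact ((continuous_subtype_val.comp (D.homeo n).continuous).comp continuous_snd).prodMk
      (continuous_const.sub (continuous_subtype_val.comp continuous_fst))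
  refine ⟨⟨⟨⟨fun q => H ((D.homeo n q.2 : Fin n → ℝ), 1 - (q.1 : ℝ)), hc⟩, ?_, ?_⟩, ?_⟩⟩
  · intro d
    change H ((D.homeo n d : Fin n → ℝ), 1 - ((0 : unitInterval) : ℝ)) = a d
    rw [show (1 - ((0 : unitInterval) : ℝ)) = 1 by simp, h1 _ (D.homeo n d).2, ha]
  · intro d
    change H ((D.homeo n d : Fin n → ℝ), 1 - ((1 : unitInterval) : ℝ)) = b d
    rw [show (1 - ((1 : unitInterval) : ℝ)) = 0 by simp, h0 _ (D.homeo n d).2, hb]
  · intro t d hd
    change H ((D.homeo n d : Fin n → ℝ), 1 - (t : ℝ)) = a d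
    have hd' : (D.homeo n d : Fin n → ℝ) ∈ sph n := hd
    rw [hs _ hd' _ (hmem (t, d)).2, ← ha d, ← h1 _ (D.homeo n d).2,
      hs _ hd' 1 ⟨zero_le_one, le_refl _⟩]

/-- `Q W = TW D W`, `η W n w d = tcell D n W w (D.homeo n d)`, `ev = TW.ev` -/
noncomputable def qData : QData C D where
  Q := {
    obj := fun W => CompactlyGenerated.of (TW D (PSh.ofFunctor W.obj))
    map := fun {W V} f => CompactlyGenerated.ofHom
      (⟨TW.map (qHom f), TW.continuous_map _⟩ :
        C(TW D (PSh.ofFunctor W.obj), TW D (PSh.ofFunctor V.obj)))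
    map_id := fun W => by
      ext x
      rfl
    map_comp := fun f g => by
      ext x
      rfl }
  η W n w := qEta D W n w
  η_bd W n ε u x := qEta_bd D W n ε u x
  η_nat {W V} f n u x := map_tcell D (qHom f) n u (D.homeo n x)
  surj₀ W q x := by
    obtain ⟨w, H, hH, h0, h1, -⟩ := eglobT₀ D (PSh.ofFunctor W.obj) q
    refine ⟨w, ⟨⟨⟨fun t => H ((D.homeo 0 x : Fin 0 → ℝ), (t : ℝ)), ?_⟩, ?_, ?_⟩⟩⟩
    · refine hH.comp_continuous ?_ fun t => ⟨(D.homeo 0 x).2, t.2⟩
      exact continuous_const.prodMk continuous_subtype_val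
    · exact h0 _ (D.homeo 0 x).2
    · exact h1 _ (D.homeo 0 x).2
  surj W n u v z h0 h1 hp := by
    obtain ⟨w, hw0, hw1, hw⟩ := eglobT D n (PSh.ofFunctor W.obj) (gpP_ofFunctor W) u v
      (parP_ofFunctor W hp) (fun x => z (D.pt (n + 1) x))
      (z.continuous.comp_continuousOn (D.continuousOn_pt (n + 1)))
      (fun x hx => by rw [← D.mp_pt false hx, h0]; exact qEta_pt D W n u hx)
      (fun x hx => by rw [← D.mp_pt true hx, h1]; exact qEta_pt D W n v hx)
    refine ⟨w, hw0, hw1, ?_⟩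
    exact homotopicRel_of_hRel D hw (fun d => congrArg z (D.pt_homeo d)) (fun d => rfl)
  wc S := TW.wcontr_rep (D := D) S
  ev := {
    app := fun Y => (ConcreteCategory.ofHom
      (⟨fun x => TW.ev D (TW.map (qPi D Y) x),
        (TW.continuous_ev D).comp (TW.continuous_map _)⟩ :
        C(TW D (PSh.ofFunctor (D.presheaf Y)), Y.toTop)))
    naturality := fun X Y f => by
      ext x
      rfl }

end Vale.Agent.P259
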