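import Vale.Agent.Lib.P259.Defs

/-!
# P259, module A1: realizations of globular sums, representability, extension to `Θ₀`
-/

namespace Vale.Agent.P259

open CategoryTheory Limits Opposite

universe u

/-- The boundary morphism in the globe category. -/
def gbd {m n : ℕ} (h : m < n) (ε : Bool) : Globe.mk m ⟶ Globe.mk n := GlobeHom.bd h ε

@[reassoc]
theorem gbd_gbd {l m n : ℕ} (h : l < m) (h' : m < n) (ε ε' : Bool) :
    gbd h ε ≫ gbd h' ε' = gbd (h.trans h') ε := rfl

/-- Maps of `Θ₀` between globes given by maps of globes. -/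
noncomputable def gl₀ {m n : ℕ} (f : Globe.mk m ⟶ Globe.mk n) : Θ₀Hom (.D m) (.D n) := yoneda.map f

theorem gl₀_gbd {m n : ℕ} (h : m < n) (ε : Bool) : gl₀ (gbd h ε) = bd₀ h ε := rfl

theorem gl₀_id (n : ℕ) : gl₀ (𝟙 (Globe.mk n)) = 𝟙 (Obj.D n).real := yoneda.map_id _

theorem gl₀_comp {l m n : ℕ} (f : Globe.mk l ⟶ Globe.mk m) (g : Globe.mk m ⟶ Globe.mk n) :
    gl₀ (f ≫ g) = (gl₀ f ≫ gl₀ g : (Obj.D l).real ⟶ (Obj.D n).real) := yoneda.map_comp _ _

/-- The defining pushout of a globular sum, at the level of globular sets. -/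
theorem real_isPushout {i j k : ℕ} (hi : j < i) (hk : j < k) (t : Tab k) :
    IsPushout (C := GSet) (X := (Obj.D i).real) (Y := (Obj.mk k t).real) (Z := (Obj.D j).real)
      (P := (Obj.mk i (.glue hi hk t)).real)
      (bd₀ hi true) (bd₀ hk false ≫ first₀ t) (inl₀ hi hk t) (inr₀ hi hk t) :=
  IsPushout.of_hasPushout (bdMap hi true) (bdMap hk false ≫ t.real.2)

theorem first₀_disc (i : ℕ) : first₀ (.disc i) = 𝟙 (Obj.D i).real := rfl

theorem first₀_glue {i j k : ℕ} (hi : j < i) (hk : j < k) (t : Tab k) :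
    first₀ (.glue hi hk t) = inl₀ hi hk t := rfl

/-- `N F X` is the globular set `n ↦ (F (D n) ⟶ X)`. -/
def nerveG {D : Type u} [Category.{0} D] (F : Globe ⥤ D) (X : D) : GSet :=
  F.op ⋙ yoneda.obj X

/-- functoriality of `nerveG` -/
def nerveG.map {D : Type u} [Category.{0} D] (F : Globe ⥤ D) {X Y : D} (f : X ⟶ Y) :
    nerveG F X ⟶ nerveG F Y :=
  Functor.whiskerLeft F.op (yoneda.map f)

section
variable {D : Type u} [Category.{0} D] (F : Globe ⥤ D)

theorem nerveG.map_id (X : D) : nerveG.map F (𝟙 X) = 𝟙 _ := by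
  simp [nerveG.map, nerveG]

@[reassoc]
theorem nerveG.map_comp {X Y Z : D} (f : X ⟶ Y) (g : Y ⟶ Z) :
    nerveG.map F (f ≫ g) = nerveG.map F f ≫ nerveG.map F g := by
  simp [nerveG.map, nerveG]

/-- the element of `nerveG F X` given by a morphism -/
def elt {X : D} {n : ℕ} (f : F.obj (Globe.mk n) ⟶ X) :
    (Obj.D n).real ⟶ nerveG F X := yonedaEquiv.symm f

@[reassoc]
theorem elt_comp {X Y : D} {n : ℕ}
    (f : F.obj (Globe.mk n) ⟶ X) (g : X ⟶ Y) : elt F f ≫ nerveG.map F g = elt F (f ≫ g) :=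
  yonedaEquiv_symm_naturality_right _ (nerveG.map F g) f

@[reassoc]
theorem gl₀_elt {X : D} {m n : ℕ}
    (h : Globe.mk m ⟶ Globe.mk n) (f : F.obj (Globe.mk n) ⟶ X) :
    gl₀ h ≫ elt F f = elt F (F.map h ≫ f) :=
  yonedaEquiv_symm_naturality_left h (nerveG F X) f

@[reassoc]
theorem bd₀_elt {X : D} {m n : ℕ} (h : m < n) (ε : Bool) (f : F.obj (Globe.mk n) ⟶ X) :
    bd₀ h ε ≫ elt F f = elt F (F.map (gbd h ε) ≫ f) :=
  gl₀_elt F (gbd h ε) f

theorem elt_bijective {X : D} {n : ℕ} :
    Function.Bijective (elt F : (F.obj (Globe.mk n) ⟶ X) → ((Obj.D n).real ⟶ nerveG F X)) :=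
  (yonedaEquiv (X := Globe.mk n) (F := nerveG F X)).symm.bijective

theorem elt_injective {X : D} {n : ℕ}
    {f g : F.obj (Globe.mk n) ⟶ X} (h : elt F f = elt F g) : f = g := (elt_bijective F).1 h

theorem elt_surjective {X : D} {n : ℕ} (a : (Obj.D n).real ⟶ nerveG F X) :
    ∃ f : F.obj (Globe.mk n) ⟶ X, elt F f = a := (elt_bijective F).2 a
end

/-- A realization of the globular sums in a category with a coglobular object `F`. -/
structure Realization {D : Type u} [Category.{0} D] (F : Globe ⥤ D) where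
  /-- the realizations -/
  obj : Obj → D
  /-- the inclusion of the first globe -/
  first : ∀ {i : ℕ} (t : Tab i), F.obj (Globe.mk i) ⟶ obj ⟨i, t⟩
  first_disc : ∀ i : ℕ, IsIso (first (.disc i))
  /-- the inclusion of the rest -/
  rest : ∀ {i j k : ℕ} (hi : j < i) (hk : j < k) (t : Tab k), obj ⟨k, t⟩ ⟶ obj ⟨i, .glue hi hk t⟩
  isPushout : ∀ {i j k : ℕ} (hi : j < i) (hk : j < k) (t : Tab k),
    IsPushout (F.map (gbd hi true)) (F.map (gbd hk false) ≫ first t)
      (first (.glue hi hk t)) (rest hi hk t)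

namespace Realization

variable {D : Type u} [Category.{0} D] {F : Globe ⥤ D} (R : Realization F)

/-- The universal element. -/
noncomputable def iotaAux : ∀ {i : ℕ} (t : Tab i),
    { a : (Obj.mk i t).real ⟶ nerveG F (R.obj ⟨i, t⟩) // first₀ t ≫ a = elt F (R.first t) }
  | i, .disc _ => ⟨elt F (R.first (.disc i)), Category.id_comp _⟩
  | _, .glue hi hk t =>
    ⟨(real_isPushout hi hk t).desc (elt F (R.first (.glue hi hk t)))
      ((iotaAux t).1 ≫ nerveG.map F (R.rest hi hk t)) (by
        rw [bd₀_elt, Category.assoc, reassoc_of% (iotaAux t).2,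
          elt_comp, bd₀_elt, (R.isPushout hi hk t).w,
          Category.assoc]), IsPushout.inl_desc _ _ _ _⟩

/-- The universal element, as a map of globular sets. -/
noncomputable def iota (S : Obj) : S.real ⟶ nerveG F (R.obj S) := (R.iotaAux S.tab).1

@[reassoc]
theorem first_iota {i : ℕ} (t : Tab i) :
    first₀ t ≫ R.iota ⟨i, t⟩ = elt F (R.first t) :=
  (R.iotaAux t).2

@[reassoc]
theorem inl_iota {i j k : ℕ} (hi : j < i) (hk : j < k) (t : Tab k) :
    inl₀ hi hk t ≫ R.iota ⟨i, .glue hi hk t⟩ = elt F (R.first (.glue hi hk t)) :=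
  R.first_iota (.glue hi hk t)

@[reassoc]
theorem rest_iota {i j k : ℕ} (hi : j < i) (hk : j < k) (t : Tab k) :
    inr₀ hi hk t ≫ R.iota ⟨i, .glue hi hk t⟩ = R.iota ⟨k, t⟩ ≫ nerveG.map F (R.rest hi hk t) :=
  IsPushout.inr_desc _ _ _ _

theorem rep_bijective {i : ℕ} (t : Tab i) (X : D) :
    Function.Bijective (fun f : R.obj ⟨i, t⟩ ⟶ X => R.iota ⟨i, t⟩ ≫ nerveG.map F f) := by
  induction t with
  | disc i =>
    have := R.first_disc i
    have key : ∀ f : R.obj ⟨i, .disc i⟩ ⟶ X, R.iota ⟨i, .disc i⟩ ≫ nerveG.map F f =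
        elt F (R.first (.disc i) ≫ f) := by
      intro f
      rw [← elt_comp, ← R.first_iota]
      exact congrArg (· ≫ nerveG.map F f) (Category.id_comp _).symm
    constructor
    · intro f g h
      simp only [key] at h
      exact (cancel_epi (R.first (.disc i))).1 (elt_injective F h)
    · intro a
      obtain ⟨f, hf⟩ := elt_surjective F a
      refine ⟨inv (R.first (.disc i)) ≫ f, ?_⟩
      simp only [key, IsIso.hom_inv_id_assoc, hf]
  | @glue i j k hi hk t ih =>
    have e : ∀ φ : R.obj ⟨i, .glue hi hk t⟩ ⟶ X,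
        R.iota ⟨k, t⟩ ≫ nerveG.map F (R.rest hi hk t ≫ φ) =
          inr₀ hi hk t ≫ R.iota ⟨i, .glue hi hk t⟩ ≫ nerveG.map F φ := by
      intro φ
      rw [R.rest_iota_assoc, nerveG.map_comp]
    constructor
    · intro f g h
      simp only at h
      apply (R.isPushout hi hk t).hom_ext
      · apply elt_injective F
        rw [← elt_comp, ← elt_comp, ← R.inl_iota, Category.assoc, Category.assoc, h]
      · apply ih.1
        simp only [e, h]
    · intro a
      obtain ⟨f, hf⟩ := elt_surjective F (inl₀ hi hk t ≫ a)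
      obtain ⟨g, hg⟩ := ih.2 (inr₀ hi hk t ≫ a)
      simp only at hg
      have w : F.map (gbd hi true) ≫ f = (F.map (gbd hk false) ≫ R.first t) ≫ g := by
        apply elt_injective F
        rw [← bd₀_elt, hf, Category.assoc, ← bd₀_elt, ← elt_comp, ← R.first_iota,
          Category.assoc, hg, ← Category.assoc, ← Category.assoc, ← Category.assoc,
          (real_isPushout hi hk t).w]
      refine ⟨(R.isPushout hi hk t).desc f g w, ?_⟩
      simp only
      apply (real_isPushout hi hk t).hom_ext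
      · rw [R.inl_iota_assoc, elt_comp, IsPushout.inl_desc, hf]
      · rw [← hg, R.rest_iota_assoc, ← nerveG.map_comp, IsPushout.inr_desc]

theorem rep_bijective' (S : Obj) (X : D) :
    Function.Bijective (fun f : R.obj S ⟶ X => R.iota S ≫ nerveG.map F f) :=
  R.rep_bijective S.tab X

theorem hom_ext {S : Obj} {X : D} {f g : R.obj S ⟶ X}
    (h : R.iota S ≫ nerveG.map F f = R.iota S ≫ nerveG.map F g) : f = g :=
  (R.rep_bijective' S X).1 h

/-- the morphism `R.obj S ⟶ X` with given restriction to globes -/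
noncomputable def desc {S : Obj} {X : D} (a : S.real ⟶ nerveG F X) : R.obj S ⟶ X :=
  ((R.rep_bijective' S X).2 a).choose

@[reassoc (attr := simp)]
theorem iota_desc {S : Obj} {X : D} (a : S.real ⟶ nerveG F X) :
    R.iota S ≫ nerveG.map F (R.desc a) = a :=
  ((R.rep_bijective' S X).2 a).choose_spec

theorem desc_comp {S : Obj} {X Y : D} (a : S.real ⟶ nerveG F X) (f : X ⟶ Y) :
    R.desc a ≫ f = R.desc (a ≫ nerveG.map F f) := by
  apply R.hom_ext
  rw [nerveG.map_comp, iota_desc_assoc, iota_desc]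

theorem desc_iota (S : Obj) : R.desc (R.iota S) = 𝟙 _ := by
  apply R.hom_ext
  rw [iota_desc, nerveG.map_id, Category.comp_id]

theorem first_desc {i : ℕ} (t : Tab i) {X : D} (a : (Obj.mk i t).real ⟶ nerveG F X) :
    elt F (R.first t ≫ R.desc a) = first₀ t ≫ a := by
  rw [← elt_comp, ← R.first_iota, Category.assoc, iota_desc]

/-- The functor from `Θ₀` given by a realization, on morphisms. -/
noncomputable def J {S T : Obj} (f : Θ₀Hom S T) : R.obj S ⟶ R.obj T :=
  R.desc (f ≫ R.iota T)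

theorem J_id (S : Obj) : R.J (𝟙 S.real) = 𝟙 _ := by
  rw [J, Category.id_comp, desc_iota]

theorem J_comp {S T U : Obj} (f : Θ₀Hom S T) (g : Θ₀Hom T U) :
    R.J (S := S) (T := U) (f ≫ g) = R.J f ≫ R.J g := by
  rw [J, J, desc_comp, Category.assoc, Category.assoc]
  congr 2
  rw [J, iota_desc]

@[reassoc]
theorem iota_J {S T : Obj} (f : Θ₀Hom S T) :
    R.iota S ≫ nerveG.map F (R.J f) = f ≫ R.iota T := R.iota_desc _

theorem J_inr {i j k : ℕ} (hi : j < i) (hk : j < k) (t : Tab k) :
    R.J (inr₀ hi hk t) = R.rest hi hk t := by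
  apply R.hom_ext
  rw [iota_J, rest_iota]

theorem iota_disc (i : ℕ) : R.iota (Obj.D i) = elt F (R.first (.disc i)) := by
  rw [← R.first_iota]
  exact (Category.id_comp _).symm

@[reassoc]
theorem first_J_first {i : ℕ} (t : Tab i) : R.first (.disc i) ≫ R.J (first₀ t) = R.first t := by
  apply elt_injective F
  rw [← elt_comp, ← R.iota_disc, ← R.first_iota]
  exact R.iota_J (first₀ t)

@[reassoc]
theorem first_J_inl {i j k : ℕ} (hi : j < i) (hk : j < k) (t : Tab k) :
    R.first (.disc i) ≫ R.J (inl₀ hi hk t) = R.first (.glue hi hk t) :=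
  R.first_J_first (.glue hi hk t)

@[reassoc]
theorem first_J_gl {m n : ℕ} (f : Globe.mk m ⟶ Globe.mk n) :
    R.first (.disc m) ≫ R.J (gl₀ f) = F.map f ≫ R.first (.disc n) := by
  apply elt_injective F
  rw [← elt_comp, ← R.iota_disc, ← gl₀_elt, ← R.iota_disc, iota_J]

@[reassoc]
theorem first_J_bd {m n : ℕ} (h : m < n) (ε : Bool) :
    R.first (.disc m) ≫ R.J (bd₀ h ε) = F.map (gbd h ε) ≫ R.first (.disc n) :=
  R.first_J_gl (gbd h ε)

theorem J_isPushout {i j k : ℕ} (hi : j < i) (hk : j < k) (t : Tab k) :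
    IsPushout (R.J (bd₀ hi true)) (R.J (bd₀ hk false) ≫ R.J (first₀ t))
      (R.J (inl₀ hi hk t)) (R.J (inr₀ hi hk t)) := by
  have := R.first_disc i
  have := R.first_disc j
  have := R.first_disc k
  refine (R.isPushout hi hk t).of_iso (asIso (R.first (.disc j))) (asIso (R.first (.disc i)))
    (Iso.refl _) (Iso.refl _) ?_ ?_ ?_ ?_
  · simp [first_J_bd]
  · simp [first_J_bd_assoc, first_J_first]
  · simp [first_J_inl]
  · simp [J_inr]

/-- The globular extension given by a realization. -/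
noncomputable def globExt : GlobExt where
  Hom S T := R.obj S ⟶ R.obj T
  id S := 𝟙 _
  comp f g := f ≫ g
  id_comp f := Category.id_comp f
  comp_id f := Category.comp_id f
  assoc f g h := Category.assoc f g h
  J f := R.J f
  J_id := R.J_id
  J_comp := R.J_comp
  glue hi hk t T f g w := by
    refine ⟨(R.J_isPushout hi hk t).desc f g w, ⟨IsPushout.inl_desc _ _ _ _,
      IsPushout.inr_desc _ _ _ _⟩, ?_⟩
    rintro h ⟨h1, h2⟩
    apply (R.J_isPushout hi hk t).hom_ext
    · rw [h1, IsPushout.inl_desc]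
    · rw [h2, IsPushout.inr_desc]

end Realization

end Vale.Agent.P259
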