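import Vale.Agent.Lib.P259.BimCone
import Vale.Agent.Lib.P259.BimEv
import Vale.Agent.Lib.P259.BimPr
/-!
# P259, module S1: the posets of the path fibration
-/
namespace Vale.Agent.P259
open CategoryTheory Set Topology

variable {C : Type} [Category.{0} C] (𝒮 : SuspData C) (W : PSh C)

/-- `X = {(σ, ζ ; χ : σ.top ⟶ ζ.bot, s : pt ⟶ ζ.bot ; w) | w ∘ s = x}` -/
@[simps]
def bimX (x : W.obj 𝒮.pt) : Bim C W where
  H T S := (T ⟶ S) × (𝒮.pt ⟶ S)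
  pre g ψ := (g ≫ ψ.1, ψ.2)
  post ψ f := (ψ.1 ≫ f, ψ.2 ≫ f)
  pre_id ψ := by simp
  pre_comp g g' ψ := by simp
  post_id ψ := by simp
  post_comp ψ f g := by simp
  pre_post g ψ f := by simp
  K ψ w := W.res ψ.2 w = x
  K_pre _ _ _ h := h
  K_post ψ f w := by simp [W.res_comp]

/-- evaluation at `χ` -/
@[simps]
def evX (x : W.obj 𝒮.pt) : (bimX 𝒮 W x).Ev W where
  ev ψ w _ := W.res ψ.1 w
  ev_pre _ _ _ _ := W.res_comp _ _ _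
  ev_post _ _ _ _ := W.res_comp _ _ _

/-- the fibre module: `{(ζ ; φ : S₀ ⟶ ζ.bot, s : pt ⟶ ζ.bot ; w) | w ∘ s = x, w ∘ φ = w₀}` -/
abbrev modV (x : W.obj 𝒮.pt) (S₀ : C) (w₀ : W.obj S₀) : CoM W := (evX 𝒮 W x).fib S₀ w₀

/-- isomorphic presheaves have isomorphic posets of elements -/
def QW.isoOfHoms {V V' : PSh C} (F : V.Hom V') (G : V'.Hom V)
    (h1 : ∀ {S : C} (w : V.obj S), G.app (F.app w) = w)
    (h2 : ∀ {S : C} (w : V'.obj S), F.app (G.app w) = w) : QW V ≃o QW V' where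
  toFun := QW.map F
  invFun := QW.map G
  left_inv x := QW.ext rfl (heq_of_eq (h1 x.w))
  right_inv x := QW.ext rfl (heq_of_eq (h2 x.w))
  map_rel_iff' := by
    intro x y
    constructor
    · intro h
      have h' := QW.map_mono G h
      have e1 : QW.map G (QW.map F x) = x := QW.ext rfl (heq_of_eq (h1 x.w))
      have e2 : QW.map G (QW.map F y) = y := QW.ext rfl (heq_of_eq (h1 y.w))
      have h'' : QW.map G (QW.map F x) ≤ QW.map G (QW.map F y) := h'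
      rwa [e1, e2] at h''
    · intro h
      exact QW.map_mono F h

theorem QW.wcontr_of_homs {V V' : PSh C} (F : V.Hom V') (G : V'.Hom V)
    (h1 : ∀ {S : C} (w : V.obj S), G.app (F.app w) = w)
    (h2 : ∀ {S : C} (w : V'.obj S), F.app (G.app w) = w)
    (h : WContr (univ : Set (QW V'))) : WContr (univ : Set (QW V)) :=
  (isWE_of_orderIso (QW.isoOfHoms F G h1 h2)).wcontr_iff.2 h

/-- the one-sided module `(pt ⟶ S, x)` -/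
def pathM (x : W.obj 𝒮.pt) : CoM W where
  H S := 𝒮.pt ⟶ S
  post ψ f := ψ ≫ f
  post_id ψ := Category.comp_id ψ
  post_comp ψ f g := (Category.assoc ψ f g).symm
  K ψ w := W.res ψ w = x
  K_post ψ f w := by rw [W.res_comp]

/-- forget `χ` -/
def prX (x : W.obj 𝒮.pt) : (bimX 𝒮 W x).Pr (pathM 𝒮 W x) where
  pr ψ := ψ.2
  pr_pre _ _ := rfl
  pr_post _ _ := rfl
  K_iff _ _ := Iff.rfl

theorem wcontr_pathM (x : W.obj 𝒮.pt) : WContr (univ : Set (pathM 𝒮 W x).P) := by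
  refine CoM.wcontr_of_universal (pathM 𝒮 W x) 𝒮.pt (𝟙 𝒮.pt) x (W.res_id x) ?_ ?_
  · intro S ψ w k
    exact ⟨ψ, Category.id_comp ψ, k⟩
  · intro S f g h
    have h' : 𝟙 𝒮.pt ≫ f = 𝟙 𝒮.pt ≫ g := h
    rwa [Category.id_comp, Category.id_comp] at h'

theorem wcontr_fib_prX (x : W.obj 𝒮.pt) (S : C) (ψ₀ : (pathM 𝒮 W x).H S) :
    WContr (univ : Set (QW ((prX 𝒮 W x).fib S ψ₀))) := by
  refine QW.wcontr_of_homs (V' := PSh.rep S)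
    ⟨fun {T} (ψ : ((prX 𝒮 W x).fib S ψ₀).obj T) => (ψ.1.1 : T ⟶ S), fun _ _ => rfl⟩
    ⟨fun {T} (f : T ⟶ S) => (⟨(f, ψ₀), rfl⟩ : ((prX 𝒮 W x).fib S ψ₀).obj T), fun _ _ => rfl⟩
    ?_ ?_ (QW.wcontr_rep S)
  · rintro T ⟨⟨f, s⟩, hs⟩
    have hs' : s = ψ₀ := hs
    subst hs'
    rfl
  · intro T f
    rfl

theorem isWE_prX (x : W.obj 𝒮.pt) : IsWE (prX 𝒮 W x).pr₂ := by
  refine isWE_of_fibers _ (Topology.IsLowerSet.monotone_iff_continuous.1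
    (Bim.Pr.pr₂_mono (prX 𝒮 W x))) fun b => ?_
  refine wcontr_subtype.2 ?_
  exact (Bim.Pr.isWE_r (prX 𝒮 W x) b).wcontr_iff.2 (wcontr_fib_prX 𝒮 W x _ _)

/-- the total poset is weakly contractible: project to `{(ζ ; s ; w) | w ∘ s = x}` (`Pr`), which is
weakly contractible by `CoM.wcontr_of_universal` (universal element `(pt, 𝟙, x)`), with fibres
`QW (rep _)` up to isomorphism. -/
theorem wcontr_X (x : W.obj 𝒮.pt) : WContr (univ : Set (bimX 𝒮 W x).P) :=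
  (isWE_prX 𝒮 W x).wcontr_iff.2 (wcontr_pathM 𝒮 W x)

/-- `M = {(v, ζ ; ψ : Σ v.top ⟶ ζ.bot, φ : S₀ ⟶ ζ.bot ; w) | last ≫ ψ = first ≫ φ, ...}` -/
@[simps]
def bimM (x : W.obj 𝒮.pt) (S₀ : C) (w₀ : W.obj S₀) : Bim C W where
  H T S := {ψ : (𝒮.sus.obj T ⟶ S) × (S₀ ⟶ S) //
    𝒮.lst (𝒮.sus.obj T) ≫ ψ.1 = 𝒮.fst S₀ ≫ ψ.2}
  pre g ψ := ⟨(𝒮.sus.map g ≫ ψ.1.1, ψ.1.2), by
    rw [← Category.assoc, 𝒮.lst_sus]; exact ψ.2⟩
  post ψ f := ⟨(ψ.1.1 ≫ f, ψ.1.2 ≫ f), by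
    rw [← Category.assoc, ψ.2, Category.assoc]⟩
  pre_id ψ := by simp
  pre_comp g g' ψ := by simp
  post_id ψ := by simp
  post_comp ψ f g := by simp
  pre_post g ψ f := by simp
  K {T S} ψ w := (modV 𝒮 W x S₀ w₀).K (S := S) (ψ.1.2, 𝒮.fst (𝒮.sus.obj T) ≫ ψ.1.1) w
  K_pre g ψ w h := by
    have e : 𝒮.fst _ ≫ 𝒮.sus.map g ≫ ψ.1.1 = 𝒮.fst _ ≫ ψ.1.1 := by
      rw [← Category.assoc, 𝒮.fst_sus]
    simpa [e] using h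
  K_post {T S S'} ψ f w := by
    have e : ((ψ.1.2 ≫ f, 𝒮.fst (𝒮.sus.obj T) ≫ (ψ.1.1 ≫ f)) : (S₀ ⟶ S') × (𝒮.pt ⟶ S')) =
        (ψ.1.2 ≫ f, (𝒮.fst (𝒮.sus.obj T) ≫ ψ.1.1) ≫ f) := by rw [Category.assoc]
    exact (iff_of_eq (congrArg (fun z => (modV 𝒮 W x S₀ w₀).K (S := S') z w) e)).trans
      ((modV 𝒮 W x S₀ w₀).K_post (S := S) (ψ.1.2, 𝒮.fst (𝒮.sus.obj T) ≫ ψ.1.1) f w)

/-- forget `v` -/
@[simps]
def prM (x : W.obj 𝒮.pt) (S₀ : C) (w₀ : W.obj S₀) :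
    (bimM 𝒮 W x S₀ w₀).Pr (modV 𝒮 W x S₀ w₀) where
  pr {T S} ψ := (ψ.1.2, 𝒮.fst (𝒮.sus.obj T) ≫ ψ.1.1)
  pr_pre {T T' S} g ψ := by
    change (ψ.1.2, 𝒮.fst (𝒮.sus.obj T) ≫ (𝒮.sus.map g ≫ ψ.1.1)) =
      (ψ.1.2, 𝒮.fst (𝒮.sus.obj T') ≫ ψ.1.1)
    rw [← Category.assoc, 𝒮.fst_sus]
  pr_post {T S S'} ψ f := by
    change (ψ.1.2 ≫ f, 𝒮.fst (𝒮.sus.obj T) ≫ (ψ.1.1 ≫ f)) =
      (ψ.1.2 ≫ f, (𝒮.fst (𝒮.sus.obj T) ≫ ψ.1.1) ≫ f)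
    rw [Category.assoc]
  K_iff ψ w := Iff.rfl

/-- evaluation at `ψ` -/
@[simps]
def evM (x : W.obj 𝒮.pt) (S₀ : C) (w₀ : W.obj S₀) (y : W.obj 𝒮.pt)
    (hy : W.res (𝒮.fst S₀) w₀ = y) : (bimM 𝒮 W x S₀ w₀).Ev (𝒮.hom W x y) where
  ev {T S} ψ w k := ⟨W.res ψ.1.1 w, by
    obtain ⟨k1, k2⟩ := k
    have k1' : W.res (𝒮.fst _ ≫ ψ.1.1) w = x := k1
    have k2' : W.res ψ.1.2 w = w₀ := k2
    refine ⟨by rw [← W.res_comp]; exact k1', ?_⟩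
    rw [← W.res_comp, ψ.2, W.res_comp, k2', hy]⟩
  ev_pre g ψ w k := Subtype.ext (W.res_comp _ _ _)
  ev_post ψ f w k := Subtype.ext (W.res_comp _ _ _)

variable {𝒮}

theorem wcontr_fib_evM (K : SuspClass 𝒮) (hW : K.Gp W) (x : W.obj 𝒮.pt) (S₀ : C) (w₀ : W.obj S₀)
    (y : W.obj 𝒮.pt) (hy : W.res (𝒮.fst S₀) w₀ = y) (T : C) (u : (𝒮.hom W x y).obj T) :
    WContr (univ : Set ((evM 𝒮 W x S₀ w₀ y hy).fib T u).P) := by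
  obtain ⟨L, l, r, hlr, hL⟩ := K.glueL T S₀
  obtain ⟨w₁, ⟨hw1, hw2⟩, huniq⟩ := hL W hW u.1 w₀ (u.2.2.trans hy.symm)
  have hk : W.res (𝒮.fst (𝒮.sus.obj T) ≫ l) w₁ = x := by
    rw [W.res_comp, hw1]
    exact u.2.1
  refine CoM.wcontr_of_universal ((evM 𝒮 W x S₀ w₀ y hy).fib T u) L ⟨(l, r), hlr⟩ w₁ ?_ ?_ ?_
  · exact ⟨⟨hk, hw2⟩, Subtype.ext hw1⟩
  · rintro S ⟨⟨a, b⟩, hab⟩ w ⟨⟨k1, k2⟩, k3⟩
    have k2' : W.res b w = w₀ := k2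
    have k3' : W.res a w = u.1 := congrArg Subtype.val k3
    obtain ⟨f, ⟨hf1', hf2'⟩, -⟩ : ∃! f : L ⟶ S, l ≫ f = a ∧ r ≫ f = b :=
      hL (PSh.rep S) (K.gp_rep S) a b hab
    refine ⟨f, ?_, ?_⟩
    · apply Subtype.ext
      exact Prod.ext hf1' hf2'
    · apply huniq
      constructor
      · rw [← W.res_comp, hf1', k3']
      · rw [← W.res_comp, hf2', k2']
  · intro S f g hfg
    have h1 : (l ≫ f, r ≫ f) = (l ≫ g, r ≫ g) := congrArg Subtype.val hfg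
    have h2 : l ≫ f = l ≫ g := congrArg Prod.fst h1
    have h3 : r ≫ f = r ≫ g := congrArg Prod.snd h1
    have h4 : 𝒮.lst (𝒮.sus.obj T) ≫ (l ≫ g) = 𝒮.fst S₀ ≫ (r ≫ g) := by
      rw [← Category.assoc, hlr, Category.assoc]
    obtain ⟨f', -, hf'⟩ := hL (PSh.rep S) (K.gp_rep S) (l ≫ g) (r ≫ g) h4
    exact (hf' f ⟨h2, h3⟩).trans (hf' g ⟨rfl, rfl⟩).symm

/-- fibres are weakly contractible by `CoM.wcontr_of_universal` applied to the wedge `ΣT * S₀` -/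
theorem isWE_evM (K : SuspClass 𝒮) (hW : K.Gp W) (x : W.obj 𝒮.pt) (S₀ : C) (w₀ : W.obj S₀)
    (y : W.obj 𝒮.pt) (hy : W.res (𝒮.fst S₀) w₀ = y) : IsWE (evM 𝒮 W x S₀ w₀ y hy).pr := by
  refine isWE_of_fibers _ (Topology.IsLowerSet.monotone_iff_continuous.1
    (Bim.Ev.pr_mono (evM 𝒮 W x S₀ w₀ y hy))) fun b => ?_
  refine wcontr_subtype.2 ?_
  exact (Bim.Ev.isWE_r (evM 𝒮 W x S₀ w₀ y hy) b).wcontr_iff.2
    (wcontr_fib_evM W K hW x S₀ w₀ y hy _ _)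

end Vale.Agent.P259
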