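import Vale.Agent.Lib.P259.S1
/-!
# P259, module S2: contractible groupoids have weakly contractible classifying spaces
-/
namespace Vale.Agent.P259
open CategoryTheory Set Topology

/-! ### auxiliary -/

theorem s2_conn_mono {X : Type*} [TopologicalSpace X] {A : Set X} {m m' : ℕ} (h : m' ≤ m)
    (hA : Conn m A) : Conn m' A := ⟨hA.1, fun n hn => hA.2 n (hn.trans h)⟩

theorem s2_conn_zero {X : Type*} [TopologicalSpace X] {A : Set X} (hA : A.Nonempty) :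
    Conn 0 A := by
  obtain ⟨a, ha⟩ := hA
  refine ⟨⟨a, ha⟩, fun n hn f _ _ => ?_⟩
  obtain rfl : n = 0 := Nat.le_zero.1 hn
  refine ⟨fun _ => a, continuousOn_const, fun _ _ => ha, ?_⟩
  rintro x ⟨-, i, -⟩
  exact i.elim0

/-- isomorphic presheaves have homeomorphic classifying spaces -/
noncomputable def s2_homeo {C : Type} [Category.{0} C] {W V : PSh C} (F : W.Hom V) (G : V.Hom W)
    (h1 : ∀ {S : C} (w : W.obj S), G.app (F.app w) = w)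
    (h2 : ∀ {S : C} (v : V.obj S), F.app (G.app v) = v) : QW W ≃ₜ QW V where
  toFun := QW.map F
  invFun := QW.map G
  left_inv x := by
    change (⟨x.σ, G.app (F.app x.w)⟩ : QW W) = x
    rw [h1]
  right_inv x := by
    change (⟨x.σ, F.app (G.app x.w)⟩ : QW V) = x
    rw [h2]
  continuous_toFun := QW.continuous_map F
  continuous_invFun := QW.continuous_map G

variable {C : Type} [Category.{0} C] {𝒮 : SuspData C} (K : SuspClass 𝒮) {W : PSh C}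

/-- the fibre presheaf of `prM` as a presheaf of arrows -/
def s2_F (x : W.obj 𝒮.pt) (S₀ : C) (w₀ : W.obj S₀) (b : C) (ψ₀ : (modV 𝒮 W x S₀ w₀).H b) :
    ((prM 𝒮 W x S₀ w₀).fib b ψ₀).Hom
      (𝒮.hom (PSh.rep b) (Prod.snd (α := S₀ ⟶ b) (β := 𝒮.pt ⟶ b) ψ₀)
        (𝒮.fst S₀ ≫ Prod.fst (α := S₀ ⟶ b) (β := 𝒮.pt ⟶ b) ψ₀)) where
  app {T} u := ⟨u.1.1.1, by
    have h := u.2
    have h1 : (u.1.1.2, 𝒮.fst (𝒮.sus.obj T) ≫ u.1.1.1) = ψ₀ := h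
    have e := u.1.2
    exact ⟨congrArg Prod.snd h1, e.trans (congrArg (fun z : (S₀ ⟶ b) × (𝒮.pt ⟶ b) =>
      𝒮.fst S₀ ≫ z.1) h1)⟩⟩
  nat f u := Subtype.ext rfl

/-- the inverse -/
def s2_G (x : W.obj 𝒮.pt) (S₀ : C) (w₀ : W.obj S₀) (b : C) (ψ₀ : (modV 𝒮 W x S₀ w₀).H b) :
    (𝒮.hom (PSh.rep b) (Prod.snd (α := S₀ ⟶ b) (β := 𝒮.pt ⟶ b) ψ₀)
        (𝒮.fst S₀ ≫ Prod.fst (α := S₀ ⟶ b) (β := 𝒮.pt ⟶ b) ψ₀)).Hom
      ((prM 𝒮 W x S₀ w₀).fib b ψ₀) where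
  app {T} u := ⟨⟨(u.1, Prod.fst (α := S₀ ⟶ b) (β := 𝒮.pt ⟶ b) ψ₀), u.2.2⟩, by
    change (Prod.fst (α := S₀ ⟶ b) (β := 𝒮.pt ⟶ b) ψ₀, 𝒮.fst (𝒮.sus.obj T) ≫ u.1) = ψ₀
    have h : 𝒮.fst (𝒮.sus.obj T) ≫ u.1 = Prod.snd (α := S₀ ⟶ b) (β := 𝒮.pt ⟶ b) ψ₀ := u.2.1
    rw [h]; rfl⟩
  nat f u := rfl

theorem s2_conn_fib (m : ℕ) (hm : ∀ W' : PSh C, K.Ctr W' → Conn m (univ : Set (QW W')))
    (x : W.obj 𝒮.pt) (S₀ : C) (w₀ : W.obj S₀) (b : C) (ψ₀ : (modV 𝒮 W x S₀ w₀).H b) :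
    Conn m (univ : Set (QW ((prM 𝒮 W x S₀ w₀).fib b ψ₀))) := by
  have h := hm _ (K.ctr_rep b (Prod.snd (α := S₀ ⟶ b) (β := 𝒮.pt ⟶ b) ψ₀)
        (𝒮.fst S₀ ≫ Prod.fst (α := S₀ ⟶ b) (β := 𝒮.pt ⟶ b) ψ₀))
  have e := s2_homeo (s2_F x S₀ w₀ b ψ₀) (s2_G x S₀ w₀ b ψ₀)
    (fun {T} u => by
      apply Subtype.ext
      apply Subtype.ext
      have h1 : (u.1.1.2, 𝒮.fst (𝒮.sus.obj T) ≫ u.1.1.1) = ψ₀ := u.2
      exact Prod.ext rfl (congrArg Prod.fst h1).symm) (fun u => rfl)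
  exact ((IsWE.of_homeomorph e).conn_iff m).2 h

/-- If all contractible `W'` have `m`-connected `QW W'` then the fibres of `M ⟶ V` are `m`-connected:
`Pr.isWE_r` and `Pr.fib b (φ, s) ≅ 𝒮.hom (rep b) s (first ≫ φ)`, which is contractible. -/
theorem conn_fib_prM (m : ℕ) (hm : ∀ W' : PSh C, K.Ctr W' → Conn m (univ : Set (QW W')))
    (x : W.obj 𝒮.pt) (S₀ : C) (w₀ : W.obj S₀) (y : (modV 𝒮 W x S₀ w₀).P) :
    Conn m ((prM 𝒮 W x S₀ w₀).pr₂ ⁻¹' Iic y) := by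
  rw [conn_subtype]
  exact (((prM 𝒮 W x S₀ w₀).isWE_r y).conn_iff m).2 (s2_conn_fib K m hm x S₀ w₀ _ _)

theorem s2_continuous_pr₂ (x : W.obj 𝒮.pt) (S₀ : C) (w₀ : W.obj S₀) :
    Continuous (prM 𝒮 W x S₀ w₀).pr₂ :=
  Topology.IsLowerSet.monotone_iff_continuous.1 (prM 𝒮 W x S₀ w₀).pr₂_mono

/-- one step of the induction -/
theorem s2_step (m : ℕ) (hm : ∀ W' : PSh C, K.Ctr W' → Conn m (univ : Set (QW W')))
    (hW : K.Ctr W) : Conn (m + 1) (univ : Set (QW W)) := by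
  obtain ⟨x⟩ := K.ctr_nonempty W hW
  have hX := wcontr_X 𝒮 W x
  have hXc : Conn (m + 1) (univ : Set (bimX 𝒮 W x).P) := ⟨hX.1, fun n _ => hX.2 n⟩
  refine conn_target (evX 𝒮 W x).pr
    (Topology.IsLowerSet.monotone_iff_continuous.1 (evX 𝒮 W x).pr_mono) ?_ hXc
  intro y
  rw [conn_subtype]
  refine (((evX 𝒮 W x).isWE_r y).conn_iff m).2 ?_
  set S₀ := y.σ.bot with hS₀
  set w₀ : W.obj S₀ := W.res y.σ.mm y.w with hw₀
  change Conn m (univ : Set (modV 𝒮 W x S₀ w₀).P)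
  -- the total poset `M` is `m`-connected
  have hM : Conn m (univ : Set (bimM 𝒮 W x S₀ w₀).P) :=
    ((isWE_evM W K (K.ctr_gp W hW) x S₀ w₀ (W.res (𝒮.fst S₀) w₀) rfl).conn_iff m).2
      (hm _ (K.ctr_hom W x _ hW))
  cases m with
  | zero =>
    obtain ⟨z, -⟩ := hM.1
    exact s2_conn_zero ⟨(prM 𝒮 W x S₀ w₀).pr₂ z, mem_univ _⟩
  | succ m =>
    refine conn_target (prM 𝒮 W x S₀ w₀).pr₂ (s2_continuous_pr₂ x S₀ w₀) ?_ hM
    intro z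
    exact conn_fib_prM K m (fun W' h' => s2_conn_mono (Nat.le_succ m) (hm W' h')) x S₀ w₀ z

/-- Induction on `m`: for contractible `W`, `x ∈ W(pt)`: `QW (hom W x _)` is `Conn m` by induction,
so `M` is `Conn m` (`conn_source` or `isWE_evM`), so `V` is `Conn m` (`conn_target` along `M ⟶ V`,
for `m = m' + 1`; the case `m = 0` is nonemptiness), so the fibres of `X ⟶ QW W` are `Conn m`
(`Ev.isWE_r`), `X` is weakly contractible, hence `QW W` is `Conn (m + 1)` (`conn_target`). -/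
theorem conn_of_ctr (m : ℕ) : ∀ W' : PSh C, K.Ctr W' → Conn m (univ : Set (QW W')) := by
  induction m with
  | zero =>
    intro W' hW'
    obtain ⟨w⟩ := K.ctr_nonempty W' hW'
    exact s2_conn_zero ⟨(⟨Ch.vtx 0 𝒮.pt, w⟩ : QW W'), mem_univ _⟩
  | succ m ih =>
    intro W' hW'
    exact s2_step K m ih hW'

theorem s2_wcontr {X : Type*} [TopologicalSpace X] {A : Set X} (h : ∀ m, Conn m A) : WContr A :=
  ⟨(h 0).1, fun n => (h n).2 n le_rfl⟩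

theorem wcontr_of_ctr {W' : PSh C} (hW : K.Ctr W') : WContr (univ : Set (QW W')) :=
  s2_wcontr fun m => conn_of_ctr K m W' hW

include K in
theorem wcontr_fib_prM (x : W.obj 𝒮.pt) (S₀ : C) (w₀ : W.obj S₀) (y : (modV 𝒮 W x S₀ w₀).P) :
    WContr ((prM 𝒮 W x S₀ w₀).pr₂ ⁻¹' Iic y) :=
  s2_wcontr fun m => conn_fib_prM K m (conn_of_ctr K m) x S₀ w₀ y

include K in
theorem isWE_prM (x : W.obj 𝒮.pt) (S₀ : C) (w₀ : W.obj S₀) :
    IsWE (prM 𝒮 W x S₀ w₀).pr₂ :=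
  isWE_of_fibers _ (s2_continuous_pr₂ x S₀ w₀) (wcontr_fib_prM K x S₀ w₀)

end Vale.Agent.P259
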