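import Vale.Agent.Lib.P259.S2
/-!
# P259, module S3: base change maps are weak equivalences; compression for `X ⟶ QW W`
-/
namespace Vale.Agent.P259
open CategoryTheory Set Topology

variable {C : Type} [Category.{0} C] {𝒮 : SuspData C} {W : PSh C}

/-- base change `V(S₁, w₁) ⟶ V(S₀, w₁ ∘ f)` along `f : S₀ ⟶ S₁` -/
def tr (x : W.obj 𝒮.pt) {S₀ S₁ : C} (f : S₀ ⟶ S₁) (w₁ : W.obj S₁) (w₀ : W.obj S₀)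
    (h : W.res f w₁ = w₀) (z : (modV 𝒮 W x S₁ w₁).P) : (modV 𝒮 W x S₀ w₀).P where
  ζ := z.ζ
  ψ := (f ≫ z.ψ.1, z.ψ.2)
  w := z.w
  k := by
    obtain ⟨k1, k2⟩ := z.k
    refine ⟨k1, ?_⟩
    change W.res ((f ≫ z.ψ.1) ≫ z.ζ.mm) z.w = w₀
    have k2' : W.res (z.ψ.1 ≫ z.ζ.mm) z.w = w₁ := k2
    rw [Category.assoc, W.res_comp, k2', h]

theorem tr_mono (x : W.obj 𝒮.pt) {S₀ S₁ : C} (f : S₀ ⟶ S₁) (w₁ : W.obj S₁) (w₀ : W.obj S₀)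
    (h : W.res f w₁ = w₀) : Monotone (tr (𝒮 := 𝒮) x f w₁ w₀ h) := by
  rintro z z' ⟨hζ, hψ, hw⟩
  refine ⟨hζ, ?_, hw⟩
  have hψ' : (z'.ψ.1 ≫ Ch.botHom hζ, z'.ψ.2 ≫ Ch.botHom hζ) = z.ψ := hψ
  change ((f ≫ z'.ψ.1) ≫ Ch.botHom hζ, z'.ψ.2 ≫ Ch.botHom hζ) = (f ≫ z.ψ.1, z.ψ.2)
  rw [← hψ', Category.assoc]

theorem continuous_tr (x : W.obj 𝒮.pt) {S₀ S₁ : C} (f : S₀ ⟶ S₁) (w₁ : W.obj S₁) (w₀ : W.obj S₀)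
    (h : W.res f w₁ = w₀) : Continuous (tr (𝒮 := 𝒮) x f w₁ w₀ h) :=
  Topology.IsLowerSet.monotone_iff_continuous.1 (tr_mono x f w₁ w₀ h)

theorem tr_comp (x : W.obj 𝒮.pt) {S₀ S₁ S₂ : C} (f : S₀ ⟶ S₁) (g : S₁ ⟶ S₂) (w₂ : W.obj S₂)
    (w₁ : W.obj S₁) (w₀ : W.obj S₀) (h : W.res f w₁ = w₀) (h' : W.res g w₂ = w₁)
    (h'' : W.res (f ≫ g) w₂ = w₀) :
    tr (𝒮 := 𝒮) x f w₁ w₀ h ∘ tr (𝒮 := 𝒮) x g w₂ w₁ h' = tr (𝒮 := 𝒮) x (f ≫ g) w₂ w₀ h'' := by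
  funext z
  have e : (f ≫ g ≫ z.ψ.1, z.ψ.2) = ((f ≫ g) ≫ z.ψ.1, z.ψ.2) := by rw [Category.assoc]
  refine CoM.P.ext rfl ?_ HEq.rfl
  exact heq_of_eq e

/-- comparison `M(S₁) ⟶ M(pt)` -/
def cM (x : W.obj 𝒮.pt) {S₁ : C} (w₁ : W.obj S₁) (w₀ : W.obj 𝒮.pt)
    (h : W.res (𝒮.fst S₁) w₁ = w₀) (z : (bimM 𝒮 W x S₁ w₁).P) : (bimM 𝒮 W x 𝒮.pt w₀).P where
  v := z.v
  ζ := z.ζ
  ψ := ⟨(z.ψ.1.1, 𝒮.fst S₁ ≫ z.ψ.1.2), by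
    have h1 := z.ψ.2
    rw [𝒮.fst_pt, Category.id_comp]
    exact h1⟩
  w := z.w
  k := by
    obtain ⟨k1, k2⟩ := z.k
    refine ⟨k1, ?_⟩
    have k2' : W.res (z.ψ.1.2 ≫ z.ζ.mm) z.w = w₁ := k2
    change W.res ((𝒮.fst S₁ ≫ z.ψ.1.2) ≫ z.ζ.mm) z.w = w₀
    rw [Category.assoc, W.res_comp, k2', h]

theorem cM_mono (x : W.obj 𝒮.pt) {S₁ : C} (w₁ : W.obj S₁) (w₀ : W.obj 𝒮.pt)
    (h : W.res (𝒮.fst S₁) w₁ = w₀) : Monotone (cM (𝒮 := 𝒮) x w₁ w₀ h) := by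
  rintro z z' ⟨hv, hζ, hψ, hw⟩
  refine ⟨hv, hζ, ?_, hw⟩
  have hψ1 := congrArg Subtype.val hψ
  have hψ2 : 𝒮.sus.map (Ch.topHom hv) ≫ z'.ψ.1.1 ≫ Ch.botHom hζ = z.ψ.1.1 := congrArg Prod.fst hψ1
  have hψ3 : z'.ψ.1.2 ≫ Ch.botHom hζ = z.ψ.1.2 := congrArg Prod.snd hψ1
  apply Subtype.ext
  change (𝒮.sus.map (Ch.topHom hv) ≫ z'.ψ.1.1 ≫ Ch.botHom hζ, (𝒮.fst S₁ ≫ z'.ψ.1.2) ≫ Ch.botHom hζ)
    = (z.ψ.1.1, 𝒮.fst S₁ ≫ z.ψ.1.2)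
  rw [hψ2, ← hψ3, Category.assoc]

/-- first vertices: compare `M(S₀) ⟶ M(pt)` over `QW (hom W x _)` and over `V(S₀) ⟶ V(pt)` -/
theorem isWE_tr_fst (K : SuspClass 𝒮) (hW : K.Gp W) (x : W.obj 𝒮.pt) {S₁ : C} (w₁ : W.obj S₁)
    (w₀ : W.obj 𝒮.pt) (h : W.res (𝒮.fst S₁) w₁ = w₀) :
    IsWE (tr (𝒮 := 𝒮) x (𝒮.fst S₁) w₁ w₀ h) := by
  have hy : W.res (𝒮.fst 𝒮.pt) w₀ = w₀ := by rw [𝒮.fst_pt, W.res_id]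
  have e1 := isWE_evM W K hW x S₁ w₁ w₀ h
  have e0 := isWE_evM W K hW x 𝒮.pt w₀ w₀ hy
  have hc : Continuous (cM (𝒮 := 𝒮) x w₁ w₀ h) :=
    Topology.IsLowerSet.monotone_iff_continuous.1 (cM_mono x w₁ w₀ h)
  have s1 : (evM 𝒮 W x 𝒮.pt w₀ w₀ hy).pr ∘ cM (𝒮 := 𝒮) x w₁ w₀ h =
      (evM 𝒮 W x S₁ w₁ w₀ h).pr := rfl
  have hcM : IsWE (cM (𝒮 := 𝒮) x w₁ w₀ h) := IsWE.of_comp_left hc e0 (by rw [s1]; exact e1)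
  have s2 : (prM 𝒮 W x 𝒮.pt w₀).pr₂ ∘ cM (𝒮 := 𝒮) x w₁ w₀ h =
      tr (𝒮 := 𝒮) x (𝒮.fst S₁) w₁ w₀ h ∘ (prM 𝒮 W x S₁ w₁).pr₂ := rfl
  have p1 := isWE_prM K x S₁ w₁
  have p0 := isWE_prM K x 𝒮.pt w₀
  refine IsWE.of_comp_right (continuous_tr x _ w₁ w₀ h) p1 ?_
  rw [← s2]
  exact p0.comp hcM

/-- exchange of first and last vertices -/
def SuspData.op (𝒮 : SuspData C) : SuspData C where
  pt := 𝒮.pt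
  fst := 𝒮.lst
  lst := 𝒮.fst
  fst_pt := 𝒮.lst_pt
  lst_pt := 𝒮.fst_pt
  sus := 𝒮.sus
  fst_sus := 𝒮.lst_sus
  lst_sus := 𝒮.fst_sus

/-- auxiliary: the presheaf of elements of `W(Σ -)` satisfying a predicate -/
def subSus (𝒮 : SuspData C) (W : PSh C) (p : ∀ T : C, W.obj (𝒮.sus.obj T) → Prop)
    (hp : ∀ {T T' : C} (f : T ⟶ T') (u : W.obj (𝒮.sus.obj T')), p T' u →
      p T (W.res (𝒮.sus.map f) u)) : PSh C where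
  obj T := {u : W.obj (𝒮.sus.obj T) // p T u}
  res f u := ⟨W.res (𝒮.sus.map f) u.1, hp f u.1 u.2⟩
  res_id u := by simp
  res_comp f g u := by simp [W.res_comp]

theorem subSus_congr (𝒮 : SuspData C) (W : PSh C) (p q : ∀ T : C, W.obj (𝒮.sus.obj T) → Prop)
    (hp : ∀ {T T' : C} (f : T ⟶ T') (u : W.obj (𝒮.sus.obj T')), p T' u →
      p T (W.res (𝒮.sus.map f) u))
    (hq : ∀ {T T' : C} (f : T ⟶ T') (u : W.obj (𝒮.sus.obj T')), q T' u →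
      q T (W.res (𝒮.sus.map f) u)) (h : p = q) :
    subSus 𝒮 W p hp = subSus 𝒮 W q hq := by
  subst h
  rfl

/-- `hom` for the exchanged data: `𝒮.op.hom W x y = 𝒮.hom W y x` (`and_comm` in the subtype) -/
theorem op_hom (W : PSh C) (x y : W.obj 𝒮.pt) : 𝒮.op.hom W x y = 𝒮.hom W y x := by
  refine (subSus_congr 𝒮 W (fun T u => W.res (𝒮.lst (𝒮.sus.obj T)) u = x ∧
      W.res (𝒮.fst (𝒮.sus.obj T)) u = y) (fun T u => W.res (𝒮.fst (𝒮.sus.obj T)) u = y ∧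
      W.res (𝒮.lst (𝒮.sus.obj T)) u = x) ?_ ?_ ?_ : _)
  · intro T T' f u hu
    rw [← W.res_comp, 𝒮.lst_sus, ← W.res_comp, 𝒮.fst_sus]; exact hu
  · intro T T' f u hu
    rw [← W.res_comp, 𝒮.fst_sus, ← W.res_comp, 𝒮.lst_sus]; exact hu
  · funext T u
    exact propext And.comm

def SuspClass.op (K : SuspClass 𝒮) : SuspClass 𝒮.op where
  Gp := K.Gp
  Ctr := K.Ctr
  gp_rep := K.gp_rep
  gp_hom W x y h := (congrArg K.Gp (op_hom (𝒮 := 𝒮) W x y)).mpr (K.gp_hom W y x h)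
  ctr_gp := K.ctr_gp
  ctr_nonempty := K.ctr_nonempty
  ctr_hom W x y h := (congrArg K.Ctr (op_hom (𝒮 := 𝒮) W x y)).mpr (K.ctr_hom W y x h)
  ctr_rep S s t := (congrArg K.Ctr (op_hom (𝒮 := 𝒮) (PSh.rep S) s t)).mpr (K.ctr_rep S t s)
  glueL := K.glueR
  glueR := K.glueL

/-- last vertices: `isWE_tr_fst` for the exchanged data -/
theorem isWE_tr_lst (K : SuspClass 𝒮) (hW : K.Gp W) (x : W.obj 𝒮.pt) {S₁ : C} (w₁ : W.obj S₁)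
    (w₀ : W.obj 𝒮.pt) (h : W.res (𝒮.lst S₁) w₁ = w₀) :
    IsWE (tr (𝒮 := 𝒮) x (𝒮.lst S₁) w₁ w₀ h) :=
  isWE_tr_fst (𝒮 := 𝒮.op) K.op hW x w₁ w₀ h

/-- arbitrary vertices `t : pt ⟶ S₁`: choose a 1-cell `u : Σ pt ⟶ S₁` from the first vertex to `t`
(`ctr_rep`, `ctr_nonempty`); `tr u` is a weak equivalence by 2-out-of-3 from the first vertices;
then `tr t = tr last ∘ tr u`. -/
theorem isWE_tr_vertex (K : SuspClass 𝒮) (hW : K.Gp W) (x : W.obj 𝒮.pt) {S₁ : C} (t : 𝒮.pt ⟶ S₁)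
    (w₁ : W.obj S₁) (w₀ : W.obj 𝒮.pt) (h : W.res t w₁ = w₀) :
    IsWE (tr (𝒮 := 𝒮) x t w₁ w₀ h) := by
  obtain ⟨u, hu1', hu2'⟩ : ∃ u : 𝒮.sus.obj 𝒮.pt ⟶ S₁,
      𝒮.fst (𝒮.sus.obj 𝒮.pt) ≫ u = 𝒮.fst S₁ ∧ 𝒮.lst (𝒮.sus.obj 𝒮.pt) ≫ u = t := by
    obtain ⟨u, hu1, hu2⟩ := (K.ctr_nonempty _ (K.ctr_rep S₁ (𝒮.fst S₁) t)).some
    exact ⟨u, hu1, hu2⟩
  have hcu : Continuous (tr (𝒮 := 𝒮) x u w₁ (W.res u w₁) rfl) := continuous_tr _ _ _ _ _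
  have hu : IsWE (tr (𝒮 := 𝒮) x u w₁ (W.res u w₁) rfl) := by
    have a1 := isWE_tr_fst K hW x w₁ (W.res (𝒮.fst S₁) w₁) rfl
    have e0 : W.res (𝒮.fst (𝒮.sus.obj 𝒮.pt)) (W.res u w₁) = W.res (𝒮.fst S₁) w₁ := by
      rw [← W.res_comp, hu1']
    have a0 := isWE_tr_fst K hW x (W.res u w₁) (W.res (𝒮.fst S₁) w₁) e0
    refine IsWE.of_comp_left hcu a0 ?_
    have e2 : W.res (𝒮.fst (𝒮.sus.obj 𝒮.pt) ≫ u) w₁ = W.res (𝒮.fst S₁) w₁ := by rw [hu1']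
    rw [tr_comp x _ _ w₁ (W.res u w₁) _ e0 rfl e2]
    revert e2
    rw [hu1']
    intro e2
    exact a1
  have e0 : W.res (𝒮.lst (𝒮.sus.obj 𝒮.pt)) (W.res u w₁) = w₀ := by
    rw [← W.res_comp, hu2', h]
  have a0 := isWE_tr_lst K hW x (W.res u w₁) w₀ e0
  have hc := a0.comp hu
  have e2 : W.res (𝒮.lst (𝒮.sus.obj 𝒮.pt) ≫ u) w₁ = w₀ := by rw [hu2', h]
  rw [tr_comp x _ _ w₁ (W.res u w₁) _ e0 rfl e2] at hc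
  revert e2 hc
  rw [hu2']
  intro e2 hc
  exact hc

/-- arbitrary maps, by 2-out-of-3 from `first ≫ f` -/
theorem isWE_tr (K : SuspClass 𝒮) (hW : K.Gp W) (x : W.obj 𝒮.pt) {S₀ S₁ : C} (f : S₀ ⟶ S₁)
    (w₁ : W.obj S₁) (w₀ : W.obj S₀) (h : W.res f w₁ = w₀) :
    IsWE (tr (𝒮 := 𝒮) x f w₁ w₀ h) := by
  have e2 : W.res (𝒮.fst S₀ ≫ f) w₁ = W.res (𝒮.fst S₀) w₀ := by rw [W.res_comp, h]
  refine IsWE.of_comp_left (continuous_tr _ _ _ _ _)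
    (isWE_tr_fst K hW x w₀ (W.res (𝒮.fst S₀) w₀) rfl) ?_
  rw [tr_comp x _ _ w₁ w₀ _ rfl h e2]
  exact isWE_tr_vertex K hW x _ _ _ _

theorem compress_X_aux {v σ₁ σ₀ : Ch C} (hσ : σ₁ ≤ σ₀) (hs1 : v ≤ σ₁) (hs0 : v ≤ σ₀) {T S : C}
    (m : v.bot ⟶ T) (χ : T ⟶ S) {P : Type} (s : P) :
    (((Ch.botHom hs0 ≫ m) ≫ χ, s) : (σ₀.bot ⟶ S) × P) =
      (Ch.botHom hσ ≫ (Ch.botHom hs1 ≫ m) ≫ χ, s) := by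
  have hb : Ch.botHom hs0 = Ch.botHom hσ ≫ Ch.botHom hs1 := Ch.botHom_trans hs1 hσ
  rw [hb]
  simp only [Category.assoc]

/-- inclusions of fibres of `X ⟶ QW W` are weak equivalences (square with `Ev.r` and `tr`), hence
compressible -/
theorem compress_X (K : SuspClass 𝒮) (hW : K.Gp W) (x : W.obj 𝒮.pt) (b₁ b₀ : QW W) (h : b₁ ≤ b₀)
    (n : ℕ) : Compress n ((evX 𝒮 W x).pr ⁻¹' Iic b₁) ((evX 𝒮 W x).pr ⁻¹' Iic b₀) := by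
  have hsub : (evX 𝒮 W x).pr ⁻¹' Iic b₁ ⊆ (evX 𝒮 W x).pr ⁻¹' Iic b₀ :=
    fun z hz => le_trans (show (evX 𝒮 W x).pr z ≤ b₁ from hz) h
  refine compress_of_isWE hsub ?_ n
  obtain ⟨hσ, hw⟩ := h
  have e : W.res (Ch.botHom hσ) (W.res b₁.σ.mm b₁.w) = W.res b₀.σ.mm b₀.w := by
    rw [← hw, ← W.res_comp, ← W.res_comp, Category.assoc, Ch.botHom_mm_topHom]
  have r1 := (evX 𝒮 W x).isWE_r b₁
  have r0 := (evX 𝒮 W x).isWE_r b₀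
  have t := isWE_tr K hW x (Ch.botHom hσ) (W.res b₁.σ.mm b₁.w) (W.res b₀.σ.mm b₀.w) e
  have hc : Continuous (Set.inclusion hsub) := continuous_inclusion hsub
  have key : (evX 𝒮 W x).r b₀ ∘ Set.inclusion hsub =
      tr (𝒮 := 𝒮) x (Ch.botHom hσ) (W.res b₁.σ.mm b₁.w) (W.res b₀.σ.mm b₀.w) e ∘
        (evX 𝒮 W x).r b₁ := by
    funext z
    refine CoM.P.ext rfl ?_ HEq.rfl
    refine heq_of_eq ?_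
    have hz1 : (evX 𝒮 W x).pr z.1 ≤ b₁ := z.2
    have hz0 : (evX 𝒮 W x).pr z.1 ≤ b₀ := hsub z.2
    obtain ⟨hs1, -⟩ := hz1
    obtain ⟨hs0, -⟩ := hz0
    exact compress_X_aux hσ hs1 hs0 z.1.v.mm z.1.ψ.1 z.1.ψ.2
  have fin : IsWE ((evX 𝒮 W x).r b₀ ∘ Set.inclusion hsub) := by
    have h1 := t.comp r1
    exact key ▸ h1
  exact IsWE.of_comp_left (g := (evX 𝒮 W x).r b₀) hc r0 fin

end Vale.Agent.P259
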