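import Vale.Agent.Lib.P259.Charts
import Vale.Agent.Lib.P259.Approx
import Vale.Agent.Lib.P259.TwoOfThree
namespace Vale.Agent.P259
open Set Topology
variable {X Y Z B : Type*} [TopologicalSpace X] [TopologicalSpace Y] [TopologicalSpace Z]

/-! ## Auxiliary lemmas for T3 -/

theorem uI_closed : IsClosed uI := isClosed_Icc
theorem uI_zero : (0 : ℝ) ∈ uI := ⟨le_refl _, zero_le_one⟩
theorem uI_one : (1 : ℝ) ∈ uI := ⟨zero_le_one, le_refl _⟩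
theorem cube_compact (n : ℕ) : IsCompact (cube n) := isCompact_Icc
theorem cube_closed (n : ℕ) : IsClosed (cube n) := isClosed_Icc
theorem bdry_closed (n : ℕ) : IsClosed (bdry n) := by
  have : bdry n = cube n ∩ ⋃ i : Fin n, ({x | x i = 0} ∪ {x | x i = 1}) := by
    ext x
    simp only [bdry, mem_ofPred_eq, mem_inter_iff, mem_iUnion, mem_union]
  rw [this]
  refine (cube_closed n).inter (isClosed_iUnion_of_finite fun i => ?_)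
  exact (isClosed_eq (continuous_apply i) continuous_const).union
    (isClosed_eq (continuous_apply i) continuous_const)

theorem Cell.cl_closed {n : ℕ} (e : Cell n) : IsClosed e.cl := by
  obtain ⟨φ, ψ, hφ, hψ, h1, h2, h3, h4, h5, h6⟩ := e.exists_chart
  rw [← h3]
  exact ((cube_compact _).image hφ).isClosed

theorem Cell.bd_closed {n : ℕ} (e : Cell n) : IsClosed e.bd := by
  obtain ⟨φ, ψ, hφ, hψ, h1, h2, h3, h4, h5, h6⟩ := e.exists_chart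
  rw [← h4]
  exact (((cube_compact _).of_isClosed_subset (bdry_closed _) (bdry_subset _)).image hφ).isClosed

theorem Cell.bd_subset {n : ℕ} (e : Cell n) : e.bd ⊆ e.cl := sdiff_subset

/-- `hep_prism` on a cell -/
theorem Cell.hep_prism_cell {n : ℕ} (e : Cell n) (F : (Fin n → ℝ) × ℝ × ℝ → X)
    (hF : ContinuousOn F (e.cl ×ˢ uI ×ˢ {0} ∪ e.cl ×ˢ {0, 1} ×ˢ uI ∪ e.bd ×ˢ uI ×ˢ uI)) :
    ∃ G : (Fin n → ℝ) × ℝ × ℝ → X, ContinuousOn G (e.cl ×ˢ uI ×ˢ uI) ∧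
      EqOn G F (e.cl ×ˢ uI ×ˢ {0} ∪ e.cl ×ˢ {0, 1} ×ˢ uI ∪ e.bd ×ˢ uI ×ˢ uI) ∧
      (∀ z ∈ e.cl ×ˢ uI ×ˢ uI, ∃ z' ∈ (e.cl ×ˢ uI ×ˢ ({0} : Set ℝ) ∪ e.cl ×ˢ {0, 1} ×ˢ uI ∪
        e.bd ×ˢ uI ×ˢ uI), G z = F z') := by
  obtain ⟨φ, ψ, hφ, hψ, h1, h2, h3, h4, h5, h6⟩ := e.exists_chart
  have mcl : ∀ y ∈ cube e.F.card, φ y ∈ e.cl := fun y hy => h3 ▸ mem_image_of_mem φ hy
  have mbd : ∀ y ∈ bdry e.F.card, φ y ∈ e.bd := fun y hy => h4 ▸ mem_image_of_mem φ hy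
  have ncl : ∀ x ∈ e.cl, ψ x ∈ cube e.F.card := fun x hx => h5 ▸ mem_image_of_mem ψ hx
  have nbd : ∀ x ∈ e.bd, ψ x ∈ bdry e.F.card := fun x hx => h6 ▸ mem_image_of_mem ψ hx
  have key : ∀ z : (Fin e.F.card → ℝ) × ℝ × ℝ,
      z ∈ (cube e.F.card ×ˢ uI ×ˢ ({0} : Set ℝ) ∪ cube e.F.card ×ˢ {0, 1} ×ˢ uI ∪
        bdry e.F.card ×ˢ uI ×ˢ uI) → (φ z.1, z.2) ∈ (e.cl ×ˢ uI ×ˢ ({0} : Set ℝ) ∪
          e.cl ×ˢ {0, 1} ×ˢ uI ∪ e.bd ×ˢ uI ×ˢ uI) := by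
    rintro ⟨y, t, r⟩ ((⟨hy, h⟩ | ⟨hy, h⟩) | ⟨hy, h⟩)
    · exact Or.inl (Or.inl ⟨mcl _ hy, h⟩)
    · exact Or.inl (Or.inr ⟨mcl _ hy, h⟩)
    · exact Or.inr ⟨mbd _ hy, h⟩
  have key' : ∀ z : (Fin n → ℝ) × ℝ × ℝ,
      z ∈ (e.cl ×ˢ uI ×ˢ ({0} : Set ℝ) ∪ e.cl ×ˢ {0, 1} ×ˢ uI ∪ e.bd ×ˢ uI ×ˢ uI) →
      (ψ z.1, z.2) ∈ (cube e.F.card ×ˢ uI ×ˢ ({0} : Set ℝ) ∪ cube e.F.card ×ˢ {0, 1} ×ˢ uI ∪
        bdry e.F.card ×ˢ uI ×ˢ uI) := by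
    rintro ⟨y, t, r⟩ ((⟨hy, h⟩ | ⟨hy, h⟩) | ⟨hy, h⟩)
    · exact Or.inl (Or.inl ⟨ncl _ hy, h⟩)
    · exact Or.inl (Or.inr ⟨ncl _ hy, h⟩)
    · exact Or.inr ⟨nbd _ hy, h⟩
  obtain ⟨G, hG, hGF, hGi⟩ := hep_prism e.F.card (fun z => F (φ z.1, z.2))
    (hF.comp (by fun_prop) key)
  refine ⟨fun z => G (ψ z.1, z.2), hG.comp (by fun_prop) ?_, ?_, ?_⟩
  · rintro ⟨x, t, r⟩ ⟨hx, h⟩
    exact ⟨ncl _ hx, h⟩
  · rintro ⟨x, t, r⟩ hx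
    have hxc : x ∈ e.cl := by
      rcases hx with (hx | hx) | hx
      · exact hx.1
      · exact hx.1
      · exact e.bd_subset hx.1
    have := hGF (key' _ hx)
    simp only at this ⊢
    rw [this, h2 x hxc]
  · rintro ⟨x, t, r⟩ ⟨hx, h⟩
    obtain ⟨z', hz', h'⟩ := hGi (ψ x, t, r) ⟨ncl _ hx, h⟩
    exact ⟨(φ z'.1, z'.2), key _ hz', h'⟩

/-- `Ext.prism2` on a cell -/
theorem Cell.ext_prism2_cell {n : ℕ} (e : Cell n) {A : Set X} (h : Ext (e.F.card + 2) A)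
    (F : (Fin n → ℝ) × ℝ × ℝ → X)
    (hF : ContinuousOn F (e.cl ×ˢ uI ×ˢ {0, 1} ∪ e.cl ×ˢ {0, 1} ×ˢ uI ∪ e.bd ×ˢ uI ×ˢ uI))
    (hA : MapsTo F (e.cl ×ˢ uI ×ˢ {0, 1} ∪ e.cl ×ˢ {0, 1} ×ˢ uI ∪ e.bd ×ˢ uI ×ˢ uI) A) :
    ∃ G : (Fin n → ℝ) × ℝ × ℝ → X, ContinuousOn G (e.cl ×ˢ uI ×ˢ uI) ∧
      MapsTo G (e.cl ×ˢ uI ×ˢ uI) A ∧
      EqOn G F (e.cl ×ˢ uI ×ˢ {0, 1} ∪ e.cl ×ˢ {0, 1} ×ˢ uI ∪ e.bd ×ˢ uI ×ˢ uI) := by
  obtain ⟨φ, ψ, hφ, hψ, h1, h2, h3, h4, h5, h6⟩ := e.exists_chart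
  have mcl : ∀ y ∈ cube e.F.card, φ y ∈ e.cl := fun y hy => h3 ▸ mem_image_of_mem φ hy
  have mbd : ∀ y ∈ bdry e.F.card, φ y ∈ e.bd := fun y hy => h4 ▸ mem_image_of_mem φ hy
  have ncl : ∀ x ∈ e.cl, ψ x ∈ cube e.F.card := fun x hx => h5 ▸ mem_image_of_mem ψ hx
  have nbd : ∀ x ∈ e.bd, ψ x ∈ bdry e.F.card := fun x hx => h6 ▸ mem_image_of_mem ψ hx
  have key : ∀ z : (Fin e.F.card → ℝ) × ℝ × ℝ,
      z ∈ (cube e.F.card ×ˢ uI ×ˢ ({0, 1} : Set ℝ) ∪ cube e.F.card ×ˢ {0, 1} ×ˢ uI ∪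
        bdry e.F.card ×ˢ uI ×ˢ uI) → (φ z.1, z.2) ∈ (e.cl ×ˢ uI ×ˢ ({0, 1} : Set ℝ) ∪
          e.cl ×ˢ {0, 1} ×ˢ uI ∪ e.bd ×ˢ uI ×ˢ uI) := by
    rintro ⟨y, t, r⟩ ((⟨hy, h⟩ | ⟨hy, h⟩) | ⟨hy, h⟩)
    · exact Or.inl (Or.inl ⟨mcl _ hy, h⟩)
    · exact Or.inl (Or.inr ⟨mcl _ hy, h⟩)
    · exact Or.inr ⟨mbd _ hy, h⟩
  have key' : ∀ z : (Fin n → ℝ) × ℝ × ℝ,
      z ∈ (e.cl ×ˢ uI ×ˢ ({0, 1} : Set ℝ) ∪ e.cl ×ˢ {0, 1} ×ˢ uI ∪ e.bd ×ˢ uI ×ˢ uI) →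
      (ψ z.1, z.2) ∈ (cube e.F.card ×ˢ uI ×ˢ ({0, 1} : Set ℝ) ∪ cube e.F.card ×ˢ {0, 1} ×ˢ uI ∪
        bdry e.F.card ×ˢ uI ×ˢ uI) := by
    rintro ⟨y, t, r⟩ ((⟨hy, h⟩ | ⟨hy, h⟩) | ⟨hy, h⟩)
    · exact Or.inl (Or.inl ⟨ncl _ hy, h⟩)
    · exact Or.inl (Or.inr ⟨ncl _ hy, h⟩)
    · exact Or.inr ⟨nbd _ hy, h⟩
  obtain ⟨G, hG, hGA, hGF⟩ := h.prism2 (fun z => F (φ z.1, z.2))
    (hF.comp (by fun_prop) key) (fun z hz => hA (key z hz))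
  refine ⟨fun z => G (ψ z.1, z.2), hG.comp (by fun_prop) ?_, ?_, ?_⟩
  · rintro ⟨x, t, r⟩ ⟨hx, h⟩
    exact ⟨ncl _ hx, h⟩
  · rintro ⟨x, t, r⟩ ⟨hx, h⟩
    exact hGA (⟨ncl _ hx, h⟩ : (ψ x, t, r) ∈ cube e.F.card ×ˢ uI ×ˢ uI)
  · rintro ⟨x, t, r⟩ hx
    have hxc : x ∈ e.cl := by
      rcases hx with (hx | hx) | hx
      · exact hx.1
      · exact hx.1
      · exact e.bd_subset hx.1
    have := hGF (key' _ hx)
    simp only at this ⊢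
    rw [this, h2 x hxc]

/-- The cube `[0,N]^n`. -/
def KN (n N : ℕ) : Set (Fin n → ℝ) := Set.Icc 0 (fun _ => (N : ℝ))
/-- Its boundary. -/
def BN (n N : ℕ) : Set (Fin n → ℝ) := {x | x ∈ KN n N ∧ ∃ i, x i = 0 ∨ x i = N}

theorem KN_eq (n N : ℕ) : KN n N = ⋃ e ∈ Cell.K n N, e.cl := by
  ext x
  simp only [KN, mem_iUnion, exists_prop]
  exact Cell.mem_Icc_iff N x

theorem BN_eq (n N : ℕ) : BN n N = ⋃ e ∈ Cell.L n N, e.cl := by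
  ext x
  simp only [mem_iUnion, exists_prop]
  exact Cell.mem_bdry_iff N x

theorem KN_closed (n N : ℕ) : IsClosed (KN n N) := isClosed_Icc

theorem BN_closed (n N : ℕ) : IsClosed (BN n N) := by
  have : BN n N = KN n N ∩ ⋃ i : Fin n, ({x | x i = 0} ∪ {x | x i = N}) := by
    ext x
    simp only [BN, mem_ofPred_eq, mem_inter_iff, mem_iUnion, mem_union]
  rw [this]
  refine (KN_closed n N).inter (isClosed_iUnion_of_finite fun i => ?_)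
  exact (isClosed_eq (continuous_apply i) continuous_const).union
    (isClosed_eq (continuous_apply i) continuous_const)

theorem cl_subset_KN {n N : ℕ} {e : Cell n} (he : e ∈ Cell.K n N) : e.cl ⊆ KN n N := by
  rw [KN_eq]
  exact subset_biUnion_of_mem (u := fun e : Cell n => e.cl) he

theorem bd_eq {n : ℕ} (e : Cell n) :
    e.bd = ⋃ e' ∈ {e' : Cell n | e' ≠ e ∧ e'.cl ⊆ e.cl}, e'.cl := by
  ext x
  simp only [mem_iUnion, exists_prop, mem_ofPred_eq]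
  rw [Cell.mem_bd_iff]
  simp only [and_assoc]

/-- General extension principle, cell by cell. -/
theorem gen_ext {P : Type*} [TopologicalSpace P] {n : ℕ} (N : ℕ) (D : Set P)
    (c : Cell n → (Fin n → ℝ) → P → X → Prop)
    (mono : ∀ e ∈ Cell.K n N, ∀ e' : Cell n, e'.cl ⊆ e.cl → ∀ x ∈ e'.cl, ∀ r ∈ D, ∀ v,
      c e' x r v → c e x r v)
    (f₀ : (Fin n → ℝ) × P → X) (hf₀ : ContinuousOn f₀ (BN n N ×ˢ D))
    (hc₀ : ∀ e ∈ Cell.L n N, ∀ x ∈ e.cl, ∀ r ∈ D, c e x r (f₀ (x, r)))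
    (ext : ∀ e ∈ Cell.K n N, ∀ f : (Fin n → ℝ) × P → X, ContinuousOn f (e.bd ×ˢ D) →
      (∀ x ∈ e.bd, ∀ r ∈ D, c e x r (f (x, r))) →
      ∃ g : (Fin n → ℝ) × P → X, ContinuousOn g (e.cl ×ˢ D) ∧ EqOn g f (e.bd ×ˢ D) ∧
        ∀ x ∈ e.cl, ∀ r ∈ D, c e x r (g (x, r))) :
    ∃ g : (Fin n → ℝ) × P → X, ContinuousOn g (KN n N ×ˢ D) ∧ EqOn g f₀ (BN n N ×ˢ D) ∧
      ∀ e ∈ Cell.K n N, ∀ x ∈ e.cl, ∀ r ∈ D, c e x r (g (x, r)) := by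
  classical
  obtain ⟨g, hg, hg₀⟩ := Cell.induction (T := P → X) (Cell.K n N) (Cell.L n N)
    (fun e he e' h' => Cell.K_face he h') (fun e he e' h' => Cell.L_face he h')
    (fun e f => ContinuousOn (fun z : (Fin n → ℝ) × P => f z.1 z.2) (e.cl ×ˢ D) ∧
      ∀ x ∈ e.cl, ∀ r ∈ D, c e x r (f x r))
    (by
      rintro e f g hfg ⟨h1, h2⟩
      refine ⟨h1.congr ?_, ?_⟩
      · rintro ⟨x, r⟩ ⟨hx, hr⟩
        simp only [hfg hx]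
      · intro x hx r hr
        rw [← hfg hx]
        exact h2 x hx r hr)
    (fun x r => f₀ (x, r))
    (by
      intro e he
      refine ⟨hf₀.mono ?_, hc₀ e he⟩
      rintro ⟨x, r⟩ ⟨hx, hr⟩
      refine ⟨?_, hr⟩
      rw [BN_eq]
      exact mem_biUnion he hx)
    (by
      intro e he _ f hf
      have hcont : ContinuousOn (fun z : (Fin n → ℝ) × P => f z.1 z.2) (e.bd ×ˢ D) := by
        rw [bd_eq]
        refine Cell.continuousOn_of_cells N _ ?_ D (fun z : (Fin n → ℝ) × P => f z.1 z.2) ?_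
        · intro e' he'
          exact Cell.K_face he he'.2
        · intro e' he'
          exact (hf e' he'.1 he'.2).1
      have hcc : ∀ x ∈ e.bd, ∀ r ∈ D, c e x r (f x r) := by
        intro x hx r hr
        obtain ⟨e', hne, hsub, hx'⟩ := (Cell.mem_bd_iff e x).1 hx
        exact mono e he e' hsub x hx' r hr _ ((hf e' hne hsub).2 x hx' r hr)
      obtain ⟨g, h1, h2, h3⟩ := ext e he (fun z => f z.1 z.2) hcont hcc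
      refine ⟨fun x r => if x ∈ e.bd ∧ r ∉ D then f x r else g (x, r), ?_, ?_, ?_⟩
      · intro x hx
        funext r
        by_cases hr : r ∈ D
        · simp only [hr, not_true_eq_false, and_false, if_false]
          exact h2 ⟨hx, hr⟩
        · simp only [hx, hr, not_false_eq_true, and_self, if_true]
      · refine h1.congr ?_
        rintro ⟨x, r⟩ ⟨hx, hr⟩
        have hr' : r ∈ D := hr
        simp only [hr', not_true_eq_false, and_false, if_false]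
      · intro x hx r hr
        simp only [hr, not_true_eq_false, and_false, if_false]
        exact h3 x hx r hr)
  refine ⟨fun z => g z.1 z.2, ?_, ?_, ?_⟩
  · rw [KN_eq]
    exact Cell.continuousOn_of_cells N _ subset_rfl D _ fun e he => (hg e he).1
  · rintro ⟨x, r⟩ ⟨hx, hr⟩
    rw [BN_eq] at hx
    simp only [mem_iUnion, exists_prop] at hx
    obtain ⟨e, he, hx⟩ := hx
    simp only
    rw [hg₀ e he hx]
  · intro e he x hx r hr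
    exact (hg e he).2 x hx r hr

end Vale.Agent.P259
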