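import Vale.Agent.Lib.P259.T3Aux
namespace Vale.Agent.P259
open Set Topology
variable {X Y Z B : Type*} [TopologicalSpace X] [TopologicalSpace Y] [TopologicalSpace Z]

section
variable [Preorder B] [TopologicalSpace B] [Topology.IsLowerSet B]

omit [TopologicalSpace B] [Topology.IsLowerSet B] in
/-- weak lifting over one slab -/
theorem slab_lift (p : X → B)
    (h2 : ∀ b₁ b₀ : B, b₁ ≤ b₀ → ∀ n, Compress n (p ⁻¹' Iic b₁) (p ⁻¹' Iic b₀))
    {n N : ℕ} (σ β : Cell n → B)
    (hβσ : ∀ e ∈ Cell.K n N, β e ≤ σ e)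
    (mono : ∀ e ∈ Cell.K n N, ∀ e' : Cell n, e'.cl ⊆ e.cl → σ e' ≤ σ e ∧ β e' ≤ β e)
    (u : (Fin n → ℝ) → X) (hu : ContinuousOn u (KN n N))
    (hup : ∀ e ∈ Cell.K n N, ∀ x ∈ e.cl, p (u x) ≤ σ e)
    (f₀ : (Fin n → ℝ) × ℝ → X) (hf₀ : ContinuousOn f₀ (BN n N ×ˢ uI))
    (hf₀0 : ∀ x ∈ BN n N, f₀ (x, 0) = u x)
    (hf₀σ : ∀ e ∈ Cell.L n N, ∀ x ∈ e.cl, ∀ r ∈ uI, p (f₀ (x, r)) ≤ σ e)
    (hf₀β : ∀ e ∈ Cell.L n N, ∀ x ∈ e.cl, p (f₀ (x, 1)) ≤ β e) :
    ∃ G : (Fin n → ℝ) × ℝ → X, ContinuousOn G (KN n N ×ˢ uI) ∧ EqOn G f₀ (BN n N ×ˢ uI) ∧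
      (∀ x ∈ KN n N, G (x, 0) = u x) ∧
      (∀ e ∈ Cell.K n N, ∀ x ∈ e.cl, ∀ r ∈ uI, p (G (x, r)) ≤ σ e) ∧
      (∀ e ∈ Cell.K n N, ∀ x ∈ e.cl, p (G (x, 1)) ≤ β e) := by
  classical
  obtain ⟨G, hG1, hG2, hG3⟩ := gen_ext (X := X) N uI
    (fun e x r v => p v ≤ σ e ∧ (r = 0 → v = u x) ∧ (r = 1 → p v ≤ β e))
    (by
      rintro e he e' h' x hx r hr v ⟨h3, h4, h5⟩
      exact ⟨h3.trans (mono e he e' h').1, h4, fun hr => (h5 hr).trans (mono e he e' h').2⟩)
    f₀ hf₀
    (by
      intro e he x hx r hr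
      have hxB : x ∈ BN n N := by
        rw [BN_eq]
        exact mem_biUnion he hx
      refine ⟨hf₀σ e he x hx r hr, ?_, ?_⟩
      · rintro rfl
        exact hf₀0 x hxB
      · rintro rfl
        exact hf₀β e he x hx)
    (by
      intro e he f hf hc
      have hcl := e.cl_closed
      have hbd := e.bd_closed
      have hsub := e.bd_subset
      have hclK := cl_subset_KN he
      -- step 1
      obtain ⟨G1, hG1, hG1F, hG1i⟩ := e.hep_cell
        (fun z : (Fin n → ℝ) × ℝ => if z.2 = 0 then u z.1 else f z)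
        (by
          refine ContinuousOn.union_of_isClosed ?_ ?_ (hcl.prod isClosed_singleton)
            (hbd.prod uI_closed)
          · have : ContinuousOn (fun z : (Fin n → ℝ) × ℝ => u z.1) (e.cl ×ˢ ({0} : Set ℝ)) :=
              hu.comp continuousOn_fst fun z hz => hclK hz.1
            refine this.congr ?_
            rintro ⟨x, r⟩ ⟨hx, hr⟩
            have hr' : r = 0 := hr
            simp only [hr', if_true]
          · refine hf.congr ?_
            rintro ⟨x, r⟩ ⟨hx, hr⟩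
            by_cases hr0 : r = 0
            · subst hr0
              simp only [if_true]
              exact ((hc x hx 0 uI_zero).2.1 rfl).symm
            · simp only [hr0, if_false])
      have hG1σ : ∀ z ∈ e.cl ×ˢ uI, p (G1 z) ≤ σ e := by
        intro z hz
        obtain ⟨z', hz', h'⟩ := hG1i z hz
        rw [h']
        rcases hz' with ⟨hx, hr⟩ | ⟨hx, hr⟩
        · have hr' : z'.2 = 0 := hr
          simp only [hr', if_true]
          exact hup e he _ hx
        · by_cases hr0 : z'.2 = 0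
          · simp only [hr0, if_true]
            exact hup e he _ (hsub hx)
          · simp only [hr0, if_false]
            exact (hc z'.1 hx z'.2 hr).1
      have hG1bd : ∀ x ∈ e.bd, ∀ r ∈ uI, G1 (x, r) = f (x, r) := by
        intro x hx r hr
        rw [hG1F (Or.inr ⟨hx, hr⟩)]
        by_cases hr0 : r = 0
        · subst hr0
          simp only [if_true]
          exact ((hc x hx 0 uI_zero).2.1 rfl).symm
        · simp only [hr0, if_false]
      have hG10 : ∀ x ∈ e.cl, G1 (x, 0) = u x := by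
        intro x hx
        have hm : ((x, (0 : ℝ)) : (Fin n → ℝ) × ℝ) ∈ e.cl ×ˢ ({0} : Set ℝ) ∪ e.bd ×ˢ uI :=
          Or.inl ⟨hx, rfl⟩
        rw [hG1F hm]
        simp only [if_true]
      -- step 2
      obtain ⟨H1, hH1, hH1A', hH10, hH11, hH1bd⟩ := e.compress_cell
        (h2 (β e) (σ e) (hβσ e he) e.F.card) (fun x => G1 (x, 1))
        (hG1.comp (by fun_prop) fun x hx => ⟨hx, uI_one⟩)
        (fun x hx => hG1σ (x, 1) ⟨hx, uI_one⟩)
        (fun x hx => by
          have := (hc x hx 1 uI_one).2.2 rfl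
          rw [← hG1bd x hx 1 uI_one] at this
          exact this)
      -- step 3
      have c0 : IsClosed (e.cl ×ˢ uI ×ˢ ({0} : Set ℝ)) := hcl.prod (uI_closed.prod isClosed_singleton)
      have c1 : IsClosed (e.cl ×ˢ ({0} : Set ℝ) ×ˢ uI) := hcl.prod (isClosed_singleton.prod uI_closed)
      have c2 : IsClosed (e.cl ×ˢ ({1} : Set ℝ) ×ˢ uI) := hcl.prod (isClosed_singleton.prod uI_closed)
      have c3 : IsClosed (e.bd ×ˢ uI ×ˢ uI) := hbd.prod (uI_closed.prod uI_closed)
      have hsplit : e.cl ×ˢ ({0, 1} : Set ℝ) ×ˢ uI =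
          e.cl ×ˢ ({0} : Set ℝ) ×ˢ uI ∪ e.cl ×ˢ ({1} : Set ℝ) ×ˢ uI := by
        rw [← prod_union, ← union_prod]
        rfl
      obtain ⟨G3, hG3, hG3F, hG3i⟩ := e.hep_prism_cell
        (fun z : (Fin n → ℝ) × ℝ × ℝ => if z.2.1 = 1 then H1 (z.1, z.2.2) else G1 (z.1, z.2.1))
        (by
          rw [hsplit]
          refine ContinuousOn.union_of_isClosed (ContinuousOn.union_of_isClosed ?_
            (ContinuousOn.union_of_isClosed ?_ ?_ c1 c2) c0 (c1.union c2)) ?_
            (c0.union (c1.union c2)) c3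
          · have : ContinuousOn (fun z : (Fin n → ℝ) × ℝ × ℝ => G1 (z.1, z.2.1))
                (e.cl ×ˢ uI ×ˢ ({0} : Set ℝ)) :=
              hG1.comp (by fun_prop) fun z hz => ⟨hz.1, hz.2.1⟩
            refine this.congr ?_
            rintro ⟨x, r, w⟩ ⟨hx, hr, hw⟩
            have hw' : w = 0 := hw
            subst hw'
            by_cases hr1 : r = 1
            · subst hr1
              simp only [if_true]
              exact hH10 x hx
            · simp only [hr1, if_false]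
          · have : ContinuousOn (fun z : (Fin n → ℝ) × ℝ × ℝ => G1 (z.1, z.2.1))
                (e.cl ×ˢ ({0} : Set ℝ) ×ˢ uI) :=
              hG1.comp (by fun_prop) fun z hz => ⟨hz.1, by
                have : z.2.1 = 0 := hz.2.1
                simp only [this]
                exact uI_zero⟩
            refine this.congr ?_
            rintro ⟨x, r, w⟩ ⟨hx, hr, hw⟩
            have hr' : r = 0 := hr
            subst hr'
            simp only [zero_ne_one, if_false]
          · have : ContinuousOn (fun z : (Fin n → ℝ) × ℝ × ℝ => H1 (z.1, z.2.2))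
                (e.cl ×ˢ ({1} : Set ℝ) ×ˢ uI) :=
              hH1.comp (by fun_prop) fun z hz => ⟨hz.1, hz.2.2⟩
            refine this.congr ?_
            rintro ⟨x, r, w⟩ ⟨hx, hr, hw⟩
            have hr' : r = 1 := hr
            subst hr'
            simp only [if_true]
          · have : ContinuousOn (fun z : (Fin n → ℝ) × ℝ × ℝ => G1 (z.1, z.2.1))
                (e.bd ×ˢ uI ×ˢ uI) :=
              hG1.comp (by fun_prop) fun z hz => ⟨hsub hz.1, hz.2.1⟩
            refine this.congr ?_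
            rintro ⟨x, r, w⟩ ⟨hx, hr, hw⟩
            by_cases hr1 : r = 1
            · subst hr1
              simp only [if_true]
              exact hH1bd x hx w hw
            · simp only [hr1, if_false])
      refine ⟨fun z => G3 (z.1, z.2, 1), hG3.comp (by fun_prop) fun z hz => ⟨hz.1, hz.2, uI_one⟩,
        ?_, ?_⟩
      · rintro ⟨x, r⟩ ⟨hx, hr⟩
        have hr' : r ∈ uI := hr
        have hx' : x ∈ e.bd := hx
        simp only
        rw [hG3F (Or.inr ⟨hx', hr', uI_one⟩)]
        simp only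
        by_cases hr1 : r = 1
        · subst hr1
          simp only [if_true]
          rw [hH1bd x hx' 1 uI_one, hG1bd x hx' 1 uI_one]
        · simp only [hr1, if_false]
          exact hG1bd x hx' r hr'
      · intro x hx r hr
        refine ⟨?_, ?_, ?_⟩
        · obtain ⟨z', hz', h'⟩ := hG3i (x, r, 1) ⟨hx, hr, uI_one⟩
          simp only
          rw [h']
          have hz1 : z'.1 ∈ e.cl ∧ z'.2.1 ∈ uI ∧ z'.2.2 ∈ uI := by
            rcases hz' with (⟨h3, h4, h5⟩ | ⟨h3, h4, h5⟩) | ⟨h3, h4, h5⟩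
            · refine ⟨h3, h4, ?_⟩
              have : z'.2.2 = 0 := h5
              rw [this]
              exact uI_zero
            · refine ⟨h3, ?_, h5⟩
              rcases h4 with h4 | h4
              · rw [h4]
                exact uI_zero
              · rw [mem_singleton_iff.1 h4]
                exact uI_one
            · exact ⟨hsub h3, h4, h5⟩
          by_cases hr1 : z'.2.1 = 1
          · simp only [hr1, if_true]
            exact hH1A' (⟨hz1.1, hz1.2.2⟩ : (z'.1, z'.2.2) ∈ e.cl ×ˢ uI)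
          · simp only [hr1, if_false]
            exact hG1σ (z'.1, z'.2.1) ⟨hz1.1, hz1.2.1⟩
        · rintro rfl
          have hm : ((x, (0 : ℝ), (1 : ℝ)) : (Fin n → ℝ) × ℝ × ℝ) ∈ e.cl ×ˢ uI ×ˢ ({0} : Set ℝ) ∪
              e.cl ×ˢ ({0, 1} : Set ℝ) ×ˢ uI ∪ e.bd ×ˢ uI ×ˢ uI :=
            Or.inl (Or.inr ⟨hx, Or.inl rfl, uI_one⟩)
          simp only
          rw [hG3F hm]
          simp only [zero_ne_one, if_false]
          exact hG10 x hx
        · rintro rfl
          have hm : ((x, (1 : ℝ), (1 : ℝ)) : (Fin n → ℝ) × ℝ × ℝ) ∈ e.cl ×ˢ uI ×ˢ ({0} : Set ℝ) ∪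
              e.cl ×ˢ ({0, 1} : Set ℝ) ×ˢ uI ∪ e.bd ×ˢ uI ×ˢ uI :=
            Or.inl (Or.inr ⟨hx, Or.inr rfl, uI_one⟩)
          simp only
          rw [hG3F hm]
          simp only [if_true]
          exact hH11 x hx)
  refine ⟨G, hG1, hG2, ?_, fun e he x hx r hr => (hG3 e he x hx r hr).1,
    fun e he x hx => (hG3 e he x hx 1 uI_one).2.2 rfl⟩
  intro x hx
  rw [KN_eq] at hx
  simp only [mem_iUnion, exists_prop] at hx
  obtain ⟨e, he, hx⟩ := hx
  exact (hG3 e he x hx 0 uI_zero).2.1 rfl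

/-- two maps with the same carriers `Iic (τ e)` are homotopic rel boundary (level version) -/
theorem level_homotopy {n N : ℕ} (τ : Cell n → B)
    (mono : ∀ e ∈ Cell.K n N, ∀ e' : Cell n, e'.cl ⊆ e.cl → τ e' ≤ τ e)
    (u v : (Fin n → ℝ) → B) (hu : ContinuousOn u (KN n N)) (hv : ContinuousOn v (KN n N))
    (hup : ∀ e ∈ Cell.K n N, ∀ x ∈ e.cl, u x ≤ τ e)
    (hvp : ∀ e ∈ Cell.K n N, ∀ x ∈ e.cl, v x ≤ τ e)
    (huv : ∀ x ∈ BN n N, u x = v x) :
    ∃ M : (Fin n → ℝ) × ℝ → B, ContinuousOn M (KN n N ×ˢ uI) ∧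
      (∀ x ∈ BN n N, ∀ w ∈ uI, M (x, w) = v x) ∧
      (∀ x ∈ KN n N, M (x, 0) = u x) ∧ (∀ x ∈ KN n N, M (x, 1) = v x) ∧
      (∀ e ∈ Cell.K n N, ∀ x ∈ e.cl, ∀ w ∈ uI, M (x, w) ≤ τ e) := by
  classical
  have hLK : ∀ e ∈ Cell.L n N, e ∈ Cell.K n N := fun e he => he.1
  have hBK : BN n N ⊆ KN n N := fun x hx => hx.1
  obtain ⟨G, hG1, hG2, hG3⟩ := gen_ext (X := B) (n := n) N uI
    (fun e x w b => b ≤ τ e ∧ (w = 0 → b = u x) ∧ (w = 1 → b = v x))
    (by
      rintro e he e' h' x hx r hr b ⟨h3, h4, h5⟩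
      exact ⟨h3.trans (mono e he e' h'), h4, h5⟩)
    (fun z => v z.1) ((hv.mono hBK).comp continuousOn_fst fun z hz => hz.1)
    (by
      intro e he x hx r hr
      have hxB : x ∈ BN n N := by
        rw [BN_eq]
        exact mem_biUnion he hx
      exact ⟨hvp e (hLK e he) x hx, fun _ => (huv x hxB).symm, fun _ => rfl⟩)
    (by
      intro e he f hf hc
      have hcl := e.cl_closed
      have hbd := e.bd_closed
      have hsub := e.bd_subset
      have hclK := cl_subset_KN he
      have hsplit : e.cl ×ˢ ({0, 1} : Set ℝ) = e.cl ×ˢ ({0} : Set ℝ) ∪ e.cl ×ˢ ({1} : Set ℝ) := by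
        rw [← prod_union]
        rfl
      obtain ⟨G, hG, hGA, hGF⟩ := e.ext_prism_cell ((wcontr_Iic (τ e)).2 (e.F.card + 1))
        (fun z : (Fin n → ℝ) × ℝ => if z.2 = 0 then u z.1 else if z.2 = 1 then v z.1 else f z)
        (by
          rw [hsplit]
          refine ContinuousOn.union_of_isClosed (ContinuousOn.union_of_isClosed ?_ ?_
            (hcl.prod isClosed_singleton) (hcl.prod isClosed_singleton)) ?_
            ((hcl.prod isClosed_singleton).union (hcl.prod isClosed_singleton))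
            (hbd.prod uI_closed)
          · have : ContinuousOn (fun z : (Fin n → ℝ) × ℝ => u z.1) (e.cl ×ˢ ({0} : Set ℝ)) :=
              hu.comp continuousOn_fst fun z hz => hclK hz.1
            refine this.congr ?_
            rintro ⟨x, r⟩ ⟨hx, hr⟩
            have hr' : r = 0 := hr
            simp only [hr', if_true]
          · have : ContinuousOn (fun z : (Fin n → ℝ) × ℝ => v z.1) (e.cl ×ˢ ({1} : Set ℝ)) :=
              hv.comp continuousOn_fst fun z hz => hclK hz.1
            refine this.congr ?_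
            rintro ⟨x, r⟩ ⟨hx, hr⟩
            have hr' : r = 1 := hr
            simp only [hr', one_ne_zero, if_false, if_true]
          · refine hf.congr ?_
            rintro ⟨x, r⟩ ⟨hx, hr⟩
            have hx' : x ∈ e.bd := hx
            by_cases hr0 : r = 0
            · subst hr0
              simp only [if_true]
              exact ((hc x hx' 0 uI_zero).2.1 rfl).symm
            · by_cases hr1 : r = 1
              · subst hr1
                simp only [one_ne_zero, if_false, if_true]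
                exact ((hc x hx' 1 uI_one).2.2 rfl).symm
              · simp only [hr0, hr1, if_false])
        (by
          rintro ⟨x, r⟩ hz
          simp only [mem_Iic]
          by_cases hr0 : r = 0
          · subst hr0
            simp only [if_true]
            rcases hz with hz | hz
            · exact hup e he _ hz.1
            · exact hup e he _ (hsub hz.1)
          · by_cases hr1 : r = 1
            · subst hr1
              simp only [one_ne_zero, if_false, if_true]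
              rcases hz with hz | hz
              · exact hvp e he _ hz.1
              · exact hvp e he _ (hsub hz.1)
            · simp only [hr0, hr1, if_false]
              rcases hz with hz | hz
              · exfalso
                rcases hz.2 with h | h
                · exact hr0 h
                · exact hr1 h
              · exact (hc x hz.1 r hz.2).1)
      refine ⟨G, hG, ?_, ?_⟩
      · rintro ⟨x, r⟩ ⟨hx, hr⟩
        have hx' : x ∈ e.bd := hx
        rw [hGF (Or.inr ⟨hx, hr⟩)]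
        by_cases hr0 : r = 0
        · subst hr0
          simp only [if_true]
          exact ((hc x hx' 0 uI_zero).2.1 rfl).symm
        · by_cases hr1 : r = 1
          · subst hr1
            simp only [one_ne_zero, if_false, if_true]
            exact ((hc x hx' 1 uI_one).2.2 rfl).symm
          · simp only [hr0, hr1, if_false]
      · intro x hx r hr
        refine ⟨hGA (⟨hx, hr⟩ : (x, r) ∈ e.cl ×ˢ uI), ?_, ?_⟩
        · rintro rfl
          have hm : ((x, (0 : ℝ)) : (Fin n → ℝ) × ℝ) ∈ e.cl ×ˢ ({0, 1} : Set ℝ) ∪ e.bd ×ˢ uI :=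
            Or.inl ⟨hx, Or.inl rfl⟩
          rw [hGF hm]
          simp only [if_true]
        · rintro rfl
          have hm : ((x, (1 : ℝ)) : (Fin n → ℝ) × ℝ) ∈ e.cl ×ˢ ({0, 1} : Set ℝ) ∪ e.bd ×ˢ uI :=
            Or.inl ⟨hx, Or.inr rfl⟩
          rw [hGF hm]
          simp only [one_ne_zero, if_false, if_true])
  refine ⟨G, hG1, ?_, ?_, ?_, fun e he x hx r hr => (hG3 e he x hx r hr).1⟩
  · intro x hx w hw
    exact hG2 (⟨hx, hw⟩ : (x, w) ∈ BN n N ×ˢ uI)
  · intro x hx
    rw [KN_eq] at hx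
    simp only [mem_iUnion, exists_prop] at hx
    obtain ⟨e, he, hx⟩ := hx
    exact (hG3 e he x hx 0 uI_zero).2.1 rfl
  · intro x hx
    rw [KN_eq] at hx
    simp only [mem_iUnion, exists_prop] at hx
    obtain ⟨e, he, hx⟩ := hx
    exact (hG3 e he x hx 1 uI_one).2.2 rfl

/-- the homotopy over one slab, with prescribed values at the two ends of the slab -/
theorem slab_homotopy {n N : ℕ} (σ : Cell n → B)
    (mono : ∀ e ∈ Cell.K n N, ∀ e' : Cell n, e'.cl ⊆ e.cl → σ e' ≤ σ e)
    (P Q m0 m1 : (Fin n → ℝ) × ℝ → B) (hP : ContinuousOn P (KN n N ×ˢ uI))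
    (hQ : ContinuousOn Q (KN n N ×ˢ uI)) (hm0 : ContinuousOn m0 (KN n N ×ˢ uI))
    (hm1 : ContinuousOn m1 (KN n N ×ˢ uI))
    (hPσ : ∀ e ∈ Cell.K n N, ∀ x ∈ e.cl, ∀ r ∈ uI, P (x, r) ≤ σ e)
    (hQσ : ∀ e ∈ Cell.K n N, ∀ x ∈ e.cl, ∀ r ∈ uI, Q (x, r) ≤ σ e)
    (hm0σ : ∀ e ∈ Cell.K n N, ∀ x ∈ e.cl, ∀ r ∈ uI, m0 (x, r) ≤ σ e)
    (hm1σ : ∀ e ∈ Cell.K n N, ∀ x ∈ e.cl, ∀ r ∈ uI, m1 (x, r) ≤ σ e)
    (hm00 : ∀ x ∈ KN n N, m0 (x, 0) = P (x, 0)) (hm01 : ∀ x ∈ KN n N, m0 (x, 1) = Q (x, 0))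
    (hm10 : ∀ x ∈ KN n N, m1 (x, 0) = P (x, 1)) (hm11 : ∀ x ∈ KN n N, m1 (x, 1) = Q (x, 1))
    (hPQ : ∀ x ∈ BN n N, ∀ r ∈ uI, P (x, r) = Q (x, r))
    (hm0B : ∀ x ∈ BN n N, ∀ w ∈ uI, m0 (x, w) = Q (x, 0))
    (hm1B : ∀ x ∈ BN n N, ∀ w ∈ uI, m1 (x, w) = Q (x, 1)) :
    ∃ M : (Fin n → ℝ) × ℝ × ℝ → B, ContinuousOn M (KN n N ×ˢ uI ×ˢ uI) ∧
      (∀ x ∈ BN n N, ∀ r ∈ uI, ∀ w ∈ uI, M (x, r, w) = Q (x, r)) ∧
      (∀ x ∈ KN n N, ∀ r ∈ uI, M (x, r, 0) = P (x, r)) ∧
      (∀ x ∈ KN n N, ∀ r ∈ uI, M (x, r, 1) = Q (x, r)) ∧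
      (∀ x ∈ KN n N, ∀ w ∈ uI, M (x, 0, w) = m0 (x, w)) ∧
      (∀ x ∈ KN n N, ∀ w ∈ uI, M (x, 1, w) = m1 (x, w)) := by
  classical
  have hLK : ∀ e ∈ Cell.L n N, e ∈ Cell.K n N := fun e he => he.1
  have hBK : BN n N ⊆ KN n N := fun x hx => hx.1
  obtain ⟨G, hG1, hG2, hG3⟩ := gen_ext (X := B) (P := ℝ × ℝ) (n := n) N (uI ×ˢ uI)
    (fun e x r b => b ≤ σ e ∧ (r.2 = 0 → b = P (x, r.1)) ∧ (r.2 = 1 → b = Q (x, r.1)) ∧
      (r.1 = 0 → b = m0 (x, r.2)) ∧ (r.1 = 1 → b = m1 (x, r.2)))
    (by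
      rintro e he e' h' x hx r hr b ⟨h3, h4⟩
      exact ⟨h3.trans (mono e he e' h'), h4⟩)
    (fun z => Q (z.1, z.2.1)) (hQ.comp (by fun_prop) fun z hz => ⟨hBK hz.1, hz.2.1⟩)
    (by
      rintro e he x hx ⟨r, w⟩ ⟨hr, hw⟩
      have hxB : x ∈ BN n N := by
        rw [BN_eq]
        exact mem_biUnion he hx
      have hr' : r ∈ uI := hr
      have hw' : w ∈ uI := hw
      refine ⟨hQσ e (hLK e he) x hx r hr', fun _ => (hPQ x hxB r hr').symm, fun _ => rfl, ?_, ?_⟩
      · intro h
        have h' : r = 0 := h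
        subst h'
        exact (hm0B x hxB w hw').symm
      · intro h
        have h' : r = 1 := h
        subst h'
        exact (hm1B x hxB w hw').symm)
    (by
      intro e he f hf hc
      have hcl := e.cl_closed
      have hbd := e.bd_closed
      have hsub := e.bd_subset
      have hclK := cl_subset_KN he
      set F : (Fin n → ℝ) × ℝ × ℝ → B := fun z =>
        if z.2.2 = 0 then P (z.1, z.2.1) else if z.2.2 = 1 then Q (z.1, z.2.1) else
          if z.2.1 = 0 then m0 (z.1, z.2.2) else if z.2.1 = 1 then m1 (z.1, z.2.2) else f z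
        with hF
      have v1 : ∀ x ∈ e.cl, ∀ r ∈ uI, F (x, r, 0) = P (x, r) := by
        intro x hx r hr
        simp only [hF, if_true]
      have v2 : ∀ x ∈ e.cl, ∀ r ∈ uI, F (x, r, 1) = Q (x, r) := by
        intro x hx r hr
        simp only [hF, one_ne_zero, if_false, if_true]
      have v3 : ∀ x ∈ e.cl, ∀ w ∈ uI, F (x, 0, w) = m0 (x, w) := by
        intro x hx w hw
        simp only [hF]
        by_cases h0 : w = 0
        · subst h0
          simp only [if_true]
          exact (hm00 x (hclK hx)).symm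
        · by_cases h1 : w = 1
          · subst h1
            simp only [one_ne_zero, if_false, if_true]
            exact (hm01 x (hclK hx)).symm
          · simp only [h0, h1, if_false, if_true]
      have v4 : ∀ x ∈ e.cl, ∀ w ∈ uI, F (x, 1, w) = m1 (x, w) := by
        intro x hx w hw
        simp only [hF]
        by_cases h0 : w = 0
        · subst h0
          simp only [if_true]
          exact (hm10 x (hclK hx)).symm
        · by_cases h1 : w = 1
          · subst h1
            simp only [one_ne_zero, if_false, if_true]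
            exact (hm11 x (hclK hx)).symm
          · simp only [h0, h1, one_ne_zero, if_false, if_true]
      have v5 : ∀ x ∈ e.bd, ∀ r ∈ uI, ∀ w ∈ uI, F (x, r, w) = f (x, r, w) := by
        intro x hx r hr w hw
        obtain ⟨-, c1, c2, c3, c4⟩ := hc x hx (r, w) ⟨hr, hw⟩
        simp only at c1 c2 c3 c4
        simp only [hF]
        by_cases h0 : w = 0
        · subst h0
          simp only [if_true]
          exact (c1 rfl).symm
        · by_cases h1 : w = 1
          · subst h1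
            simp only [one_ne_zero, if_false, if_true]
            exact (c2 rfl).symm
          · by_cases h2 : r = 0
            · subst h2
              simp only [h0, h1, if_false, if_true]
              exact (c3 rfl).symm
            · by_cases h3 : r = 1
              · subst h3
                simp only [h0, h1, one_ne_zero, if_false, if_true]
                exact (c4 rfl).symm
              · simp only [h0, h1, h2, h3, if_false]
      have d1 : IsClosed (e.cl ×ˢ uI ×ˢ ({0} : Set ℝ)) := hcl.prod (uI_closed.prod isClosed_singleton)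
      have d2 : IsClosed (e.cl ×ˢ uI ×ˢ ({1} : Set ℝ)) := hcl.prod (uI_closed.prod isClosed_singleton)
      have d3 : IsClosed (e.cl ×ˢ ({0} : Set ℝ) ×ˢ uI) := hcl.prod (isClosed_singleton.prod uI_closed)
      have d4 : IsClosed (e.cl ×ˢ ({1} : Set ℝ) ×ˢ uI) := hcl.prod (isClosed_singleton.prod uI_closed)
      have d5 : IsClosed (e.bd ×ˢ uI ×ˢ uI) := hbd.prod (uI_closed.prod uI_closed)
      have s1 : e.cl ×ˢ uI ×ˢ ({0, 1} : Set ℝ) =
          e.cl ×ˢ uI ×ˢ ({0} : Set ℝ) ∪ e.cl ×ˢ uI ×ˢ ({1} : Set ℝ) := by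
        rw [← prod_union, ← prod_union]
        rfl
      have s2 : e.cl ×ˢ ({0, 1} : Set ℝ) ×ˢ uI =
          e.cl ×ˢ ({0} : Set ℝ) ×ˢ uI ∪ e.cl ×ˢ ({1} : Set ℝ) ×ˢ uI := by
        rw [← prod_union, ← union_prod]
        rfl
      obtain ⟨G, hG, hGA, hGF⟩ := e.ext_prism2_cell ((wcontr_Iic (σ e)).2 (e.F.card + 2)) F
        (by
          rw [s1, s2]
          refine ContinuousOn.union_of_isClosed (ContinuousOn.union_of_isClosed
            (ContinuousOn.union_of_isClosed ?_ ?_ d1 d2) (ContinuousOn.union_of_isClosed ?_ ?_ d3 d4)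
            (d1.union d2) (d3.union d4)) ?_ ((d1.union d2).union (d3.union d4)) d5
          · have : ContinuousOn (fun z : (Fin n → ℝ) × ℝ × ℝ => P (z.1, z.2.1))
                (e.cl ×ˢ uI ×ˢ ({0} : Set ℝ)) :=
              hP.comp (by fun_prop) fun z hz => ⟨hclK hz.1, hz.2.1⟩
            refine this.congr ?_
            rintro ⟨x, r, w⟩ ⟨hx, hr, hw⟩
            have hw' : w = 0 := hw
            subst hw'
            exact v1 x hx r hr
          · have : ContinuousOn (fun z : (Fin n → ℝ) × ℝ × ℝ => Q (z.1, z.2.1))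
                (e.cl ×ˢ uI ×ˢ ({1} : Set ℝ)) :=
              hQ.comp (by fun_prop) fun z hz => ⟨hclK hz.1, hz.2.1⟩
            refine this.congr ?_
            rintro ⟨x, r, w⟩ ⟨hx, hr, hw⟩
            have hw' : w = 1 := hw
            subst hw'
            exact v2 x hx r hr
          · have : ContinuousOn (fun z : (Fin n → ℝ) × ℝ × ℝ => m0 (z.1, z.2.2))
                (e.cl ×ˢ ({0} : Set ℝ) ×ˢ uI) :=
              hm0.comp (by fun_prop) fun z hz => ⟨hclK hz.1, hz.2.2⟩
            refine this.congr ?_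
            rintro ⟨x, r, w⟩ ⟨hx, hr, hw⟩
            have hr' : r = 0 := hr
            subst hr'
            exact v3 x hx w hw
          · have : ContinuousOn (fun z : (Fin n → ℝ) × ℝ × ℝ => m1 (z.1, z.2.2))
                (e.cl ×ˢ ({1} : Set ℝ) ×ˢ uI) :=
              hm1.comp (by fun_prop) fun z hz => ⟨hclK hz.1, hz.2.2⟩
            refine this.congr ?_
            rintro ⟨x, r, w⟩ ⟨hx, hr, hw⟩
            have hr' : r = 1 := hr
            subst hr'
            exact v4 x hx w hw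
          · refine ContinuousOn.congr (f := f) ?_ ?_
            · exact hf
            · rintro ⟨x, r, w⟩ ⟨hx, hr, hw⟩
              exact v5 x hx r hr w hw)
        (by
          rintro ⟨x, r, w⟩ ((⟨hx, hr, hw⟩ | ⟨hx, hr, hw⟩) | ⟨hx, hr, hw⟩)
          · simp only [mem_Iic]
            rcases hw with hw | hw
            · have hw' : w = 0 := hw
              subst hw'
              rw [v1 x hx r hr]
              exact hPσ e he x hx r hr
            · have hw' : w = 1 := hw
              subst hw'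
              rw [v2 x hx r hr]
              exact hQσ e he x hx r hr
          · simp only [mem_Iic]
            rcases hr with hr | hr
            · have hr' : r = 0 := hr
              subst hr'
              rw [v3 x hx w hw]
              exact hm0σ e he x hx w hw
            · have hr' : r = 1 := hr
              subst hr'
              rw [v4 x hx w hw]
              exact hm1σ e he x hx w hw
          · simp only [mem_Iic]
            rw [v5 x hx r hr w hw]
            exact (hc x hx (r, w) ⟨hr, hw⟩).1)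
      refine ⟨G, hG, ?_, ?_⟩
      · rintro ⟨x, r, w⟩ ⟨hx, hr, hw⟩
        have hm : ((x, r, w) : (Fin n → ℝ) × ℝ × ℝ) ∈ e.cl ×ˢ uI ×ˢ ({0, 1} : Set ℝ) ∪
            e.cl ×ˢ ({0, 1} : Set ℝ) ×ˢ uI ∪ e.bd ×ˢ uI ×ˢ uI := Or.inr ⟨hx, hr, hw⟩
        rw [hGF hm]
        exact v5 x hx r hr w hw
      · rintro x hx ⟨r, w⟩ ⟨hr, hw⟩
        have hr' : r ∈ uI := hr
        have hw' : w ∈ uI := hw
        refine ⟨hGA (⟨hx, hr, hw⟩ : (x, r, w) ∈ e.cl ×ˢ uI ×ˢ uI), ?_, ?_, ?_, ?_⟩
        · intro h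
          have h' : w = 0 := h
          subst h'
          have hm : ((x, r, (0 : ℝ)) : (Fin n → ℝ) × ℝ × ℝ) ∈ e.cl ×ˢ uI ×ˢ ({0, 1} : Set ℝ) ∪
            e.cl ×ˢ ({0, 1} : Set ℝ) ×ˢ uI ∪ e.bd ×ˢ uI ×ˢ uI := Or.inl (Or.inl ⟨hx, hr, Or.inl rfl⟩)
          rw [hGF hm]
          exact v1 x hx r hr
        · intro h
          have h' : w = 1 := h
          subst h'
          have hm : ((x, r, (1 : ℝ)) : (Fin n → ℝ) × ℝ × ℝ) ∈ e.cl ×ˢ uI ×ˢ ({0, 1} : Set ℝ) ∪
            e.cl ×ˢ ({0, 1} : Set ℝ) ×ˢ uI ∪ e.bd ×ˢ uI ×ˢ uI := Or.inl (Or.inl ⟨hx, hr, Or.inr rfl⟩)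
          rw [hGF hm]
          exact v2 x hx r hr
        · intro h
          have h' : r = 0 := h
          subst h'
          have hm : ((x, (0 : ℝ), w) : (Fin n → ℝ) × ℝ × ℝ) ∈ e.cl ×ˢ uI ×ˢ ({0, 1} : Set ℝ) ∪
            e.cl ×ˢ ({0, 1} : Set ℝ) ×ˢ uI ∪ e.bd ×ˢ uI ×ˢ uI := Or.inl (Or.inr ⟨hx, Or.inl rfl, hw⟩)
          rw [hGF hm]
          exact v3 x hx w hw
        · intro h
          have h' : r = 1 := h
          subst h'
          have hm : ((x, (1 : ℝ), w) : (Fin n → ℝ) × ℝ × ℝ) ∈ e.cl ×ˢ uI ×ˢ ({0, 1} : Set ℝ) ∪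
            e.cl ×ˢ ({0, 1} : Set ℝ) ×ˢ uI ∪ e.bd ×ˢ uI ×ˢ uI := Or.inl (Or.inr ⟨hx, Or.inr rfl, hw⟩)
          rw [hGF hm]
          exact v4 x hx w hw)
  have hmem : ∀ x ∈ KN n N, ∃ e ∈ Cell.K n N, x ∈ e.cl := by
    intro x hx
    rw [KN_eq] at hx
    simp only [mem_iUnion, exists_prop] at hx
    exact hx
  refine ⟨G, hG1, ?_, ?_, ?_, ?_, ?_⟩
  · intro x hx r hr w hw
    exact hG2 (⟨hx, hr, hw⟩ : (x, r, w) ∈ BN n N ×ˢ uI ×ˢ uI)
  · intro x hx r hr
    obtain ⟨e, he, hx⟩ := hmem x hx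
    exact (hG3 e he x hx (r, 0) ⟨hr, uI_zero⟩).2.1 rfl
  · intro x hx r hr
    obtain ⟨e, he, hx⟩ := hmem x hx
    exact (hG3 e he x hx (r, 1) ⟨hr, uI_one⟩).2.2.1 rfl
  · intro x hx w hw
    obtain ⟨e, he, hx⟩ := hmem x hx
    exact (hG3 e he x hx (0, w) ⟨uI_zero, hw⟩).2.2.2.1 rfl
  · intro x hx w hw
    obtain ⟨e, he, hx⟩ := hmem x hx
    exact (hG3 e he x hx (1, w) ⟨uI_one, hw⟩).2.2.2.2 rfl

end

end Vale.Agent.P259
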