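import Vale.Agent.Lib.P259.DPt
import Vale.Agent.Lib.P259.Bim
import Vale.Agent.Lib.P259.BimCone
/-!
# P259, module F4: the realization `TW D W` of a presheaf `W` by chains and discs
-/
namespace Vale.Agent.P259
open CategoryTheory Set Topology

variable {E : GlobExt} (D : DiscFunctor E)

/-- pairs of an element `p` of `QW W` and a point of `D(p.σ.top)` -/
structure TW (W : PSh E.Cat) where
  p : QW W
  d : D.sp p.σ.top.obj

namespace TW
variable {D} {W V : PSh E.Cat}

/-- open sets: families of open sets `U_p ⊆ D(p.σ.top)` with `D(top)⁻¹(U_q) ⊆ U_p` for `p ≤ q` -/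
instance : TopologicalSpace (TW D W) where
  IsOpen U := (∀ p : QW W, IsOpen {d : D.sp p.σ.top.obj | (⟨p, d⟩ : TW D W) ∈ U}) ∧
    ∀ (p q : QW W) (h : p ≤ q) (d : D.sp p.σ.top.obj),
      (⟨q, D.mp (Ch.topHom h.1) d⟩ : TW D W) ∈ U → (⟨p, d⟩ : TW D W) ∈ U
  isOpen_univ := ⟨fun _ => isOpen_univ, fun _ _ _ _ _ => trivial⟩
  isOpen_inter U V hU hV := ⟨fun p => (hU.1 p).inter (hV.1 p),
    fun p q h d hd => ⟨hU.2 p q h d hd.1, hV.2 p q h d hd.2⟩⟩
  isOpen_sUnion S hS := by
    refine ⟨fun p => ?_, ?_⟩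
    · have h1 : {d : D.sp p.σ.top.obj | (⟨p, d⟩ : TW D W) ∈ ⋃₀ S} =
          ⋃ U ∈ S, {d : D.sp p.σ.top.obj | (⟨p, d⟩ : TW D W) ∈ U} := by
        ext d
        simp only [mem_sUnion, mem_iUnion, Set.mem_ofPred_eq, exists_prop]
      rw [h1]
      exact isOpen_biUnion fun U hU => (hS U hU).1 p
    · rintro p q h d ⟨U, hU, hd⟩
      exact ⟨U, hU, (hS U hU).2 p q h d hd⟩

theorem isOpen_iff {U : Set (TW D W)} : IsOpen U ↔
    (∀ p : QW W, IsOpen {d : D.sp p.σ.top.obj | (⟨p, d⟩ : TW D W) ∈ U}) ∧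
    ∀ (p q : QW W) (h : p ≤ q) (d : D.sp p.σ.top.obj),
      (⟨q, D.mp (Ch.topHom h.1) d⟩ : TW D W) ∈ U → (⟨p, d⟩ : TW D W) ∈ U := Iff.rfl

/-- maps out of `TW` -/
theorem continuous_iff {Z : Type*} [TopologicalSpace Z] (f : TW D W → Z) : Continuous f ↔
    (∀ p : QW W, Continuous fun d : D.sp p.σ.top.obj => f ⟨p, d⟩) ∧
    ∀ U : Set Z, IsOpen U → ∀ (p q : QW W) (h : p ≤ q) (d : D.sp p.σ.top.obj),
      f ⟨q, D.mp (Ch.topHom h.1) d⟩ ∈ U → f ⟨p, d⟩ ∈ U := by
  constructor
  · intro hf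
    refine ⟨fun p => continuous_def.2 fun U hU => (hf.isOpen_preimage U hU).1 p, ?_⟩
    intro U hU p q h d hd
    exact (hf.isOpen_preimage U hU).2 p q h d hd
  · rintro ⟨h1, h2⟩
    refine continuous_def.2 fun U hU => ⟨fun p => (h1 p).isOpen_preimage U hU, ?_⟩
    intro p q h d hd
    exact h2 U hU p q h d hd

/-- the inclusion of the disc over `p` -/
theorem continuous_mk (p : QW W) : Continuous fun d : D.sp p.σ.top.obj => (⟨p, d⟩ : TW D W) :=
  continuous_def.2 fun _ hU => hU.1 p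

/-- functoriality -/
def map (F : W.Hom V) (x : TW D W) : TW D V := ⟨QW.map F x.p, x.d⟩
theorem continuous_map (F : W.Hom V) : Continuous (map F : TW D W → TW D V) := by
  rw [continuous_iff]
  refine ⟨fun p => continuous_mk (D := D) (QW.map F p), ?_⟩
  intro U hU p q h d hd
  exact hU.2 (QW.map F p) (QW.map F q) (QW.map_mono F h) d hd
theorem map_id (x : TW D W) : map (PSh.Hom.id W) x = x := rfl
theorem map_comp {U : PSh E.Cat} (G : V.Hom U) (F : W.Hom V) (x : TW D W) :
    map G (map F x) = map (PSh.Hom.comp G F) x := rfl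

/-- projection to `QW W` -/
def t (x : TW D W) : QW W := x.p
theorem continuous_t : Continuous (t : TW D W → QW W) := by
  rw [continuous_iff]
  refine ⟨fun p => continuous_const, ?_⟩
  intro U hU p q h d hd
  exact (Topology.IsLowerSet.isOpen_iff_isLowerSet.1 hU) h hd
theorem t_map (F : W.Hom V) (x : TW D W) : t (map F x) = QW.map F (t x) := rfl

/-- the retraction of the fibre over `Iic q` to `D(q.σ.top)` -/
noncomputable def fibR (q : QW W) (x : (t : TW D W → QW W) ⁻¹' Iic q) : D.sp q.σ.top.obj :=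
  D.mp (Ch.topHom (show x.1.p ≤ q from x.2).1) x.1.d

/-- the inclusion of `D(q.σ.top)` in the fibre over `Iic q` -/
def fibI (q : QW W) (d : D.sp q.σ.top.obj) : (t : TW D W → QW W) ⁻¹' Iic q :=
  ⟨⟨q, d⟩, le_refl q⟩

theorem topHom_trans_mp {σ τ ρ : Ch E.Cat} (h : σ ≤ τ) (h' : τ ≤ ρ) (d : D.sp σ.top.obj) :
    D.mp (Ch.topHom h') (D.mp (Ch.topHom h) d) = D.mp (Ch.topHom (h.trans h')) d := by
  rw [Ch.topHom_trans h h']
  exact (D.mp_comp (Ch.topHom h) (Ch.topHom h') d).symm

theorem topHom_refl_mp {σ : Ch E.Cat} (h : σ ≤ σ) (d : D.sp σ.top.obj) :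
    D.mp (Ch.topHom h) d = d := by
  have : Ch.topHom h = 𝟙 _ := Ch.topHom_refl σ
  rw [this]
  exact D.mp_id σ.top.obj d

theorem continuous_fibI (q : QW W) : Continuous (fibI (D := D) q) :=
  Continuous.subtype_mk (continuous_mk q) _

theorem continuous_fibR (q : QW W) : Continuous (fibR (D := D) q) := by
  refine continuous_def.2 fun V hV => ?_
  rw [isOpen_induced_iff]
  refine ⟨{x : TW D W | ∃ h : x.p ≤ q, D.mp (Ch.topHom h.1) x.d ∈ V}, ⟨?_, ?_⟩, ?_⟩
  · intro p
    by_cases hp : p ≤ q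
    · have h1 : {d : D.sp p.σ.top.obj | (⟨p, d⟩ : TW D W) ∈
          {x : TW D W | ∃ h : x.p ≤ q, D.mp (Ch.topHom h.1) x.d ∈ V}} =
          (D.mp (Ch.topHom hp.1)) ⁻¹' V := by
        ext d
        constructor
        · rintro ⟨_, h⟩
          exact h
        · intro h
          exact ⟨hp, h⟩
      rw [h1]
      exact (D.mp (Ch.topHom hp.1)).continuous.isOpen_preimage V hV
    · have h1 : {d : D.sp p.σ.top.obj | (⟨p, d⟩ : TW D W) ∈
          {x : TW D W | ∃ h : x.p ≤ q, D.mp (Ch.topHom h.1) x.d ∈ V}} = ∅ := by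
        ext d
        constructor
        · rintro ⟨h, _⟩
          exact absurd h hp
        · intro h
          exact absurd h (notMem_empty d)
      rw [h1]
      exact isOpen_empty
  · rintro p p' h d ⟨h', hd⟩
    refine ⟨h.trans h', ?_⟩
    have h2 : D.mp (Ch.topHom h'.1) (D.mp (Ch.topHom h.1) d) ∈ V := hd
    rw [topHom_trans_mp] at h2
    exact h2
  · ext ⟨x, hx⟩
    constructor
    · rintro ⟨_, h⟩
      exact h
    · intro h
      exact ⟨hx, h⟩

theorem fibI_fibR_mem (q : QW W) (x : (t : TW D W → QW W) ⁻¹' Iic q)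
    (V : Set ((t : TW D W → QW W) ⁻¹' Iic q)) (hV : IsOpen V) (h : fibI q (fibR q x) ∈ V) :
    x ∈ V := by
  obtain ⟨U, hU, rfl⟩ := isOpen_induced_iff.1 hV
  exact hU.2 x.1.p q x.2 x.1.d h

/-- fibres over `Iic q`: jump to `(q, D(top) d)`, then contract `D(q.σ.top)` (`D.wcontr`) -/
theorem isWE_fibR (q : QW W) : IsWE (fibR (D := D) q) := by
  classical
  refine IsWE.of_homotopyEquiv (fibR q) (fibI q) (continuous_fibR q) (continuous_fibI q)
    (fun z => if z.2 ≤ 0 then fibI q (fibR q z.1) else z.1) ?_ ?_ ?_ (fun z => z.1) ?_ ?_ ?_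
  · refine Continuous.continuousOn (continuous_def.2 fun V hV => ?_)
    have h1 : (fun z : ((t : TW D W → QW W) ⁻¹' Iic q) × ℝ =>
        if z.2 ≤ 0 then fibI q (fibR q z.1) else z.1) ⁻¹' V =
        ((fun z : ((t : TW D W → QW W) ⁻¹' Iic q) × ℝ => fibI q (fibR q z.1)) ⁻¹' V) ∪
        ((fun z : ((t : TW D W → QW W) ⁻¹' Iic q) × ℝ => z.1) ⁻¹' V ∩
          (fun z : ((t : TW D W → QW W) ⁻¹' Iic q) × ℝ => z.2) ⁻¹' Ioi 0) := by
      ext z
      simp only [mem_preimage, mem_union, mem_inter_iff, mem_Ioi]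
      by_cases hz : z.2 ≤ 0
      · simp only [hz, if_true]
        constructor
        · intro h
          exact Or.inl h
        · rintro (h | ⟨_, h⟩)
          · exact h
          · exact absurd h (not_lt.2 hz)
      · simp only [hz, if_false]
        constructor
        · intro h
          exact Or.inr ⟨h, not_le.1 hz⟩
        · rintro (h | ⟨h, _⟩)
          · exact fibI_fibR_mem q z.1 V hV h
          · exact h
    rw [h1]
    refine IsOpen.union ?_ (IsOpen.inter ?_ ?_)
    · exact ((continuous_fibI q).comp ((continuous_fibR q).comp continuous_fst)).isOpen_preimage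
        V hV
    · exact continuous_fst.isOpen_preimage V hV
    · exact continuous_snd.isOpen_preimage _ isOpen_Ioi
  · intro x
    simp only [le_refl, if_true]
  · intro x
    have : ¬ ((1 : ℝ) ≤ 0) := by norm_num
    simp only [this, if_false]
  · exact continuous_fst.continuousOn
  · intro y
    exact (topHom_refl_mp _ y).symm
  · intro y
    rfl

/-- `TW D W ⟶ QW W` is a weak equivalence -/
theorem isWE_t : IsWE (t : TW D W → QW W) := by
  refine isWE_of_fibers t continuous_t fun q => ?_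
  rw [wcontr_subtype]
  exact (isWE_fibR q).wcontr_iff.2 (D.wcontr q.σ.top.obj)

theorem wcontr_rep (S : E.Cat) : WContr (univ : Set (TW D (PSh.rep S))) :=
  isWE_t.wcontr_iff.2 (QW.wcontr_rep S)

instance : UCompactlyGeneratedSpace.{0} (TW D W) := by
  classical
  refine uCompactlyGeneratedSpace_of_isOpen fun U hU => ⟨fun p => ?_, fun p q h d hd => ?_⟩
  · refine UCompactlyGeneratedSpace.isOpen.{0} (X := D.sp p.σ.top.obj) fun S f => ?_
    exact hU S ⟨fun s => ⟨p, f s⟩, (continuous_mk p).comp f.continuous⟩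
  · have hc : Continuous (fun s : unitInterval => if (s : ℝ) ≤ 0 then
        (⟨q, D.mp (Ch.topHom h.1) d⟩ : TW D W) else ⟨p, d⟩) := by
      refine continuous_def.2 fun V hV => ?_
      by_cases h1 : (⟨q, D.mp (Ch.topHom h.1) d⟩ : TW D W) ∈ V
      · have h2 : (⟨p, d⟩ : TW D W) ∈ V := hV.2 p q h d h1
        convert isOpen_univ using 1
        ext s
        simp only [mem_preimage, mem_univ, iff_true]
        split_ifs
        · exact h1
        · exact h2
      · by_cases h2 : (⟨p, d⟩ : TW D W) ∈ V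
        · have h3 : (fun s : unitInterval => if (s : ℝ) ≤ 0 then
              (⟨q, D.mp (Ch.topHom h.1) d⟩ : TW D W) else ⟨p, d⟩) ⁻¹' V =
              (fun s : unitInterval => (s : ℝ)) ⁻¹' Ioi 0 := by
            ext s
            simp only [mem_preimage, mem_Ioi]
            split_ifs with h4
            · exact ⟨fun h5 => absurd h5 h1, fun h5 => absurd h5 (not_lt.2 h4)⟩
            · exact ⟨fun _ => not_le.1 h4, fun _ => h2⟩
          rw [h3]
          exact continuous_subtype_val.isOpen_preimage _ isOpen_Ioi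
        · convert isOpen_empty using 1
          ext s
          simp only [mem_preimage, mem_empty_iff_false, iff_false]
          split_ifs
          · exact h1
          · exact h2
    have h1 : IsOpen ((fun s : unitInterval => if (s : ℝ) ≤ 0 then
        (⟨q, D.mp (Ch.topHom h.1) d⟩ : TW D W) else ⟨p, d⟩) ⁻¹' U) :=
      hU (CompHaus.of unitInterval) ⟨_, hc⟩
    have h0 : (0 : unitInterval) ∈ (fun s : unitInterval => if (s : ℝ) ≤ 0 then
        (⟨q, D.mp (Ch.topHom h.1) d⟩ : TW D W) else ⟨p, d⟩) ⁻¹' U := by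
      change (if (((0 : unitInterval) : ℝ)) ≤ 0 then
        (⟨q, D.mp (Ch.topHom h.1) d⟩ : TW D W) else ⟨p, d⟩) ∈ U
      rw [if_pos (show (((0 : unitInterval) : ℝ)) ≤ 0 from le_refl (0 : ℝ))]
      exact hd
    have h2 := h1.mem_nhds h0
    rw [nhds_induced, Filter.mem_comap] at h2
    obtain ⟨N, hN, hN2⟩ := h2
    obtain ⟨ε, hε, hball⟩ := Metric.mem_nhds_iff.1 hN
    have hm0 : 0 < min (ε / 2) 1 := lt_min (half_pos hε) one_pos
    have hs : (⟨min (ε / 2) 1, hm0.le, min_le_right _ _⟩ : unitInterval) ∈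
        (fun s : unitInterval => if (s : ℝ) ≤ 0 then
        (⟨q, D.mp (Ch.topHom h.1) d⟩ : TW D W) else ⟨p, d⟩) ⁻¹' U := by
      apply hN2
      apply hball
      change dist (min (ε / 2) 1) 0 < ε
      rw [Real.dist_eq, sub_zero, abs_of_pos hm0]
      exact lt_of_le_of_lt (min_le_left _ _) (half_lt_self hε)
    have h4 : (if (min (ε / 2) 1 : ℝ) ≤ 0 then
        (⟨q, D.mp (Ch.topHom h.1) d⟩ : TW D W) else ⟨p, d⟩) ∈ U := hs
    rw [if_neg (not_le.2 hm0)] at h4
    exact h4

end TW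

/-- the presheaf `S ↦ C(D(S), Y)` -/
noncomputable def PiP (Y : Type) [TopologicalSpace Y] : PSh E.Cat where
  obj S := C(D.sp S.obj, Y)
  res k u := u.comp (D.mp k)
  res_id u := by ext x; exact congrArg u (D.mp_id _ x)
  res_comp k l u := by ext x; exact congrArg u (D.mp_comp k l x)

/-- functoriality in `Y` -/
def PiP.map {Y Z : Type} [TopologicalSpace Y] [TopologicalSpace Z] (f : C(Y, Z)) :
    (PiP D Y).Hom (PiP D Z) where
  app u := f.comp u
  nat _ _ := rfl

/-- evaluation `TW (Π_∞ Y) ⟶ Y` -/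
def TW.ev {Y : Type} [TopologicalSpace Y] (x : TW D (PiP D Y)) : Y :=
  (show C(D.sp x.p.σ.top.obj, Y) from x.p.w) x.d

theorem TW.continuous_ev {Y : Type} [TopologicalSpace Y] :
    Continuous (TW.ev D : TW D (PiP D Y) → Y) := by
  rw [TW.continuous_iff]
  refine ⟨fun p => (show C(D.sp p.σ.top.obj, Y) from p.w).continuous, ?_⟩
  intro U hU p q h d hd
  obtain ⟨h1, h2⟩ := h
  have h3 : (show C(D.sp p.σ.top.obj, Y) from p.w) d =
      (show C(D.sp q.σ.top.obj, Y) from q.w) (D.mp (Ch.topHom h1) d) := by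
    rw [← h2]
    rfl
  change (show C(D.sp p.σ.top.obj, Y) from p.w) d ∈ U
  rw [h3]
  exact hd
theorem TW.ev_nat {Y Z : Type} [TopologicalSpace Y] [TopologicalSpace Z] (f : C(Y, Z))
    (x : TW D (PiP D Y)) : TW.ev D (TW.map (PiP.map D f) x) = f (TW.ev D x) := rfl

end Vale.Agent.P259
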