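import Vale.Agent.Lib.P259.TW
import Vale.Agent.Lib.P259.GlobFam
import Vale.Agent.Lib.P259.CellMap
/-!
# P259, module F5: discs of cells in `TW D W`, and comparison with the discs in `QW W`
-/
namespace Vale.Agent.P259
open CategoryTheory Set Topology

/-- composition with a map of representable presheaves -/
theorem PSh.ofElt_comp_ofElt {A : Type} [Category.{0} A] {W : PSh A} {S T : A} (w : W.obj T)
    (k : S ⟶ T) : PSh.Hom.comp (PSh.ofElt w) (PSh.ofElt (W := PSh.rep T) k) =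
      PSh.ofElt (W.res k w) := by
  refine PSh.Hom.ext ?_
  funext R f
  exact W.res_comp f k w

theorem PSh.comp_ofElt {A : Type} [Category.{0} A] {W V : PSh A} {S : A} (F : W.Hom V)
    (w : W.obj S) : PSh.Hom.comp F (PSh.ofElt w) = PSh.ofElt (F.app w) := by
  refine PSh.Hom.ext ?_
  funext R f
  exact F.nat f w

theorem QW.map_ofElt_ofElt {A : Type} [Category.{0} A] {W : PSh A} {S T : A} (w : W.obj T)
    (k : S ⟶ T) (x : QW (PSh.rep S)) :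
    QW.map (PSh.ofElt w) (QW.map (PSh.ofElt (W := PSh.rep T) k) x) =
      QW.map (PSh.ofElt (W.res k w)) x := by
  rw [← PSh.ofElt_comp_ofElt]
  rfl

theorem TW.map_ofElt_ofElt {E : GlobExt} {D : DiscFunctor E} {W : PSh E.Cat} {S T : E.Cat}
    (w : W.obj T) (k : S ⟶ T) (x : TW D (PSh.rep S)) :
    TW.map (PSh.ofElt w) (TW.map (PSh.ofElt (W := PSh.rep T) k) x) =
      TW.map (PSh.ofElt (W.res k w)) x := by
  rw [TW.map_comp, PSh.ofElt_comp_ofElt]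

variable {C : Coherator} (D : DiscFunctor C.C)

/-- the coglobular space `n ↦ TW D (rep D_n)` -/
noncomputable def twGlob : CGlob where
  X n := TW D (PSh.rep (⟨.D n⟩ : C.C.Cat))
  top n := inferInstance
  d n ε := TW.map (PSh.ofElt (W := PSh.rep (⟨.D (n + 1)⟩ : C.C.Cat)) (S := ⟨.D n⟩)
    (C.C.jm (bd₀ (Nat.lt_succ_self n) ε)))
  cont n ε := TW.continuous_map _
  dd n ε ε' x := by
    have h1 : ∀ δ : Bool, (PSh.rep (⟨.D (n + 2)⟩ : C.C.Cat)).res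
        (C.C.jm (bd₀ (Nat.lt_succ_self n) ε')) (C.C.jm (bd₀ (Nat.lt_succ_self (n + 1)) δ)) =
        C.C.jm (bd₀ ((Nat.lt_succ_self n).trans (Nat.lt_succ_self (n + 1))) ε') :=
      fun δ => C.C.jm_bd_bd _ _ ε' δ
    have h2 : ∀ δ : Bool, TW.map (PSh.ofElt (W := PSh.rep (⟨.D (n + 2)⟩ : C.C.Cat))
        (S := ⟨.D (n + 1)⟩) (C.C.jm (bd₀ (Nat.lt_succ_self (n + 1)) δ)))
        (TW.map (PSh.ofElt (W := PSh.rep (⟨.D (n + 1)⟩ : C.C.Cat)) (S := ⟨.D n⟩)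
          (C.C.jm (bd₀ (Nat.lt_succ_self n) ε'))) x) =
        TW.map (PSh.ofElt (W := PSh.rep (⟨.D (n + 2)⟩ : C.C.Cat)) (S := ⟨.D n⟩)
          (C.C.jm (bd₀ ((Nat.lt_succ_self n).trans (Nat.lt_succ_self (n + 1))) ε'))) x :=
      fun δ => (TW.map_ofElt_ofElt (W := PSh.rep (⟨.D (n + 2)⟩ : C.C.Cat))
        (C.C.jm (bd₀ (Nat.lt_succ_self (n + 1)) δ)) (C.C.jm (bd₀ (Nat.lt_succ_self n) ε')) x).trans
        (congrArg (fun v => TW.map (PSh.ofElt (W := PSh.rep (⟨.D (n + 2)⟩ : C.C.Cat))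
          (S := ⟨.D n⟩) v) x) (h1 δ))
    exact (h2 ε).trans (h2 (!ε)).symm

/-- a family of maps of discs `closedDisc n ⟶ TW D (rep D_n)` -/
noncomputable def twFam : (twGlob D).Fam :=
  ((twGlob D).exists_fam fun n => TW.wcontr_rep (D := D) (⟨.D n⟩ : C.C.Cat)).some

variable {W V : PSh C.C.Cat}

/-- the disc in `TW D W` of a cell of `W` -/
noncomputable def tcell (n : ℕ) (W : PSh C.C.Cat) (w : W.obj ⟨.D n⟩) (x : Fin n → ℝ) : TW D W :=
  TW.map (PSh.ofElt w) ((twFam D).f n x)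

theorem continuousOn_tcell (n : ℕ) (W : PSh C.C.Cat) (w : W.obj ⟨.D n⟩) :
    ContinuousOn (tcell D n W w) (closedDisc n) :=
  (TW.continuous_map (D := D) (PSh.ofElt w)).comp_continuousOn ((twFam D).cont n)
theorem map_tcell (F : W.Hom V) (n : ℕ) (w : W.obj ⟨.D n⟩) (x : Fin n → ℝ) :
    TW.map F (tcell D n W w x) = tcell D n V (F.app w) x :=
  congrArg (fun G => TW.map G (show TW D (PSh.rep (⟨.D n⟩ : C.C.Cat)) from (twFam D).f n x))
    (PSh.comp_ofElt F w)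
theorem tcell_hemi (n : ℕ) (W : PSh C.C.Cat) (w : W.obj ⟨.D (n + 1)⟩) (ε : Bool)
    {x : Fin n → ℝ} (hx : x ∈ closedDisc n) :
    tcell D (n + 1) W w (hemi ε x) =
      tcell D n W (W.res (C.C.jm (bd₀ (Nat.lt_succ_self n) ε)) w) x := by
  unfold tcell
  rw [(twFam D).hemi n ε x hx]
  exact TW.map_ofElt_ofElt w (C.C.jm (bd₀ (Nat.lt_succ_self n) ε)) ((twFam D).f n x)

/-- the coglobular space `n ↦ QW (rep D_n)` -/
noncomputable def qwGlob (C : Coherator) : CGlob where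
  X n := QW (PSh.rep (⟨.D n⟩ : C.C.Cat))
  top n := inferInstance
  d n ε := QW.map (PSh.ofElt (W := PSh.rep (⟨.D (n + 1)⟩ : C.C.Cat)) (S := ⟨.D n⟩)
    (C.C.jm (bd₀ (Nat.lt_succ_self n) ε)))
  cont n ε := QW.continuous_map _
  dd n ε ε' x := by
    have h1 : ∀ δ : Bool, (PSh.rep (⟨.D (n + 2)⟩ : C.C.Cat)).res
        (C.C.jm (bd₀ (Nat.lt_succ_self n) ε')) (C.C.jm (bd₀ (Nat.lt_succ_self (n + 1)) δ)) =
        C.C.jm (bd₀ ((Nat.lt_succ_self n).trans (Nat.lt_succ_self (n + 1))) ε') :=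
      fun δ => C.C.jm_bd_bd _ _ ε' δ
    have h2 : ∀ δ : Bool, QW.map (PSh.ofElt (W := PSh.rep (⟨.D (n + 2)⟩ : C.C.Cat))
        (S := ⟨.D (n + 1)⟩) (C.C.jm (bd₀ (Nat.lt_succ_self (n + 1)) δ)))
        (QW.map (PSh.ofElt (W := PSh.rep (⟨.D (n + 1)⟩ : C.C.Cat)) (S := ⟨.D n⟩)
          (C.C.jm (bd₀ (Nat.lt_succ_self n) ε'))) x) =
        QW.map (PSh.ofElt (W := PSh.rep (⟨.D (n + 2)⟩ : C.C.Cat)) (S := ⟨.D n⟩)
          (C.C.jm (bd₀ ((Nat.lt_succ_self n).trans (Nat.lt_succ_self (n + 1))) ε'))) x :=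
      fun δ => (QW.map_ofElt_ofElt (W := PSh.rep (⟨.D (n + 2)⟩ : C.C.Cat))
        (C.C.jm (bd₀ (Nat.lt_succ_self (n + 1)) δ)) (C.C.jm (bd₀ (Nat.lt_succ_self n) ε')) x).trans
        (congrArg (fun v => QW.map (PSh.ofElt (W := PSh.rep (⟨.D (n + 2)⟩ : C.C.Cat))
          (S := ⟨.D n⟩) v) x) (h1 δ))
    exact (h2 ε).trans (h2 (!ε)).symm

/-- the family of the discs of the universal cells -/
noncomputable def qwFam (C : Coherator) : (qwGlob C).Fam where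
  f n := Coherator.cellMap n (PSh.rep (⟨.D n⟩ : C.C.Cat)) (𝟙 (⟨.D n⟩ : C.C.Cat))
  cont n := Coherator.continuousOn_cellMap n _ _
  hemi n ε x hx := by
    have h1 : (PSh.rep (⟨.D (n + 1)⟩ : C.C.Cat)).res (C.C.jm (bd₀ (Nat.lt_succ_self n) ε))
        (𝟙 (⟨.D (n + 1)⟩ : C.C.Cat)) = C.C.jm (bd₀ (Nat.lt_succ_self n) ε) :=
      Category.comp_id _
    have h2 : (PSh.ofElt (W := PSh.rep (⟨.D (n + 1)⟩ : C.C.Cat)) (S := ⟨.D n⟩)
        (C.C.jm (bd₀ (Nat.lt_succ_self n) ε))).app (𝟙 (⟨.D n⟩ : C.C.Cat)) =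
        C.C.jm (bd₀ (Nat.lt_succ_self n) ε) := Category.id_comp _
    refine (Coherator.cellMap_hemi n (PSh.rep (⟨.D (n + 1)⟩ : C.C.Cat))
      (𝟙 (⟨.D (n + 1)⟩ : C.C.Cat)) ε hx).trans ?_
    refine Eq.trans ?_ (Coherator.map_cellMap (PSh.ofElt (W := PSh.rep (⟨.D (n + 1)⟩ : C.C.Cat))
      (S := ⟨.D n⟩) (C.C.jm (bd₀ (Nat.lt_succ_self n) ε))) n (𝟙 (⟨.D n⟩ : C.C.Cat)) x).symm
    rw [h1, h2]

/-- the family of the projections of the discs in `TW D (rep D_n)` -/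
noncomputable def tFam : (qwGlob C).Fam where
  f n x := TW.t ((twFam D).f n x)
  cont n := TW.continuous_t.comp_continuousOn ((twFam D).cont n)
  hemi n ε x hx := congrArg TW.t ((twFam D).hemi n ε x hx)

/-- the coglobular space `n ↦ QW (rep D_n)` with its two families `cellMap` and `t ∘ twFam` -/
theorem exists_compare : ∃ h : ∀ (n : ℕ) (W : PSh C.C.Cat) (_ : W.obj ⟨.D n⟩),
      (Fin n → ℝ) × ℝ → QW W,
    (∀ n W w, ContinuousOn (h n W w) (closedDisc n ×ˢ uI)) ∧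
    (∀ n W w, ∀ x ∈ closedDisc n, h n W w (x, 0) = Coherator.cellMap n W w x) ∧
    (∀ n W w, ∀ x ∈ closedDisc n, h n W w (x, 1) = TW.t (tcell D n W w x)) ∧
    (∀ n W (w : W.obj ⟨.D (n + 1)⟩) ε, ∀ x ∈ closedDisc n, ∀ t ∈ uI,
      h (n + 1) W w (hemi ε x, t) =
        h n W (W.res (C.C.jm (bd₀ (Nat.lt_succ_self n) ε)) w) (x, t)) := by
  obtain ⟨h, hc, h0, h1, hh⟩ := (qwGlob C).exists_homotopy
    (fun n => QW.wcontr_rep (⟨.D n⟩ : C.C.Cat)) (qwFam C) (tFam D)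
  refine ⟨fun n W w z => QW.map (PSh.ofElt w) (h n z), ?_, ?_, ?_, ?_⟩
  · intro n W w
    exact (QW.continuous_map (PSh.ofElt w)).comp_continuousOn (hc n)
  · intro n W w x hx
    have h2 : h n (x, 0) = Coherator.cellMap n (PSh.rep (⟨.D n⟩ : C.C.Cat))
        (𝟙 (⟨.D n⟩ : C.C.Cat)) x := h0 n x hx
    have h3 : (PSh.ofElt w).app (𝟙 (⟨.D n⟩ : C.C.Cat)) = w := W.res_id w
    change QW.map (PSh.ofElt w) (h n (x, 0)) = _
    rw [h2]
    refine (Coherator.map_cellMap (PSh.ofElt w) n (𝟙 (⟨.D n⟩ : C.C.Cat)) x).trans ?_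
    rw [h3]
  · intro n W w x hx
    exact congrArg (QW.map (PSh.ofElt w)) (h1 n x hx)
  · intro n W w ε x hx t ht
    refine (congrArg (QW.map (PSh.ofElt w)) (hh n ε x hx t ht)).trans ?_
    exact QW.map_ofElt_ofElt w (C.C.jm (bd₀ (Nat.lt_succ_self n) ε)) (h n (x, t))

end Vale.Agent.P259
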