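import Vale.Agent.Lib.P259.Defs
/-!
# P259, module F9b: elementary properties of weak equivalences of infinity-groupoids
-/
namespace Vale.Agent.P259
open CategoryTheory Opposite

namespace Coherator
variable {C : Coherator}

/-- trivial fibrations: surjective on `0`-cells, and cells with given boundary lift -/
structure IsTF {W V : C.C.Catᵒᵖ ⥤ Type} (f : W ⟶ V) : Prop where
  surj : ∀ v : cells V 0, ∃ w : cells W 0, onCells f w = v
  lift₀ : ∀ (a b : cells W 0) (v : cells V 1), bdCell V false v = onCells f a →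
    bdCell V true v = onCells f b → ∃ w : cells W 1, bdCell W false w = a ∧ bdCell W true w = b ∧
      onCells f w = v
  lift : ∀ (n : ℕ) (a b : cells W (n + 1)), (∀ ε, bdCell W ε a = bdCell W ε b) →
    ∀ v : cells V (n + 2), bdCell V false v = onCells f a → bdCell V true v = onCells f b →
      ∃ w : cells W (n + 2), bdCell W false w = a ∧ bdCell W true w = b ∧ onCells f w = v

/-- the boundary of the unit cell on `u` is `u` -/
theorem bdCell_unit (W : C.C.Catᵒᵖ ⥤ Type) (n : ℕ) (u : cells W n) (ε : Bool) :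
    bdCell W ε (GlobExt.act W (C.unit n) u) = u := by
  have hspec := (C.exists_lift n (.D n) (C.C.id _) (C.C.id _)
    (by cases n <;> simp [GlobExt.Parallel])).choose_spec
  have h1 : C.C.comp (C.C.J (bd₀ (Nat.lt_succ_self n) ε)) (C.unit n) = C.C.id (.D n) := by
    cases ε
    · exact hspec.1
    · exact hspec.2
  have h2 : bdCell W ε (GlobExt.act W (C.unit n) u)
      = GlobExt.act W (C.C.comp (C.C.J (bd₀ (Nat.lt_succ_self n) ε)) (C.unit n)) u := by
    have := W.map_comp (Quiver.Hom.op (X := (⟨.D (n + 1)⟩ : C.C.Cat)) (Y := ⟨.D n⟩) (C.unit n))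
      (Quiver.Hom.op (X := (⟨.D n⟩ : C.C.Cat)) (Y := ⟨.D (n + 1)⟩)
        (C.C.J (bd₀ (Nat.lt_succ_self n) ε)))
    exact (ConcreteCategory.congr_hom this u).symm
  rw [h2, h1]
  exact ConcreteCategory.congr_hom (W.map_id (op (⟨.D n⟩ : C.C.Cat))) u

theorem eqvGen_of_mk_eq {α : Type} {r : α → α → Prop} {a b : α}
    (h : Quot.mk r a = Quot.mk r b) : Relation.EqvGen r a b := Quot.eqvGen_exact h

/-- loops of the base lift to loops -/
theorem IsTF.lift_loop {W V : C.C.Catᵒᵖ ⥤ Type} {f : W ⟶ V} (hf : IsTF f) (x : cells W 0)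
    (n : ℕ) (v : Loops V (onCells f x) n) : ∃ w : Loops W x n, loopsMap f x n w = v := by
  have hv : ∀ ε, bdCell V ε v.1 = onCells f (idCell W x n) := fun ε => by
    rw [v.2, onCells_idCell]
  obtain ⟨w, h1, h2, h3⟩ : ∃ w : cells W (n + 1), bdCell W false w = idCell W x n ∧
      bdCell W true w = idCell W x n ∧ onCells f w = v.1 := by
    cases n with
    | zero => exact hf.lift₀ _ _ v.1 (hv false) (hv true)
    | succ m => exact hf.lift m _ _ (fun _ => rfl) v.1 (hv false) (hv true)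
  refine ⟨⟨w, fun ε => ?_⟩, Subtype.ext h3⟩
  cases ε
  · exact h1
  · exact h2

theorem IsTF.pi₀_inj {W V : C.C.Catᵒᵖ ⥤ Type} {f : W ⟶ V} (hf : IsTF f) {u v : cells V 0}
    (h : Relation.EqvGen (rel₀ V) u v) : ∀ a b : cells W 0, onCells f a = u → onCells f b = v →
      Quot.mk (rel₀ W) a = Quot.mk (rel₀ W) b := by
  induction h with
  | rel u v huv =>
    intro a b ha hb
    obtain ⟨c, hc1, hc2⟩ := huv
    obtain ⟨w, h1, h2, -⟩ := hf.lift₀ a b c (hc1.trans ha.symm) (hc2.trans hb.symm)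
    exact Quot.sound ⟨w, h1, h2⟩
  | refl u =>
    intro a b ha hb
    obtain ⟨w, h1, h2, -⟩ := hf.lift₀ a b (GlobExt.act V (C.unit 0) u)
      ((bdCell_unit V 0 u false).trans ha.symm) ((bdCell_unit V 0 u true).trans hb.symm)
    exact Quot.sound ⟨w, h1, h2⟩
  | symm u v _ ih =>
    intro a b ha hb
    exact (ih b a hb ha).symm
  | trans u v w _ _ ih1 ih2 =>
    intro a b ha hb
    obtain ⟨c, hc⟩ := hf.surj v
    exact (ih1 a c ha hc).trans (ih2 c b hc hb)

theorem IsTF.pi_inj {W V : C.C.Catᵒᵖ ⥤ Type} {f : W ⟶ V} (hf : IsTF f) (x : cells W 0) (n : ℕ)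
    {u v : Loops V (onCells f x) n} (h : Relation.EqvGen (relLoops V (onCells f x) n) u v) :
    ∀ a b : Loops W x n, loopsMap f x n a = u → loopsMap f x n b = v →
      Quot.mk (relLoops W x n) a = Quot.mk (relLoops W x n) b := by
  have hpar : ∀ a b : Loops W x n, ∀ ε, bdCell W ε a.1 = bdCell W ε b.1 := fun a b ε => by
    rw [a.2, b.2]
  induction h with
  | rel u v huv =>
    intro a b ha hb
    obtain ⟨c, hc1, hc2⟩ := huv
    have ha' : onCells f a.1 = u.1 := congrArg Subtype.val ha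
    have hb' : onCells f b.1 = v.1 := congrArg Subtype.val hb
    obtain ⟨w, h1, h2, -⟩ := hf.lift n a.1 b.1 (hpar a b) c (hc1.trans ha'.symm)
      (hc2.trans hb'.symm)
    exact Quot.sound ⟨w, h1, h2⟩
  | refl u =>
    intro a b ha hb
    have ha' : onCells f a.1 = u.1 := congrArg Subtype.val ha
    have hb' : onCells f b.1 = u.1 := congrArg Subtype.val hb
    obtain ⟨w, h1, h2, -⟩ := hf.lift n a.1 b.1 (hpar a b) (GlobExt.act V (C.unit (n + 1)) u.1)
      ((bdCell_unit V (n + 1) u.1 false).trans ha'.symm)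
      ((bdCell_unit V (n + 1) u.1 true).trans hb'.symm)
    exact Quot.sound ⟨w, h1, h2⟩
  | symm u v _ ih =>
    intro a b ha hb
    exact (ih b a hb ha).symm
  | trans u v w _ _ ih1 ih2 =>
    intro a b ha hb
    obtain ⟨c, hc⟩ := hf.lift_loop x n v
    exact (ih1 a c ha hc).trans (ih2 c b hc hb)

variable {W V U : C.C.Gpd}

/-- trivial fibrations are weak equivalences -/
theorem weq_of_isTF (f : W ⟶ V) (hf : IsTF f.hom) : C.weq f := by
  refine ⟨⟨?_, ?_⟩, fun x n => ⟨?_, ?_⟩⟩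
  · rintro ⟨a⟩ ⟨b⟩ hab
    exact hf.pi₀_inj (eqvGen_of_mk_eq hab) a b rfl rfl
  · rintro ⟨v⟩
    obtain ⟨w, hw⟩ := hf.surj v
    exact ⟨Quot.mk _ w, congrArg (Quot.mk _) hw⟩
  · rintro ⟨a⟩ ⟨b⟩ hab
    exact hf.pi_inj x n (eqvGen_of_mk_eq hab) a b rfl rfl
  · rintro ⟨v⟩
    obtain ⟨w, hw⟩ := hf.lift_loop x n v
    exact ⟨Quot.mk _ w, congrArg (Quot.mk _) hw⟩

theorem pi₀Map_comp (f : W ⟶ V) (g : V ⟶ U) :
    pi₀Map (f ≫ g).hom = pi₀Map g.hom ∘ pi₀Map f.hom := by
  funext a
  induction a using Quot.ind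
  rfl

theorem piMap_comp (f : W ⟶ V) (g : V ⟶ U) (x : cells W.obj 0) (n : ℕ) :
    piMap (f ≫ g).hom x n = piMap g.hom (onCells f.hom x) n ∘ piMap f.hom x n := by
  funext a
  induction a using Quot.ind
  rfl

theorem weq_comp (f : W ⟶ V) (g : V ⟶ U) (hf : C.weq f) (hg : C.weq g) : C.weq (f ≫ g) := by
  refine ⟨?_, fun x n => ?_⟩
  · rw [pi₀Map_comp]
    exact hg.1.comp hf.1
  · rw [piMap_comp]
    exact (hg.2 _ n).comp (hf.2 x n)

theorem weq_of_comp_right (f : W ⟶ V) (g : V ⟶ U) (hg : C.weq g) (h : C.weq (f ≫ g)) :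
    C.weq f := by
  refine ⟨?_, fun x n => ?_⟩
  · have h1 := h.1
    rw [pi₀Map_comp] at h1
    exact (Function.Bijective.of_comp_iff' hg.1 _).1 h1
  · have h1 := h.2 x n
    rw [piMap_comp] at h1
    exact (Function.Bijective.of_comp_iff' (hg.2 _ n) _).1 h1

/-- only for `f` surjective on `0`-cells -/
theorem weq_of_comp_left (f : W ⟶ V) (g : V ⟶ U) (hf : C.weq f)
    (hs : ∀ v : cells V.obj 0, ∃ w : cells W.obj 0, onCells f.hom w = v) (h : C.weq (f ≫ g)) :
    C.weq g := by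
  refine ⟨?_, fun y n => ?_⟩
  · have h1 := h.1
    rw [pi₀Map_comp] at h1
    exact (Function.Bijective.of_comp_iff _ hf.1).1 h1
  · obtain ⟨x, rfl⟩ := hs y
    have h1 := h.2 x n
    rw [piMap_comp] at h1
    exact (Function.Bijective.of_comp_iff _ (hf.2 x n)).1 h1

end Coherator
end Vale.Agent.P259
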