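import Vale.Agent.Lib.P259.CylFun
import Vale.Agent.Lib.P259.WeqLemmas

/-!
# P259, module G6: cells together with maps out of the mapping cylinders
-/

namespace Vale.Agent.P259

open CategoryTheory Limits Topology Set Opposite

namespace QData

variable {C : Coherator} {D : DiscFunctor C.C} {𝒬 : QData C D}

/-- A natural family of maps `Q(S) ⟶ Z`, indexed by the elements of an infinity-groupoid `W`. -/
structure GFam (𝒬 : QData C D) (W : C.C.Gpd) (Z : Type) [TopologicalSpace Z] where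
  /-- the maps -/
  g : ∀ {S : Obj}, W.obj.obj (op ⟨S⟩) → C(𝒬.QS S, Z)
  nat : ∀ {S T : Obj} (φ : C.C.Hom S T) (w : W.obj.obj (op ⟨T⟩)) (q : 𝒬.QS S),
    g (GlobExt.act W.obj φ w) q = g w (𝒬.qm φ q)

namespace GFam

variable (M : 𝒬.CylFun) {W : C.C.Gpd} {Z : Type} [TopologicalSpace Z] (G : GFam 𝒬 W Z)

/-- elements: pairs of an element `w` of `W` and an extension of `g w` to the cylinder -/
structure El (S : Obj) where
  /-- the element of `W` -/
  w : W.obj.obj (op ⟨S⟩)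
  /-- the map -/
  K : C(𝒬.Cyl S, Z)
  hK : ∀ q, K (𝒬.iQ S q) = G.g w q

variable {G}

theorem El.ext {S : Obj} {a b : G.El S} (h1 : a.w = b.w) (h2 : a.K = b.K) : a = b := by
  cases a
  cases b
  cases h1
  cases h2
  rfl

/-- restriction of elements -/
noncomputable def El.res {S T : Obj} (φ : C.C.Hom S T) (p : G.El T) : G.El S :=
  ⟨GlobExt.act W.obj φ p.w, p.K.comp (M.mm φ), fun q => by
    rw [ContinuousMap.comp_apply, M.mm_iQ, p.hK, G.nat]⟩

/-- parallel elements -/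
def El.Par : {n : ℕ} → G.El (.D n) → G.El (.D n) → Prop
  | 0, _, _ => True
  | m + 1, a, b => ∀ ε : Bool, El.res M (C.C.J (bd₀ (Nat.lt_succ_self m) ε)) a =
      El.res M (C.C.J (bd₀ (Nat.lt_succ_self m) ε)) b

/-- the pair of two elements, as a function -/
def El.pair {S : Obj} (a b : G.El S) (ε : Bool) : G.El S := if ε then b else a

theorem El.walls {n : ℕ} (a b : G.El (.D n)) (hab : El.Par M a b) :
    D.Walls n (fun ε => (El.pair a b ε).K.comp (𝒬.iD (.D n))) := by
  cases n with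
  | zero => trivial
  | succ m =>
    intro ε x s
    have e1 := congrArg (fun z : G.El (.D m) => z.K (𝒬.iD (.D m) (x, s))) (hab ε)
    change a.K (M.mm (C.C.J (bd₀ (Nat.lt_succ_self m) ε)) (𝒬.iD (.D m) (x, s))) =
      b.K (M.mm (C.C.J (bd₀ (Nat.lt_succ_self m) ε)) (𝒬.iD (.D m) (x, s))) at e1
    rw [M.mm_J, 𝒬.cylMap_iD] at e1
    exact e1

variable (G)

/-- the presheaf of elements -/
noncomputable def pre : C.C.Catᵒᵖ ⥤ Type where
  obj R := G.El R.unop.obj
  map {R T} φ := TypeCat.ofHom fun p => El.res M (S := T.unop.obj) (T := R.unop.obj) φ.unop p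
  map_id R := by
    ext p
    apply El.ext
    · exact Coherator.act_id W.obj p.w
    · exact (congrArg (fun z => p.K.comp z) (M.mm_id R.unop.obj))
  map_comp {R S T} φ ψ := by
    ext p
    apply El.ext
    · exact (Coherator.act_act W.obj (R := T.unop.obj) (S := S.unop.obj) (T := R.unop.obj)
        ψ.unop φ.unop p.w).symm
    · exact (congrArg (fun z => p.K.comp z) (M.mm_comp (R := T.unop.obj) (S := S.unop.obj)
        (T := R.unop.obj) ψ.unop φ.unop))

theorem act_pre {S T : Obj} (φ : C.C.Hom S T) (p : G.El T) :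
    GlobExt.act (G.pre M) φ p = El.res M φ p := rfl

theorem pre_isGpd : C.C.IsGpd (G.pre M) := by
  intro i j k hi hk t a b hab
  have w1 := congrArg (fun z : G.El (.D j) => z.w) hab
  have w2 := congrArg (fun z : G.El (.D j) => z.K) hab
  obtain ⟨w, ⟨hw1, hw2⟩, hw⟩ := W.property hi hk t a.w b.w w1
  have w3 : ∀ x s, a.K (𝒬.iD (.D i) (D.mp (C.C.J (bd₀ hi true)) x, s)) =
      b.K (𝒬.iD ⟨k, t⟩ (D.mp (C.C.comp (C.C.J (bd₀ hk false)) (C.C.J (first₀ t))) x, s)) := by
    intro x s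
    have := DFunLike.congr_fun w2 (𝒬.iD (.D j) (x, s))
    change a.K (M.mm (C.C.J (bd₀ hi true)) (𝒬.iD (.D j) (x, s))) =
      b.K (M.mm (C.C.J (first₀ t)) (M.mm (C.C.J (bd₀ hk false)) (𝒬.iD (.D j) (x, s)))) at this
    rw [M.mm_J, M.mm_J, M.mm_J, 𝒬.cylMap_iD, 𝒬.cylMap_iD, 𝒬.cylMap_iD, ← D.mp_comp] at this
    exact this
  obtain ⟨c, hc1, hc2⟩ := D.exists_glue_prod hi hk t (a.K.comp (𝒬.iD (.D i)))
    (b.K.comp (𝒬.iD ⟨k, t⟩)) w3
  have hend : ∀ x, c (x, 1) = G.g w (𝒬.h ⟨i, .glue hi hk t⟩ x) := by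
    intro x
    have e : c.comp (oneI (D.sp ⟨i, .glue hi hk t⟩)) =
        (G.g w).comp (𝒬.h ⟨i, .glue hi hk t⟩) := by
      apply D.ext_glue hi hk t
      · intro x
        change c (D.mp (C.C.J (inl₀ hi hk t)) x, 1) =
          G.g w (𝒬.h _ (D.mp (C.C.J (inl₀ hi hk t)) x))
        rw [hc1, ← 𝒬.h_nat, ← G.nat, hw1, ContinuousMap.comp_apply, 𝒬.iD_one, a.hK]
      · intro x
        change c (D.mp (C.C.J (inr₀ hi hk t)) x, 1) =
          G.g w (𝒬.h _ (D.mp (C.C.J (inr₀ hi hk t)) x))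
        rw [hc2, ← 𝒬.h_nat, ← G.nat, hw2, ContinuousMap.comp_apply, 𝒬.iD_one, b.hK]
    exact DFunLike.congr_fun e x
  obtain ⟨K, hK1, hK2⟩ := 𝒬.cyl_desc c (G.g w) hend
  refine ⟨(⟨w, K, hK2⟩ : G.El ⟨i, .glue hi hk t⟩), ⟨?_, ?_⟩, ?_⟩
  · apply El.ext (G := G)
    · exact hw1
    · change K.comp (M.mm (C.C.J (inl₀ hi hk t))) = _
      rw [M.mm_J]
      apply cyl_ext
      · intro x s
        rw [ContinuousMap.comp_apply, 𝒬.cylMap_iD, hK1, hc1]
        rfl
      · intro q
        rw [ContinuousMap.comp_apply, 𝒬.cylMap_iQ, hK2, ← G.nat, hw1, a.hK]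
  · apply El.ext (G := G)
    · exact hw2
    · change K.comp (M.mm (C.C.J (inr₀ hi hk t))) = _
      rw [M.mm_J]
      apply cyl_ext
      · intro x s
        rw [ContinuousMap.comp_apply, 𝒬.cylMap_iD, hK1, hc2]
        rfl
      · intro q
        rw [ContinuousMap.comp_apply, 𝒬.cylMap_iQ, hK2, ← G.nat, hw2, b.hK]
  · rintro ⟨v, L, hL⟩ ⟨e1, e2⟩
    have h1 : v = w := hw v ⟨congrArg (fun z : G.El (.D i) => z.w) e1,
      congrArg (fun z : G.El ⟨k, t⟩ => z.w) e2⟩
    subst h1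
    apply El.ext (G := G)
    · rfl
    · apply cyl_ext
      · intro x s
        change L (𝒬.iD _ (x, s)) = K (𝒬.iD _ (x, s))
        rw [hK1]
        have e : L.comp (𝒬.iD _) = c := by
          apply D.ext_glue_prod hi hk t
          · intro x s
            rw [hc1]
            have := DFunLike.congr_fun (congrArg (fun z : G.El (.D i) => z.K) e1)
              (𝒬.iD (.D i) (x, s))
            change L (M.mm (C.C.J (inl₀ hi hk t)) (𝒬.iD (.D i) (x, s))) = _ at this
            rw [M.mm_J, 𝒬.cylMap_iD] at this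
            exact this
          · intro x s
            rw [hc2]
            have := DFunLike.congr_fun (congrArg (fun z : G.El ⟨k, t⟩ => z.K) e2)
              (𝒬.iD ⟨k, t⟩ (x, s))
            change L (M.mm (C.C.J (inr₀ hi hk t)) (𝒬.iD ⟨k, t⟩ (x, s))) = _ at this
            rw [M.mm_J, 𝒬.cylMap_iD] at this
            exact this
        exact DFunLike.congr_fun e (x, s)
      · intro q
        exact (hL q).trans (hK2 q).symm

/-- the infinity-groupoid of elements -/
noncomputable def gpd : C.C.Gpd := ⟨G.pre M, G.pre_isGpd M⟩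

/-- the projection to `W` -/
noncomputable def pr : G.gpd M ⟶ W := ObjectProperty.homMk
  { app := fun _ => TypeCat.ofHom fun p => p.w
    naturality := fun _ _ _ => rfl }

theorem pr_app {S : Obj} (p : G.El S) : (G.pr M).hom.app (op ⟨S⟩) p = p.w := rfl

/-- An element of dimension `n + 1` from a homotopy with the walls given by two elements. -/
theorem exists_el {n : ℕ} (a b : G.El (.D n)) (v : Coherator.cells W.obj (n + 1))
    (h0 : Coherator.bdCell W.obj false v = a.w) (h1 : Coherator.bdCell W.obj true v = b.w)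
    (H : C(D.sp (.D (n + 1)) × unitInterval, Z))
    (hH1 : ∀ x, H (x, 1) = G.g v (𝒬.h (.D (n + 1)) x))
    (hw : ∀ ε x t, H (D.bdp n ε x, t) = (El.pair a b ε).K (𝒬.iD (.D n) (x, t))) :
    ∃ w : G.El (.D (n + 1)), El.res M (C.C.J (bd₀ (Nat.lt_succ_self n) false)) w = a ∧
      El.res M (C.C.J (bd₀ (Nat.lt_succ_self n) true)) w = b ∧ w.w = v ∧
      ∀ x s, w.K (𝒬.iD (.D (n + 1)) (x, s)) = H (x, s) := by
  obtain ⟨K, hK1, hK2⟩ := 𝒬.cyl_desc H (G.g v) hH1
  have hkk : ∀ ε, GlobExt.act W.obj (C.C.J (bd₀ (Nat.lt_succ_self n) ε)) v =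
      (El.pair a b ε).w := by
    intro ε
    cases ε
    · exact h0
    · exact h1
  have key : ∀ ε, El.res M (C.C.J (bd₀ (Nat.lt_succ_self n) ε))
      (⟨v, K, hK2⟩ : G.El (.D (n + 1))) = El.pair a b ε := by
    intro ε
    apply El.ext
    · exact hkk ε
    · change K.comp (M.mm (C.C.J (bd₀ (Nat.lt_succ_self n) ε))) = (El.pair a b ε).K
      rw [M.mm_J]
      apply cyl_ext
      · intro x s
        rw [ContinuousMap.comp_apply, 𝒬.cylMap_iD, hK1]
        exact hw ε x s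
      · intro q
        rw [ContinuousMap.comp_apply, 𝒬.cylMap_iQ, hK2, ← G.nat, hkk, (El.pair a b ε).hK]
  exact ⟨⟨v, K, hK2⟩, key false, key true, rfl, hK1⟩

/-- lifting of cells along the projection -/
theorem pr_lift (n : ℕ) (a b : G.El (.D n)) (hab : El.Par M a b)
    (v : Coherator.cells W.obj (n + 1)) (h0 : Coherator.bdCell W.obj false v = a.w)
    (h1 : Coherator.bdCell W.obj true v = b.w) :
    ∃ w : G.El (.D (n + 1)), El.res M (C.C.J (bd₀ (Nat.lt_succ_self n) false)) w = a ∧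
      El.res M (C.C.J (bd₀ (Nat.lt_succ_self n) true)) w = b ∧ w.w = v := by
  have hkk : ∀ ε, GlobExt.act W.obj (C.C.J (bd₀ (Nat.lt_succ_self n) ε)) v =
      (El.pair a b ε).w := by
    intro ε
    cases ε
    · exact h0
    · exact h1
  obtain ⟨H, hH1, hw⟩ := D.exists_hep₁ n (fun ε => (El.pair a b ε).K.comp (𝒬.iD (.D n)))
    (El.walls M a b hab) ((G.g v).comp (𝒬.h (.D (n + 1)))) (by
      intro ε x
      change G.g v (𝒬.h (.D (n + 1)) (D.mp (C.C.J (bd₀ (Nat.lt_succ_self n) ε)) x)) =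
        (El.pair a b ε).K (𝒬.iD (.D n) (x, 1))
      rw [← 𝒬.h_nat, ← G.nat, hkk, 𝒬.iD_one, (El.pair a b ε).hK])
  obtain ⟨w, e1, e2, e3, -⟩ := G.exists_el M a b v h0 h1 H hH1 hw
  exact ⟨w, e1, e2, e3⟩

theorem isTF_pr : Coherator.IsTF (G.pr M).hom where
  surj v := by
    obtain ⟨K, hK1, hK2⟩ := 𝒬.cyl_desc (((G.g v).comp (𝒬.h (.D 0))).comp ContinuousMap.fst)
      (G.g v) (fun x => rfl)
    exact ⟨(⟨v, K, hK2⟩ : G.El (.D 0)), rfl⟩
  lift₀ a b v h0 h1 := by
    exact G.pr_lift M 0 a b trivial v h0 h1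
  lift n a b hab v h0 h1 := by
    exact G.pr_lift M (n + 1) a b hab v h0 h1

theorem weq_pr : C.weq (G.pr M) := Coherator.weq_of_isTF _ (G.isTF_pr M)

theorem pr_surj (v : Coherator.cells W.obj 0) :
    ∃ w : Coherator.cells (G.gpd M).obj 0, Coherator.onCells (G.pr M).hom w = v :=
  (G.isTF_pr M).surj v

end GFam

end QData

end Vale.Agent.P259
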