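import Vale.Agent.Lib.P259.Sigma

/-!
# P259, module A3: wedges at a vertex, and the instances of `SuspData` and `SuspClass`
-/

namespace Vale.Agent.P259

open CategoryTheory Limits Opposite

/-- a presheaf (unbundled) sends globular sums to iterated fibre products -/
def GpP (E : GlobExt) (W : PSh E.Cat) : Prop :=
  ∀ {i j k : ℕ} (hi : j < i) (hk : j < k) (t : Tab k)
    (a : W.obj ⟨.D i⟩) (b : W.obj ⟨⟨k, t⟩⟩),
    W.res (E.jm (bd₀ hi true)) a = W.res (E.jm (bd₀ hk false)) (W.res (E.jm (first₀ t)) b) →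
    ∃! w : W.obj ⟨⟨i, .glue hi hk t⟩⟩,
      W.res (E.jm (inl₀ hi hk t)) w = a ∧ W.res (E.jm (inr₀ hi hk t)) w = b

/-- contractible presheaves -/
structure CtrP (E : GlobExt) (W : PSh E.Cat) : Prop where
  gp : GpP E W
  ne : Nonempty (W.obj ⟨.D 0⟩)
  fill₀ : ∀ u v : W.obj ⟨.D 0⟩, ∃ w : W.obj ⟨.D 1⟩,
    W.res (E.jm (bd₀ (Nat.lt_succ_self 0) false)) w = u ∧
      W.res (E.jm (bd₀ (Nat.lt_succ_self 0) true)) w = v
  fill : ∀ (n : ℕ) (u v : W.obj ⟨.D (n + 1)⟩),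
    (∀ ε : Bool, W.res (E.jm (bd₀ (Nat.lt_succ_self n) ε)) u =
      W.res (E.jm (bd₀ (Nat.lt_succ_self n) ε)) v) →
    ∃ w : W.obj ⟨.D (n + 2)⟩,
    W.res (E.jm (bd₀ (Nat.lt_succ_self (n + 1)) false)) w = u ∧
      W.res (E.jm (bd₀ (Nat.lt_succ_self (n + 1)) true)) w = v

namespace Coherator

variable (C : Coherator)

/-- first vertex, as a morphism of `C` -/
noncomputable def fst (S : C.C.Cat) : (⟨.D 0⟩ : C.C.Cat) ⟶ S := C.C.jm S.obj.tab.fstV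

/-- last vertex, as a morphism of `C` -/
noncomputable def lst (S : C.C.Cat) : (⟨.D 0⟩ : C.C.Cat) ⟶ S := C.C.jm S.obj.tab.lstV

theorem fst_sus' (S : C.C.Cat) : C.fst ⟨S.obj.sus⟩ = C.C.endOf false S.obj.tab.sus :=
  C.C.jm_comp (S := .D 0) (T := .D (S.obj.fst + 1)) (U := S.obj.sus) _ _

theorem lst_sus' (S : C.C.Cat) : C.lst ⟨S.obj.sus⟩ = C.C.endOf true S.obj.tab.sus := by
  unfold lst GlobExt.endOf
  rw [← C.C.jm_comp (S := .D 0) (T := .D (S.obj.fst + 1)) (U := S.obj.sus), ← Tab.lstV_sus]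

/-- The suspension data of a coherator. -/
noncomputable def suspData : SuspData C.C.Cat where
  pt := ⟨.D 0⟩
  fst := C.fst
  lst := C.lst
  fst_pt := C.C.jm_id (.D 0)
  lst_pt := C.C.jm_id (.D 0)
  sus := C.susFunctor
  fst_sus f := by
    change C.fst ⟨_⟩ ≫ _ = C.fst ⟨_⟩
    rw [fst_sus', fst_sus']
    exact C.susFunctor_endOf f false
  lst_sus f := by
    change C.lst ⟨_⟩ ≫ _ = C.lst ⟨_⟩
    rw [lst_sus', lst_sus']
    exact C.susFunctor_endOf f true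

theorem gp_rep (S : C.C.Cat) : GpP C.C (PSh.rep S) := by
  intro i j k hi hk t a b h
  obtain ⟨w, ⟨h1, h2⟩, h3⟩ := C.C.glue hi hk t S.obj a b (Eq.trans h (C.C.assoc _ _ _).symm)
  exact ⟨w, ⟨h1, h2⟩, h3⟩

theorem gp_hom (W : PSh C.C.Cat) (x y : W.obj ⟨.D 0⟩) (hW : GpP C.C W) :
    GpP C.C (C.suspData.hom W x y) := by
  intro i j k hi hk t a b h
  have hi' := Nat.succ_lt_succ hi
  have hk' := Nat.succ_lt_succ hk
  have h1 : W.res (C.C.jm (bd₀ hi' true)) a.1 =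
      W.res (C.C.jm (bd₀ hk' false)) (W.res (C.C.jm (first₀ t.sus)) b.1) := by
    have := congrArg Subtype.val h
    change W.res (C.susFunctor.map (C.C.jm (bd₀ hi true))) a.1 =
      W.res (C.susFunctor.map (C.C.jm (bd₀ hk false)))
        (W.res (C.susFunctor.map (C.C.jm (first₀ t))) b.1) at this
    rw [susFunctor_bd, susFunctor_bd, susFunctor_first] at this
    exact this
  obtain ⟨w, ⟨hw1, hw2⟩, hw3⟩ := hW hi' hk' t.sus a.1 b.1 h1
  have hend : ∀ ε : Bool, W.res (C.C.endOf ε (.glue hi' hk' t.sus)) w =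
      W.res (C.C.endOf ε (.disc (i + 1))) a.1 := by
    intro ε
    rw [C.C.endOf_disc, ← hw1, ← W.res_comp]
    rfl
  refine ⟨⟨w, ?_, ?_⟩, ⟨Subtype.ext ?_, Subtype.ext ?_⟩, ?_⟩
  · have := a.2.1
    change W.res (C.fst ⟨Obj.sus ⟨i, .glue hi hk t⟩⟩) w = x
    rw [fst_sus']
    exact (hend false).trans ((congrArg (fun z => W.res z a.1)
      (C.fst_sus' ⟨.D i⟩).symm).trans a.2.1)
  · change W.res (C.lst ⟨Obj.sus ⟨i, .glue hi hk t⟩⟩) w = y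
    rw [lst_sus']
    exact (hend true).trans ((congrArg (fun z => W.res z a.1)
      (C.lst_sus' ⟨.D i⟩).symm).trans a.2.2)
  · change W.res (C.susFunctor.map (C.C.jm (inl₀ hi hk t))) w = a.1
    rw [susFunctor_inl]
    exact hw1
  · change W.res (C.susFunctor.map (C.C.jm (inr₀ hi hk t))) w = b.1
    rw [susFunctor_inr]
    exact hw2
  · rintro ⟨w', hw'⟩ ⟨h1', h2'⟩
    apply Subtype.ext
    apply hw3
    have e1 := congrArg Subtype.val h1'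
    have e2 := congrArg Subtype.val h2'
    change W.res (C.susFunctor.map (C.C.jm (inl₀ hi hk t))) w' = a.1 at e1
    change W.res (C.susFunctor.map (C.C.jm (inr₀ hi hk t))) w' = b.1 at e2
    rw [susFunctor_inl] at e1
    rw [susFunctor_inr] at e2
    exact ⟨e1, e2⟩

/-! ### contractible presheaves -/

theorem suspData_res_bd (W : PSh C.C.Cat) (x y : W.obj ⟨.D 0⟩) {m n : ℕ} (h : m < n) (ε : Bool)
    (u : (C.suspData.hom W x y).obj ⟨.D n⟩) :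
    ((C.suspData.hom W x y).res (C.C.jm (bd₀ h ε)) u).1 =
      W.res (C.C.jm (bd₀ (Nat.succ_lt_succ h) ε)) u.1 := by
  change W.res (C.susFunctor.map (C.C.jm (bd₀ h ε))) u.1 = _
  rw [susFunctor_bd]
  rfl

theorem suspData_fst_D (n : ℕ) :
    C.fst ⟨Obj.sus (.D n)⟩ = C.C.jm (bd₀ (Nat.succ_pos n) false) := by
  rw [fst_sus']
  exact C.C.endOf_disc false n

theorem suspData_lst_D (n : ℕ) :
    C.lst ⟨Obj.sus (.D n)⟩ = C.C.jm (bd₀ (Nat.succ_pos n) true) := by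
  rw [lst_sus']
  exact C.C.endOf_disc true n

theorem ctr_of_fill {W : PSh C.C.Cat} (hW : GpP C.C W)
    (h0 : ∀ u v : W.obj ⟨.D 0⟩, ∃ w : W.obj ⟨.D 1⟩,
      W.res (C.C.jm (bd₀ (Nat.lt_succ_self 0) false)) w = u ∧
        W.res (C.C.jm (bd₀ (Nat.lt_succ_self 0) true)) w = v)
    (h : ∀ (n : ℕ) (u v : W.obj ⟨.D (n + 1)⟩),
      (∀ ε : Bool, W.res (C.C.jm (bd₀ (Nat.lt_succ_self n) ε)) u =
        W.res (C.C.jm (bd₀ (Nat.lt_succ_self n) ε)) v) →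
      ∃ w : W.obj ⟨.D (n + 2)⟩,
        W.res (C.C.jm (bd₀ (Nat.lt_succ_self (n + 1)) false)) w = u ∧
        W.res (C.C.jm (bd₀ (Nat.lt_succ_self (n + 1)) true)) w = v)
    (x y : W.obj ⟨.D 0⟩) : CtrP C.C (C.suspData.hom W x y) := by
  have ends : ∀ (n : ℕ) (w : W.obj ⟨.D (n + 2)⟩) (u : W.obj ⟨.D (n + 1)⟩) (ε : Bool),
      W.res (C.C.jm (bd₀ (Nat.lt_succ_self (n + 1)) false)) w = u →
      W.res (C.C.jm (bd₀ (Nat.succ_pos (n + 1)) ε)) w =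
        W.res (C.C.jm (bd₀ (Nat.succ_pos n) ε)) u := by
    intro n w u ε hu
    rw [← hu, ← W.res_comp, C.C.jm_bd_bd]
  refine ⟨C.gp_hom W x y hW, ?_, ?_, ?_⟩
  · obtain ⟨w, hw1, hw2⟩ := h0 x y
    refine ⟨⟨w, ?_, ?_⟩⟩
    · change W.res (C.fst ⟨Obj.sus (.D 0)⟩) w = x
      rw [suspData_fst_D]
      exact hw1
    · change W.res (C.lst ⟨Obj.sus (.D 0)⟩) w = y
      rw [suspData_lst_D]
      exact hw2
  · intro u v
    have hu1 : W.res (C.fst ⟨Obj.sus (.D 0)⟩) u.1 = x := u.2.1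
    have hu2 : W.res (C.lst ⟨Obj.sus (.D 0)⟩) u.1 = y := u.2.2
    have hv1 : W.res (C.fst ⟨Obj.sus (.D 0)⟩) v.1 = x := v.2.1
    have hv2 : W.res (C.lst ⟨Obj.sus (.D 0)⟩) v.1 = y := v.2.2
    rw [suspData_fst_D] at hu1 hv1
    rw [suspData_lst_D] at hu2 hv2
    obtain ⟨w, hw1, hw2⟩ := h 0 u.1 v.1 (by
      intro ε
      cases ε with
      | false => exact hu1.trans hv1.symm
      | true => exact hu2.trans hv2.symm)
    refine ⟨⟨w, ?_, ?_⟩, ?_, ?_⟩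
    · change W.res (C.fst ⟨Obj.sus (.D 1)⟩) w = x
      rw [suspData_fst_D]
      exact (ends 0 w u.1 false hw1).trans hu1
    · change W.res (C.lst ⟨Obj.sus (.D 1)⟩) w = y
      rw [suspData_lst_D]
      exact (ends 0 w u.1 true hw1).trans hu2
    · exact Subtype.ext ((C.suspData_res_bd W x y _ _ _).trans hw1)
    · exact Subtype.ext ((C.suspData_res_bd W x y _ _ _).trans hw2)
  · intro n u v huv
    have hu1 : W.res (C.fst ⟨Obj.sus (.D (n + 1))⟩) u.1 = x := u.2.1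
    have hu2 : W.res (C.lst ⟨Obj.sus (.D (n + 1))⟩) u.1 = y := u.2.2
    rw [suspData_fst_D] at hu1
    rw [suspData_lst_D] at hu2
    obtain ⟨w, hw1, hw2⟩ := h (n + 1) u.1 v.1 (by
      intro ε
      have := congrArg Subtype.val (huv ε)
      rw [suspData_res_bd, suspData_res_bd] at this
      exact this)
    refine ⟨⟨w, ?_, ?_⟩, ?_, ?_⟩
    · change W.res (C.fst ⟨Obj.sus (.D (n + 2))⟩) w = x
      rw [suspData_fst_D]
      exact (ends (n + 1) w u.1 false hw1).trans hu1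
    · change W.res (C.lst ⟨Obj.sus (.D (n + 2))⟩) w = y
      rw [suspData_lst_D]
      exact (ends (n + 1) w u.1 true hw1).trans hu2
    · exact Subtype.ext ((C.suspData_res_bd W x y _ _ _).trans hw1)
    · exact Subtype.ext ((C.suspData_res_bd W x y _ _ _).trans hw2)

theorem ctr_hom (W : PSh C.C.Cat) (x y : W.obj ⟨.D 0⟩) (hW : CtrP C.C W) :
    CtrP C.C (C.suspData.hom W x y) :=
  C.ctr_of_fill hW.gp hW.fill₀ hW.fill x y

theorem ctr_rep (S : C.C.Cat) (s t : (⟨.D 0⟩ : C.C.Cat) ⟶ S) :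
    CtrP C.C (C.suspData.hom (PSh.rep S) s t) := by
  refine C.ctr_of_fill (C.gp_rep S) ?_ ?_ s t
  · intro u v
    exact C.exists_lift 0 S.obj u v trivial
  · intro n u v h
    exact C.exists_lift (n + 1) S.obj u v (fun ε => h ε)

/-! ### wedges -/

theorem fst_pos {k : ℕ} (hk : 0 < k) (t : Tab k) :
    C.fst ⟨⟨k, t⟩⟩ = C.C.jm (bd₀ hk false) ≫ C.C.jm (first₀ t) := by
  unfold fst
  rw [Tab.fstV_pos hk, C.C.jm_comp (S := .D 0) (T := .D k) (U := ⟨k, t⟩)]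

theorem lst_glue {i j k : ℕ} (hi : j < i) (hk : j < k) (t : Tab k) :
    C.lst ⟨⟨i, .glue hi hk t⟩⟩ = C.lst ⟨⟨k, t⟩⟩ ≫ C.C.jm (inr₀ hi hk t) := by
  unfold lst
  rw [Tab.lstV_glue, C.C.jm_comp (S := .D 0) (T := ⟨k, t⟩) (U := ⟨i, .glue hi hk t⟩)]

/-- the gluing property of a cospan -/
def WedgeProp {A X Y L : C.C.Cat} (a : A ⟶ X) (b : A ⟶ Y) (l : X ⟶ L) (r : Y ⟶ L) : Prop :=
  a ≫ l = b ≫ r ∧
    ∀ W : PSh C.C.Cat, GpP C.C W → ∀ (u : W.obj X) (v : W.obj Y), W.res a u = W.res b v →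
      ∃! w : W.obj L, W.res l w = u ∧ W.res r w = v

theorem wedge_glue {i j k : ℕ} (hi : j < i) (hk : j < k) (t : Tab k) :
    C.WedgeProp (C.C.jm (bd₀ hi true)) (C.C.jm (bd₀ hk false) ≫ C.C.jm (first₀ t))
      (C.C.jm (inl₀ hi hk t)) (C.C.jm (inr₀ hi hk t)) := by
  refine ⟨by rw [C.C.jm_bd_inl, Category.assoc], ?_⟩
  intro W hW u v h
  rw [W.res_comp] at h
  exact hW hi hk t u v h

/-- Pasting: if `L'` is a wedge of `X'` (a table) with `Y` along a map to `X'`, and the first globe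
is respected, then gluing `D i` in front gives a wedge. -/
theorem wedge_paste {A Y : C.C.Cat} {i j k : ℕ} (hi : j < i) (hk : j < k) (t t' : Tab k)
    (a : A ⟶ ⟨⟨k, t⟩⟩) (b : A ⟶ Y) (l : (⟨⟨k, t⟩⟩ : C.C.Cat) ⟶ ⟨⟨k, t'⟩⟩) (r : Y ⟶ ⟨⟨k, t'⟩⟩)
    (hf : C.C.jm (first₀ t) ≫ l = C.C.jm (first₀ t')) (hw : C.WedgeProp a b l r) :
    ∃ l' : (⟨⟨i, .glue hi hk t⟩⟩ : C.C.Cat) ⟶ ⟨⟨i, .glue hi hk t'⟩⟩,
      C.C.jm (first₀ (.glue hi hk t)) ≫ l' = C.C.jm (first₀ (.glue hi hk t')) ∧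
      C.WedgeProp (a ≫ C.C.jm (inr₀ hi hk t)) b l' (r ≫ C.C.jm (inr₀ hi hk t')) := by
  have sq := C.C.jm_isPushout hi hk t
  have w : C.C.jm (bd₀ hi true) ≫ C.C.jm (inl₀ hi hk t') =
      (C.C.jm (bd₀ hk false) ≫ C.C.jm (first₀ t)) ≫ l ≫ C.C.jm (inr₀ hi hk t') := by
    rw [C.C.jm_bd_inl, Category.assoc, reassoc_of% hf]
  refine ⟨sq.desc (C.C.jm (inl₀ hi hk t')) (l ≫ C.C.jm (inr₀ hi hk t')) w, sq.inl_desc _ _ _,
    ?_, ?_⟩
  · rw [Category.assoc, sq.inr_desc, ← Category.assoc, hw.1, Category.assoc]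
  · intro W hW u v huv
    have hl' : ∀ z : W.obj ⟨⟨i, .glue hi hk t'⟩⟩,
        W.res (C.C.jm (inl₀ hi hk t)) (W.res (sq.desc (C.C.jm (inl₀ hi hk t'))
          (l ≫ C.C.jm (inr₀ hi hk t')) w) z) = W.res (C.C.jm (inl₀ hi hk t')) z := by
      intro z
      rw [← W.res_comp, sq.inl_desc]
    have hr' : ∀ z : W.obj ⟨⟨i, .glue hi hk t'⟩⟩,
        W.res (C.C.jm (inr₀ hi hk t)) (W.res (sq.desc (C.C.jm (inl₀ hi hk t'))
          (l ≫ C.C.jm (inr₀ hi hk t')) w) z) = W.res l (W.res (C.C.jm (inr₀ hi hk t')) z) := by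
      intro z
      rw [← W.res_comp, sq.inr_desc, W.res_comp]
    have hu : W.res (C.C.jm (bd₀ hi true)) (W.res (C.C.jm (inl₀ hi hk t)) u) =
        W.res (C.C.jm (bd₀ hk false)) (W.res (C.C.jm (first₀ t))
          (W.res (C.C.jm (inr₀ hi hk t)) u)) := by
      rw [← W.res_comp, C.C.jm_bd_inl, W.res_comp, W.res_comp]
    obtain ⟨w', ⟨hw1, hw2⟩, hw3⟩ := hw.2 W hW (W.res (C.C.jm (inr₀ hi hk t)) u) v (by
      rw [← W.res_comp, huv])
    obtain ⟨z, ⟨hz1, hz2⟩, hz3⟩ := hW hi hk t' (W.res (C.C.jm (inl₀ hi hk t)) u) w' (by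
      rw [hu, ← hw1, ← W.res_comp _ l, hf])
    refine ⟨z, ⟨?_, ?_⟩, ?_⟩
    · obtain ⟨z', -, hz'⟩ := hW hi hk t _ _ hu
      rw [hz' u ⟨rfl, rfl⟩]
      apply hz'
      refine ⟨?_, ?_⟩
      · rw [hl', hz1]
      · rw [hr', hz2, hw1]
    · rw [W.res_comp, hz2, hw2]
    · rintro y ⟨hy1, hy2⟩
      apply hz3
      refine ⟨?_, ?_⟩
      · rw [← hl', hy1]
      · apply hw3
        refine ⟨?_, ?_⟩
        · rw [← hr', hy1]
        · rw [← W.res_comp, hy2]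

theorem WedgeProp.symm {C : Coherator} {A X Y L : C.C.Cat} {a : A ⟶ X} {b : A ⟶ Y} {l : X ⟶ L}
    {r : Y ⟶ L} (h : C.WedgeProp a b l r) : C.WedgeProp b a r l := by
  refine ⟨h.1.symm, ?_⟩
  intro W hW u v huv
  obtain ⟨w, ⟨h1, h2⟩, h3⟩ := h.2 W hW v u huv.symm
  exact ⟨w, ⟨h2, h1⟩, fun y hy => h3 y ⟨hy.2, hy.1⟩⟩

theorem fst_D0 : C.fst ⟨.D 0⟩ = 𝟙 _ := C.C.jm_id (.D 0)

theorem lst_D0 : C.lst ⟨.D 0⟩ = 𝟙 _ := C.C.jm_id (.D 0)

theorem lst_D (i : ℕ) : C.lst ⟨.D (i + 1)⟩ = C.C.jm (bd₀ (Nat.succ_pos i) true) := rfl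

theorem wedgeProp_id_right {X A : C.C.Cat} (a : A ⟶ X) : C.WedgeProp a (𝟙 A) (𝟙 X) a := by
  refine ⟨by rw [Category.comp_id, Category.id_comp], ?_⟩
  intro W hW u v h
  rw [W.res_id] at h
  refine ⟨u, ⟨W.res_id u, h⟩, ?_⟩
  rintro y ⟨hy, -⟩
  rw [← hy, W.res_id]

theorem wedgeL (S : C.C.Cat) : ∀ {i : ℕ} (t : Tab i), ∃ (L : Tab (i + 1))
    (l : (⟨⟨i + 1, t.sus⟩⟩ : C.C.Cat) ⟶ ⟨⟨i + 1, L⟩⟩) (r : S ⟶ ⟨⟨i + 1, L⟩⟩),
    C.C.jm (first₀ t.sus) ≫ l = C.C.jm (first₀ L) ∧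
      C.WedgeProp (C.lst ⟨⟨i + 1, t.sus⟩⟩) (C.fst S) l r
  | i, .disc _ => by
    obtain ⟨⟨k, s⟩⟩ := S
    cases s with
    | disc k =>
      cases k with
      | zero =>
        refine ⟨.disc (i + 1), 𝟙 _, C.lst ⟨.D (i + 1)⟩, Category.comp_id _, ?_⟩
        have := C.wedgeProp_id_right (C.lst ⟨.D (i + 1)⟩)
        rw [← C.fst_D0] at this
        exact this
      | succ k =>
        refine ⟨.glue (Nat.succ_pos i) (Nat.succ_pos k) (.disc (k + 1)),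
          C.C.jm (inl₀ _ _ _), C.C.jm (inr₀ _ _ _), ?_, ?_⟩
        · refine (congrArg (fun z => z ≫ C.C.jm (inl₀ (Nat.succ_pos i) (Nat.succ_pos k)
            (.disc (k + 1)))) (C.C.jm_id (.D (i + 1)))).trans (Category.id_comp _)
        · have := C.wedge_glue (Nat.succ_pos i) (Nat.succ_pos k) (.disc (k + 1))
          rw [← C.fst_pos] at this
          exact this
    | @glue _ j' k' hi' hk' s =>
      have hk : 0 < k := lt_of_le_of_lt (Nat.zero_le _) hi'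
      refine ⟨.glue (Nat.succ_pos i) hk (.glue hi' hk' s),
        C.C.jm (inl₀ _ _ _), C.C.jm (inr₀ _ _ _), ?_, ?_⟩
      · refine (congrArg (fun z => z ≫ C.C.jm (inl₀ (Nat.succ_pos i) hk
          (.glue hi' hk' s))) (C.C.jm_id (.D (i + 1)))).trans (Category.id_comp _)
      · have := C.wedge_glue (Nat.succ_pos i) hk (.glue hi' hk' s)
        rw [← C.fst_pos] at this
        exact this
  | i, .glue (j := j) (k := k) hi hk t => by
    obtain ⟨L, l, r, h1, h2⟩ := wedgeL S t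
    obtain ⟨l', h3, h4⟩ := C.wedge_paste (Nat.succ_lt_succ hi) (Nat.succ_lt_succ hk) t.sus L _ _ l r
      h1 h2
    refine ⟨.glue (Nat.succ_lt_succ hi) (Nat.succ_lt_succ hk) L, l',
      r ≫ C.C.jm (inr₀ (Nat.succ_lt_succ hi) (Nat.succ_lt_succ hk) L), h3, ?_⟩
    rw [← C.lst_glue] at h4
    exact h4

theorem wedgeR (T : C.C.Cat) : ∀ {i : ℕ} (s : Tab i) (_ : 0 < i), ∃ (L : Tab i)
    (r : (⟨⟨i, s⟩⟩ : C.C.Cat) ⟶ ⟨⟨i, L⟩⟩) (l : (⟨T.obj.sus⟩ : C.C.Cat) ⟶ ⟨⟨i, L⟩⟩),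
    C.C.jm (first₀ s) ≫ r = C.C.jm (first₀ L) ∧
      C.WedgeProp (C.lst ⟨⟨i, s⟩⟩) (C.fst ⟨T.obj.sus⟩) r l
  | i, .disc _, h => by
    refine ⟨.glue h (Nat.succ_pos _) T.obj.tab.sus, C.C.jm (inl₀ _ _ _), C.C.jm (inr₀ _ _ _),
      ?_, ?_⟩
    · exact (congrArg (fun z => z ≫ C.C.jm (inl₀ h (Nat.succ_pos _) T.obj.tab.sus))
        (C.C.jm_id (.D i))).trans (Category.id_comp _)
    · have := C.wedge_glue h (Nat.succ_pos _) T.obj.tab.sus
      rw [← C.fst_pos] at this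
      obtain ⟨i, rfl⟩ := Nat.exists_eq_succ_of_ne_zero h.ne'
      exact this
  | i, .glue (j := j) (k := k) hi hk s, h => by
    obtain ⟨L, r, l, h1, h2⟩ := wedgeR T s (lt_of_le_of_lt (Nat.zero_le _) hk)
    obtain ⟨l', h3, h4⟩ := C.wedge_paste hi hk s L _ _ r l h1 h2
    refine ⟨.glue hi hk L, l', l ≫ C.C.jm (inr₀ hi hk L), h3, ?_⟩
    rw [← C.lst_glue] at h4
    exact h4

/-- The classes of infinity-groupoids and contractible infinity-groupoids of a coherator. -/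
noncomputable def suspClass : SuspClass C.suspData where
  Gp W := GpP C.C W
  Ctr W := CtrP C.C W
  gp_rep := C.gp_rep
  gp_hom W x y h := C.gp_hom W x y h
  ctr_gp W h := h.gp
  ctr_nonempty W h := h.ne
  ctr_hom W x y h := C.ctr_hom W x y h
  ctr_rep S s t := C.ctr_rep S s t
  glueL T S := by
    obtain ⟨L, l, r, -, h⟩ := C.wedgeL S T.obj.tab
    exact ⟨_, l, r, h⟩
  glueR T S := by
    obtain ⟨⟨i, s⟩⟩ := S
    rcases Nat.eq_zero_or_pos i with rfl | hi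
    · cases s with
      | disc =>
        refine ⟨⟨T.obj.sus⟩, 𝟙 _, C.fst ⟨T.obj.sus⟩, ?_⟩
        have := C.wedgeProp_id_right (C.fst ⟨T.obj.sus⟩)
        rw [← C.lst_D0] at this
        exact this
      | glue hi' hk' s => exact absurd hi' (Nat.not_lt_zero _)
    · obtain ⟨L, r, l, -, h⟩ := C.wedgeR T s hi
      exact ⟨_, l, r, h.symm⟩

end Coherator

end Vale.Agent.P259
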